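import Vale.Agent.P299.M2Defs

/-! P299, part M2: integration over extra variables. -/

set_option linter.all false

open MeasureTheory Set Filter Topology Matrix
open scoped ContDiff ENNReal ComplexConjugate ComplexOrder InnerProductSpace

noncomputable section

namespace Vale.Agent.P299

open Vale.Agent.P271A

variable {F κ : Type} [NormedAddCommGroup F] [NormedSpace ℝ F] [FiniteDimensional ℝ F]
  [Fintype κ] [DecidableEq κ]

/-- moments in the extra variables -/
def mom (I : κ) (φ : F × (κ → ℝ) → ℂ) (x : F) : ℂ := ∫ s : κ → ℝ, (s I : ℂ) * φ (x, s)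

variable {φ : F × (κ → ℝ) → ℂ}

theorem M2b_param {g : F × (κ → ℝ) → ℂ} (hg : ContDiff ℝ ∞ g) (hc : HasCompactSupport g) :
    ContDiff ℝ ∞ (fun p => ∫ z, g (p, z)) ∧ ∀ p a,
      fderiv ℝ (fun p => ∫ z, g (p, z)) p a = ∫ z, fderiv ℝ g (p, z) (a, 0) := by
  have hf : LocallyIntegrable (fun _ : κ → ℝ => (1 : ℝ)) volume := locallyIntegrable_const _
  have e : ∀ u : (κ → ℝ) → ℂ, convolution (fun _ : κ → ℝ => (1 : ℝ)) u
      (ContinuousLinearMap.lsmul ℝ ℝ) volume 0 = ∫ z, u z :=
    fun u => by simp [convolution_def, integral_neg_eq_self u]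
  have hk : IsCompact (Prod.snd '' tsupport g) := hc.isCompact.image continuous_snd
  have h1 : ∀ p z, p ∈ (univ : Set F) → z ∉ Prod.snd '' tsupport g → Function.curry g p z = 0 :=
    fun p z _ hz => image_eq_zero_of_notMem_tsupport (f := g) fun h => hz ⟨(p, z), h, rfl⟩
  have hg' : ContDiffOn ℝ ∞ g (univ ×ˢ univ) := hg.contDiffOn
  refine ⟨contDiffOn_univ.1 ?_, fun p a => ?_⟩
  · simpa only [e, Function.curry_apply] using contDiffOn_convolution_right_with_param_comp (n := ⊤)
      (ContinuousLinearMap.lsmul ℝ ℝ) (v := fun _ => (0 : κ → ℝ)) contDiffOn_const isOpen_univ hk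
      h1 hf hg'
  · have h3 := hasFDerivAt_convolution_right_with_param (ContinuousLinearMap.lsmul ℝ ℝ) isOpen_univ
      hk h1 hf (hg'.of_le (by simp)) (p, 0) (mem_univ _)
    have h2 := HasFDerivAt.comp (f := fun e : F => (e, (0 : κ → ℝ))) p h3
      (hasFDerivAt_prodMk_left (𝕜 := ℝ) p (0 : κ → ℝ))
    simp only [Function.comp_def, e] at h2
    have c1 : Continuous fun z => fderiv ℝ g (p, z) :=
      (hg.continuous_fderiv (by simp)).comp (by fun_prop)
    have c2 : HasCompactSupport fun z => fderiv ℝ g (p, z) := .intro hk fun z hz =>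
      image_eq_zero_of_notMem_tsupport fun h => hz ⟨(p, z), tsupport_fderiv_subset ℝ h, rfl⟩
    refine (DFunLike.congr_fun h2.fderiv a).trans ?_
    exact (convolution_precompR_apply _ hf c2 c1 0 (a, 0)).trans (e _)

theorem M2b_co (I : κ) : ContDiff ℝ ∞ fun q : F × (κ → ℝ) => (q.2 I : ℂ) :=
  Complex.ofRealCLM.contDiff.comp ((contDiff_apply ℝ ℝ I).comp contDiff_snd)

theorem M2b_int {ψ : F × (κ → ℝ) → ℂ} (hψ : Continuous ψ) (hc : HasCompactSupport ψ)
    {p : (κ → ℝ) → ℂ} (hp : Continuous p) (x : F) : Integrable fun s => p s * ψ (x, s) :=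
  (hp.mul (hψ.comp (by fun_prop))).integrable_of_hasCompactSupport
    (.intro (hc.isCompact.image continuous_snd) fun z hz => mul_eq_zero_of_right _
      (image_eq_zero_of_notMem_tsupport (f := ψ) fun h => hz ⟨(x, z), h, rfl⟩))

theorem M2b_test (hφ : ContDiff ℝ ∞ φ) (hc : HasCompactSupport φ) (v : F × (κ → ℝ)) :
    ContDiff ℝ ∞ (m2d v φ) ∧ HasCompactSupport (m2d v φ) ∧ tsupport (m2d v φ) ⊆ tsupport φ := by
  have h : tsupport (m2d v φ) ⊆ tsupport φ := tsupport_fderiv_apply_subset ℝ v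
  exact ⟨(hφ.fderiv_right (m := ∞) (by simp)).clm_apply contDiff_const,
    hc.isCompact.of_isClosed_subset (isClosed_tsupport _) h, h⟩

theorem M2b_ibp (hφ : ContDiff ℝ ∞ φ) (hc : HasCompactSupport φ) (e : κ → ℝ)
    {p p' : (κ → ℝ) → ℂ} (hp : Continuous p) (hp' : Continuous p')
    (h : ∀ s, HasLineDerivAt ℝ p (p' s) s e) (x : F) :
    ∫ s, p s * m2d (0, e) φ (x, s) = -∫ s, p' s * φ (x, s) := by
  have ht := M2b_test hφ hc (0, e)
  refine integral_bilinear_hasLineDerivAt_right_eq_neg_left_of_integrable (μ := volume)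
    (B := ContinuousLinearMap.mul ℝ ℂ) (g := fun s => φ (x, s)) (v := e)
    (M2b_int hφ.continuous hc hp' x) (M2b_int ht.1.continuous ht.2.1 hp x)
    (M2b_int hφ.continuous hc hp x) (fun s _ => h s) fun s _ => ?_
  exact (((hφ.differentiable (by simp)) (x, s)).hasFDerivAt.comp s
    (hasFDerivAt_prodMk_right x s)).hasLineDerivAt e

theorem M2b_line (K : κ) (s e : κ → ℝ) :
    HasLineDerivAt ℝ (fun s : κ → ℝ => (s K : ℂ)) (e K) s e :=
  (Complex.ofRealCLM.comp
    (ContinuousLinearMap.proj (R := ℝ) (φ := fun _ : κ => ℝ) K)).hasFDerivAt.hasLineDerivAt e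

/-- `contDiffOn_convolution_right_with_param_comp` with the constant function one; see the model
in `Vale/Agent/P353/BFib.lean` line 370 or `P272/B0.lean` line 171 -/
theorem mom_smooth (hφ : ContDiff ℝ ∞ φ) (hc : HasCompactSupport φ) (I : κ) :
    ContDiff ℝ ∞ (mom I φ) :=
  (M2b_param ((M2b_co I).mul hφ) hc.mul_left).1

theorem mom_supp (hc : HasCompactSupport φ) (I : κ) :
    HasCompactSupport (mom I φ) ∧ tsupport (mom I φ) ⊆ Prod.fst '' tsupport φ := by
  have hk : IsCompact (Prod.fst '' tsupport φ) := hc.isCompact.image continuous_fst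
  have h : tsupport (mom I φ) ⊆ Prod.fst '' tsupport φ := by
    refine closure_minimal (fun x hx => ?_) hk.isClosed
    by_contra hx'
    refine hx (integral_eq_zero_of_ae (ae_of_all _ fun s => ?_))
    show (s I : ℂ) * φ (x, s) = 0
    rw [image_eq_zero_of_notMem_tsupport fun h => hx' ⟨(x, s), h, rfl⟩, mul_zero]
  exact ⟨hk.of_isClosed_subset (isClosed_tsupport _) h, h⟩

theorem m2d_mom (hφ : ContDiff ℝ ∞ φ) (hc : HasCompactSupport φ) (I : κ) (v : F) :
    m2d v (mom I φ) = mom I (m2d (v, 0) φ) := by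
  funext x
  refine ((M2b_param ((M2b_co I).mul hφ) hc.mul_left).2 x v).trans
    (integral_congr_ae (ae_of_all _ fun s => ?_))
  have h1 : HasFDerivAt (fun q : F × (κ → ℝ) => (q.2 I : ℂ)) (Complex.ofRealCLM.comp
      ((ContinuousLinearMap.proj I).comp (ContinuousLinearMap.snd ℝ F (κ → ℝ)))) (x, s) :=
    (Complex.ofRealCLM.comp ((ContinuousLinearMap.proj I).comp
      (ContinuousLinearMap.snd ℝ F (κ → ℝ)))).hasFDerivAt
  have h2 := h1.mul ((hφ.differentiable (by simp)) (x, s)).hasFDerivAt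
  refine (DFunLike.congr_fun h2.fderiv (v, 0)).trans ?_
  simp [m2d]

theorem m2d_test (hφ : ContDiff ℝ ∞ φ) (hc : HasCompactSupport φ) (v : F × (κ → ℝ)) :
    ContDiff ℝ ∞ (m2d v φ) ∧ HasCompactSupport (m2d v φ) ∧ tsupport (m2d v φ) ⊆ tsupport φ :=
  M2b_test hφ hc v

/-- integration by parts in the extra variables (`integral_fderiv_eq_zero` type lemma for the
compactly supported function `s ↦ s K * s J * φ (x, s)`) -/
theorem mom_ibp (hφ : ContDiff ℝ ∞ φ) (hc : HasCompactSupport φ) (I J K : κ) (x : F) :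
    ∫ s : κ → ℝ, (s K : ℂ) * ((if I = J then φ (x, s) else 0) +
      (s J : ℂ) * m2d (0, Pi.single I 1) φ (x, s)) = -if K = I then mom J φ x else 0 := by
  have ht := M2b_test hφ hc (0, Pi.single I 1)
  have c : ∀ L : κ, Continuous fun s : κ → ℝ => (s L : ℂ) := fun L => by fun_prop
  have h1 := M2b_ibp hφ hc (Pi.single I 1) (p := fun s => (s K : ℂ) * s J)
    (p' := fun s => (if K = I then (1 : ℂ) else 0) * s J + s K * if I = J then (1 : ℂ) else 0)
    ((c K).mul (c J)) (by fun_prop) (fun s => by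
      refine HasDerivAt.congr_deriv (HasDerivAt.mul (M2b_line K s (Pi.single I 1))
        (M2b_line J s (Pi.single I 1))) ?_
      simp only [zero_smul, add_zero, Pi.single_apply, @eq_comm _ J I]
      split_ifs <;> simp) x
  have i1 := M2b_int hφ.continuous hc
    (p := fun s => (s K : ℂ) * if I = J then (1 : ℂ) else 0) (by fun_prop) x
  have i2 := M2b_int hφ.continuous hc
    (p := fun s => (if K = I then (1 : ℂ) else 0) * s J) (by fun_prop) x
  have i3 := M2b_int ht.1.continuous ht.2.1 (p := fun s => (s K : ℂ) * s J) ((c K).mul (c J)) x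
  have e1 : ∀ s : κ → ℝ, (s K : ℂ) * ((if I = J then φ (x, s) else 0) +
      (s J : ℂ) * m2d (0, Pi.single I 1) φ (x, s)) =
      ((s K : ℂ) * if I = J then (1 : ℂ) else 0) * φ (x, s) +
        (s K : ℂ) * s J * m2d (0, Pi.single I 1) φ (x, s) := fun s => by
    split_ifs <;> ring
  simp only [add_mul] at h1
  simp only [e1]
  rw [integral_add i1 i3, h1, integral_add i2 i1]
  split_ifs <;> simp [mom]

theorem mom_lap (hφ : ContDiff ℝ ∞ φ) (hc : HasCompactSupport φ) (I K : κ) (x : F) :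
    mom K (m2d (0, Pi.single I 1) (m2d (0, Pi.single I 1) φ)) x = 0 := by
  have ht := M2b_test hφ hc (0, Pi.single I 1)
  have h1 := M2b_ibp ht.1 ht.2.1 (Pi.single I 1) (p := fun s => (s K : ℂ))
    (p' := fun _ => ((Pi.single I 1 : κ → ℝ) K : ℂ)) (by fun_prop) continuous_const
    (fun s => M2b_line K s _) x
  have h2 := M2b_ibp hφ hc (Pi.single I 1) (p := fun _ => ((Pi.single I 1 : κ → ℝ) K : ℂ))
    (p' := fun _ => 0) continuous_const continuous_const
    (fun s => (hasFDerivAt_const _ s).hasLineDerivAt _) x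
  rw [mom, h1, h2]
  simp

/-- A set of full measure in a neighbourhood of zero contains a basis. A set of full measure in an
open set is dense in it; the matrices near `r • 1` are invertible. -/
theorem exists_basis {O : Set (κ → ℝ)} (hO : O ∈ 𝓝 (0 : κ → ℝ)) {P : (κ → ℝ) → Prop}
    (hP : ∀ᵐ s : κ → ℝ, s ∈ O → P s) :
    ∃ M : Matrix κ κ ℝ, IsUnit M.det ∧ ∀ I, M I ∈ O ∧ P (M I) := by
  have hD : Dense (Set.pi univ fun _ : κ => {s : κ → ℝ | s ∈ O → P s}) :=
    dense_pi univ fun _ _ => Measure.dense_of_ae hP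
  have hW : IsOpen {M : κ → κ → ℝ | (Matrix.of M).det ≠ 0 ∧ ∀ I, M I ∈ interior O} := by
    have h1 : Continuous fun M : κ → κ → ℝ => (Matrix.of M).det :=
      Continuous.matrix_det (A := fun M : κ → κ → ℝ => Matrix.of M) continuous_id
    refine (isOpen_ne_fun h1 continuous_const).inter ?_
    have h2 := isOpen_iInter_of_finite fun I : κ =>
      (isOpen_interior (s := O)).preimage (continuous_apply (A := fun _ : κ => κ → ℝ) I)
    have h5 : IsOpen {M : κ → κ → ℝ | ∀ I, M I ∈ interior O} := by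
      rw [setOf_forall]
      exact h2
    exact h5
  have h3 : ∀ᶠ t : ℝ in 𝓝 0, ∀ I, t • (1 : Matrix κ κ ℝ) I ∈ interior O :=
    eventually_all.2 fun I => by
      have h4 : Continuous fun t : ℝ => t • (1 : Matrix κ κ ℝ) I := by fun_prop
      refine h4.continuousAt.eventually_mem ?_
      rw [zero_smul]
      exact interior_mem_nhds.2 hO
  obtain ⟨t, ht, ht0⟩ := ((h3.filter_mono (nhdsWithin_le_nhds (s := {0}ᶜ))).and
    self_mem_nhdsWithin).exists
  obtain ⟨M, hM, hM1, hM2⟩ := hD.exists_mem_open hW ⟨t • (1 : Matrix κ κ ℝ), by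
    show (t • (1 : Matrix κ κ ℝ)).det ≠ 0
    rw [det_smul, det_one, mul_one]
    exact pow_ne_zero _ ht0, ht⟩
  exact ⟨Matrix.of M, hM1.isUnit, fun I =>
    ⟨interior_subset (hM2 I), hM I (mem_univ _) (interior_subset (hM2 I))⟩⟩

end Vale.Agent.P299
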