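import Vale.Agent.P299.M2a
import Vale.Agent.P299.M2b
import Vale.Agent.P299.M2RX2

/-! P299, part M2: regularity for systems with scalar principal part. -/

set_option linter.all false

open MeasureTheory Set Filter Topology Matrix
open scoped ContDiff ENNReal ComplexConjugate ComplexOrder InnerProductSpace

noncomputable section

namespace Vale.Agent.P299

open Vale.Agent.P271A MR

theorem M2c_cut {F : Type} [NormedAddCommGroup F] [NormedSpace ℝ F] {U : Set F} (hU : IsOpen U)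
    {χ g : F → ℂ} (h1 : ContDiff ℝ ∞ χ) (h2 : tsupport χ ⊆ U) (hg : ContDiffOn ℝ ∞ g U) :
    ContDiff ℝ ∞ fun x => χ x * g x := contDiff_iff_contDiffAt.2 fun x => by
  by_cases hx : x ∈ U
  · exact h1.contDiffAt.mul (hg.contDiffAt (hU.mem_nhds hx))
  · refine (contDiffAt_const (c := 0)).congr_of_eventuallyEq ?_
    filter_upwards [notMem_tsupport_iff_eventuallyEq.1 fun h => hx (h2 h)] with z hz
    rw [hz, Pi.zero_apply, zero_mul]

theorem M2c_cX {F : Type} [NormedAddCommGroup F] [NormedSpace ℝ F] (v : F) (φ : F → ℂ) :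
    cX (v, 0) φ = m2d v φ := funext fun x => by simp [cX, m2d]

/-- Cut off the coefficients and apply `sysF`. -/
theorem m2_sys {F : Type} [NormedAddCommGroup F] [NormedSpace ℝ F] [FiniteDimensional ℝ F]
    [MeasurableSpace F] [BorelSpace F] (μ : Measure F) [μ.IsAddHaarMeasure] {ι ι' κ : Type}
    [Fintype ι] [Fintype ι'] [Fintype κ] [DecidableEq κ] (v w : ι → F) (v' : ι' → F)
    (α : ι → F → ℂ) (β : ι' → F → Matrix κ κ ℂ) (γ : F → Matrix κ κ ℂ) (u f : F → κ → ℂ)
    {U : Set F} (hU : IsOpen U) (hα : ∀ i, ContDiffOn ℝ ∞ (α i) U)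
    (hβ : ∀ i I J, ContDiffOn ℝ ∞ (fun x => β i x I J) U)
    (hγ : ∀ I J, ContDiffOn ℝ ∞ (fun x => γ x I J) U) (hf : ∀ I, ContDiffOn ℝ ∞ (fun x => f x I) U)
    (hu : ∀ I, LocallyIntegrableOn (fun x => u x I) U μ)
    (hw : ∀ t : κ → F → ℂ, (∀ I, ContDiff ℝ ∞ (t I) ∧ HasCompactSupport (t I) ∧
      tsupport (t I) ⊆ U) →
      ∫ x, ∑ I, u x I * (∑ i, α i x * m2d (v i) (m2d (w i) (t I)) x +
        ∑ i, ∑ J, β i x I J * m2d (v' i) (t J) x + ∑ J, γ x I J * t J x) ∂μ =
      ∫ x, ∑ I, f x I * t I x ∂μ)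
    {x₀ : F} (hx : x₀ ∈ U)
    (hell : ∀ ξ : F →L[ℝ] ℝ, ξ ≠ 0 → 0 < (∑ i, α i x₀ * ξ (v i) * ξ (w i)).re) :
    ∃ O, IsOpen O ∧ x₀ ∈ O ∧ ∃ g : κ → F → ℂ, (∀ I, ContDiffOn ℝ ∞ (g I) O) ∧
      ∀ᵐ x ∂μ, x ∈ O → ∀ I, u x I = g I x := by
  obtain ⟨r, hr, hrU⟩ := Metric.nhds_basis_closedBall.mem_iff.1 (hU.mem_nhds hx)
  let b : ContDiffBump x₀ := ⟨r / 2, r, half_pos hr, half_lt_self hr⟩
  obtain ⟨χ, h1, h2, h3⟩ : ∃ χ : F → ℂ, ContDiff ℝ ∞ χ ∧ tsupport χ ⊆ Metric.closedBall x₀ r ∧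
      ∀ x ∈ Metric.ball x₀ (r / 2), χ x = 1 :=
    ⟨fun x => b x, Complex.ofRealCLM.contDiff.comp b.contDiff,
      (tsupport_comp_subset Complex.ofReal_zero b).trans b.tsupport_eq.le, fun x hx =>
        congrArg Complex.ofReal (b.one_of_mem_closedBall (Metric.ball_subset_closedBall hx))⟩
  have h4 := fun {g} => M2c_cut hU (g := g) h1 (h2.trans hrU)
  have h5 : Metric.ball x₀ (r / 2) ⊆ U :=
    (Metric.ball_subset_ball (half_le_self hr.le)).trans (Metric.ball_subset_closedBall.trans hrU)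
  have h6 := Metric.mem_ball_self (x := x₀) (half_pos hr)
  obtain ⟨O, hO, hxO, g, hg, hg'⟩ := sysF (μ := μ) (ι := ι ⊕ ι')
    (Sum.elim (fun i => (v i, 0)) fun _ => (0, 0)) (Sum.elim (fun i => (w i, 0)) fun i => (v' i, 0))
    (a := Sum.elim (fun i x => χ x * α i x) fun _ _ => 0)
    (B := Sum.elim (fun _ _ _ _ => 0) fun i I J x => χ x * β i x I J)
    (C := fun I J x => χ x * γ x I J) (u := fun I x => χ x * u x I) (f := fun I x => χ x * f x I)
    (by rintro (i | i)
        exacts [h4 (hα i), contDiff_const])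
    (by rintro (i | i) I J
        exacts [contDiff_const, h4 (hβ i I J)])
    (fun I J => h4 (hγ I J)) (fun I => h4 (hf I))
    (fun I => (((hu I).integrableOn_compact_subset hrU (isCompact_closedBall _ _)).continuousOn_mul
      h1.continuous.continuousOn (isCompact_closedBall _ _)).integrable_of_forall_notMem_eq_zero
        fun x hx => by rw [image_eq_zero_of_notMem_tsupport fun h => hx (h2 h), zero_mul])
    (Metric.ball_mem_nhds x₀ (half_pos hr))
    (fun ℓ hℓ => by simpa [lc, h3 _ h6] using hell ℓ hℓ) fun t ht => by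
      have z0 : ∀ I, ∀ x ∉ Metric.ball x₀ (r / 2), x ∉ tsupport (t I) := fun I x hx h =>
        hx ((ht I).2.2 h)
      have z1 : ∀ {φ : F → ℂ} {x}, x ∉ tsupport φ → ∀ e, x ∉ tsupport (m2d e φ) := fun h e h' =>
        h (tsupport_fderiv_apply_subset ℝ e h')
      have z2 := fun I x hx => image_eq_zero_of_notMem_tsupport (z0 I x hx)
      have z3 := fun I x hx e => image_eq_zero_of_notMem_tsupport (z1 (z0 I x hx) e)
      have z4 := fun I x hx e e' => image_eq_zero_of_notMem_tsupport (z1 (z1 (z0 I x hx) e) e')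
      refine (integral_congr_ae (.of_forall fun x => ?_)).trans
        ((hw t fun I => ⟨(ht I).1, (ht I).2.1, (ht I).2.2.trans h5⟩).trans
          (integral_congr_ae (.of_forall fun x => ?_)))
      · simp only [Fintype.sum_sum_type, Sum.elim_inl, Sum.elim_inr, M2c_cX, zero_mul,
          Finset.sum_const_zero, add_zero, zero_add]
        by_cases hx : x ∈ Metric.ball x₀ (r / 2)
        · simp only [h3 x hx, one_mul, Finset.sum_add_distrib, add_assoc]
          exact Finset.sum_congr rfl fun I _ => by rw [Finset.sum_comm]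
        · simp [z2 _ x hx, z3 _ x hx, z4 _ x hx]
      · by_cases hx : x ∈ Metric.ball x₀ (r / 2)
        · simp only [h3 x hx, one_mul]
        · simp [z2 _ x hx]
  refine ⟨O ∩ Metric.ball x₀ (r / 2), hO.inter Metric.isOpen_ball, ⟨hxO, h6⟩, g,
    fun I => (hg I).mono inter_subset_left, ?_⟩
  filter_upwards [hg'] with x h hx I
  rw [← h hx.1 I, h3 x hx.2, one_mul]

end Vale.Agent.P299
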