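import Vale.Agent.P299.Defs2

/-! P299: the strong maximum principle. -/

open MeasureTheory Set Filter Topology Matrix
open scoped ContDiff ENNReal ComplexConjugate ComplexOrder

noncomputable section

namespace Vale.Agent.P299

open Vale.Agent.P271 Vale.Agent.P272

variable {n : ℕ} {U : Set (Cn n)} {Φ : Cn n → ℝ}

/-- The squared Euclidean distance. -/
def Ba_q (c : Cn n) : Cn n → ℝ := fun w => ∑ j, ‖w j - c j‖ ^ 2

theorem Ba_sm (c z : Cn n) : ContDiffAt ℝ ∞ (Ba_q c) z :=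
  ContDiffAt.sum fun j _ => P271A.contDiffAt_normSq
    (((ContinuousLinearMap.proj (R := ℂ) (φ := fun _ : Fin n => ℂ) j).analyticAt z).sub
      analyticAt_const)

theorem Ba_self (c : Cn n) : Ba_q c c = 0 := by simp [Ba_q]

theorem Ba_norm {c z : Cn n} {r : ℝ} (hr : 0 < r) (h : Ba_q c z < r ^ 2) : ‖z - c‖ < r := by
  refine (pi_norm_lt_iff hr).2 fun j => ?_
  have h1 : ‖z j - c j‖ ^ 2 ≤ Ba_q c z :=
    Finset.single_le_sum (f := fun j => ‖z j - c j‖ ^ 2) (fun i _ => sq_nonneg _)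
      (Finset.mem_univ j)
  exact lt_of_pow_lt_pow_left₀ 2 hr.le (h1.trans_lt h)

theorem Ba_pos {c z : Cn n} (h : z ≠ c) : 0 < Ba_q c z := by
  obtain ⟨j, hj⟩ := Function.ne_iff.1 h
  exact Finset.sum_pos' (fun i _ => sq_nonneg _)
    ⟨j, Finset.mem_univ j, pow_pos (norm_pos_iff.2 (sub_ne_zero.2 hj)) 2⟩

/-- The defining function of the small ball. -/
def Ba_g (y p : Cn n) : Cn n → ℝ := fun z => Ba_q y z + Ba_q p z - Ba_q y p

theorem Ba_gsm (y p z : Cn n) : ContDiffAt ℝ ∞ (Ba_g y p) z :=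
  ((Ba_sm y z).add (Ba_sm p z)).sub contDiffAt_const

theorem Ba_gp (y p : Cn n) : Ba_g y p p = 0 := by simp [Ba_g, Ba_self]

theorem Ba_gd (y p : Cn n) : fderiv ℝ (Ba_g y p) p (p - y) = 2 * Ba_q y p := by
  have hl : HasDerivAt (fun s : ℝ => p + s • (p - y)) (p - y) 0 := by
    simpa using ((hasDerivAt_id (0 : ℝ)).smul_const (p - y)).const_add p
  have h1 : HasFDerivAt (Ba_g y p) (fderiv ℝ (Ba_g y p) p) (p + (0 : ℝ) • (p - y)) := by
    rw [zero_smul, add_zero]
    exact ((Ba_gsm y p p).differentiableAt (by simp)).hasFDerivAt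
  have h2 := h1.comp_hasDerivAt 0 hl
  have e : (Ba_g y p ∘ fun s : ℝ => p + s • (p - y)) =
      fun s : ℝ => (2 * s + 2 * s ^ 2) * Ba_q y p := by
    funext s
    have e1 : Ba_q y (p + s • (p - y)) = (1 + s) ^ 2 * Ba_q y p := by
      simp only [Ba_q, Finset.mul_sum]
      refine Finset.sum_congr rfl fun j _ => ?_
      have : (p + s • (p - y)) j - y j = (1 + s) • (p j - y j) := by
        simp only [Pi.add_apply, Pi.smul_apply, Pi.sub_apply, add_smul, one_smul]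
        ring
      rw [this, norm_smul, mul_pow, Real.norm_eq_abs, sq_abs]
    have e2 : Ba_q p (p + s • (p - y)) = s ^ 2 * Ba_q y p := by
      simp only [Ba_q, Finset.mul_sum]
      refine Finset.sum_congr rfl fun j _ => ?_
      have : (p + s • (p - y)) j - p j = s • (p j - y j) := by
        simp only [Pi.add_apply, Pi.smul_apply, Pi.sub_apply]
        ring
      rw [this, norm_smul, mul_pow, Real.norm_eq_abs, sq_abs]
    simp only [Function.comp, Ba_g, e1, e2]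
    ring
  rw [e] at h2
  have h3 : HasDerivAt (fun s : ℝ => (2 * s + 2 * s ^ 2) * Ba_q y p) (2 * Ba_q y p) 0 := by
    have := ((((hasDerivAt_id (0 : ℝ)).const_mul 2).fun_add
      (((hasDerivAt_id (0 : ℝ)).fun_pow 2).const_mul 2)).mul_const (Ba_q y p))
    simpa using this
  exact h2.unique h3

theorem Ba_sq {y p : Cn n} (h : p ≠ y) {A : Mx n} (hA : A.PosDef) :
    0 < (A⁻¹ * LM (fun z => Ba_g y p z ^ 2) p).trace.re := by
  have hs : ContDiffAt ℝ ∞ (fun z => Ba_g y p z ^ 2) p := (Ba_gsm y p p).pow 2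
  have hl : ∀ ξ, Lev (fun z => Ba_g y p z ^ 2) p ξ =
      2 * ‖dz ξ (fun w => (Ba_g y p w : ℂ)) p‖ ^ 2 := fun ξ => by
    have h1 := P271A.Lev_comp (ξ := ξ) (χ := fun t => t ^ 2) (χ₁ := fun t => 2 * t) (c := 2)
      (Ba_gsm y p p) (Eventually.of_forall fun t => by simpa using hasDerivAt_pow 2 t)
      (by simpa using (hasDerivAt_id (Ba_g y p p)).const_mul 2)
    rw [h1, Ba_gp]
    ring
  have hB : (LM (fun z => Ba_g y p z ^ 2) p).PosSemidef :=
    (posSemidef_LM_iff hs).2 fun ξ => by rw [hl]; positivity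
  have hd : dz (p - y) (fun w => (Ba_g y p w : ℂ)) p ≠ 0 := by
    intro h0
    have hd := (Ba_gsm y p p).differentiableAt (by simp)
    rw [dz, Loc_fderiv_ofReal hd, Loc_fderiv_ofReal hd, Ba_gd] at h0
    have h1 := congrArg Complex.re h0
    simp at h1
    exact (Ba_pos h).ne' h1
  have h2 : 0 < Lev (fun z => Ba_g y p z ^ 2) p (p - y) := by
    rw [hl]
    exact mul_pos two_pos (pow_pos (norm_pos_iff.2 hd) 2)
  have h3 := (Complex.nonneg_iff.1 ((psd_trace_sub hA hB).dotProduct_mulVec_nonneg (p - y))).1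
  rw [sub_mulVec, dotProduct_sub, Complex.sub_re, ← Lev_eq_LM hs, smul_mulVec, dotProduct_smul,
    smul_eq_mul, Complex.re_ofReal_mul] at h3
  have h4 := (Complex.nonneg_iff.1 (hA.posSemidef.dotProduct_mulVec_nonneg (p - y))).1
  by_contra hc
  have h5 := mul_nonpos_of_nonpos_of_nonneg (not_lt.1 hc) h4
  linarith

theorem Ba_lin {φ ψ : Cn n → ℝ} {z : Cn n} (hφ : ContDiffAt ℝ ∞ φ z) (hψ : ContDiffAt ℝ ∞ ψ z)
    (A : Mx n) (a b : ℝ) : (A * LM (fun w => a * φ w + b * ψ w) z).trace.re =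
      a * (A * LM φ z).trace.re + b * (A * LM ψ z).trace.re := by
  have e : (fun w => a * φ w + b * ψ w) = a • φ + b • ψ := rfl
  have h1 : ContDiffAt ℝ ∞ (a • φ) z := hφ.const_smul a
  have h2 : ContDiffAt ℝ ∞ (b • ψ) z := hψ.const_smul b
  rw [e, LM_add h1 h2, LM_smul hφ, LM_smul hψ, Matrix.mul_add, Matrix.mul_smul, Matrix.mul_smul,
    trace_add, trace_smul, trace_smul, smul_eq_mul, smul_eq_mul, Complex.add_re,
    Complex.re_ofReal_mul, Complex.re_ofReal_mul]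

theorem Ba_cont {G : Cn n → Mx n} {p : Cn n} (hG : ContinuousAt G p) (hG' : (G p).PosDef)
    {v : Cn n → ℝ} (hv : ContDiffAt ℝ ∞ v p) :
    ContinuousAt (fun z => ((G z)⁻¹ * LM v z).trace.re) p := by
  have h1 : ContinuousAt (fun z => (G z)⁻¹) p := by
    refine ContinuousAt.comp (f := G) (continuousAt_matrix_inv (G p) ?_) hG
    obtain ⟨u, hu⟩ := (isUnit_iff_isUnit_det _).1 hG'.isUnit
    rw [← hu]
    exact NormedRing.inverse_continuousAt u
  have h2 : ContinuousAt (fun z => LM v z) p :=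
    continuousAt_pi.2 fun j => continuousAt_pi.2 fun k => (contDiffAt_LM hv j k).continuousAt
  have h3 : Continuous fun q : Mx n × Mx n => (q.1 * q.2).trace.re :=
    Complex.continuous_re.comp (continuous_fst.matrix_mul continuous_snd).matrix_trace
  exact h3.continuousAt.comp (f := fun z => ((G z)⁻¹, LM v z)) (h1.prodMk h2)

/-- The barrier. -/
theorem Ba_bar {G : Cn n → Mx n} {y p : Cn n} (h : p ≠ y) (hG : ContinuousAt G p)
    (hG' : (G p).PosDef) : ∃ v : Cn n → ℝ, (∀ z, ContDiffAt ℝ ∞ v z) ∧ v p = 0 ∧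
      ∀ᶠ z in 𝓝 p, 0 < ((G z)⁻¹ * LM v z).trace.re ∧ (0 < Ba_g y p z → v z < 0) := by
  have h1 := Ba_sq h hG'
  obtain ⟨t, ht⟩ : ∃ t, t = ((G p)⁻¹ * LM (fun z => Ba_g y p z ^ 2) p).trace.re := ⟨_, rfl⟩
  obtain ⟨s, hs⟩ : ∃ s, s = ((G p)⁻¹ * LM (Ba_g y p) p).trace.re := ⟨_, rfl⟩
  rw [← ht] at h1
  have hv : ∀ z, ContDiffAt ℝ ∞
      (fun w => (s + 1) / t * Ba_g y p w ^ 2 + (-1) * Ba_g y p w) z := fun z =>
    (contDiffAt_const.mul ((Ba_gsm y p z).pow 2)).add (contDiffAt_const.mul (Ba_gsm y p z))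
  refine ⟨_, hv, by simp [Ba_gp], Eventually.and ?_ ?_⟩
  · refine (Ba_cont hG hG' (hv p)).eventually (lt_mem_nhds ?_)
    beta_reduce
    rw [Ba_lin ((Ba_gsm y p p).pow 2) (Ba_gsm y p p), ← ht, ← hs, div_mul_cancel₀ _ h1.ne']
    linarith
  · have h2 : ContinuousAt (fun w => (s + 1) / t * Ba_g y p w) p :=
      continuousAt_const.mul (Ba_gsm y p p).continuousAt
    have h3 : ∀ᶠ w in 𝓝 p, (s + 1) / t * Ba_g y p w < 1 :=
      h2.eventually (gt_mem_nhds (by simp [Ba_gp]))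
    filter_upwards [h3] with w hw h0
    nlinarith

/-- There is no touching ball. -/
theorem Ba_hopf (hU : IsOpen U) {G : Cn n → Mx n} (hG : ContinuousOn G U)
    (hG' : ∀ z ∈ U, (G z).PosDef) {f : Cn n → ℝ} (hf : ContDiffOn ℝ ∞ f U)
    (h : ∀ z ∈ U, 0 ≤ ((G z)⁻¹ * LM f z).trace.re) {y p : Cn n} (hp : p ∈ U) (hy : p ≠ y)
    (hm : ∀ z ∈ U, f z ≤ f p) (hb : ∀ z, Ba_q y z < Ba_q y p → f z < f p) : False := by
  obtain ⟨v, hv, v0, h1⟩ := Ba_bar hy (hG.continuousAt (hU.mem_nhds hp)) (hG' p hp)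
  obtain ⟨δ, hδ, h2⟩ := Metric.nhds_basis_closedBall.mem_iff.1 (h1.and (hU.mem_nhds hp))
  have hfs : ∀ z ∈ Metric.closedBall p δ, ContDiffAt ℝ ∞ f z := fun z hz =>
    hf.contDiffAt (hU.mem_nhds (h2 hz).2)
  have hgc : Continuous (Ba_g y p) :=
    continuous_iff_continuousAt.2 fun z => (Ba_gsm y p z).continuousAt
  have hK : IsCompact (Metric.sphere p δ ∩ {z | Ba_g y p z ≤ 0}) :=
    (isCompact_sphere p δ).inter_right (isClosed_le hgc continuous_const)
  have h3 : ∀ᶠ ε in 𝓝 (0 : ℝ), ∀ z ∈ Metric.sphere p δ ∩ {z | Ba_g y p z ≤ 0},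
      1 * f z + ε * v z < f p := by
    refine hK.eventually_forall_of_forall_eventually fun z hz => ?_
    have hz1 : z ≠ p := Metric.ne_of_mem_sphere hz.1 hδ.ne'
    have hz2 : f z < f p := hb z (by
      have h4 : Ba_g y p z ≤ 0 := hz.2
      have h5 := Ba_pos hz1
      simp only [Ba_g] at h4
      linarith)
    have h4 : ContinuousAt (fun q : ℝ × Cn n => 1 * f q.2 + q.1 * v q.2) (0, z) :=
      (continuousAt_const.mul (ContinuousAt.comp (f := Prod.snd)
        (hfs z (Metric.sphere_subset_closedBall hz.1)).continuousAt continuousAt_snd)).add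
        (continuousAt_fst.mul (ContinuousAt.comp (f := Prod.snd) (hv z).continuousAt
          continuousAt_snd))
    exact h4.eventually (gt_mem_nhds (by simpa using hz2))
  obtain ⟨ε, h4, hε⟩ := ((h3.filter_mono (nhdsWithin_le_nhds (s := Ioi 0))).and
    self_mem_nhdsWithin).exists
  have hε : 0 < ε := hε
  have hw : ∀ z ∈ Metric.closedBall p δ, ContDiffAt ℝ ∞ (fun w => 1 * f w + ε * v w) z :=
    fun z hz => (contDiffAt_const.mul (hfs z hz)).add (contDiffAt_const.mul (hv z))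
  obtain ⟨z, hz, h5⟩ := (isCompact_closedBall p δ).exists_isMaxOn
    ⟨p, Metric.mem_closedBall_self hδ.le⟩ (f := fun w => 1 * f w + ε * v w)
    fun z hz => (hw z hz).continuousAt.continuousWithinAt
  have h6 : 1 * f p + ε * v p ≤ 1 * f z + ε * v z := h5 (Metric.mem_closedBall_self hδ.le)
  rw [v0] at h6
  have h7 : z ∈ Metric.ball p δ := by
    refine lt_of_le_of_ne (Metric.mem_closedBall.1 hz) fun h0 => ?_
    rcases le_or_gt (Ba_g y p z) 0 with h8 | h8
    · have := h4 z ⟨h0, h8⟩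
      linarith
    · have h9 := mul_neg_of_pos_of_neg hε ((h2 hz).1.2 h8)
      have := hm z (h2 hz).2
      linarith
  have h8 : IsLocalMax (fun w => 1 * f w + ε * v w) z :=
    h5.isLocalMax (mem_of_superset (Metric.isOpen_ball.mem_nhds h7) Metric.ball_subset_closedBall)
  have h9 := trace_mul_nonneg (hG' z (h2 hz).2).inv.posSemidef (LM_of_isLocalMax (hw z hz) h8)
  rw [Matrix.mul_neg, trace_neg, Complex.neg_re, Ba_lin (hfs z hz) (hv z)] at h9
  have h10 := mul_pos hε (h2 hz).1.1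
  have h11 := h z (h2 hz).2
  linarith

/-- The strong maximum principle. -/
theorem smp (hU : IsOpen U) {G : Cn n → Mx n} (hG : ContinuousOn G U)
    (hG' : ∀ z ∈ U, (G z).PosDef) {f : Cn n → ℝ} (hf : ContDiffOn ℝ ∞ f U)
    (h : ∀ z ∈ U, 0 ≤ ((G z)⁻¹ * LM f z).trace.re) {z₀ : Cn n} (hz : z₀ ∈ U)
    (hm : ∀ z ∈ U, f z ≤ f z₀) : ∀ᶠ z in 𝓝 z₀, f z = f z₀ := by
  obtain ⟨r, hr, h1⟩ := Metric.nhds_basis_closedBall.mem_iff.1 (hU.mem_nhds hz)
  have hr2 : 0 < r / 2 := half_pos hr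
  have h2 : ∀ᶠ y in 𝓝 z₀, Ba_q y z₀ < (r / 2) ^ 2 := by
    have hc : Continuous fun y : Cn n => Ba_q y z₀ := by
      unfold Ba_q
      fun_prop
    exact hc.continuousAt.eventually (gt_mem_nhds (by simp only [Ba_self]; positivity))
  filter_upwards [h2] with y hy
  by_contra hne
  have hK : IsCompact (Metric.closedBall z₀ r ∩ f ⁻¹' {f z₀}) :=
    (isCompact_closedBall z₀ r).of_isClosed_subset
      ((hf.continuousOn.mono h1).preimage_isClosed_of_isClosed Metric.isClosed_closedBall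
        isClosed_singleton) inter_subset_left
  have h0 : z₀ ∈ Metric.closedBall z₀ r ∩ f ⁻¹' {f z₀} := ⟨Metric.mem_closedBall_self hr.le, rfl⟩
  obtain ⟨p, hp, h3⟩ := hK.exists_isMinOn ⟨z₀, h0⟩ (f := Ba_q y)
    fun z _ => (Ba_sm y z).continuousAt.continuousWithinAt
  have hp2 : f p = f z₀ := hp.2
  have h4 : Ba_q y p ≤ Ba_q y z₀ := h3 h0
  refine Ba_hopf hU hG hG' hf h (y := y) (h1 hp.1) (fun e => hne (e ▸ hp2))
    (fun z hz => hp2 ▸ hm z hz) fun z hz => ?_
  have h5 : z ∈ Metric.closedBall z₀ r := by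
    have h6 := Ba_norm hr2 (hz.trans (h4.trans_lt hy))
    have h7 := Ba_norm hr2 hy
    rw [← dist_eq_norm] at h6 h7
    have h8 := dist_triangle_right z z₀ y
    rw [Metric.mem_closedBall]
    linarith
  rw [hp2]
  refine lt_of_le_of_ne (hm z (h1 h5)) fun e => ?_
  have h6 : Ba_q y p ≤ Ba_q y z := h3 ⟨h5, e⟩
  linarith

end Vale.Agent.P299
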