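import Vale.Agent.P299.HDefs
import Vale.Agent.P278F.Osg

/-! P299 HG: limits of difference quotients.
`montel_u`: `u z = lim`, bounded sets are relatively compact (`IsCompact.ultrafilter_le_nhds`); `L = lim fderiv (f k) z` (`P278F.norm_fderiv_le`), pass to the limit in
`P278F.second_order`, `P278F.hasFDerivAt_of_sq`, `analyticOnNhd_of_differentiableOn`; moving points by `P278F.norm_sub_le_of_bound`.
`quot_lim`: `HasFDerivAt.isLittleO` composed with `w k → w₀`, where `w k - w₀ = O (δ k)`.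
`disp`: the displacement is continuous on each closed ball (`HMap.hol`), take a maximum over the balls and over `i`; it is positive by `cov` and injectivity of the chart. -/

open MeasureTheory Set Filter Topology Matrix Metric
open scoped ContDiff ENNReal ComplexConjugate ComplexOrder

noncomputable section

namespace Vale.Agent.P299

open Vale.Agent.P271 Vale.Agent.P272

theorem HG_lim {G ι : Type} [NormedAddCommGroup G] [NormedSpace ℂ G] [FiniteDimensional ℂ G]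
    (𝒰 : Ultrafilter ι) {a : ι → G} {C : ℝ} (h : ∀ k, ‖a k‖ ≤ C) : ∃ x, Tendsto a 𝒰 (𝓝 x) := by
  have := FiniteDimensional.proper ℂ G
  obtain ⟨x, -, hx⟩ := (isCompact_closedBall (0 : G) C).ultrafilter_le_nhds (𝒰.map a)
    (le_principal_iff.2 (mem_map.2 (univ_mem' fun k => mem_closedBall_zero_iff.2 (h k))))
  exact ⟨x, hx⟩

theorem montel_u {E F ι : Type} [NormedAddCommGroup E] [NormedSpace ℂ E] [FiniteDimensional ℂ E]
    [NormedAddCommGroup F] [NormedSpace ℂ F] [FiniteDimensional ℂ F] (𝒰 : Ultrafilter ι)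
    {f : ι → E → F} {U : Set E} (hU : IsOpen U) {C : ℝ} (hf : ∀ k, DifferentiableOn ℂ (f k) U)
    (hb : ∀ k, ∀ z ∈ U, ‖f k z‖ ≤ C) : ∃ u, AnalyticOnNhd ℂ u U ∧
      ∀ z ∈ U, ∀ w : ι → E, Tendsto w 𝒰 (𝓝 z) → Tendsto (fun k => f k (w k)) 𝒰 (𝓝 (u z)) := by
  have : CompleteSpace F := FiniteDimensional.complete ℂ F
  have h1 : ∀ z, ∃ y, z ∈ U → Tendsto (fun k => f k z) 𝒰 (𝓝 y) := fun z => by
    by_cases hz : z ∈ U
    · obtain ⟨y, hy⟩ := HG_lim 𝒰 fun k => hb k z hz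
      exact ⟨y, fun _ => hy⟩
    · exact ⟨0, fun h => absurd h hz⟩
  choose u hu using h1
  refine ⟨u, P278F.analyticOnNhd_of_differentiableOn hU fun z hz => ?_, fun z hz w hw => ?_⟩
  · obtain ⟨R, hR, hRU⟩ := Metric.isOpen_iff.1 hU z hz
    obtain ⟨L, hL⟩ := HG_lim 𝒰 (a := fun k => fderiv ℂ (f k) z) fun k =>
      P278F.norm_fderiv_le hR ((hf k).mono hRU) fun x hx => hb k x (hRU hx)
    refine (P278F.hasFDerivAt_of_sq (L := L) (C := 4 * C / R ^ 2) hR
      fun x hx => ?_).differentiableAt.differentiableWithinAt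
    have h2 : Tendsto (fun k => fderiv ℂ (f k) z (x - z)) 𝒰 (𝓝 (L (x - z))) :=
      ((ContinuousLinearMap.apply ℂ F (x - z)).continuous.tendsto L).comp hL
    exact le_of_tendsto' (((hu x (hRU hx)).sub (hu z hz)).sub h2).norm fun k =>
      P278F.second_order ((hf k).mono hRU) (fun x hx => hb k x (hRU hx)) hx
  · obtain ⟨R, hR, hRU⟩ := Metric.isOpen_iff.1 hU z hz
    have h2 : Tendsto (fun k => f k (w k) - f k z) 𝒰 (𝓝 0) := by
      have h3 : Tendsto (fun k => 2 * C / R * ‖w k - z‖) 𝒰 (𝓝 0) := by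
        simpa using (tendsto_iff_norm_sub_tendsto_zero.1 hw).const_mul (2 * C / R)
      refine squeeze_zero_norm' ?_ h3
      filter_upwards [hw (ball_mem_nhds z hR)] with k hk
      exact P278F.norm_sub_le_of_bound ((hf k).mono hRU) (fun x hx => hb k x (hRU hx)) hk
    simpa using h2.add (hu z hz)

theorem quot_lim {E F ι : Type} [NormedAddCommGroup E] [NormedSpace ℂ E] [NormedAddCommGroup F]
    [NormedSpace ℂ F] {l : Filter ι} {τ : E → F} {w₀ v : E} (hτ : DifferentiableAt ℂ τ w₀)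
    {δ : ι → ℝ} (h0 : ∀ k, 0 < δ k) (hδ : Tendsto δ l (𝓝 0)) {w : ι → E}
    (h : Tendsto (fun k => ((δ k : ℂ))⁻¹ • (w k - w₀)) l (𝓝 v)) :
    Tendsto (fun k => ((δ k : ℂ))⁻¹ • (τ (w k) - τ w₀)) l (𝓝 (fderiv ℂ τ w₀ v)) := by
  have hne : ∀ k, (δ k : ℂ) ≠ 0 := fun k => Complex.ofReal_ne_zero.2 (h0 k).ne'
  have hδ' : Tendsto (fun k => (δ k : ℂ)) l (𝓝 0) := by
    have h1 := (Complex.continuous_ofReal.tendsto 0).comp hδ
    rw [Complex.ofReal_zero] at h1
    exact h1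
  have hw : Tendsto w l (𝓝 w₀) := by
    have h1 := (hδ'.smul h).add_const w₀
    simp only [smul_inv_smul₀ (hne _), sub_add_cancel, zero_smul, zero_add] at h1
    exact h1
  have h1 := (hτ.hasFDerivAt.isLittleO.comp_tendsto hw)
  have h2 : (fun k => ((δ k : ℂ))⁻¹ • (τ (w k) - τ w₀ - fderiv ℂ τ w₀ (w k - w₀))) =o[l]
      fun k => ((δ k : ℂ))⁻¹ • (w k - w₀) :=
    (Asymptotics.isBigO_refl (fun k => ((δ k : ℂ))⁻¹) l).smul_isLittleO h1
  have h3 := (h2.trans_isBigO (h.isBigO_one ℝ))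
  rw [Asymptotics.isLittleO_one_iff] at h3
  have h4 := h3.add (((fderiv ℂ τ w₀).continuous.tendsto v).comp h)
  rw [zero_add] at h4
  refine h4.congr fun k => ?_
  simp only [Function.comp_apply, map_smul, ← smul_add, sub_add_cancel]

variable {d : ℕ} {Y : Type} [TopologicalSpace Y] {c : CA d Y} {g : Y → Cn d → Mx d}

theorem FC.disp (F : FC c) {ε : ℝ} {f : Y → Y} (hf : HMap c f) (h : F.Cl ε f) (hp : ∃ p, f p ≠ p) :
    ∃ δ, 0 < δ ∧ δ ≤ ε ∧ F.Cl δ f ∧ ∃ i, ∃ w ∈ closedBall (c.c (F.y i) (F.y i)) (2 * F.r i),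
      ‖c.loc (F.y i) (F.y i) f w - w‖ = δ := by
  obtain ⟨p, hp⟩ := hp
  obtain ⟨i₀, hi₀, hb₀⟩ := F.cov p
  have : Nonempty (Fin F.N) := ⟨i₀⟩
  have h1 : ∀ i, ∃ w ∈ closedBall (c.c (F.y i) (F.y i)) (2 * F.r i),
      IsMaxOn (fun w => ‖c.loc (F.y i) (F.y i) f w - w‖)
        (closedBall (c.c (F.y i) (F.y i)) (2 * F.r i)) w := fun i => by
    refine (isCompact_closedBall _ _).exists_isMaxOn
      (nonempty_closedBall.2 (by linarith [F.pos i])) fun w hw => ?_
    have ht := F.sub i hw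
    have h2 := hf.hol (F.y i) (F.y i) _ ((c.c (F.y i)).map_target ht) (h i w hw).1
    rw [(c.c (F.y i)).right_inv ht] at h2
    exact (h2.continuousAt.sub continuousAt_id).norm.continuousWithinAt
  choose w hw hm using h1
  obtain ⟨i, hi⟩ := Finite.exists_max fun i => ‖c.loc (F.y i) (F.y i) f (w i) - w i‖
  refine ⟨_, ?_, (h i _ (hw i)).2, fun j x hx => ⟨(h j x hx).1, (hm j hx).trans (hi j)⟩,
    i, w i, hw i, rfl⟩
  have hx : c.c (F.y i₀) p ∈ closedBall (c.c (F.y i₀) (F.y i₀)) (2 * F.r i₀) :=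
    ball_subset_closedBall (ball_subset_ball (by linarith [F.pos i₀]) hb₀)
  refine lt_of_lt_of_le ?_ ((hm i₀ hx).trans (hi i₀))
  have h2 := (h i₀ _ hx).1
  rw [(c.c (F.y i₀)).left_inv hi₀] at h2
  refine norm_pos_iff.2 (sub_ne_zero.2 fun e => hp ?_)
  rw [CA.loc, (c.c (F.y i₀)).left_inv hi₀] at e
  exact (c.c (F.y i₀)).injOn h2 hi₀ e

end Vale.Agent.P299
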