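import Vale.Agent.P299.Fock

/-! P299, part A: the endomorphism of a polyvector. -/

open MeasureTheory Set Filter Topology Matrix
open scoped ContDiff ENNReal ComplexConjugate ComplexOrder

noncomputable section

namespace Vale.Agent.P299

variable {ι : Type} [Fintype ι] [LinearOrder ι]

/-- The endomorphism of a polyvector. -/
def ABm (g : Matrix ι ι ℂ) (u : W ι) : Matrix ι ι ℂ :=
  Matrix.of fun j l => star (an l *ᵥ Gm g *ᵥ u) ⬝ᵥ an j *ᵥ u

theorem A1_ctr (ξ : ι → ℂ) (u : W ι) : ctr ξ *ᵥ u = ∑ j, ξ j • (an j *ᵥ u) := by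
  simp only [ctr, sum_mulVec, smul_mulVec]

theorem ABm_dot0 (g : Matrix ι ι ℂ) (u : W ι) (ξ v : ι → ℂ) :
    ξ ⬝ᵥ ABm g u *ᵥ v = star (ctr (star v) *ᵥ Gm g *ᵥ u) ⬝ᵥ ctr ξ *ᵥ u := by
  rw [A1_ctr, A1_ctr, star_sum, sum_dotProduct]
  simp only [dotProduct_sum, star_smul, smul_dotProduct, dotProduct_smul, smul_eq_mul,
    Pi.star_apply, star_star]
  rw [Finset.sum_comm, dotProduct]
  refine Finset.sum_congr rfl fun j _ => ?_
  rw [mulVec, dotProduct, Finset.mul_sum]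
  refine Finset.sum_congr rfl fun l _ => ?_
  rw [ABm, of_apply]
  ring

theorem ABm_dot {g : Matrix ι ι ℂ} (hg : g.IsHermitian) (u : W ι) (ξ v : ι → ℂ) :
    ξ ⬝ᵥ ABm g u *ᵥ v = star (ctr (star (g *ᵥ v)) *ᵥ u) ⬝ᵥ Gm g *ᵥ ctr ξ *ᵥ u := by
  rw [ABm_dot0, mulVec_mulVec, ctr_Gm, ← mulVec_mulVec, star_mulVec (Gm g), ← Gm_star, hg.eq,
    ← dotProduct_mulVec, star_mulVec g, hg.eq]

theorem ABm_kill (g : Matrix ι ι ℂ) {θ : Matrix ι ι ℂ} {u : W ι} (h : Kill θ u) :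
    θ * ABm g u = 0 := by
  ext k l
  have e := ABm_dot0 g u (θ k) (Pi.single l 1)
  rw [h k, dotProduct_zero, mulVec_single_one] at e
  exact e

theorem ABm_form {g : Matrix ι ι ℂ} (hg : g.IsHermitian) (u : W ι) (ξ v : ι → ℂ) :
    star ξ ⬝ᵥ (g * ABm g u) *ᵥ v =
      star (ctr (star (g *ᵥ v)) *ᵥ u) ⬝ᵥ Gm g *ᵥ ctr (star (g *ᵥ ξ)) *ᵥ u := by
  rw [← ABm_dot hg, ← mulVec_mulVec, dotProduct_mulVec, star_mulVec g, hg.eq]

theorem A1_entry (H : Matrix ι ι ℂ) (j k : ι) :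
    H j k = star (Pi.single j 1 : ι → ℂ) ⬝ᵥ H *ᵥ Pi.single k 1 := by
  rw [mulVec_single_one, ← Pi.single_star, star_one, single_one_dotProduct]
  rfl

theorem ABm_psd {g : Matrix ι ι ℂ} (hg : g.PosSemidef) (u : W ι) : (g * ABm g u).PosSemidef := by
  have hG := Gm_psd hg
  refine posSemidef_iff_dotProduct_mulVec.2 ⟨?_, fun ξ => ?_⟩
  · ext j k
    rw [conjTranspose_apply, A1_entry (g * ABm g u) k j, A1_entry (g * ABm g u) j k, ABm_form hg.1,
      ABm_form hg.1,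
      star_dotProduct, star_star, star_mulVec (Gm g), hG.1.eq, ← dotProduct_mulVec]
  · rw [ABm_form hg.1]
    exact hG.dotProduct_mulVec_nonneg _

theorem ABm_le {g : Matrix ι ι ℂ} (hg : g.PosDef) (u : W ι) (ξ : ι → ℂ) :
    q2 (g * ABm g u) ξ ≤ q2 (Gm g) u * q2 g ξ := by
  have h := q2_ctr_le hg (star (g *ᵥ ξ)) u
  have hu := (isUnit_iff_isUnit_det _).1 hg.isUnit
  have e : q2 g⁻¹ (g *ᵥ ξ) = q2 g ξ := by
    rw [← Fock_q2_conj, hg.1.eq, mul_nonsing_inv _ hu, Matrix.one_mul]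
  rw [star_star, e, mul_comm] at h
  rw [q2, ABm_form hg.1]
  exact h

theorem ABm_ker {κ : Type} [Fintype κ] {g : Matrix ι ι ℂ} (hg : g.PosDef) (u : κ → W ι)
    {ξ : ι → ℂ} (h : ξ ᵥ* ∑ i, ABm g (u i) = 0) (i : κ) : ctr ξ *ᵥ u i = 0 := by
  have hu := (isUnit_iff_isUnit_det _).1 hg.isUnit
  have hG := Gm_posDef hg
  have e : star (g *ᵥ g⁻¹ *ᵥ star ξ) = ξ := by
    rw [mulVec_mulVec, mul_nonsing_inv _ hu, one_mulVec, star_star]
  have h1 : ξ ⬝ᵥ (∑ i, ABm g (u i)) *ᵥ g⁻¹ *ᵥ star ξ = 0 := by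
    rw [dotProduct_mulVec, h, zero_dotProduct]
  simp only [sum_mulVec, dotProduct_sum, ABm_dot hg.1, e] at h1
  have h2 := (Finset.sum_eq_zero_iff_of_nonneg fun i _ =>
    hG.posSemidef.dotProduct_mulVec_nonneg _).1 h1 i (Finset.mem_univ i)
  by_contra h3
  exact (hG.dotProduct_mulVec_pos h3).ne' h2

theorem A1_diag (H : Matrix ι ι ℂ) (j : ι) : q2 H (Pi.single j 1) = (H j j).re := by
  rw [q2, ← A1_entry]

/-- Entries of a nonnegative matrix that is bounded by `c g`. -/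
theorem A1_bound {g H : Matrix ι ι ℂ} (hH : H.PosSemidef) {c : ℝ}
    (h : ∀ ξ, q2 H ξ ≤ c * q2 g ξ) (j k : ι) : ‖H j k‖ ≤ |c| * ∑ l, ‖g l l‖ := by
  have h1 : ∀ j, (H j j).re ≤ |c| * ∑ l, ‖g l l‖ := fun j => by
    have h2 := h (Pi.single j 1)
    rw [A1_diag, A1_diag] at h2
    refine h2.trans ((le_abs_self _).trans ?_)
    rw [abs_mul]
    exact mul_le_mul_of_nonneg_left ((Complex.abs_re_le_norm _).trans
      (Finset.single_le_sum (f := fun l => ‖g l l‖) (fun _ _ => norm_nonneg _)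
        (Finset.mem_univ j))) (abs_nonneg c)
  obtain ⟨b, rfl⟩ := Fock_sq hH
  have h3 := Fock_cs (b *ᵥ Pi.single j 1) (b *ᵥ Pi.single k 1)
  rw [← Fock_q2_sq, ← Fock_q2_sq, A1_diag, A1_diag, star_mulVec, ← dotProduct_mulVec,
    mulVec_mulVec, ← A1_entry] at h3
  have h0 : 0 ≤ |c| * ∑ l, ‖g l l‖ := by positivity
  refine (pow_le_pow_iff_left₀ (norm_nonneg _) h0 two_ne_zero).1 (h3.trans ?_)
  rw [sq]
  refine mul_le_mul (h1 j) (h1 k) ?_ h0
  rw [← A1_diag]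
  exact Fock_q2_nonneg hH _

omit [LinearOrder ι] in
theorem A1_closed : IsClosed {H : Matrix ι ι ℂ | H.PosSemidef} := by
  simp only [posSemidef_iff_dotProduct_mulVec, ofPred_and, ofPred_forall]
  refine (isClosed_eq continuous_id.matrix_conjTranspose continuous_id).inter
    (isClosed_iInter fun ξ => isClosed_le continuous_const ?_)
  exact continuous_const.dotProduct (continuous_id.matrix_mulVec continuous_const)

end Vale.Agent.P299
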