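import Vale.Agent.P299.D2

/-!
P299, part D: exterior products of lists. `wdg_wdg`, `ctr_wdg` from `cr_cr`, `an_cr`; the rest by induction on the list.
`wl_ne`: take a linear form that is one on the head and zero on the tail (`LinearIndependent.notMem_span_image`,
`Submodule.exists_dual_map_eq_bot_of_notMem`, or `LinearMap.exists_extend`), write it as `ξ ⬝ᵥ ·`, apply `ctr ξ`. `wl_q2`: `q2_wdg_le`, `Dg.q2_zero`.
-/

open MeasureTheory Set Filter Topology Matrix
open scoped ContDiff ENNReal ComplexConjugate ComplexOrder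

noncomputable section

namespace Vale.Agent.P299.PD

open Vale.Agent.P271A

variable {ι : Type} [Fintype ι] [LinearOrder ι]

theorem wdg_wdg (a b : ι → ℂ) : wdg a * wdg b = -(wdg b * wdg a) := by
  simp only [wdg, Finset.sum_mul, Finset.mul_sum, smul_mul_smul_comm, ← Finset.sum_neg_distrib]
  rw [Finset.sum_comm]
  refine Finset.sum_congr rfl fun i _ => Finset.sum_congr rfl fun j _ => ?_
  rw [cr_cr i j, smul_neg, mul_comm (a i)]

theorem wdg_self (a : ι → ℂ) : wdg a * wdg a = 0 := by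
  have h : (2 : ℂ) • (wdg a * wdg a) = 0 := by
    rw [two_smul]
    exact add_eq_zero_iff_eq_neg.2 (wdg_wdg a a)
  exact (smul_eq_zero.1 h).resolve_left two_ne_zero

theorem ctr_wdg (ξ a : ι → ℂ) : ctr ξ * wdg a = (ξ ⬝ᵥ a) • 1 - wdg a * ctr ξ := by
  rw [eq_sub_iff_add_eq]
  have h1 : ctr ξ * wdg a = ∑ i, ∑ j, (ξ i * a j) • (an i * cr j) := by
    simp only [ctr, wdg, Finset.sum_mul_sum, smul_mul_smul_comm]
  have h2 : wdg a * ctr ξ = ∑ i, ∑ j, (ξ i * a j) • (cr j * an i) := by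
    simp only [ctr, wdg, Finset.sum_mul_sum, smul_mul_smul_comm]
    rw [Finset.sum_comm]
    simp only [mul_comm]
  rw [h1, h2, ← Finset.sum_add_distrib, dotProduct, Finset.sum_smul]
  refine Finset.sum_congr rfl fun i _ => ?_
  rw [← Finset.sum_add_distrib]
  simp only [← smul_add, an_cr]
  rw [Finset.sum_eq_single i (fun j _ hj => by rw [if_neg hj.symm, smul_zero])
    (fun h => (h (Finset.mem_univ _)).elim), if_pos rfl]

theorem wdg_smul (c : ℂ) (a : ι → ℂ) : wdg (c • a) = c • wdg a := by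
  simp only [wdg, Finset.smul_sum, smul_smul, Pi.smul_apply, smul_eq_mul]

theorem wdg_sum {α : Type} (s : Finset α) (a : α → ι → ℂ) :
    wdg (∑ i ∈ s, a i) = ∑ i ∈ s, wdg (a i) := by
  simp only [wdg, Finset.sum_apply, Finset.sum_smul]
  rw [Finset.sum_comm]

theorem wl_mem {a : ι → ℂ} {l : List (ι → ℂ)} (h : a ∈ l) : wdg a *ᵥ wl l = 0 := by
  induction l with
  | nil => cases h
  | cons b l ih =>
    rw [wl, mulVec_mulVec]
    rcases List.mem_cons.1 h with rfl | h
    · rw [wdg_self, zero_mulVec]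
    · rw [wdg_wdg, neg_mulVec, ← mulVec_mulVec, ih h, mulVec_zero, neg_zero]

theorem D3_vac : Dg 0 (Pi.single ∅ 1 : W ι) := fun _ hI =>
  Pi.single_eq_of_ne (mt Finset.card_eq_zero.2 hI) _

theorem D3_ctr (ξ a : ι → ℂ) (u : W ι) :
    ctr ξ *ᵥ wdg a *ᵥ u = (ξ ⬝ᵥ a) • u - wdg a *ᵥ ctr ξ *ᵥ u := by
  rw [mulVec_mulVec, ctr_wdg, sub_mulVec, smul_mulVec, one_mulVec, ← mulVec_mulVec]

theorem wl_ctr {ξ : ι → ℂ} {l : List (ι → ℂ)} (h : ∀ a ∈ l, ξ ⬝ᵥ a = 0) : ctr ξ *ᵥ wl l = 0 := by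
  induction l with
  | nil => exact D3_vac.ctr_zero ξ
  | cons b l ih =>
    rw [wl, D3_ctr, h b List.mem_cons_self, ih fun a ha => h a (List.mem_cons_of_mem _ ha),
      zero_smul, mulVec_zero, sub_zero]

theorem wl_kill {θ : Matrix ι ι ℂ} {l : List (ι → ℂ)} (h : ∀ a ∈ l, θ *ᵥ a = 0) :
    dG θ *ᵥ wl l = 0 := by
  have e : dG θ = ∑ j, cr j * ctr (θ j) := by
    simp only [dG, ctr, Finset.mul_sum, mul_smul_comm]
  rw [e, sum_mulVec]
  refine Finset.sum_eq_zero fun j _ => ?_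
  rw [← mulVec_mulVec, wl_ctr fun a ha => congrFun (h a ha) j, mulVec_zero]

theorem D3_form {α : Type} {v : α → ι → ℂ} (hv : LinearIndependent ℂ v) (a : α) :
    ∃ ξ : ι → ℂ, ξ ⬝ᵥ v a ≠ 0 ∧ ∀ b, b ≠ a → ξ ⬝ᵥ v b = 0 := by
  have h := hv.notMem_span_image (s := {b | b ≠ a}) (x := a) (by simp)
  obtain ⟨f, hf, hb⟩ := Submodule.exists_dual_map_eq_bot_of_notMem h inferInstance
  have e : ∀ w : ι → ℂ, (fun j => f (Pi.single j 1)) ⬝ᵥ w = f w := fun w => by
    rw [LinearMap.pi_apply_eq_sum_univ f w, dotProduct]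
    refine Finset.sum_congr rfl fun j _ => ?_
    rw [smul_eq_mul, mul_comm]
    congr 2
    funext k
    rw [Pi.single_apply]
    simp only [eq_comm]
  refine ⟨fun j => f (Pi.single j 1), by rwa [e], fun b hb' => ?_⟩
  rw [e, ← Submodule.mem_bot ℂ, ← hb]
  exact Submodule.mem_map_of_mem (Submodule.subset_span ⟨b, hb', rfl⟩)

theorem wl_ne {α : Type} {v : α → ι → ℂ} (hv : LinearIndependent ℂ v) {L : List α}
    (hL : L.Nodup) : wl (L.map v) ≠ 0 := by
  induction L with
  | nil =>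
    intro h
    have := congrFun h ∅
    simp [wl] at this
  | cons a L ih =>
    obtain ⟨ha, hL'⟩ := List.nodup_cons.1 hL
    obtain ⟨ξ, h1, h2⟩ := D3_form hv a
    intro h
    have h3 : ctr ξ *ᵥ wl (L.map v) = 0 := wl_ctr fun w hw => by
      obtain ⟨b, hb, rfl⟩ := List.mem_map.1 hw
      exact h2 b fun e => ha (e ▸ hb)
    have h4 := D3_ctr ξ (v a) (wl (L.map v))
    rw [List.map_cons, wl] at h
    rw [h, h3, mulVec_zero, mulVec_zero, sub_zero] at h4
    exact ih hL' ((smul_eq_zero.1 h4.symm).resolve_left h1)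

theorem wl_q2 {g : Matrix ι ι ℂ} (hg : g.PosDef) (l : List (ι → ℂ)) :
    q2 (Gm g) (wl l) ≤ (l.map (q2 g)).prod := by
  induction l with
  | nil =>
    rw [wl, D3_vac.q2_zero]
    simp
  | cons a l ih =>
    rw [wl, List.map_cons, List.prod_cons]
    exact (q2_wdg_le hg a _).trans
      (mul_le_mul_of_nonneg_left ih (q2_nonneg hg.posSemidef a))

theorem wl_hol {n : ℕ} {Y : Type} [TopologicalSpace Y] [MeasurableSpace Y] {D : RD n Y} {α : Type}
    {u : α → Y → ι → ℂ} {L : List α} (h : ∀ a ∈ L, HolW D (u a)) :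
    HolW D fun y => wl (L.map fun a => u a y) := by
  have hc : ∀ c : ℂ, D.Hol fun _ => c := fun c y => differentiableAt_const c
  induction L with
  | nil => exact fun I => hc _
  | cons a L ih =>
    intro I
    have h1 := ih fun b hb => h b (List.mem_cons_of_mem _ hb)
    have h2 := h a List.mem_cons_self
    have e : (fun y => wl ((a :: L).map fun a => u a y) I) =
        fun y => ∑ J, (∑ j, u a y j * cr j I J) * wl (L.map fun a => u a y) J := by
      funext y
      simp only [List.map_cons, wl, mulVec, dotProduct, wdg, Matrix.sum_apply, Matrix.smul_apply,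
        smul_eq_mul]
    rw [e]
    exact RD.Hol.sum _ fun J _ => (RD.Hol.sum _ fun j _ => (h2 j).mul (hc _)).mul (h1 J)

end Vale.Agent.P299.PD
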