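import Vale.Agent.P299.Fock
import Vale.Agent.P271A.Basic

/-! P299: calculus of forms on a Riemann domain. -/

open MeasureTheory Set Filter Topology Matrix
open scoped ContDiff ENNReal ComplexConjugate ComplexOrder

noncomputable section

namespace Vale.Agent.P299

open Vale.Agent.P271A

variable {n N : ℕ} {Y : Type} [TopologicalSpace Y] [T2Space Y] [SecondCountableTopology Y]
  [MeasurableSpace Y] [BorelSpace Y] {D : RD n Y}

set_option linter.unusedSectionVars false

theorem q2_LMd (φ : Y → ℝ) (y : Y) (v : Fin n → ℂ) : q2 (LMd D φ y) v = D.levi φ y v := by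
  unfold q2 RD.levi
  congr 1
  simp only [dotProduct, mulVec, LMd, of_apply, Pi.star_apply, Finset.mul_sum]
  rw [Finset.sum_comm]
  refine Finset.sum_congr rfl fun j _ => Finset.sum_congr rfl fun k _ => ?_
  rw [Complex.star_def]
  ring

theorem LMd_herm {φ : Y → ℝ} (hφ : D.SmR φ) (y : Y) : (LMd D φ y).IsHermitian := by
  ext j k
  simp only [conjTranspose_apply, LMd, of_apply, Complex.star_def]
  rw [RD.conj_dz]
  simp only [RD.conj_db_real]
  exact RD.dX_comm hφ y

theorem LMd_psd {φ : Y → ℝ} (hφ : D.SmR φ) {y : Y} :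
    (LMd D φ y).PosSemidef ↔ ∀ v, 0 ≤ D.levi φ y v := by
  rw [posSemidef_iff_dotProduct_mulVec, and_iff_right (LMd_herm hφ y)]
  refine forall_congr' fun v => ?_
  rw [← q2_LMd, q2, Complex.nonneg_iff]
  exact and_iff_left ((LMd_herm hφ y).im_star_dotProduct_mulVec_self v).symm

theorem LMd_add {φ ψ : Y → ℝ} (hφ : D.SmR φ) (hψ : D.SmR ψ) (a b : ℝ) (y : Y) :
    LMd D (fun p => a * φ p + b * ψ p) y = (a : ℂ) • LMd D φ y + (b : ℂ) • LMd D ψ y := by
  ext j k
  have e : (D.db j fun p => ((a * φ p + b * ψ p : ℝ) : ℂ)) =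
      fun p => (a : ℂ) * D.db j (fun p => (φ p : ℂ)) p + (b : ℂ) * D.db j (fun p => (ψ p : ℂ)) p := by
    funext p
    simp only [Complex.ofReal_add, Complex.ofReal_mul, RD.db]
    rw [RD.dX_add ((RD.sm_const _).mul hφ) ((RD.sm_const _).mul hψ), RD.dX_const_mul hφ,
      RD.dX_const_mul hψ]
  simp only [LMd, of_apply, Matrix.add_apply, Matrix.smul_apply, smul_eq_mul]
  rw [e]
  simp only [RD.dz]
  rw [RD.dX_add ((RD.sm_const _).mul (RD.Sm.db hφ j)) ((RD.sm_const _).mul (RD.Sm.db hψ j)),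
    RD.dX_const_mul (RD.Sm.db hφ j), RD.dX_const_mul (RD.Sm.db hψ j)]

theorem sm_LMd {φ : Y → ℝ} (hφ : D.SmR φ) (j k : Fin n) : D.Sm fun y => LMd D φ y j k :=
  (RD.Sm.db hφ j).dz k

theorem m1a_prod {κ : Type} (s : Finset κ) {F : κ → Y → ℂ} (hF : ∀ i ∈ s, D.Sm (F i)) :
    D.Sm fun y => ∏ i ∈ s, F i y := by
  classical
  induction s using Finset.induction_on with
  | empty => simpa using RD.sm_const 1
  | insert i s hi ih =>
    simp only [Finset.prod_insert hi]
    exact (hF i (Finset.mem_insert_self _ _)).mul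
      (ih fun j hj => hF j (Finset.mem_insert_of_mem hj))

theorem m1a_det {κ : Type} [Fintype κ] [DecidableEq κ] {g : Y → Matrix κ κ ℂ}
    (hg : ∀ j k, D.Sm fun y => g y j k) : D.Sm fun y => (g y).det := by
  simp only [det_apply']
  exact RD.Sm.sum _ fun σ _ => (RD.sm_const _).mul (m1a_prod _ fun i _ => hg _ _)

theorem sm_inv {κ : Type} [Fintype κ] [DecidableEq κ] {g : Y → Matrix κ κ ℂ}
    (hg : ∀ j k, D.Sm fun y => g y j k) (h : ∀ y, IsUnit (g y).det) (j k : κ) :
    D.Sm fun y => (g y)⁻¹ j k := by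
  simp only [inv_def, Matrix.smul_apply, smul_eq_mul, Ring.inverse_eq_inv', adjugate_apply]
  refine RD.Sm.mul ((m1a_det hg).comp (G := fun z => z⁻¹) fun y => ?_) (m1a_det fun a b => ?_)
  · exact (contDiffAt_inv ℂ (h y).ne_zero).restrict_scalars ℝ
  · simp only [updateRow_apply]
    split_ifs
    · exact RD.sm_const _
    · exact hg a b

/-- The derivative of a vector valued function. -/
def m1aV (D : RD n Y) {κ : Type} (ξ : E n × E n) (v : Y → κ → ℂ) (y : Y) : κ → ℂ :=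
  fun I => D.dX ξ (fun p => v p I) y

section Vec

variable {κ κ' : Type} [Fintype κ] {u w : Y → κ → ℂ}

theorem m1a_smV (hu : SmW D u) (ξ : E n × E n) : SmW D (m1aV D ξ u) := fun I => (hu I).dX ξ

theorem m1a_sm_mv (A : Matrix κ' κ ℂ) (hu : SmW D u) : SmW D fun p => A *ᵥ u p := fun _ =>
  RD.Sm.sum _ fun J _ => (RD.sm_const _).mul (hu J)

theorem m1a_V_mv (A : Matrix κ' κ ℂ) (hu : SmW D u) (ξ : E n × E n) (y : Y) :
    m1aV D ξ (fun p => A *ᵥ u p) y = A *ᵥ m1aV D ξ u y := by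
  funext I
  simp only [m1aV, mulVec, dotProduct]
  rw [RD.dX_sum _ fun J _ => (RD.sm_const _).mul (hu J)]
  exact Finset.sum_congr rfl fun J _ => RD.dX_const_mul (hu J) _ _

theorem m1a_sm_smul {f : Y → ℂ} (hf : D.Sm f) (hu : SmW D u) : SmW D fun p => f p • u p :=
  fun I => hf.mul (hu I)

theorem m1a_V_smul {f : Y → ℂ} (hf : D.Sm f) (hu : SmW D u) (ξ : E n × E n) (y : Y) :
    m1aV D ξ (fun p => f p • u p) y = D.dX ξ f y • u y + f y • m1aV D ξ u y :=
  funext fun I => RD.dX_mul hf (hu I) y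

theorem m1a_sm_sum {ι : Type} (s : Finset ι) {F : ι → Y → κ → ℂ} (hF : ∀ i ∈ s, SmW D (F i)) :
    SmW D fun p => ∑ i ∈ s, F i p := fun I => by
  simp only [Finset.sum_apply]
  exact RD.Sm.sum _ fun i hi => hF i hi I

theorem m1a_V_sum {ι : Type} (s : Finset ι) {F : ι → Y → κ → ℂ} (hF : ∀ i ∈ s, SmW D (F i))
    (ξ : E n × E n) (y : Y) :
    m1aV D ξ (fun p => ∑ i ∈ s, F i p) y = ∑ i ∈ s, m1aV D ξ (F i) y := by
  funext I
  simp only [m1aV, Finset.sum_apply]
  exact RD.dX_sum _ (fun i hi => hF i hi I) y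

end Vec

section Gm

variable {ι : Type} [Fintype ι] [LinearOrder ι]

theorem m1a_wdg_single (j : ι) : wdg (Pi.single j (1 : ℂ)) = cr j := by
  unfold wdg
  rw [Finset.sum_eq_single j]
  · simp
  · intro k _ hk
    simp [hk]
  · simp

theorem m1a_wdg_mv (ξ : ι → ℂ) (v : W ι) : wdg ξ *ᵥ v = ∑ k, ξ k • (cr k *ᵥ v) := by
  simp only [wdg, sum_mulVec, smul_mulVec]

theorem m1a_Gm_cr (g : Matrix ι ι ℂ) (j : ι) : Gm g * cr j = wdg (fun k => g k j) * Gm g := by
  rw [← m1a_wdg_single, Gm_wdg, mulVec_single_one]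
  rfl

theorem m1a_dG_cr (h : Matrix ι ι ℂ) (j : ι) :
    dG h * cr j = wdg (fun k => h k j) + cr j * dG h := by
  have e : ∀ a b : ι, cr a * an b * cr j = (if b = j then cr a else 0) + cr j * (cr a * an b) :=
    fun a b => by
    rw [Matrix.mul_assoc, eq_sub_of_add_eq (an_cr b j), Matrix.mul_sub, ← Matrix.mul_assoc,
      cr_cr a j, ← Matrix.mul_assoc]
    split_ifs <;> simp
  simp only [dG, wdg, Finset.sum_mul, Finset.mul_sum, Matrix.smul_mul, Matrix.mul_smul, e, smul_add,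
    Finset.sum_add_distrib, smul_ite, smul_zero, Finset.sum_ite_eq', Finset.mem_univ, if_true]

theorem m1a_col (A : Matrix (Finset ι) (Finset ι) ℂ) (J I : Finset ι) :
    (A *ᵥ Pi.single J 1) I = A I J := by
  rw [mulVec_single_one]
  rfl

theorem m1a_list (g : Matrix ι ι ℂ) (l : List ι) :
    (l.map fun j => wdg fun k => g k j).prod *ᵥ Pi.single ∅ 1 =
      Gm g *ᵥ ((l.map cr).prod *ᵥ Pi.single ∅ 1) := by
  induction l with
  | nil =>
    funext I
    simp only [List.map_nil, List.prod_nil, one_mulVec]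
    rw [m1a_col]
    simp [Gm, one_apply, Pi.single_apply]
  | cons j l ih =>
    simp only [List.map_cons, List.prod_cons]
    rw [← mulVec_mulVec, ih, mulVec_mulVec, ← m1a_Gm_cr, ← mulVec_mulVec, ← mulVec_mulVec]

theorem m1a_sort (J : Finset ι) :
    ((J.sort (· ≤ ·)).map cr).prod *ᵥ Pi.single ∅ 1 = (Pi.single J 1 : W ι) := by
  have h := m1a_list (1 : Matrix ι ι ℂ) (J.sort (· ≤ ·))
  rw [Gm_one, one_mulVec] at h
  rw [← h]
  funext I
  rw [m1a_col]
  have := congrFun (congrFun (Gm_one (ι := ι)) I) J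
  simp only [Gm, of_apply] at this
  rw [this, one_apply, Pi.single_apply]

theorem m1a_sm_list {g : Y → Matrix ι ι ℂ} (hg : ∀ j k, D.Sm fun y => g y j k) (l : List ι) :
    SmW D fun p => (l.map fun j => wdg fun k => g p k j).prod *ᵥ Pi.single ∅ 1 := by
  induction l with
  | nil =>
    simp only [List.map_nil, List.prod_nil]
    exact fun I => RD.sm_const _
  | cons j l ih =>
    simp only [List.map_cons, List.prod_cons, ← mulVec_mulVec, m1a_wdg_mv]
    exact m1a_sm_sum _ fun k _ => m1a_sm_smul (hg k j) (m1a_sm_mv _ ih)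

theorem m1a_V_list {g : Y → Matrix ι ι ℂ} (hg : ∀ j k, D.Sm fun y => g y j k) {y : Y}
    (ξ : E n × E n) {h : Matrix ι ι ℂ} (hh : ∀ j k, D.dX ξ (fun p => g p j k) y = (g y * h) j k)
    (l : List ι) :
    m1aV D ξ (fun p => (l.map fun j => wdg fun k => g p k j).prod *ᵥ Pi.single ∅ 1) y =
      (Gm (g y) * dG h) *ᵥ ((l.map cr).prod *ᵥ Pi.single ∅ 1) := by
  induction l with
  | nil =>
    have e : dG h *ᵥ (Pi.single ∅ 1 : W ι) = 0 := by
      have e1 : ∀ k : ι, an k *ᵥ (Pi.single ∅ 1 : W ι) = 0 := fun k => by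
        funext I
        rw [m1a_col]
        simp [an, (Finset.insert_ne_empty k I).symm]
      simp only [dG, sum_mulVec, smul_mulVec, ← mulVec_mulVec, e1, mulVec_zero, smul_zero,
        Finset.sum_const_zero]
    simp only [List.map_nil, List.prod_nil, one_mulVec]
    rw [← mulVec_mulVec, e, mulVec_zero]
    exact funext fun I => RD.dX_const _ _
  | cons j l ih =>
    simp only [List.map_cons, List.prod_cons]
    have e1 : (fun p => ((wdg fun k => g p k j) * (l.map fun j => wdg fun k => g p k j).prod) *ᵥ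
        (Pi.single ∅ 1 : W ι)) = fun p => ∑ k, g p k j •
          (cr k *ᵥ ((l.map fun j => wdg fun k => g p k j).prod *ᵥ Pi.single ∅ 1)) := by
      funext p
      rw [← mulVec_mulVec, m1a_wdg_mv]
    rw [e1, m1a_V_sum _ fun k _ => m1a_sm_smul (hg k j) (m1a_sm_mv _ (m1a_sm_list hg l))]
    simp only [m1a_V_smul (hg _ j) (m1a_sm_mv _ (m1a_sm_list hg l)),
      m1a_V_mv _ (m1a_sm_list hg l), ih, hh, Finset.sum_add_distrib, ← m1a_wdg_mv]
    rw [m1a_list, ← mulVec_mulVec _ (cr j), mulVec_mulVec, mulVec_mulVec _ (wdg _),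
      mulVec_mulVec _ (Gm (g y) * dG h), ← add_mulVec]
    congr 1
    rw [Matrix.mul_assoc (Gm (g y)), m1a_dG_cr, Matrix.mul_add, Gm_wdg, ← Matrix.mul_assoc,
      ← Matrix.mul_assoc, m1a_Gm_cr]
    rfl

end Gm

theorem sm_Gm {ι : Type} [Fintype ι] [LinearOrder ι] {g : Y → Matrix ι ι ℂ}
    (hg : ∀ j k, D.Sm fun y => g y j k) (I J : Finset ι) : D.Sm fun y => Gm (g y) I J := by
  have h := m1a_sm_list hg (J.sort (· ≤ ·)) I
  simp only [m1a_col] at h
  exact h

/-- The derivative of the induced metric. -/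
theorem dX_Gm {ι : Type} [Fintype ι] [LinearOrder ι] {g : Y → Matrix ι ι ℂ}
    (hg : ∀ j k, D.Sm fun y => g y j k) {y : Y} (h : IsUnit (g y).det) (ξ : E n × E n)
    (I J : Finset ι) : D.dX ξ (fun p => Gm (g p) I J) y =
      (Gm (g y) * dG ((g y)⁻¹ * Matrix.of fun j k => D.dX ξ (fun p => g p j k) y)) I J := by
  have e := congrFun (m1a_V_list hg ξ
    (h := (g y)⁻¹ * Matrix.of fun j k => D.dX ξ (fun p => g p j k) y)
    (fun j k => by rw [mul_nonsing_inv_cancel_left _ _ h, of_apply]) (J.sort (· ≤ ·))) I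
  rw [m1a_sort, m1a_col] at e
  simp only [m1aV, m1a_col] at e
  exact e

theorem m1a_dbar (u : Y → W (Fin n)) :
    dbar D u = fun y => ∑ j, cr j *ᵥ m1aV D (bv j) u y := rfl

theorem SmW.dbar {u : Y → W (Fin n)} (hu : SmW D u) : SmW D (dbar D u) := by
  rw [m1a_dbar]
  exact m1a_sm_sum _ fun j _ => m1a_sm_mv _ (m1a_smV hu _)

theorem dbar_dbar {u : Y → W (Fin n)} (hu : SmW D u) : dbar D (dbar D u) = 0 := by
  funext y
  have e : dbar D (dbar D u) y =
      ∑ j, ∑ k, (cr j * cr k) *ᵥ m1aV D (bv j) (m1aV D (bv k) u) y := by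
    rw [m1a_dbar (dbar D u), m1a_dbar u]
    refine Finset.sum_congr rfl fun j _ => ?_
    rw [m1a_V_sum _ fun k _ => m1a_sm_mv _ (m1a_smV hu _), mulVec_sum]
    refine Finset.sum_congr rfl fun k _ => ?_
    rw [m1a_V_mv _ (m1a_smV hu _), mulVec_mulVec]
  have e' : dbar D (dbar D u) y = -dbar D (dbar D u) y := by
    conv_rhs => rw [e, Finset.sum_comm]
    rw [e, ← Finset.sum_neg_distrib]
    refine Finset.sum_congr rfl fun j _ => ?_
    rw [← Finset.sum_neg_distrib]
    refine Finset.sum_congr rfl fun k _ => ?_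
    rw [cr_cr j k, neg_mulVec]
    congr 2
    exact funext fun I => RD.dX_comm (hu I) y
  exact self_eq_neg.1 e'

theorem dbar_add {u w : Y → W (Fin n)} (hu : SmW D u) (hw : SmW D w) :
    dbar D (u + w) = dbar D u + dbar D w := by
  funext y
  simp only [m1a_dbar, Pi.add_apply, ← Finset.sum_add_distrib, ← mulVec_add]
  refine Finset.sum_congr rfl fun j _ => congrArg _ ?_
  exact funext fun I => RD.dX_add (hu I) (hw I) y

theorem dbar_mul {f : Y → ℂ} {u : Y → W (Fin n)} (hf : D.Sm f) (hu : SmW D u) (y : Y) :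
    dbar D (fun p => f p • u p) y = f y • dbar D u y + wdg (dbv D f y) *ᵥ u y := by
  simp only [m1a_dbar, m1a_V_smul hf hu, mulVec_add, mulVec_smul, Finset.sum_add_distrib,
    m1a_wdg_mv, Finset.smul_sum]
  exact add_comm _ _

theorem dbar_deg {q : ℕ} {u : Y → W (Fin n)} (hu : ∀ y, Dg q (u y)) (y : Y) :
    Dg (q + 1) (dbar D u y) := by
  intro I hI
  simp only [m1a_dbar, Finset.sum_apply]
  refine Finset.sum_eq_zero fun j _ => ?_
  have h : Dg q (m1aV D (bv j) u y) := fun J hJ => by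
    simp only [m1aV, hu _ J hJ]
    exact RD.dX_const _ _
  rw [← m1a_wdg_single]
  exact h.wdg _ I hI

theorem dvg_mul {Φ Φ' : Y → ℝ} (hΦ : D.SmR Φ) (hΦ' : D.SmR Φ') {f : Y → ℂ} {v : Y → W (Fin n)}
    (hf : D.Sm f) (hv : SmW D v) (y : Y) :
    dvg D (fun p => Φ p + Φ' p) (fun p => f p • v p) y = f y • dvg D Φ v y +
      ctr (fun j => D.dz j f y - f y * D.dz j (fun p => (Φ' p : ℂ)) y) *ᵥ v y := by
  simp only [dvg, ctr, sum_mulVec, smul_mulVec, Finset.smul_sum, ← Finset.sum_add_distrib,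
    ← mulVec_smul, ← mulVec_add]
  refine Finset.sum_congr rfl fun j _ => congrArg _ (funext fun I => ?_)
  simp only [Pi.smul_apply, Pi.add_apply, smul_eq_mul, Complex.ofReal_add, RD.dz]
  rw [RD.dX_mul hf (hv I), RD.dX_add hΦ hΦ']
  ring

end Vale.Agent.P299
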