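import Vale.Agent.P299.DB1
import Vale.Agent.P299.M1a

/-! P299, part D: the Bochner formula for polyvector fields on a Riemann domain. -/

open MeasureTheory Set Filter Topology Matrix
open scoped ContDiff ENNReal ComplexConjugate ComplexOrder

noncomputable section

namespace Vale.Agent.P299

open Vale.Agent.P271A Vale.Agent.P272 Vale.Agent.P272.AP

variable {n : ℕ} {Y : Type} [TopologicalSpace Y] [MeasurableSpace Y] (D : RD n Y)

/-- The smooth functions. -/
def SY : StarSubalgebra ℂ (Y → ℂ) where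
  carrier := {f | D.Sm f}
  mul_mem' ha hb := RD.Sm.mul ha hb
  add_mem' ha hb := RD.Sm.add ha hb
  algebraMap_mem' c := RD.sm_const c
  star_mem' ha := RD.Sm.conj ha

/-- A constant vector field as an additive map. -/
def dY (ξ : E n × E n) : SY D →+ SY D :=
  AddMonoidHom.mk' (fun f => ⟨D.dX ξ f.1, RD.Sm.dX f.2 ξ⟩) fun f g =>
    Subtype.ext (funext fun y => RD.dX_add f.2 g.2 y)

/-- The Wirtinger derivatives. -/
def DY : DR n (SY D) where
  d a := dY D (zv a)
  b a := dY D (bv a)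
  der _ f g := Subtype.ext (funext fun y => RD.dX_mul f.2 g.2 y)
  star_d a f := Subtype.ext (funext fun y => RD.conj_dz f.1 a y)
  dd _ _ f := Subtype.ext (funext fun y => RD.dX_comm f.2 y)
  db _ _ f := Subtype.ext (funext fun y => RD.dX_comm f.2 y)

/-- The evaluation at a point. -/
def eY (y : Y) : SY D →+* ℂ where
  toFun f := f.1 y
  map_one' := rfl
  map_mul' _ _ := rfl
  map_zero' := rfl
  map_add' _ _ := rfl

variable {D}

/-- A real smooth function. -/
def rY {φ : Y → ℝ} (hφ : D.SmR φ) : SY D := ⟨fun y => φ y, hφ⟩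

/-- A smooth matrix. -/
def mY {κ l : Type} {g : Y → Matrix κ l ℂ} (hg : ∀ j k, D.Sm fun y => g y j k) :
    Matrix κ l (SY D) := Matrix.of fun j k => ⟨fun y => g y j k, hg j k⟩

theorem SY_ext {f g : SY D} (h : ∀ y, eY D y f = eY D y g) : f = g := Subtype.ext (funext h)

theorem SY_mext {κ l : Type} {A B : Matrix κ l (SY D)}
    (h : ∀ y, A.map (eY D y) = B.map (eY D y)) : A = B := by
  ext1 j k
  exact SY_ext fun y => congrFun (congrFun (h y) j) k

theorem eY_ct {κ l : Type} (y : Y) (A : Matrix κ l (SY D)) :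
    Aᴴ.map (eY D y) = (A.map (eY D y))ᴴ := rfl

theorem eY_lap {u : Y → ℝ} (hu : D.SmR u) (P : MR n (SY D)) (y : Y) :
    eY D y ((DY D).lap P (rY hu)) = (P.map (eY D y) * LMd D u y).trace := by
  rw [DR.lap_eq, ev_trace, Matrix.map_mul]
  rfl

theorem eY_bN {u Ψ : Y → ℝ} (hu : D.SmR u) {P : MR n (SY D)} {y : Y}
    (hP : P.map (eY D y) = (LMd D Ψ y)⁻¹) : (eY D y (bN (DY D) P (rY hu))).re =
      u y * lap D Ψ u y - q2 (LMd D Ψ y)⁻¹ (dbv D (fun p => (u p : ℂ)) y) := by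
  rw [bN, map_sub, map_mul, eY_lap, hP, Complex.sub_re]
  congr 1
  · exact Complex.re_ofReal_mul _ _
  · rw [← hP]
    simp only [map_sum, map_mul, q2, dotProduct, mulVec, Finset.mul_sum, Pi.star_apply, dbv,
      Complex.star_def, RD.conj_db_real, map_apply]
    exact congrArg _ (Finset.sum_congr rfl fun a _ => Finset.sum_congr rfl fun c _ =>
      mul_left_comm _ _ _)

/-- The derived action over the ring of smooth functions. -/
def dGY (h : MR n (SY D)) : Matrix (Finset (Fin n)) (Finset (Fin n)) (SY D) :=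
  Matrix.of fun I J => ∑ j, ∑ k, h j k * algebraMap ℂ (SY D) ((cr j * an k) I J)

theorem eY_dGY (h : MR n (SY D)) (y : Y) : (dGY h).map (eY D y) = dG (h.map (eY D y)) := by
  ext I J
  simp only [dGY, dG, map_apply, of_apply, map_sum, map_mul, Matrix.sum_apply, Matrix.smul_apply,
    smul_eq_mul]
  rfl

theorem b_dGY (h : MR n (SY D)) (c : Fin n) :
    (dGY h).map ((DY D).b c) = dGY (h.map ((DY D).b c)) := by
  have h1 : ∀ z : ℂ, (DY D).b c (algebraMap ℂ (SY D) z) = 0 := fun z =>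
    SY_ext fun y => RD.dX_const z y
  ext1 I J
  simp only [dGY, map_apply, of_apply, map_sum, (DY D).derb c _ _, h1, mul_zero, add_zero]

theorem sum_dGY (P : MR n (SY D)) (h : Fin n → Fin n → MR n (SY D)) :
    ∑ a, ∑ c, P a c • dGY (h a c) = dGY (∑ a, ∑ c, P a c • h a c) := by
  ext1 I J
  simp only [dGY, Matrix.sum_apply, Matrix.smul_apply, of_apply, smul_eq_mul, Finset.mul_sum,
    Finset.sum_mul, mul_assoc]
  refine (Finset.sum_congr rfl fun a _ => Finset.sum_comm).trans (Finset.sum_comm.trans ?_)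
  refine Finset.sum_congr rfl fun j _ => ?_
  exact (Finset.sum_congr rfl fun a _ => Finset.sum_comm).trans Finset.sum_comm

variable [T2Space Y] [SecondCountableTopology Y] [BorelSpace Y] {Ψ φ : Y → ℝ} {c : ℝ}

theorem exists_KY (hΨ : Kah D Ψ) (hφ : D.SmR φ) (hd : ∀ y, dV D Ψ y = c * Real.exp (-φ y)) :
    ∃ K : KS (DY D), K.G = mY (sm_LMd hΨ.1) ∧ (∀ y, K.P.map (eY D y) = (LMd D Ψ y)⁻¹) ∧
      K.l = -rY hφ := by
  have hu : ∀ y, IsUnit (LMd D Ψ y).det := fun y => (isUnit_iff_isUnit_det _).1 (hΨ.2 y).isUnit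
  have h1 : ((mY (sm_LMd hΨ.1)).det : SY D).1 = fun y => (c : ℂ) * Real.exp (-φ y) := by
    funext y
    refine ((eY D y).map_det _).trans ((det_eq_re (hΨ.2 y).1).trans ?_)
    exact (congrArg _ (hd y)).trans (Complex.ofReal_mul _ _)
  refine ⟨⟨mY (sm_LMd hΨ.1), mY (sm_inv (sm_LMd hΨ.1) hu), -rY hφ, SY_mext fun y => (hΨ.2 y).1,
    SY_mext fun y => ?_, fun a j k => (DY D).dd a k ((DY D).b j (rY hΨ.1)),
    fun k => SY_ext fun y => ?_⟩, rfl, fun y => rfl, rfl⟩
  · rw [Matrix.map_mul, Matrix.map_one _ (map_zero _) (map_one _)]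
    exact nonsing_inv_mul _ (hu y)
  · rw [map_mul, map_neg, map_neg]
    change D.dX _ (mY (sm_LMd hΨ.1)).det.1 y = (mY (sm_LMd hΨ.1)).det.1 y * _
    rw [h1, RD.dX_const_mul hφ.neg.exp, RD.dX_exp_neg hφ, mul_assoc, mul_neg, mul_neg, mul_neg]
    rfl

variable {r : ℕ} {v : Fin r → Y → W (Fin n)}

theorem DB_data (hΨ : Kah D Ψ) (hφ : D.SmR φ) (hd : ∀ y, dV D Ψ y = c * Real.exp (-φ y))
    (hv : ∀ i, HolW D (v i)) (hk : ∀ i y, Kill (LMd D φ y) (v i y)) :
    ∃ (P : MR n (SY D)) (H Hi : Matrix (Finset (Fin n)) (Finset (Fin n)) (SY D))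
      (V : Matrix (Finset (Fin n)) (Fin r) (SY D))
      (Ω : Fin n → Matrix (Finset (Fin n)) (Finset (Fin n)) (SY D)),
      (∀ y, P.map (eY D y) = (LMd D Ψ y)⁻¹) ∧ (∀ y, H.map (eY D y) = Gm (LMd D Ψ y)) ∧
      (∀ y, Hi.map (eY D y) = (Gm (LMd D Ψ y))⁻¹) ∧
      (∀ y, V.map (eY D y) = (Matrix.of fun i => v i y)ᵀ) ∧ Hᴴ = H ∧ Hi * H = 1 ∧
      (∀ a, V.map ((DY D).b a) = 0) ∧ (∀ a, H.map ((DY D).d a) = H * Ω a) ∧
      (∑ a, ∑ c, P a c • (Ω a).map ((DY D).b c)) * V = 0 := by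
  obtain ⟨K, hG, hP, hl⟩ := exists_KY hΨ hφ hd
  have hu : ∀ y, IsUnit (LMd D Ψ y).det := fun y => (isUnit_iff_isUnit_det _).1 (hΨ.2 y).isUnit
  have hs := sm_Gm (sm_LMd hΨ.1)
  refine ⟨K.P, mY hs, mY (sm_inv hs fun y => (Gm_inv (hu y)).2),
    mY (g := fun y => (Matrix.of fun i => v i y)ᵀ) fun I i => (hv i I).sm, fun a => dGY (K.Γ a),
    hP, fun _ => rfl, fun _ => rfl, fun _ => rfl, SY_mext fun y => (Gm_posDef (hΨ.2 y)).1,
    SY_mext fun y => ?_, fun a => SY_mext fun y => ?_, fun a => SY_mext fun y => ?_,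
    SY_mext fun y => ?_⟩
  · rw [Matrix.map_mul, Matrix.map_one _ (map_zero _) (map_one _)]
    exact nonsing_inv_mul _ (Gm_inv (hu y)).2
  · ext I i
    exact (hv i I).db a y
  · rw [Matrix.map_mul, eY_dGY, KS.Γ, DR.Gam, Matrix.map_mul, hP, hG]
    ext I J
    exact dX_Gm (sm_LMd hΨ.1) (hu y) (zv a) I J
  · have h1 : ((DY D).lm K.l).map (eY D y) = -LMd D φ y := by
      ext j k
      simp only [hl, DR.lm, map_apply, of_apply, map_neg]
      rfl
    simp only [b_dGY, sum_dGY, K.ricci]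
    rw [Matrix.map_mul, eY_dGY, Matrix.map_mul, hP, h1, Matrix.mul_neg, ← Matrix.neg_mul]
    ext I i
    exact congrFun ((hk i y).dG _) I

end Vale.Agent.P299
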