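import Vale.Agent.P299.D4
import Vale.Agent.P299.DB2

/-!
P299, part D: curvature computations. `cT_Gm`: `dX_Gm` and `Gm_inv` give `con (Gm H) k = fun p => dG (con H k p)`; `dG` is linear with constant coefficients (`RD.dX_sum`,
`RD.dX_const_mul`, `SmM.con`). `cT_sub`: `Matrix.inv_submatrix_equiv`, `submatrix_mul_equiv`. `cT_exp`: `con` changes by `-(c * dz k φ) • 1` (`RD.dX_mul`, `RD.dX_comp`, `Matrix.inv_smul` or
`inv_eq_left_inv`), `RD.dX_comm`. `cT_LMd`: copy `SU`, `dU`, `DU`, `ev`, `exists_KS` of P272/APRing for a general `D` (the star subalgebra of smooth functions `Y → ℂ`) and evaluate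
`P272.AP.KS.ricci`. `cT_kill`: `log (dV Φ) = -1 * φ + log c * 1` (`LMd_add`), `Kill.dG`. `q2_bd`: `YM.cmp`, `LMd_psd`, `LMd_add`, `Gm_mono`, `Gm_smul`.
-/

open MeasureTheory Set Filter Topology Matrix
open scoped ContDiff ENNReal ComplexConjugate ComplexOrder

noncomputable section

namespace Vale.Agent.P299.PD

open Vale.Agent.P271A

variable {n N : ℕ} {Y : Type} [TopologicalSpace Y] [T2Space Y] [SecondCountableTopology Y]
  [MeasurableSpace Y] [BorelSpace Y] {D : RD n Y} {A : AD n N Y} {Ψ : Y → ℝ}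

omit [T2Space Y] [SecondCountableTopology Y] [BorelSpace Y] in
theorem D5_mdX_dG {ι : Type} [Fintype ι] [LinearOrder ι] {C : Y → Matrix ι ι ℂ} (h : SmM D C)
    (ξ : E n × E n) (y : Y) : mdX D ξ (fun p => dG (C p)) y = dG (mdX D ξ C y) := by
  ext I J
  have h1 : ∀ j k, D.Sm fun p => C p j k * (cr j * an k) I J := fun j k =>
    (h j k).mul (RD.sm_const _)
  simp only [mdX, dG, of_apply, Matrix.sum_apply, Matrix.smul_apply, smul_eq_mul]
  rw [RD.dX_sum _ fun j _ => RD.Sm.sum _ fun k _ => h1 j k]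
  refine Finset.sum_congr rfl fun j _ => ?_
  rw [RD.dX_sum _ fun k _ => h1 j k]
  refine Finset.sum_congr rfl fun k _ => ?_
  rw [RD.dX_mul (h j k) (RD.sm_const _), RD.dX_const, mul_zero, add_zero]

theorem D5_dG_sum {ι : Type} [Fintype ι] [LinearOrder ι] (P : Matrix (Fin n) (Fin n) ℂ)
    (h : Fin n → Fin n → Matrix ι ι ℂ) :
    ∑ a, ∑ c, P a c • dG (h a c) = dG (∑ a, ∑ c, P a c • h a c) := by
  simp only [dG, Matrix.sum_apply, Matrix.smul_apply, smul_eq_mul, Finset.smul_sum,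
    Finset.sum_smul, smul_smul]
  refine (Finset.sum_congr rfl fun a _ => Finset.sum_comm).trans (Finset.sum_comm.trans ?_)
  refine Finset.sum_congr rfl fun j _ => ?_
  exact (Finset.sum_congr rfl fun a _ => Finset.sum_comm).trans Finset.sum_comm

theorem cT_Gm {ι : Type} [Fintype ι] [LinearOrder ι] {H : Y → Matrix ι ι ℂ} (h : SmM D H)
    (h0 : ∀ y, IsUnit (H y).det) (y : Y) :
    cT D Ψ (fun p => Gm (H p)) y = dG (cT D Ψ H y) := by
  have h1 : ∀ k, con D (fun p => Gm (H p)) k = fun p => dG (con D H k p) := fun k => by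
    funext p
    have h2 : mdX D (zv k) (fun p => Gm (H p)) p = Gm (H p) * dG (con D H k p) := by
      ext I J
      exact dX_Gm h (h0 p) (zv k) I J
    rw [con, h2, nonsing_inv_mul_cancel_left _ _ (Gm_inv (h0 p)).2]
  simp only [cT, h1, D5_mdX_dG (h.con h0 _), D5_dG_sum]

theorem cT_sub {κ κ' : Type} [Fintype κ] [DecidableEq κ] [Fintype κ'] [DecidableEq κ'] (e : κ' ≃ κ)
    (H : Y → Matrix κ κ ℂ) (y : Y) :
    cT D Ψ (fun p => (H p).submatrix e e) y = (cT D Ψ H y).submatrix e e := by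
  have h1 : ∀ k, con D (fun p => (H p).submatrix e e) k =
      fun p => (con D H k p).submatrix e e := fun k => by
    funext p
    rw [con, con, inv_submatrix_equiv, ← submatrix_mul_equiv _ _ _ e]
    rfl
  ext a b
  simp only [cT, h1, Matrix.sum_apply, submatrix_apply, Matrix.smul_apply, mdX, of_apply]

theorem cT_exp {κ : Type} [Fintype κ] [DecidableEq κ] {H : Y → Matrix κ κ ℂ} (h : SmM D H)
    (h0 : ∀ y, IsUnit (H y).det) {φ : Y → ℝ} (hφ : D.SmR φ) (c : ℝ) (y : Y) :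
    cT D Ψ (fun p => (Real.exp (-(c * φ p)) : ℂ) • H p) y =
      cT D Ψ H y - (c * ((LMd D Ψ y)⁻¹ * LMd D φ y).trace) • 1 := by
  have hc : D.SmR fun p => c * φ p := (RD.smR_const c).mul hφ
  have h1 : ∀ k, con D (fun p => (Real.exp (-(c * φ p)) : ℂ) • H p) k =
      fun p => con D H k p - ((c : ℂ) * D.dz k (fun p => (φ p : ℂ)) p) • 1 := fun k => by
    funext p
    have h2 : (Real.exp (-(c * φ p)) : ℂ) ≠ 0 := Complex.ofReal_ne_zero.2 (Real.exp_pos _).ne'
    have h3 : mdX D (zv k) (fun p => (Real.exp (-(c * φ p)) : ℂ) • H p) p =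
        ((Real.exp (-(c * φ p)) : ℂ) • H p) *
          (con D H k p - ((c : ℂ) * D.dz k (fun p => (φ p : ℂ)) p) • 1) := by
      rw [Matrix.smul_mul, Matrix.mul_sub, con, mul_nonsing_inv_cancel_left _ _ (h0 p),
        Matrix.mul_smul, Matrix.mul_one]
      ext a b
      have h4 := RD.dX_mul (ξ := zv k) hc.neg.exp (h a b) p
      have h5 := RD.dX_const_mul (ξ := zv k) hφ c p
      rw [RD.dX_exp_neg hc] at h4
      simp only [Complex.ofReal_mul] at h4
      rw [h5] at h4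
      simp only [mdX, of_apply, Matrix.smul_apply, Matrix.sub_apply, smul_eq_mul, RD.dz]
      rw [h4]
      ring
    rw [con, h3, nonsing_inv_mul_cancel_left]
    rw [det_smul]
    exact (pow_ne_zero _ h2).isUnit.mul (h0 p)
  have h2 : ∀ k l, mdX D (bv l)
      (fun p => con D H k p - ((c : ℂ) * D.dz k (fun p => (φ p : ℂ)) p) • 1) y =
      mdX D (bv l) (con D H k) y - ((c : ℂ) * LMd D φ y l k) • 1 := fun k l => by
    ext a b
    have h3 : D.Sm (D.dz k fun p => (φ p : ℂ)) := RD.Sm.dz hφ k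
    simp only [mdX, of_apply, Matrix.smul_apply, Matrix.sub_apply, smul_eq_mul]
    rw [RD.dX_sub (h.con h0 k a b) (((RD.sm_const _).mul h3).mul (RD.sm_const _)),
      RD.dX_mul ((RD.sm_const _).mul h3) (RD.sm_const _), RD.dX_const, mul_zero, add_zero,
      RD.dX_const_mul h3, RD.dz, RD.dX_comm hφ y]
    rfl
  simp only [cT, h1, h2, smul_sub, Finset.sum_sub_distrib, smul_smul, ← Finset.sum_smul, trace,
    diag_apply, mul_apply, Finset.mul_sum, mul_left_comm (c : ℂ)]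

/-- The Ricci form. -/
theorem cT_LMd (hΨ : Kah D Ψ) (y : Y) :
    cT D Ψ (LMd D Ψ) y = (LMd D Ψ y)⁻¹ * LMd D (fun p => Real.log (dV D Ψ p)) y := by
  have h0 : ∀ p, 0 < dV D Ψ p := fun p => P272.det_re_pos (hΨ.2 p)
  have h1 : D.SmR fun p => Real.log (dV D Ψ p) :=
    RD.SmR.log (RD.Sm.re (m1a_det (sm_LMd hΨ.1))) fun p => (h0 p).ne'
  obtain ⟨K, hG, hP, hl⟩ := exists_KY (c := 1) hΨ h1.neg fun p => by
    rw [neg_neg, Real.exp_log (h0 p), one_mul]
  have h2 : K.l = rY h1 := hl.trans (SY_ext fun p => by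
    change -((-Real.log (dV D Ψ p) : ℝ) : ℂ) = (Real.log (dV D Ψ p) : ℝ)
    rw [Complex.ofReal_neg, neg_neg])
  have h3 : ∀ a j k, (K.Γ a j k).1 = fun p => con D (LMd D Ψ) a p j k := fun a j k => by
    funext p
    have h4 : (K.Γ a).map (eY D p) = con D (LMd D Ψ) a p := by
      rw [P272.AP.KS.Γ, P272.AP.DR.Gam, Matrix.map_mul, hP, hG]
      rfl
    exact congrFun (congrFun h4 j) k
  have h4 := congrArg (·.map (eY D y)) K.ricci
  simp only [Matrix.map_mul, hP, h2] at h4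
  refine Eq.trans ?_ h4
  ext j k
  simp only [cT, Matrix.sum_apply, Matrix.smul_apply, smul_eq_mul, map_apply, map_sum, map_mul,
    ← hP y, mdX, of_apply, ← h3]
  rfl

theorem cT_kill (hA : A.Good) {Φ : Y → ℝ} (hΦ : A.YM Φ) {y : Y} {v : W (Fin n)}
    (hv : Kill (LMd A.D A.φ y) v) : cT A.D Φ (fun p => Gm (LMd A.D Φ p)) y *ᵥ v = 0 := by
  obtain ⟨c, hc, hd⟩ := hΦ.det
  have h1 : (fun p => Real.log (dV A.D Φ p)) = fun p => (-1) * A.φ p + Real.log c * 1 := by
    funext p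
    rw [hd, Real.log_mul hc.ne' (Real.exp_pos _).ne', Real.log_exp]
    ring
  have h2 : LMd A.D (fun _ => (1 : ℝ)) y = 0 := by
    ext j k
    have h3 : A.D.db j (fun _ => ((1 : ℝ) : ℂ)) = fun _ => 0 := funext fun p => RD.dX_const _ p
    rw [LMd, of_apply, h3]
    exact RD.dX_const _ y
  rw [cT_Gm (sm_LMd hΦ.kah.1) fun p => (isUnit_iff_isUnit_det _).1 (hΦ.kah.2 p).isUnit,
    cT_LMd hΦ.kah, h1, LMd_add hA.hφ (RD.smR_const 1), h2, smul_zero, add_zero, Matrix.mul_smul,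
    ← Matrix.smul_mul]
  exact hv.dG _

theorem q2_bd (hA : A.Good) {Φ : Y → ℝ} (hΦ : A.YM Φ) {q m : ℕ} {v : Y → W (Fin n)}
    (hv : A.IsV q m v) : ∃ C, 0 ≤ C ∧
      ∀ y, q2 (Gm (LMd A.D Φ y)) (v y) ≤ C * Real.exp (m * A.φ y) := by
  obtain ⟨C, hC⟩ := hΦ.cmp
  obtain ⟨B, hB⟩ := hv.bdd
  have hc : 0 ≤ max C 0 := le_max_right _ _
  refine ⟨max C 0 ^ q * max B 0, by positivity, fun y => ?_⟩
  have h0 := (LMd_psd hA.pos.1).1 (hA.pos.2 y).posSemidef
  have h1 : (((max C 0 : ℝ) : ℂ) • LMd A.D A.ρ y - LMd A.D Φ y).PosSemidef := by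
    refine P272.Loc_psd (((hA.pos.2 y).posSemidef.smul (Complex.zero_le_real.2 hc)).1.sub
      (hΦ.kah.2 y).1) fun ξ => ?_
    rw [sub_mulVec, dotProduct_sub, smul_mulVec, dotProduct_smul, Complex.sub_re, smul_eq_mul,
      Complex.re_ofReal_mul, sub_nonneg]
    change q2 _ ξ ≤ _ * q2 _ ξ
    rw [q2_LMd, q2_LMd]
    exact (hC y ξ).2.trans (mul_le_mul_of_nonneg_right (le_max_left _ _) (h0 ξ))
  refine (Gm_mono (hΦ.kah.2 y).posSemidef h1 _).trans ?_
  rw [q2, Gm_smul _ _ (hv.deg y), dotProduct_smul, ← Complex.ofReal_pow, smul_eq_mul,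
    Complex.re_ofReal_mul, mul_assoc]
  exact mul_le_mul_of_nonneg_left ((hB y).trans (mul_le_mul_of_nonneg_right (le_max_left _ _)
    (Real.exp_pos _).le)) (pow_nonneg hc q)

end Vale.Agent.P299.PD
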