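import Vale.Agent.P299.D1
import Vale.Agent.P299.D3
import Vale.Agent.P299.D5

/-!
P299, part D: exterior products of fields. `wS_sub`: `sub_of` for `H p = exp (-(c φ p)) • Gm ((Gm (LMd Φ p)).submatrix e e)`; `cT_exp`, `cT_Gm`, `cT_sub`, `cT_kill`, `wl_kill`,
`wl_hol`, `wl_q2`, `q2_bd`, `q2_sub_mat`, `sm_Gm`, `tr_nonneg`. `pair`: `e = (Fintype.equivFin _).symm`, `T = ((List.finRange r).erase i).map fun j => (m j, v j)`,
`S₁ = wS ((m i, v i) :: T)`, `S₂ = wS ((m i + k, w) :: T)`; `wdg_smul`, `wdg_sum`, `wl_mem` give `Δ • wl₂ = Δ' i • wl₁`; `wl_ne`, `q2_pos`, `q2_smul`.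
-/

open MeasureTheory Set Filter Topology Matrix
open scoped ContDiff ENNReal ComplexConjugate ComplexOrder

noncomputable section

namespace Vale.Agent.P299.PD

open Vale.Agent.P271A

variable {n N : ℕ} {Y : Type} [TopologicalSpace Y] [T2Space Y] [SecondCountableTopology Y]
  [MeasurableSpace Y] [BorelSpace Y] {A : AD n N Y}

theorem D10_bd (hA : A.Good) {Φ : Y → ℝ} (hΦ : A.YM Φ) {q : ℕ} {L : List (ℕ × (Y → W (Fin n)))}
    (hL : ∀ x ∈ L, A.IsV q x.1 x.2) : ∃ C, 0 ≤ C ∧ ∀ y,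
      (L.map fun x => q2 (Gm (LMd A.D Φ y)) (x.2 y)).prod ≤
        C * Real.exp (((L.map Prod.fst).sum : ℕ) * A.φ y) := by
  induction L with
  | nil => exact ⟨1, zero_le_one, fun y => by simp⟩
  | cons x L ih =>
    obtain ⟨C, hC, h⟩ := ih fun z hz => hL z (List.mem_cons_of_mem _ hz)
    obtain ⟨C', hC', h'⟩ := q2_bd hA hΦ (hL x List.mem_cons_self)
    refine ⟨C' * C, mul_nonneg hC' hC, fun y => ?_⟩
    have h0 : 0 ≤ (L.map fun x => q2 (Gm (LMd A.D Φ y)) (x.2 y)).prod :=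
      List.prod_nonneg fun a ha => by
        obtain ⟨z, -, rfl⟩ := List.mem_map.1 ha
        exact q2_nonneg (Gm_posDef (hΦ.kah.2 y)).posSemidef _
    simp only [List.map_cons, List.prod_cons, List.sum_cons, Nat.cast_add, add_mul, Real.exp_add]
    refine (mul_le_mul (h' y) (h y) h0 (by positivity)).trans (le_of_eq ?_)
    ring

omit [T2Space Y] [SecondCountableTopology Y] [BorelSpace Y] in
theorem D10_pos {Φ : Y → ℝ} (hΦ : A.YM Φ) {R : ℕ} (e : Fin R ≃ Finset (Fin n)) (y : Y) :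
    ((Gm (LMd A.D Φ y)).submatrix e e).PosDef :=
  (Gm_posDef (hΦ.kah.2 y)).submatrix e.injective

theorem wS_sub (hA : A.Good) {Φ : Y → ℝ} (hΦ : A.YM Φ) {R : ℕ} (e : Fin R ≃ Finset (Fin n)) {q : ℕ}
    {L : List (ℕ × (Y → W (Fin n)))} (hL : ∀ x ∈ L, A.IsV q x.1 x.2) {M : ℕ}
    (hM : (L.map Prod.fst).sum ≤ M) :
    Sub A.D Φ (fun y => M * lap A.D Φ A.φ y) (wS A e Φ L) := by
  set c : ℕ := (L.map Prod.fst).sum with hc
  have p1 := D10_pos hΦ e
  have p2 := fun y => Gm_posDef (p1 y)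
  have s1 : SmM A.D fun p => (Gm (LMd A.D Φ p)).submatrix e e := fun a b =>
    sm_Gm (sm_LMd hΦ.kah.1) (e a) (e b)
  have s2 : SmM A.D fun p => Gm ((Gm (LMd A.D Φ p)).submatrix e e) := fun a b => sm_Gm s1 a b
  have s3 : A.D.Sm fun p => (Real.exp (-(c * A.φ p)) : ℂ) :=
    hA.hφ.comp (χ := fun t => Real.exp (-(c * t))) fun _ => by fun_prop
  have e1 : wS A e Φ L = fun y => q2 ((Real.exp (-(c * A.φ y)) : ℂ) •
      Gm ((Gm (LMd A.D Φ y)).submatrix e e)) (wl (L.map fun x => x.2 y ∘ e)) := by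
    funext y
    rw [q2_smul_left, mul_comm]
    rfl
  rw [e1]
  refine sub_of (H := fun y => (Real.exp (-(c * A.φ y)) : ℂ) •
      Gm ((Gm (LMd A.D Φ y)).submatrix e e)) hΦ.kah (fun a b => s3.mul (s2 a b))
    (fun y => (p2 y).smul ?_)
    (wl_hol (u := fun x y => x.2 y ∘ e) fun x hx a => (hL x hx).hol (e a))
    (σ := fun y => (c : ℝ) * ((LMd A.D Φ y)⁻¹ * LMd A.D A.φ y).trace) (fun y => ?_) (fun y => ?_) ?_
  · exact_mod_cast Real.exp_pos _
  · rw [cT_exp s2 (fun y => (p2 y).det_pos.ne'.isUnit) hA.hφ, cT_Gm s1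
      (fun y => (p1 y).det_pos.ne'.isUnit), cT_sub, sub_mulVec, wl_kill, smul_mulVec, one_mulVec,
      zero_sub, neg_smul]
    intro a ha
    obtain ⟨x, hx, rfl⟩ := List.mem_map.1 ha
    rw [submatrix_mulVec_equiv, Function.comp_assoc, e.self_comp_symm, Function.comp_id,
      cT_kill hA hΦ ((hL x hx).kill y)]
    rfl
  · rw [Complex.re_ofReal_mul]
    exact mul_le_mul_of_nonneg_right (by exact_mod_cast hM)
      (tr_nonneg (hΦ.kah.2 y) ((LMd_psd hA.hφ).2 (hA.psh y)))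
  · obtain ⟨C, hC, h⟩ := D10_bd hA hΦ hL
    refine ⟨C, fun y => ?_⟩
    have h1 := wl_q2 (p1 y) (L.map fun x => x.2 y ∘ e)
    rw [List.map_map] at h1
    simp only [Function.comp_def (q2 _), q2_sub_mat] at h1
    rw [q2_smul_left]
    refine (mul_le_mul_of_nonneg_left (h1.trans (h y)) (Real.exp_pos _).le).trans (le_of_eq ?_)
    rw [mul_left_comm, ← Real.exp_add, neg_add_cancel, Real.exp_zero, mul_one]

theorem pair (hA : A.Good) {q r k : ℕ} {m : Fin r → ℕ} {v : Fin r → Y → W (Fin n)}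
    (hv : ∀ i, A.IsV q (m i) (v i)) {Δ : Y → ℂ}
    (hi : ∀ y, Δ y ≠ 0 → LinearIndependent ℂ fun i => v i y) {i : Fin r} {w : Y → W (Fin n)}
    (hw : A.IsV q (m i + k) w) {Δ' : Fin r → Y → ℂ} (h : ∀ y, Δ y • w y = ∑ j, Δ' j y • v j y) :
    Pair A k (Δ' i) Δ := by
  let e := (Fintype.equivFin (Finset (Fin n))).symm
  let T : List (ℕ × (Y → W (Fin n))) := ((List.finRange r).erase i).map fun j => (m j, v j)
  have hT : ∀ x ∈ T, A.IsV q x.1 x.2 := fun x hx => by
    obtain ⟨j, -, rfl⟩ := List.mem_map.1 hx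
    exact hv j
  refine ⟨m i + k + (T.map Prod.fst).sum, fun Φ hΦ => ⟨wS A e Φ ((m i, v i) :: T),
    wS A e Φ ((m i + k, w) :: T), wS_sub hA hΦ e (List.forall_mem_cons.2 ⟨hv i, hT⟩) (by simp),
    wS_sub hA hΦ e (List.forall_mem_cons.2 ⟨hw, hT⟩) (by simp), fun y hy => ?_, fun y => ?_⟩⟩
  · refine mul_pos (q2_pos (Gm_posDef (D10_pos hΦ e y)) ?_) (Real.exp_pos _)
    have h1 : LinearIndependent ℂ fun j => v j y ∘ e :=
      (hi y hy).map' (LinearEquiv.funCongrLeft ℂ ℂ e).toLinearMap (LinearEquiv.ker _)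
    have h2 : (i :: (List.finRange r).erase i).Nodup :=
      List.nodup_cons.2 ⟨(List.nodup_finRange r).not_mem_erase, (List.nodup_finRange r).erase i⟩
    simpa only [T, List.map_cons, List.map_map, Function.comp_def] using wl_ne h1 h2
  · have key : Δ y • wl (((m i + k, w) :: T).map fun x => x.2 y ∘ e) =
        Δ' i y • wl (((m i, v i) :: T).map fun x => x.2 y ∘ e) := by
      have h1 : Δ y • (w y ∘ e) = ∑ j, Δ' j y • (v j y ∘ e) := by
        funext a
        simpa [Finset.sum_apply] using congrFun (h y) (e a)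
      simp only [List.map_cons, wl]
      rw [← smul_mulVec, ← wdg_smul, h1, wdg_sum, sum_mulVec, Finset.sum_eq_single i]
      · rw [wdg_smul, smul_mulVec]
      · intro j _ hj
        rw [wdg_smul, smul_mulVec, wl_mem, smul_zero]
        exact List.mem_map.2 ⟨(m j, v j), List.mem_map.2
          ⟨j, (List.mem_erase_of_ne hj).2 (List.mem_finRange j), rfl⟩, rfl⟩
      · simp
    have h2 := congrArg (q2 (Gm ((Gm (LMd A.D Φ y)).submatrix e e))) key
    rw [q2_smul, q2_smul] at h2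
    simp only [wS]
    rw [← mul_assoc, h2, mul_assoc, mul_assoc, mul_left_comm (Real.exp _), ← Real.exp_add]
    congr 3
    simp only [List.map_cons, List.sum_cons]
    push_cast
    ring

end Vale.Agent.P299.PD
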