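import Vale.Agent.P299.D0

/-!
P299, part D: from flat quotients in infinitely many degrees to `Tau`. Take `k₁ ≥ 1` with `Δ₁`, `e ∈ S (-M) d'` (`exists_ne`), `s = Δ₁ e`, `s' = Δ e`, `m0 = 0` (`FlatQ.congr`).
`IntA`: some residue class modulo `k₁` contains arbitrarily large good degrees; fix `k*` in it with `σ`; for `k = k* + j k₁` with `w` take `e' ∈ S (-(M + k)) d''`,
`F = σ s ^ j e'`, `B = w s' ^ j e'`; `FlatQ.mul`, `flat_pow`, `FlatQ.div`, `FlatQ.congr`; `S_mul`, `S_pow`, `mul_ne`.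
-/

open MeasureTheory Set Filter Topology Matrix
open scoped ContDiff ENNReal ComplexConjugate ComplexOrder

noncomputable section

namespace Vale.Agent.P299.PD

open Vale.Agent.P271A

variable {n N : ℕ} {Y : Type} [TopologicalSpace Y] [T2Space Y] [SecondCountableTopology Y]
  [MeasurableSpace Y] [BorelSpace Y] {A : AD n N Y}

theorem flat_pow {m0 k : ℕ} {s s' : Y → ℂ} (h : A.FlatQ m0 k s s') (hs : A.D.Hol s)
    (hs' : A.D.Hol s') (j : ℕ) : A.FlatQ m0 (j * k) (s ^ j) (s' ^ j) := by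
  induction j with
  | zero =>
    intro u _ y
    simp [ctr]
  | succ j ih =>
    rw [pow_succ, pow_succ, Nat.succ_mul]
    exact ih.mul h (hs.pow j) (hs'.pow j) hs hs'

theorem D11_pow_ne {Z : Type} {s : Z → ℂ} (h : s ≠ 0) (j : ℕ) : s ^ j ≠ 0 :=
  let ⟨y, hy⟩ := Function.ne_iff.1 h
  Function.ne_iff.2 ⟨y, pow_ne_zero j hy⟩

theorem D11_class {G : ℕ → Prop} (h : ∀ k₀, ∃ k ≥ k₀, G k) {q : ℕ} (hq : 0 < q) :
    ∃ a, G a ∧ ∀ j₀, ∃ j ≥ j₀, G (a + j * q) := by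
  have h1 : ∃ r, ∃ᶠ k in atTop, G k ∧ k % q = r := by
    by_contra hn
    have h2 := (eventually_all_finset (Finset.range q)).2 fun r _ =>
      not_frequently.1 fun h' => hn ⟨r, h'⟩
    obtain ⟨k, h3, h4⟩ := ((frequently_atTop.2 h).and_eventually h2).exists
    exact h4 (k % q) (Finset.mem_range.2 (Nat.mod_lt k hq)) ⟨h3, rfl⟩
  obtain ⟨r, h1⟩ := h1
  obtain ⟨a, ha, har⟩ := h1.exists
  refine ⟨a, ha, fun j₀ => ?_⟩
  obtain ⟨k, hk, hG, hr⟩ := frequently_atTop.1 h1 (a + j₀ * q)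
  obtain ⟨j, hj⟩ := (Nat.modEq_iff_dvd' (le_of_add_le_left hk)).1 (har.trans hr.symm)
  have e : k = a + j * q := by
    rw [mul_comm, ← hj]
    omega
  exact ⟨j, Nat.le_of_mul_le_mul_right (by omega) hq, e ▸ hG⟩

theorem tau_of (hA : A.Good) {M : ℤ} {d : ℕ} {Δ : Y → ℂ} (hΔ : Δ ∈ A.S M d) (h0 : Δ ≠ 0)
    (h : ∀ k₀ : ℕ, ∃ k ≥ k₀, ∃ Δ' ∈ A.S (M + k) d, Δ' ≠ 0 ∧ A.FlatQ 0 k Δ' Δ) : A.Tau := by
  obtain ⟨k, hk, Δ₁, m1, n1, f1⟩ := h 1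
  obtain ⟨d', e, me, ne⟩ := hA.exists_ne (-M)
  have ms : Δ₁ * e ∈ A.S k (d + d') := by simpa using AD.S_mul m1 me
  have ms' : Δ * e ∈ A.S 0 (d + d') := by simpa using AD.S_mul hΔ me
  have ns' := hA.mul_ne hΔ.1 me.1 h0 ne
  have fs : A.FlatQ 0 k (Δ₁ * e) (Δ * e) := f1.congr hA m1.1 hΔ.1 ms.1 ms'.1 h0 (by ring)
  refine ⟨0, k, d + d', Δ₁ * e, Δ * e, hk, ms, ms', hA.mul_ne m1.1 me.1 n1 ne, ns', fs, Or.inl ?_⟩
  generalize Δ₁ * e = s at ms fs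
  generalize Δ * e = s' at ms' ns' fs
  obtain ⟨a, ⟨σ, mσ, nσ, fσ⟩, ha⟩ := D11_class h hk
  refine ⟨M + a, d, σ, mσ, nσ, fun j₀ => ?_⟩
  obtain ⟨j, hj, w, mw, nw, fw⟩ := ha j₀
  obtain ⟨d'', e', me', ne'⟩ := hA.exists_ne (-(M + (a + j * k : ℕ)))
  have p1 := AD.S_pow ms j
  have p2 := AD.S_pow ms' j
  have mF := AD.S_mul (AD.S_mul mσ p1) me'
  have mB := AD.S_mul (AD.S_mul mw p2) me'
  have e1 : M + a + j * k + -(M + (a + j * k : ℕ)) = 0 := by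
    push_cast
    ring
  have e2 : M + (a + j * k : ℕ) + j * 0 + -(M + (a + j * k : ℕ)) = 0 := by ring
  have e3 : M + (a + j * k : ℕ) = M + a + j * k := by
    push_cast
    ring
  rw [e1] at mF
  rw [e2] at mB
  have n2 := D11_pow_ne ns' j
  have f2 := (fσ.mul (flat_pow fs ms.1 ms'.1 j) mσ.1 hΔ.1 p1.1 p2.1).div fw
    (AD.S_mul mσ p1).1 (AD.S_mul hΔ p2).1 mw.1 hΔ.1
  refine ⟨j, hj, w, e3 ▸ mw, _, _, mF, _, mB,
    hA.mul_ne (AD.S_mul mw p2).1 me'.1 (hA.mul_ne mw.1 p2.1 nw n2) ne',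
    f2.congr hA (AD.S_mul (AD.S_mul mσ p1) hΔ).1 (AD.S_mul (AD.S_mul hΔ p2) mw).1 mF.1 mB.1
      (hA.mul_ne (AD.S_mul hΔ p2).1 mw.1 (hA.mul_ne hΔ.1 p2.1 h0 n2) nw) (by ring), by ring⟩

end Vale.Agent.P299.PD
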