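import Vale.Agent.P299.D2

/-!
P299, part D: a maximal family of fields. `cramer_pt`: `w' = det • w - ∑ cramer • v` is killed by all `ℓ l` (`Matrix.mulVec_cramer`, `Matrix.cramer_apply`);
replace the first column (`det_updateCol_add`, `det_updateCol_smul`, `det_updateCol_eq_zero` or `det_zero_of_column_eq`), expand by `det_succ_column_zero`.
`cramer`: `r` maximal (`Nat.findGreatest` or `Nat.find`; bounded by `finrank (W (Fin n))` via `li_of_det`) such that `det (comp (ofFn (L l)) (v i)) ≠ 0` as a function for some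
`m, v, L`; `d = r * (2 * q)`, `Δ' i = det` for `Function.update v i w`; membership by `det_apply`, `S_prod`, `comp_mem`; where `Δ y ≠ 0` use `cramer_pt`, `comp_sep`;
everywhere by `AD.Good.mul_ne` for each component.
-/

open MeasureTheory Set Filter Topology Matrix
open scoped ContDiff ENNReal ComplexConjugate ComplexOrder

noncomputable section

namespace Vale.Agent.P299.PD

open Vale.Agent.P271A

section
variable {V : Type} [AddCommGroup V] [Module ℂ V] {r : ℕ}

theorem li_of_det (ℓ : Fin r → V →ₗ[ℂ] ℂ) (v : Fin r → V)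
    (h : (Matrix.of fun l i => ℓ l (v i)).det ≠ 0) : LinearIndependent ℂ v := by
  refine Fintype.linearIndependent_iff.2 fun g hg => congrFun (eq_zero_of_mulVec_eq_zero h ?_)
  funext l
  have := congrArg (ℓ l) hg
  simp only [map_sum, map_smul, smul_eq_mul, map_zero] at this
  simpa only [mulVec, dotProduct, of_apply, mul_comm, Pi.zero_apply] using this

theorem cramer_pt (ℓ : Fin r → V →ₗ[ℂ] ℂ) (v : Fin r → V) (ℓ₀ : V →ₗ[ℂ] ℂ) (w : V)
    (h : (Matrix.of fun l i => ℓ l (v i)).det ≠ 0)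
    (h0 : (Matrix.of fun l i => (Fin.cons ℓ₀ ℓ : Fin (r + 1) → V →ₗ[ℂ] ℂ) l
      ((Fin.cons w v : Fin (r + 1) → V) i)).det = 0) :
    ℓ₀ ((Matrix.of fun l i => ℓ l (v i)).det • w -
      ∑ j, (Matrix.of fun l i => ℓ l (Function.update v j w i)).det • v j) = 0 := by
  obtain ⟨M, hM⟩ : ∃ M, M = Matrix.of fun l i => ℓ l (v i) := ⟨_, rfl⟩
  obtain ⟨B, hB⟩ : ∃ B, B = Matrix.of fun l i => (Fin.cons ℓ₀ ℓ : Fin (r + 1) → V →ₗ[ℂ] ℂ) l
      ((Fin.cons w v : Fin (r + 1) → V) i) := ⟨_, rfl⟩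
  have e : ∀ j, (Matrix.of fun l i => ℓ l (Function.update v j w i)).det =
      M.cramer (fun l => ℓ l w) j := fun j => by
    rw [cramer_apply, hM]
    congr 1
    ext l i
    rw [updateCol_apply, of_apply, of_apply]
    split_ifs with hi
    · rw [hi, Function.update_self]
    · rw [Function.update_of_ne hi]
  simp only [e]
  rw [← hM] at h ⊢
  rw [← hB] at h0
  obtain ⟨g, hg⟩ : ∃ g : Fin (r + 1) → ℂ, g = Fin.cons M.det (-M.cramer fun l => ℓ l w) :=
    ⟨_, rfl⟩
  have h1 : (B *ᵥ g) 0 = ℓ₀ (M.det • w - ∑ j, M.cramer (fun l => ℓ l w) j • v j) := by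
    simp [hB, hg, mulVec, dotProduct, Fin.sum_univ_succ, mul_comm, sub_eq_add_neg]
  have h2 : ∀ l : Fin r, (B *ᵥ g) l.succ = 0 := fun l => by
    have := congrFun (mulVec_cramer M fun l => ℓ l w) l
    simp only [mulVec, dotProduct, Pi.smul_apply, smul_eq_mul] at this
    simp only [hB, hg, mulVec, dotProduct, Fin.sum_univ_succ, of_apply, Fin.cons_zero,
      Fin.cons_succ, Pi.neg_apply, mul_neg, Finset.sum_neg_distrib]
    rw [mul_comm, ← this, add_neg_eq_zero]
    exact Finset.sum_congr rfl fun j _ => by rw [hM, of_apply]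
  have h3 : (B.adjugate *ᵥ B *ᵥ g) 0 = 0 := by
    rw [mulVec_mulVec, adjugate_mul, h0, zero_smul, zero_mulVec, Pi.zero_apply]
  have h4 : B.adjugate 0 0 = M.det := by
    rw [adjugate_fin_succ_eq_det_submatrix, hB, hM]
    simp only [Fin.val_zero, add_zero, pow_zero, one_mul, Fin.succAbove_zero]
    rfl
  rw [mulVec, dotProduct, Fin.sum_univ_succ, h1, h4] at h3
  simp only [h2, mul_zero, Finset.sum_const_zero, add_zero] at h3
  exact (mul_eq_zero.1 h3).resolve_left h

end

variable {n N : ℕ} {Y : Type} [TopologicalSpace Y] [T2Space Y] [SecondCountableTopology Y]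
  [MeasurableSpace Y] [BorelSpace Y] {A : AD n N Y}

theorem comp_lin (A : AD n N Y) (L : List (Fin (N + 1) × Fin (N + 1))) (y : Y) :
    ∃ ℓ : W (Fin n) →ₗ[ℂ] ℂ, ∀ v, A.comp L v y = ℓ (v y) := by
  induction L with
  | nil => exact ⟨LinearMap.proj ∅, fun v => rfl⟩
  | cons e L ih =>
    obtain ⟨ℓ, h⟩ := ih
    exact ⟨ℓ ∘ₗ (ctr (A.eta e y)).mulVecLin, fun v => h _⟩

theorem comp_sep (hA : A.Good) {q : ℕ} {u : W (Fin n)} (hu : Dg q u) (y : Y)
    (h : ∀ L : Fin q → Fin (N + 1) × Fin (N + 1), A.comp (List.ofFn L) (fun _ => u) y = 0) :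
    u = 0 := by
  by_contra h0
  have h1 := hA.q2_comp (v := fun _ => u) (fun _ => hu) y
  have h2 := q2_pos (Gm_posDef (hA.pos.2 y)) h0
  have h3 := hA.one_le_nx y
  simp only [h, norm_zero, ne_eq, OfNat.ofNat_ne_zero, not_false_eq_true, zero_pow,
    Finset.sum_const_zero] at h1
  exact absurd h1 (by positivity)

theorem S_prod {α : Type} (s : Finset α) {m : α → ℤ} {l : ℕ} {f : α → Y → ℂ}
    (hf : ∀ i ∈ s, f i ∈ A.S (m i) l) : ∏ i ∈ s, f i ∈ A.S (∑ i ∈ s, m i) (s.card * l) := by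
  classical
  induction s using Finset.induction_on with
  | empty => simpa using La_one A
  | insert a s ha ih =>
    rw [Finset.prod_insert ha, Finset.sum_insert ha, Finset.card_insert_of_notMem ha, add_mul,
      one_mul, add_comm _ l]
    exact AD.S_mul (hf a (Finset.mem_insert_self _ _))
      (ih fun i hi => hf i (Finset.mem_insert_of_mem hi))

/-- The determinant of the components. -/
def d9det (A : AD n N Y) {q r : ℕ} (L : Fin r → Fin q → Fin (N + 1) × Fin (N + 1))
    (v : Fin r → Y → W (Fin n)) (y : Y) : ℂ :=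
  (Matrix.of fun l i => A.comp (List.ofFn (L l)) (v i) y).det

theorem d9_mem (hA : A.Good) {q r : ℕ} (L : Fin r → Fin q → Fin (N + 1) × Fin (N + 1))
    {m : Fin r → ℕ} {v : Fin r → Y → W (Fin n)} (hv : ∀ i, A.IsV q (m i) (v i)) :
    d9det A L v ∈ A.S (∑ i, (m i : ℤ)) (r * (2 * q)) := by
  have e : d9det A L v = ∑ σ : Equiv.Perm (Fin r), ((Equiv.Perm.sign σ : ℤ) : ℂ) •
      ∏ i, A.comp (List.ofFn (L (σ i))) (v i) := by
    funext y
    simp only [d9det, det_apply', Finset.sum_apply, Pi.smul_apply, Finset.prod_apply, smul_eq_mul,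
      of_apply]
  rw [e]
  refine Submodule.sum_mem _ fun σ _ => Submodule.smul_mem _ _ ?_
  have := S_prod (A := A) Finset.univ (m := fun i => (m i : ℤ))
    (f := fun i => A.comp (List.ofFn (L (σ i))) (v i)) fun i _ => hA.comp_mem (hv i) (L (σ i))
  rwa [Finset.card_univ, Fintype.card_fin] at this

theorem cramer (hA : A.Good) (q : ℕ) : ∃ (r d : ℕ) (m : Fin r → ℕ) (v : Fin r → Y → W (Fin n))
    (Δ : Y → ℂ), (∀ i, A.IsV q (m i) (v i)) ∧ Δ ∈ A.S (∑ i, (m i : ℤ)) d ∧ Δ ≠ 0 ∧
      (∀ y, Δ y ≠ 0 → LinearIndependent ℂ fun i => v i y) ∧ ∀ m' w, A.IsV q m' w →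
        ∃ Δ' : Fin r → Y → ℂ, (∀ i, Δ' i ∈ A.S (∑ j, (m j : ℤ) - m i + m') d) ∧
          ∀ y, Δ y • w y = ∑ i, Δ' i y • v i y := by
  classical
  choose ℓ hℓ using comp_lin A
  have hli : ∀ {r : ℕ} (L : Fin r → Fin q → Fin (N + 1) × Fin (N + 1))
      (v : Fin r → Y → W (Fin n)) (y : Y), d9det A L v y ≠ 0 →
      LinearIndependent ℂ fun i => v i y := fun L v y h =>
    li_of_det (fun l => ℓ (List.ofFn (L l)) y) _ (by simpa only [d9det, hℓ] using h)
  obtain ⟨P, hP⟩ : ∃ P : ℕ → Prop, ∀ r, P r ↔ ∃ (m : Fin r → ℕ) (v : Fin r → Y → W (Fin n))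
      (L : Fin r → Fin q → Fin (N + 1) × Fin (N + 1)), (∀ i, A.IsV q (m i) (v i)) ∧
      d9det A L v ≠ 0 := ⟨_, fun _ => Iff.rfl⟩
  have hB : ∀ r, P r → r ≤ Module.finrank ℂ (W (Fin n)) := fun r h => by
    obtain ⟨m, v, L, -, h⟩ := (hP r).1 h
    obtain ⟨y, hy⟩ := Function.ne_iff.1 h
    simpa using (hli L v y hy).fintype_card_le_finrank
  have P0 : P 0 := (hP 0).2 ⟨Fin.elim0, Fin.elim0, Fin.elim0, fun i => i.elim0, by
    obtain ⟨y, -⟩ := hA.conn.nonempty
    exact Function.ne_iff.2 ⟨y, by simp [d9det]⟩⟩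
  obtain ⟨r, hr, hr'⟩ : ∃ r, P r ∧ ¬ P (r + 1) :=
    ⟨_, Nat.findGreatest_spec (Nat.zero_le (Module.finrank ℂ (W (Fin n)))) P0, fun h =>
      Nat.findGreatest_is_greatest (Nat.lt_succ_self _) (hB _ h) h⟩
  obtain ⟨m, v, L, hv, hΔ⟩ := (hP r).1 hr
  have hm := d9_mem hA L hv
  refine ⟨r, r * (2 * q), m, v, d9det A L v, hv, hm, hΔ, hli L v, fun m' w hw => ?_⟩
  have hm' : ∀ i, d9det A L (Function.update v i w) ∈
      A.S (∑ j, (m j : ℤ) - m i + m') (r * (2 * q)) := fun i => by
    have h1 := d9_mem hA L (m := Function.update m i m') (v := Function.update v i w) fun j => by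
      by_cases hj : j = i
      · rwa [hj, Function.update_self, Function.update_self]
      · rw [Function.update_of_ne hj, Function.update_of_ne hj]
        exact hv j
    have e : ∑ j, ((Function.update m i m' j : ℕ) : ℤ) = ∑ j, (m j : ℤ) - m i + m' := by
      rw [← Finset.add_sum_erase _ _ (Finset.mem_univ i),
        ← Finset.add_sum_erase _ (fun j => (m j : ℤ)) (Finset.mem_univ i), Function.update_self,
        Finset.sum_congr rfl fun j hj => by rw [Function.update_of_ne (Finset.ne_of_mem_erase hj)]]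
      ring
    rwa [e] at h1
  refine ⟨_, hm', ?_⟩
  have key : ∀ y, d9det A L v y ≠ 0 →
      d9det A L v y • w y - ∑ i, d9det A L (Function.update v i w) y • v i y = 0 := fun y hy => by
    refine comp_sep hA (q := q) (fun I hI => ?_) y fun L₀ => ?_
    · simp [hw.deg y I hI, fun i => (hv i).deg y I hI, Finset.sum_apply]
    · have h0 : d9det A (Fin.cons L₀ L : Fin (r + 1) → _) (Fin.cons w v) = 0 := by
        by_contra h
        exact hr' ((hP _).2 ⟨Fin.cons m' m, _, _, fun i => Fin.cases hw hv i, h⟩)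
      have h1 := cramer_pt (fun l => ℓ (List.ofFn (L l)) y) (fun i => v i y)
        (ℓ (List.ofFn L₀) y) (w y) (by simpa only [d9det, hℓ] using hy) (by
          refine Eq.trans ?_ (congrFun h0 y)
          simp only [d9det, hℓ]
          congr 1
          ext l i
          refine Fin.cases ?_ (fun l => ?_) l <;> refine Fin.cases ?_ (fun i => ?_) i <;> rfl)
      rw [hℓ]
      refine Eq.trans ?_ h1
      simp only [d9det, hℓ, Function.apply_update (fun _ f => f y) v]
  intro y
  funext I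
  have hf : A.D.Hol fun y => d9det A L v y * w y I -
      ∑ i, d9det A L (Function.update v i w) y * v i y I :=
    (hm.1.mul (hw.hol I)).sub (RD.Hol.sum _ fun i _ => (hm' i).1.mul ((hv i).hol I))
  have h0 : (fun y => d9det A L v y * w y I -
      ∑ i, d9det A L (Function.update v i w) y * v i y I) = 0 := by
    by_contra h
    refine hA.mul_ne hm.1 hf hΔ h (funext fun y => ?_)
    by_cases hy : d9det A L v y = 0
    · simp [hy]
    · have := congrFun (key y hy) I
      simp only [Pi.sub_apply, Pi.smul_apply, Finset.sum_apply, smul_eq_mul, Pi.zero_apply] at this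
      simp [this]
  simpa only [Pi.smul_apply, Finset.sum_apply, smul_eq_mul] using sub_eq_zero.1 (congrFun h0 y)

end Vale.Agent.P299.PD
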