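import Vale.Agent.P299.D8
import Vale.Agent.P299.D9
import Vale.Agent.P299.D10
import Vale.Agent.P299.D11

/-! P299, part D: infinitely many degrees give a flat section. -/

open MeasureTheory Set Filter Topology Matrix
open scoped ContDiff ENNReal ComplexConjugate ComplexOrder

noncomputable section

namespace Vale.Agent.P299

open Vale.Agent.P271A PD

variable {n N : ℕ} {Y : Type} [TopologicalSpace Y] [T2Space Y] [SecondCountableTopology Y]
  [MeasurableSpace Y] [BorelSpace Y] {A : AD n N Y}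

/-- Untwisted fields are parallel. -/
theorem par_of_V (hA : A.Good) {Φ : Y → ℝ} (hΦ : A.YM Φ) {q : ℕ} {u : Y → W (Fin n)}
    (hu : A.IsV q 0 u) (k : Fin n) (I : Finset (Fin n)) (y : Y) :
    A.D.dz k (fun p => low A.D Φ u p I) y = 0 := by
  have hH : SmM A.D fun p => Gm (LMd A.D Φ p) := sm_Gm (sm_LMd hΦ.kah.1)
  have hp : ∀ p, (Gm (LMd A.D Φ p)).PosDef := fun p => Gm_posDef (hΦ.kah.2 p)
  have hS := smR_q2 hH fun I => (hu.hol I).sm
  have hb : ∀ p, lap A.D Φ (fun p => q2 (Gm (LMd A.D Φ p)) (u p)) p =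
      nsq (LMd A.D Φ p)⁻¹ (Gm (LMd A.D Φ p))
        fun k => nab A.D (fun p => Gm (LMd A.D Φ p)) u k p := fun p => by
    rw [boch hH hp hu.hol, cT_kill hA hΦ (hu.kill p)]
    simp
  have h0 : ∀ p, 0 ≤ lap A.D Φ (fun p => q2 (Gm (LMd A.D Φ p)) (u p)) p := fun p => by
    rw [hb]
    exact nsq_nonneg (hΦ.kah.2 p).inv.posSemidef (hp p).posSemidef _
  obtain ⟨C, -, hC⟩ := q2_bd hA hΦ hu
  have hc := continuous_lap hΦ.kah hS
  have h1 := liou hA hΦ hS ⟨C, fun p => by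
    rw [abs_of_nonneg (q2_nonneg (hp p).posSemidef _)]
    simpa using hC p⟩ hc (continuous_const (y := (0 : ℝ))) h0 (fun _ => le_rfl) fun p => by simp
  simp only [zero_mul, ENNReal.ofReal_zero, lintegral_const, nonpos_iff_eq_zero] at h1
  have hc' := hc.mul (continuous_dV hΦ.kah.1)
  have h2 := congrFun ((Continuous.ae_eq_iff_eq A.D.μ (ENNReal.continuous_ofReal.comp hc')
    continuous_zero).1 ((lintegral_eq_zero_iff
      (ENNReal.continuous_ofReal.comp hc').measurable).1 h1)) y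
  have h3 : 0 < dV A.D Φ y := P272.det_re_pos (hΦ.kah.2 y)
  have h4 : lap A.D Φ (fun p => q2 (Gm (LMd A.D Φ p)) (u p)) y * dV A.D Φ y ≤ 0 :=
    ENNReal.ofReal_eq_zero.1 h2
  have h5 : lap A.D Φ (fun p => q2 (Gm (LMd A.D Φ p)) (u p)) y = 0 :=
    le_antisymm (by by_contra h; exact absurd h4 (not_le.2 (mul_pos (not_le.1 h) h3))) (h0 y)
  rw [hb] at h5
  have h6 := congrFun (nsq_eq_zero (hΦ.kah.2 y).inv (hp y) h5) k
  have h7 := congrArg (fun w => Gm (LMd A.D Φ y) *ᵥ w) h6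
  simp only [nab, mulVec_mulVec, Pi.zero_apply, mulVec_zero] at h7
  rw [mul_nonsing_inv _ ((Matrix.isUnit_iff_isUnit_det _).1 (hp y).isUnit), one_mulVec] at h7
  exact congrFun h7 I

theorem partD (hA : A.Good) (hY : A.Yau) {q : ℕ}
    (h : ∀ m0, ∃ m ≥ m0, ∃ v, A.IsV q m v ∧ v ≠ 0) : A.Tau := by
  obtain ⟨r, d, m, v, Δ, hv, hΔ, h0, hi, hc⟩ := cramer hA q
  refine tau_of hA hΔ h0 fun k₀ => ?_
  obtain ⟨m', hm', w, hw, hw0⟩ := h (k₀ + ∑ i, m i)
  obtain ⟨Δ', h1, h2⟩ := hc m' w hw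
  have h3 : ∃ i, Δ' i ≠ 0 := by
    by_contra h3
    push Not at h3
    obtain ⟨y, hy⟩ := Function.ne_iff.1 hw0
    obtain ⟨I, hI⟩ := Function.ne_iff.1 hy
    refine hA.mul_ne hΔ.1 (hw.hol I) h0 (Function.ne_iff.2 ⟨y, hI⟩) (funext fun p => ?_)
    simpa [h3] using congrFun (h2 p) I
  obtain ⟨i, h3⟩ := h3
  have h4 : m i ≤ ∑ j, m j := Finset.single_le_sum (fun _ _ => Nat.zero_le _) (Finset.mem_univ i)
  obtain ⟨k, rfl⟩ : ∃ k, m' = m i + k := ⟨m' - m i, by omega⟩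
  refine ⟨k, by omega, Δ' i, ?_, h3, flat hA hY (h1 i).1 hΔ.1 h3 h0 (pair hA hv hi hw h2) 0⟩
  have h5 := h1 i
  rwa [Nat.cast_add, ← add_assoc, sub_add_cancel] at h5

end Vale.Agent.P299
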