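import Vale.Agent.P299.A1
import Vale.Agent.P299.PartD

/-! P299, part A: the endomorphism on the affine model. -/

open MeasureTheory Set Filter Topology Matrix
open scoped ContDiff ENNReal ComplexConjugate ComplexOrder

noncomputable section

namespace Vale.Agent.P299

open Vale.Agent.P271A

variable {n N : ℕ} {Y : Type} [TopologicalSpace Y] [T2Space Y] [SecondCountableTopology Y]
  [MeasurableSpace Y] [BorelSpace Y] {A : AD n N Y} {Φ : Y → ℝ}

set_option linter.unusedSectionVars false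

/-- A bounded nonnegative holomorphic endomorphism with Ricci flat image. -/
structure AD.EB (A : AD n N Y) (Φ : Y → ℝ) (B : Y → Matrix (Fin n) (Fin n) ℂ) : Prop where
  hol : ∀ j l, A.D.Hol fun y => B y j l
  psd : ∀ y, (LMd A.D Φ y * B y).PosSemidef
  bdd : ∃ c : ℝ, ∀ y ξ, q2 (LMd A.D Φ y * B y) ξ ≤ c * q2 (LMd A.D Φ y) ξ
  ric : ∀ y, LMd A.D A.φ y * B y = 0

theorem A2_hol (hA : A.Good) (hΦ : A.YM Φ) {q : ℕ} {u : Y → W (Fin n)} (hu : A.IsV q 0 u)
    (j l : Fin n) : A.D.Hol fun y => ABm (LMd A.D Φ y) (u y) j l := by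
  have h1 : ∀ J, A.D.Sm fun y => low A.D Φ u y J := fun J =>
    RD.Sm.sum Finset.univ fun K _ => (sm_Gm (sm_LMd hΦ.kah.1) J K).mul (hu.hol K).sm
  have h2 : ∀ J, A.D.Hol fun y => conj (low A.D Φ u y J) := fun J =>
    RD.hol_of_db (h1 J).conj fun k y => by rw [← RD.conj_dz, par_of_V hA hΦ hu, map_zero]
  have h3 : ∀ I, A.D.Hol fun y => star (an l *ᵥ low A.D Φ u y) I := fun I => by
    simp only [Pi.star_apply, mulVec, dotProduct, Complex.star_def, map_sum, map_mul]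
    exact RD.Hol.sum _ fun J _ => (RD.hol_const _).mul (h2 J)
  have h4 : ∀ I, A.D.Hol fun y => (an j *ᵥ u y) I := fun I =>
    RD.Hol.sum Finset.univ fun J _ => (RD.hol_const (an j I J)).mul (hu.hol J)
  exact RD.Hol.sum Finset.univ fun I _ => (h3 I).mul (h4 I)

theorem A2_bdd (hA : A.Good) (hΦ : A.YM Φ) {q : ℕ} {u : Y → W (Fin n)} (hu : A.IsV q 0 u) :
    ∃ c : ℝ, ∀ y, q2 (Gm (LMd A.D Φ y)) (u y) ≤ c := by
  obtain ⟨C, hC⟩ := hΦ.cmp
  obtain ⟨C', hC'⟩ := hu.bdd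
  refine ⟨|C| ^ q * C', fun y => ?_⟩
  have h1 : (((C : ℝ) : ℂ) • LMd A.D A.ρ y - LMd A.D Φ y).PosSemidef := by
    have e := LMd_add hA.pos.1 hΦ.kah.1 C (-1) y
    rw [Complex.ofReal_neg, Complex.ofReal_one, neg_one_smul, ← sub_eq_add_neg] at e
    have s1 := (RD.smR_const C).mul hA.pos.1
    have s2 := (RD.smR_const (-1)).mul hΦ.kah.1
    rw [← e, LMd_psd (s1.add s2)]
    intro v
    rw [RD.levi_add s1 s2, RD.levi_const_mul hA.pos.1, RD.levi_const_mul hΦ.kah.1]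
    linarith [(hC y v).2]
  have h2 := hC' y
  rw [Nat.cast_zero, zero_mul, Real.exp_zero, mul_one] at h2
  have h3 := Fock_q2_nonneg (Gm_psd (hA.pos.2 y).posSemidef) (u y)
  refine (Gm_mono (hΦ.kah.2 y).posSemidef h1 _).trans ?_
  rw [q2, Gm_smul _ _ (hu.deg y), dotProduct_smul, smul_eq_mul, ← Complex.ofReal_pow,
    Complex.re_ofReal_mul]
  refine (mul_le_mul_of_nonneg_right ((le_abs_self _).trans_eq (abs_pow C q)) h3).trans ?_
  exact mul_le_mul_of_nonneg_left h2 (by positivity)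

theorem A2_EB (hA : A.Good) (hΦ : A.YM Φ) {m0 : ℕ}
    (hV : ∀ q, ∀ m ≥ m0, ∀ v, A.IsV q m v → v = 0) :
    ∃ B, A.EB Φ B ∧ ∀ v, A.U m0 v → ∀ y ξ, ξ ᵥ* B y = 0 → ctr ξ *ᵥ v y = 0 := by
  choose r u hu hs using fun q : Fin (n + 1) => hA.fin_V q 0
  choose c hc using fun e : Σ q, Fin (r q) => A2_bdd hA hΦ (hu e.1 e.2)
  refine ⟨fun y => ∑ e : Σ q, Fin (r q), ABm (LMd A.D Φ y) (u e.1 e.2 y),
    ⟨fun j l => ?_, fun y => ?_, ⟨∑ e, c e, fun y ξ => ?_⟩, fun y => ?_⟩, ?_⟩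
  · simp only [Matrix.sum_apply]
    exact RD.Hol.sum _ fun e _ => A2_hol hA hΦ (hu e.1 e.2) j l
  · rw [Finset.mul_sum]
    exact posSemidef_sum _ fun e _ => ABm_psd (hΦ.kah.2 y).posSemidef _
  · rw [Finset.mul_sum, q2, sum_mulVec, dotProduct_sum, Complex.re_sum, Finset.sum_mul]
    exact Finset.sum_le_sum fun e _ => (ABm_le (hΦ.kah.2 y) _ ξ).trans
      (mul_le_mul_of_nonneg_right (hc e y) (Fock_q2_nonneg (hΦ.kah.2 y).posSemidef ξ))
  · rw [Finset.mul_sum]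
    exact Finset.sum_eq_zero fun e _ => ABm_kill _ ((hu e.1 e.2).kill y)
  · rintro v ⟨q, m, rfl | hm, hv⟩ y ξ h
    · by_cases hq : q < n + 1
      · obtain ⟨b, rfl⟩ := hs ⟨q, hq⟩ v hv
        rw [Finset.sum_apply, mulVec_sum]
        refine Finset.sum_eq_zero fun i _ => ?_
        rw [Pi.smul_apply, mulVec_smul,
          ABm_ker (hΦ.kah.2 y) (fun e : Σ q, Fin (r q) => u e.1 e.2 y) h ⟨_, i⟩, smul_zero]
      · have e : v y = 0 := funext fun I => hv.deg y I fun hI => hq (by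
          have := I.card_le_univ
          rw [Fintype.card_fin] at this
          omega)
        rw [e, mulVec_zero]
    · rw [hV q m hm v hv, Pi.zero_apply, mulVec_zero]

theorem A2_flat (hA : A.Good) {B : Y → Matrix (Fin n) (Fin n) ℂ}
    (hB : ∀ j l, A.D.Hol fun y => B y j l) {m0 k : ℕ}
    (hK : ∀ v, A.U m0 v → ∀ y ξ, ξ ᵥ* B y = 0 → ctr ξ *ᵥ v y = 0) {s s' f : Y → ℂ}
    (hs : A.D.Hol s) (hs' : A.D.Hol s') (hf : A.D.Hol f) (h0 : f ≠ 0)
    (h : ∀ y, f y ≠ 0 → ∃ (a : ℂ) (η : Fin n → ℂ), η ᵥ* B y = 0 ∧ ∀ j,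
      s' y * A.D.dz j s y - s y * A.D.dz j s' y -
        k * (s y * s' y * A.D.dz j (fun p => (A.φ p : ℂ)) y) = a * η j) : A.FlatQ m0 k s s' := by
  intro v hv y
  refine hK v hv y _ (funext fun l => ?_)
  have c1 := hs.sm.continuous
  have c2 := hs'.sm.continuous
  have hc : Continuous fun y => ∑ j, (s' y * A.D.dz j s y - s y * A.D.dz j s' y -
      k * (s y * s' y * A.D.dz j (fun p => (A.φ p : ℂ)) y)) * B y j l :=
    continuous_finsetSum _ fun j _ => (((c2.mul (hs.sm.dz j).continuous).sub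
      (c1.mul (hs'.sm.dz j).continuous)).sub (continuous_const.mul ((c1.mul c2).mul
        (RD.Sm.dz hA.hφ j).continuous))).mul (hB j l).sm.continuous
  refine congrFun (Continuous.ext_on (hA.dense_ne hf h0) hc continuous_const fun p hp => ?_) y
  obtain ⟨a, η, h1, h2⟩ := h p hp
  have h3 : ∑ j, η j * B p j l = 0 := congrFun h1 l
  simp only [h2]
  simp only [mul_assoc, ← Finset.mul_sum, h3, mul_zero, Pi.zero_apply]

variable {D : RD n Y} {y : Y}

theorem A2_mul {F G : Y → ℂ} (hF : DifferentiableAt ℝ (F ∘ D.sec y) (D.pr y)) (hG : D.Sm G)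
    (j : Fin n) : D.dz j (fun p => F p * G p) y = D.dz j F y * G y + F y * D.dz j G y := by
  have e := eX_mul (ξ := zv j) hF (hG.diff y)
  simp only [Function.comp_apply, D.sec_pr (D.mem_ch y)] at e
  exact e

theorem A2_quot {s s' F : Y → ℂ} (hs' : D.Hol s') (hF : DifferentiableAt ℝ (F ∘ D.sec y) (D.pr y))
    (e : s =ᶠ[𝓝 y] fun p => F p * s' p) (j : Fin n) :
    s' y * D.dz j s y - s y * D.dz j s' y = s' y ^ 2 * D.dz j F y := by
  have h1 : D.dz j s y = _ := (RD.dX_congr e).trans (A2_mul hF hs'.sm j)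
  rw [h1, e.self_of_nhds]
  ring

theorem A2_norm {s s' F : Y → ℂ} {φ : Y → ℝ} (hs : D.Hol s) (hs' : D.Hol s') (hφ : D.SmR φ)
    (hF : DifferentiableAt ℝ (F ∘ D.sec y) (D.pr y)) (k : ℕ)
    (e : ∀ᶠ p in 𝓝 y, s p * conj (s p) * (Real.exp (-(k * φ p)) : ℝ) = F p * (s' p * conj (s' p)))
    (h0 : s y ≠ 0) (j : Fin n) :
    s' y * D.dz j s y - s y * D.dz j s' y - k * (s y * s' y * D.dz j (fun p => (φ p : ℂ)) y) =
      s' y ^ 2 * conj (s' y) / (conj (s y) * (Real.exp (-(k * φ y)) : ℝ)) * D.dz j F y := by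
  have s1 := (RD.smR_const (k : ℝ)).mul hφ
  have h1 : D.dz j _ y = _ := (RD.dX_congr e).trans (A2_mul hF (hs'.sm.mul hs'.sm.conj) j)
  have h2 : D.dz j (fun p => ((k * φ p : ℝ) : ℂ)) y = k * D.dz j (fun p => (φ p : ℂ)) y := by
    simp only [Complex.ofReal_mul, Complex.ofReal_natCast]
    exact RD.dX_const_mul hφ _ _
  have h3 : ∀ {t : Y → ℂ}, D.Hol t → D.dz j (fun p => t p * conj (t p)) y =
      D.dz j t y * conj (t y) := fun ht => by
    rw [A2_mul (ht.sm.diff y) ht.sm.conj, ht.dz_conj, mul_zero, add_zero]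
  have h4 : D.dz j (fun p => ((Real.exp (-(k * φ p)) : ℝ) : ℂ)) y = _ := RD.dX_exp_neg s1 y
  rw [A2_mul ((hs.sm.mul hs.sm.conj).diff y) s1.neg.exp, h3 hs, h3 hs', h4] at h1
  have h5 := e.self_of_nhds
  have h6 : conj (s y) * ((Real.exp (-(k * φ y)) : ℝ) : ℂ) ≠ 0 :=
    mul_ne_zero ((map_ne_zero _).2 h0) (Complex.ofReal_ne_zero.2 (Real.exp_pos _).ne')
  rw [div_mul_eq_mul_div, eq_div_iff h6]
  change _ + _ * -(_ * D.dz j _ y) = _ at h1
  rw [h2] at h1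
  linear_combination s' y * h1 - D.dz j s' y * h5

end Vale.Agent.P299
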