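import Vale.Agent.P299.Defs
import Vale.Agent.P272.Api
import Vale.Agent.P188.GADefs

/-! P299: the data for the splitting of the universal cover. -/

open MeasureTheory Set Filter Topology Matrix
open scoped ContDiff ComplexConjugate ComplexOrder

noncomputable section

namespace Vale.Agent.P299

open Vale.Agent.P271 Vale.Agent.P272

variable {n : ℕ} {X : Type} [TopologicalSpace X]

/-- The Fubini-Study form of a polarisation. -/
def fsF {A : Atl n X} (P : Pol A) : Frm A := fun a => A.loc a fun p => Real.log (‖P.u a p‖ ^ 2)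

/-- Fields of endomorphisms of the tangent bundle. -/
abbrev EF (A : Atl n X) : Type := A.ι → Cn n → Mx n

/-- A holomorphic field of endomorphisms that is self-adjoint for `η`; such a field is
parallel. -/
structure HE (A : Atl n X) (η : Frm A) (B : EF A) : Prop where
  hol : ∀ a i j, AnalyticOnNhd ℂ (fun z => B a z i j) (A.e a).target
  compat : ∀ a b, ∀ z ∈ A.ov a b,
    DM (A.tr a b) z * B a z = B b (A.tr a b z) * DM (A.tr a b) z
  herm : ∀ a, ∀ z ∈ (A.e a).target, (LM (η a) z * B a z).IsHermitian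

/-- A local inverse of a local homeomorphism. -/
def lf {V : Type} [TopologicalSpace V] {π : V → X} (lh : IsLocalHomeomorph π) (m : V) : X → V :=
  (lh m).choose.symm

/-- Parallel holomorphic vector fields on a covering space, given by components in all charts. -/
structure PF (A : Atl n X) (η : Frm A) {V : Type} [TopologicalSpace V] {π : V → X}
    (lh : IsLocalHomeomorph π) (ξ : A.ι → V → Cn n) : Prop where
  compat : ∀ a b m, π m ∈ (A.e a).source → π m ∈ (A.e b).source →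
    ξ b m = DM (A.tr a b) (A.e a (π m)) *ᵥ ξ a m
  hol : ∀ a m, π m ∈ (A.e a).source →
    AnalyticAt ℂ (fun z => ξ a (lf lh m ((A.e a).symm z))) (A.e a (π m))
  par : ∀ a m, π m ∈ (A.e a).source →
    AnalyticAt ℂ (fun z => star (LM (η a) z *ᵥ ξ a (lf lh m ((A.e a).symm z)))) (A.e a (π m))

/-- A cocompact covering action. -/
structure Top (Γ : Type) [Group Γ] {V : Type} [TopologicalSpace V] [MulAction Γ V] (π : V → X) :
    Prop where
  cov : IsQuotientCoveringMap π Γ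
  coc : ∃ K : Set V, IsCompact K ∧ ∀ m : V, ∃ γ : Γ, γ • m ∈ K
  prop : ∀ K : Set V, IsCompact K → {γ : Γ | ∃ m ∈ K, γ • m ∈ K}.Finite
  fg : Group.FG Γ

variable [MeasurableSpace X]

/-- A Kaehler form whose volume form is a multiple of `M.μ`, with nonnegative Ricci form. -/
structure KY (M : Model n X) (η : Frm M.toAtl) : Prop where
  kae : Kae M.toAtl η
  det : ∃ c : ℝ, ∀ p, dt M η p = c
  nn : NnF M.toAtl (-th M)

/-- A parallel nonnegative endomorphism with Ricci flat image. -/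
structure Par (M : Model n X) (η : Frm M.toAtl) (B : EF M.toAtl) : Prop where
  he : HE M.toAtl η B
  psd : ∀ a, ∀ z ∈ (M.e a).target, (LM (η a) z * B a z).PosSemidef
  ric : ∀ a, ∀ z ∈ (M.e a).target, LM (th M a) z * B a z = 0

/-- Three parallel orthogonal projectors; the image of `B` lies in the first two, which are Ricci
flat. -/
structure Prj (M : Model n X) (η : Frm M.toAtl) (B : EF M.toAtl) (Q : Fin 3 → EF M.toAtl) :
    Prop where
  he : ∀ i, HE M.toAtl η (Q i)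
  mul : ∀ i j a, ∀ z ∈ (M.e a).target, Q i a z * Q j a z = if i = j then Q i a z else 0
  sum : ∀ a, ∀ z ∈ (M.e a).target, ∑ i, Q i a z = 1
  ric : ∀ i, i ≠ 2 → ∀ a, ∀ z ∈ (M.e a).target, LM (th M a) z * Q i a z = 0
  img : ∀ a, ∀ z ∈ (M.e a).target, Q 2 a z * B a z = 0

/-- The universal cover with its parallel vector fields. -/
structure Pre (M : Model n X) (η : Frm M.toAtl) (B : EF M.toAtl) where
  V : Type
  [top : TopologicalSpace V]
  [t2 : T2Space V]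
  [sc : SecondCountableTopology V]
  [sim : SimplyConnectedSpace V]
  Γ : Type
  [grp : Group Γ]
  [act : MulAction Γ V]
  π : V → X
  lh : IsLocalHomeomorph π
  tp : Top Γ π
  Q : Fin 3 → EF M.toAtl
  prj : Prj M η B Q
  q : ℕ
  ξ : Fin q → M.ι → V → Cn n
  pf : ∀ i, PF M.toAtl η lh (ξ i)
  on : ∀ i j a m, π m ∈ (M.e a).source →
    star (ξ i a m) ⬝ᵥ LM (η a) (M.e a (π m)) *ᵥ ξ j a m = if i = j then 1 else 0
  span : ∀ a m, π m ∈ (M.e a).source → ∀ v, Q 0 a (M.e a (π m)) *ᵥ v =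
    ∑ i, (star (ξ i a m) ⬝ᵥ LM (η a) (M.e a (π m)) *ᵥ v) • ξ i a m
  inv : ∀ γ : Γ, ∃ U : Matrix (Fin q) (Fin q) ℂ, ∀ i a m, π m ∈ (M.e a).source →
    ξ i a (γ • m) = ∑ j, U i j • ξ j a m
  max : ∀ ζ, PF M.toAtl η lh ζ → ∀ a m, π m ∈ (M.e a).source →
    Q 0 a (M.e a (π m)) *ᵥ ζ a m = ζ a m

attribute [instance] Pre.top Pre.t2 Pre.sc Pre.sim Pre.grp Pre.act

/-- A complex manifold given by a chart at every point. -/
structure CA (d : ℕ) (Y : Type) [TopologicalSpace Y] where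
  c : Y → OpenPartialHomeomorph Y (Cn d)
  mem : ∀ y, y ∈ (c y).source
  hol : ∀ y y' p, p ∈ (c y).source → p ∈ (c y').source →
    AnalyticAt ℂ (fun w => c y' ((c y).symm w)) (c y p)

/-- The point with product coordinates `w`. -/
def pt {q d₁ d₂ : ℕ} {Y Z : Type} [TopologicalSpace Y] [TopologicalSpace Z] (cY : CA d₁ Y)
    (cZ : CA d₂ Z) (y : Y) (z : Z) (w : Cn q × Cn d₁ × Cn d₂) : Cn q × Y × Z :=
  (w.1, (cY.c y).symm w.2.1, (cZ.c z).symm w.2.2)

/-- The universal cover is the product of a flat factor, a Ricci flat factor and a third factor. -/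
structure Spl (M : Model n X) (η : Frm M.toAtl) (B : EF M.toAtl) where
  q : ℕ
  d₁ : ℕ
  d₂ : ℕ
  Y : Type
  Z : Type
  [tY : TopologicalSpace Y]
  [tZ : TopologicalSpace Z]
  [t2Y : T2Space Y]
  [t2Z : T2Space Z]
  [sY : SimplyConnectedSpace Y]
  [sZ : SimplyConnectedSpace Z]
  [cY2 : SecondCountableTopology Y]
  [cZ2 : SecondCountableTopology Z]
  cY : CA d₁ Y
  cZ : CA d₂ Z
  Γ : Type
  [grp : Group Γ]
  [a0 : MulAction Γ (Cn q)]
  [aY : MulAction Γ Y]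
  [aZ : MulAction Γ Z]
  π : Cn q × Y × Z → X
  lh : IsLocalHomeomorph π
  tp : Top Γ π
  aff : ∀ γ : Γ, ∃ U ∈ Matrix.unitaryGroup (Fin q) ℂ, ∃ b, ∀ x : Cn q, γ • x = U *ᵥ x + b
  Q : Fin 3 → EF M.toAtl
  prj : Prj M η B Q
  gY : Y → Cn d₁ → Mx d₁
  gZ : Z → Cn d₂ → Mx d₂
  an : ∀ a y z w, w.2.1 ∈ (cY.c y).target → w.2.2 ∈ (cZ.c z).target →
    π (pt cY cZ y z w) ∈ (M.e a).source →
    AnalyticAt ℂ (fun w' => M.e a (π (pt cY cZ y z w'))) w ∧
      Function.Bijective (fderiv ℂ (fun w' => M.e a (π (pt cY cZ y z w'))) w)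
  met : ∀ a y z w, w.2.1 ∈ (cY.c y).target → w.2.2 ∈ (cZ.c z).target →
    π (pt cY cZ y z w) ∈ (M.e a).source → ∀ v v',
    star (fderiv ℂ (fun w' => M.e a (π (pt cY cZ y z w'))) w v) ⬝ᵥ
        LM (η a) (M.e a (π (pt cY cZ y z w))) *ᵥ
          fderiv ℂ (fun w' => M.e a (π (pt cY cZ y z w'))) w v' =
      star v.1 ⬝ᵥ v'.1 + star v.2.1 ⬝ᵥ gY y w.2.1 *ᵥ v'.2.1 + star v.2.2 ⬝ᵥ gZ z w.2.2 *ᵥ v'.2.2
  blk : ∀ a y z w, w.2.1 ∈ (cY.c y).target → w.2.2 ∈ (cZ.c z).target →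
    π (pt cY cZ y z w) ∈ (M.e a).source → ∀ i v,
    Q i a (M.e a (π (pt cY cZ y z w))) *ᵥ fderiv ℂ (fun w' => M.e a (π (pt cY cZ y z w'))) w v =
      fderiv ℂ (fun w' => M.e a (π (pt cY cZ y z w'))) w
        (![(v.1, 0, 0), (0, v.2.1, 0), (0, 0, v.2.2)] i)
  max : ∀ ζ, PF M.toAtl η lh ζ → ∀ a m, π m ∈ (M.e a).source →
    Q 0 a (M.e a (π m)) *ᵥ ζ a m = ζ a m

attribute [instance] Spl.tY Spl.tZ Spl.t2Y Spl.t2Z Spl.sY Spl.sZ Spl.cY2 Spl.cZ2 Spl.grp Spl.a0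
  Spl.aY Spl.aZ

/-- The group theoretic conclusions. -/
def Spl.Grp {M : Model n X} {η : Frm M.toAtl} {B : EF M.toAtl} (S : Spl M η B) : Prop :=
  (∃ d, P188.PG S.Γ d) ∧ ∃ H : Subgroup S.Γ, H.FiniteIndex ∧
    (∀ γ ∈ H, ∃ b, ∀ x : Cn S.q, γ • x = x + b) ∧ ∀ γ ∈ H, ∀ y : S.Y, γ • y = y

/-- A rational section of a power of the anticanonical bundle that is flat along the image of `B`
and bounded by first integrals. -/
def Out (M : Model n X) (P : Pol M.toAtl) (B : EF M.toAtl) : Prop :=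
  ∃ (k l r : ℕ) (s s' : X → ℂ) (c : Fin r → X → ℂ), 0 < k ∧ s ∈ M.H0 (M.k⁻¹ ^ k * P.u ^ l) ∧
    s' ∈ M.H0 (P.u ^ l) ∧ (∀ i, c i ∈ M.H0 (P.u ^ l)) ∧ s ≠ 0 ∧ s' ≠ 0 ∧
    (∀ p, ‖s p‖ ^ 2 ≤ ∑ i, ‖c i p‖ ^ 2) ∧
    ∀ a, ∀ z ∈ (M.e a).target, s' ((M.e a).symm z) ≠ 0 → ∀ v,
      dz (B a z *ᵥ v) (M.loc a fun p => ((‖s p‖ ^ 2 / ‖s' p‖ ^ 2 : ℝ) : ℂ)) z = 0 ∧
        ∀ i, dz (B a z *ᵥ v) (M.loc a fun p => c i p / s' p) z = 0

end Vale.Agent.P299
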