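import Vale.Agent.P299.PartL
import Vale.Agent.P299.Defs2
import Vale.Agent.P271A.Pull

/-! P299: transfer between the manifold and its affine model. -/

open MeasureTheory Set Filter Topology Matrix
open scoped ContDiff ENNReal ComplexConjugate ComplexOrder

noncomputable section

namespace Vale.Agent.P299

open Vale.Agent.P271 Vale.Agent.P272

variable {n : ℕ} {X : Type} [TopologicalSpace X] [T2Space X] [CompactSpace X] [ConnectedSpace X]
  [MeasurableSpace X] [BorelSpace X] {M : Model n X} {N : ℕ} {P : Pol M.toAtl} {C : P271A.Cov M P} {A : AD n N C.Y}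

theorem Real.inj (h : Real C A) : Function.Injective C.π := fun q q' e => by
  obtain ⟨i, hi, rfl⟩ := C.fiber q q' e
  rw [h.k0, Nat.lt_one_iff] at hi
  rw [hi, Function.iterate_zero_apply]

theorem Real.dense (h : Real C A) : Dense (range C.π) := by
  have _ := h.k0
  rw [C.range_π]
  exact Atl.dense_ne_zero C.hG C.hZ C.Z_ne

theorem Real.nx (h : Real C A) (q : C.Y) : A.nx q = (‖C.t q‖ ^ 2)⁻¹ := by
  obtain ⟨e, he⟩ := h.hx
  simp only [AD.nx, he, norm_div, div_pow]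
  rw [← Finset.sum_div, e.sum_comp fun j => ‖P.s j (C.π q)‖ ^ 2, P.norm, one_div]

/-- The change of coordinates from the model to the chart `a`. -/
def Tr (C : P271A.Cov M P) (a : M.ι) (q : C.Y) : Cn n → Cn n := fun z => M.e a (C.π (C.D.sec q z))

theorem Ga_Tr (C : P271A.Cov M P) (a : M.ι) (q : C.Y) : Tr C a q (C.D.pr q) = M.e a (C.π q) := by
  rw [Tr, P271A.pull_sec]

theorem Ga_near (C : P271A.Cov M P) {a : M.ι} {q : C.Y} (hq : C.π q ∈ (M.e a).source) :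
    ∀ᶠ z in 𝓝 (C.D.pr q), C.π (C.D.sec q z) ∈ (M.e a).source :=
  (C.D.tendsto_sec q).eventually ((P271A.pull_near C hq).mono fun _ h => h.2)

theorem Ga_LMd {Y : Type} [TopologicalSpace Y] [MeasurableSpace Y] (D : P271A.RD n Y) (Φ : Y → ℝ)
    (y : Y) : LMd D Φ y = LM (fun z => Φ (D.sec y z)) (D.pr y) := by
  ext j k
  have h1 := P271A.RD.dX_rep_ev (ξ := P271A.bv j) (D.rep_sec (fun p => (Φ p : ℂ)) y)
  have h2 := P271A.RD.dX_rep (ξ := P271A.zv k) h1
  have h3 : P271A.eX (P271A.bv j) ((fun p => (Φ p : ℂ)) ∘ D.sec y) =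
      dzb (Pi.single j 1) fun z => (Φ (D.sec y z) : ℂ) := funext fun _ => P271A.Brid_bv j
  rw [h3, P271A.Brid_zv] at h2
  exact h2

theorem Ga_isF : IsF M.toAtl (fsF P) := by
  have hpos : ∀ {a p}, p ∈ (M.e a).source → 0 < ‖P.u a p‖ ^ 2 := fun hp =>
    pow_pos (norm_pos_iff.2 (P.gauge.ne _ _ hp)) 2
  have hs : ∀ a, ContDiffOn ℝ ∞ (fsF P a) (M.e a).target := fun a =>
    (P.gauge.sm a).log fun z hz => (hpos ((M.e a).map_target hz)).ne'
  refine ⟨hs, fun a b z hz => ?_⟩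
  have hb : ContDiffAt ℝ ∞ (fsF P b) (M.tr a b z) :=
    (hs b).contDiffAt ((M.e b).open_target.mem_nhds (M.mapsTo_tr a b hz).1)
  have hF := P.gauge.hol a b z hz
  have h0 : M.loc a (fun p => P.u a p / P.u b p) z ≠ 0 :=
    div_ne_zero (P.gauge.ne a _ ((M.e a).map_target hz.1)) (P.gauge.ne b _ hz.2)
  have e : fsF P a =ᶠ[𝓝 z] (fun y => Real.log (‖M.loc a (fun p => P.u a p / P.u b p) y‖ ^ 2)) +
      fsF P b ∘ M.tr a b := by
    filter_upwards [(M.isOpen_ov a b).mem_nhds hz] with y hy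
    have h1 := hpos ((M.e a).map_target hy.1)
    have h2 := hpos hy.2
    simp only [fsF, Pi.add_apply, Function.comp_apply, M.loc_tr a b _ hy]
    simp only [Atl.loc, norm_div, div_pow]
    rw [Real.log_div h1.ne' h2.ne', sub_add_cancel]
  rw [LM_congr e, LM_add _ (hb.comp z (M.api_contDiffAt_tr a b hz)), LM_log_normSq hF h0,
    zero_add, LM_comp_hol hb (M.analyticOnNhd_tr a b z hz)]
  exact (((hF.contDiffAt (n := ∞)).restrict_scalars ℝ).norm_sq ℂ).log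
    (pow_pos (norm_pos_iff.2 h0) 2).ne'

theorem Tr_det (C : P271A.Cov M P) {a : M.ι} {q : C.Y} (hq : C.π q ∈ (M.e a).source) :
    (DM (Tr C a q) (C.D.pr q)).det * (M.k a (C.π q) * C.Ω (C.π q)) = 1 := by
  have h1 : AnalyticAt ℂ (M.loc a C.pr0) (Tr C a q (C.D.pr q)) := by
    rw [Ga_Tr]
    exact C.pr0_an a q hq
  have h2 : M.loc a C.pr0 ∘ Tr C a q =ᶠ[𝓝 (C.D.pr q)] id := by
    filter_upwards [Ga_near C hq, C.D.target_nhds q] with z hz hz'
    simp only [Function.comp_apply, Tr, id]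
    rw [M.loc_e a _ hz, ← C.hpr, C.D.pr_sec hz']
  have h3 := fderiv_comp (C.D.pr q) h1.differentiableAt (C.T_an a q hq).differentiableAt
  rw [h2.fderiv_eq, fderiv_id, Ga_Tr] at h3
  have h4 := congrArg ContinuousLinearMap.det h3
  rw [C.Ω_det a q hq, DM_det, mul_comm]
  refine Eq.trans ?_ (h4.symm.trans ?_)
  · exact (LinearMap.det_comp _ _).symm
  · exact LinearMap.det_id

/-- The Levi matrix of a function that is locally a pulled back potential plus the logarithm of a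
holomorphic unit. -/
theorem LMd_pull (C : P271A.Cov M P) {a : M.ι} {q : C.Y} (hq : C.π q ∈ (M.e a).source)
    {ψ : Cn n → ℝ} (hψ : ContDiffAt ℝ ∞ ψ (M.e a (C.π q))) {g : Cn n → ℂ}
    (hg : AnalyticAt ℂ g (C.D.pr q)) (hg0 : g (C.D.pr q) ≠ 0) {Φ : C.Y → ℝ}
    (hΦ : ∀ᶠ z in 𝓝 (C.D.pr q), Φ (C.D.sec q z) = ψ (Tr C a q z) + Real.log (‖g z‖ ^ 2)) :
    LMd C.D Φ q = (DM (Tr C a q) (C.D.pr q))ᴴ * LM ψ (M.e a (C.π q)) *
      DM (Tr C a q) (C.D.pr q) := by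
  have hψ' : ContDiffAt ℝ ∞ ψ (Tr C a q (C.D.pr q)) := by rwa [Ga_Tr]
  have e : (fun z => Φ (C.D.sec q z)) =ᶠ[𝓝 (C.D.pr q)]
      ψ ∘ Tr C a q + fun z => Real.log (‖g z‖ ^ 2) := hΦ
  rw [Ga_LMd, LM_congr e, LM_add (hψ'.comp _ (P271A.pull_T C hq)), LM_log_normSq hg hg0, add_zero,
    LM_comp_hol hψ' (C.T_an a q hq), Ga_Tr]
  exact (((hg.contDiffAt (n := ∞)).restrict_scalars ℝ).norm_sq ℂ).log
    (pow_pos (norm_pos_iff.2 hg0) 2).ne'

theorem Real.LM_φ (h : Real C A) {a : M.ι} {q : C.Y} (hq : C.π q ∈ (M.e a).source) :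
    LMd A.D A.φ q = (DM (Tr C a q) (C.D.pr q))ᴴ * LM ((-th M) a) (M.e a (C.π q)) *
      DM (Tr C a q) (C.D.pr q) := by
  rw [h.hD]
  refine LMd_pull C hq ((isF_th M).neg.smAt ((M.e a).map_source hq)) (C.Ω_an a q hq)
    (C.frame_k.pull_ne M.k_gauge hq) ?_
  filter_upwards [Ga_near C hq] with z hz
  have h1 := pow_ne_zero 2 (norm_ne_zero_iff.2 (M.k_gauge.ne a _ hz))
  have h2 := pow_ne_zero 2 (norm_ne_zero_iff.2 (C.Ω_ne (C.D.sec q z)))
  simp only [Pi.neg_apply, th, Tr]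
  rw [h.hφ, M.loc_e a _ hz, norm_mul, mul_pow, Real.log_mul h1 h2]
  ring

theorem Real.LM_ρ (h : Real C A) {u : X → ℝ} (hu : M.Sm u) {a : M.ι} {q : C.Y}
    (hq : C.π q ∈ (M.e a).source) :
    LMd A.D (fun p => A.ρ p + u (C.π p)) q = (DM (Tr C a q) (C.D.pr q))ᴴ *
      LM ((fsF P + ddc M.toAtl u) a) (M.e a (C.π q)) * DM (Tr C a q) (C.D.pr q) := by
  rw [h.hD]
  refine LMd_pull C hq ((Ga_isF.add (isF_ddc hu)).smAt ((M.e a).map_source hq))
    ((C.t_an a q hq).inv (C.frame_t.pull_ne P.gauge hq))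
    (inv_ne_zero (C.frame_t.pull_ne P.gauge hq)) ?_
  filter_upwards [Ga_near C hq] with z hz
  have h1 := pow_ne_zero 2 (norm_ne_zero_iff.2 (P.gauge.ne a _ hz))
  have h2 := pow_ne_zero 2 (norm_ne_zero_iff.2 (C.t_ne (C.D.sec q z)))
  have h3 : A.ρ (C.D.sec q z) = Real.log (A.nx (C.D.sec q z)) := rfl
  simp only [Pi.add_apply, Pi.inv_apply, fsF, ddc, Tr]
  rw [h3, h.nx, M.loc_e a _ hz, M.loc_e a _ hz, norm_inv, inv_pow, norm_mul, mul_pow, Real.log_inv,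
    Real.log_inv, Real.log_mul h1 h2]
  ring

theorem kae_fsF (hk : P.k0 = 1) : Kae M.toAtl (fsF P) := by
  have _ := hk
  refine ⟨Ga_isF, fun a z hz => (posDef_LM_iff (Ga_isF.smAt hz)).2 fun ξ hξ => ?_⟩
  have hp := (M.e a).map_target hz
  have h1 := P271A.Lv_fs_pos P hp hξ
  rwa [P271A.Lv_fs P hp, (M.e a).right_inv hz] at h1

end Vale.Agent.P299
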