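import Vale.Agent.P299.A2
import Vale.Agent.P299.Ga
import Vale.Agent.P271A.Ext

/-! P299, part A: extension of the endomorphism to the manifold. -/

open MeasureTheory Set Filter Topology Matrix
open scoped ContDiff ENNReal ComplexConjugate ComplexOrder

noncomputable section

namespace Vale.Agent.P299

open Vale.Agent.P271 Vale.Agent.P272

variable {n : ℕ} {X : Type} [TopologicalSpace X] [T2Space X] [CompactSpace X] [ConnectedSpace X]
  [MeasurableSpace X] [BorelSpace X] {M : Model n X} {N : ℕ} {P : Pol M.toAtl} {C : P271A.Cov M P} {A : AD n N C.Y}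

set_option linter.unusedSectionVars false

theorem A3_cont {F : Cn n → Mx n} {z : Cn n} (h : ∀ j k, ContinuousAt (fun w => F w j k) z) :
    ContinuousAt F z := continuousAt_pi.2 fun j => continuousAt_pi.2 (h j)

theorem A3_DM {S : Cn n → Cn n} {z : Cn n} (h : AnalyticAt ℂ S z) (j k : Fin n) :
    AnalyticAt ℂ (fun w => DM S w j k) z :=
  (((ContinuousLinearMap.proj j).comp
    (ContinuousLinearMap.apply ℂ (Cn n) (Pi.single k 1 : Cn n))).analyticAt _).comp h.fderiv

theorem A3_comp {S T : Cn n → Cn n} {z : Cn n} (hS : DifferentiableAt ℂ S (T z))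
    (hT : DifferentiableAt ℂ T z) : DM (S ∘ T) z = DM S (T z) * DM T z := by
  ext j k
  have e : (DM S (T z) * DM T z) j k = (DM S (T z) *ᵥ DM T z *ᵥ Pi.single k 1) j := by
    rw [mulVec_mulVec, mulVec_single_one]
    rfl
  rw [e, DM_mulVec, DM_mulVec, DM, of_apply, fderiv_comp z hS hT]
  rfl

theorem A3_congr {S T : Cn n → Cn n} {z : Cn n} (h : S =ᶠ[𝓝 z] T) : DM S z = DM T z := by
  rw [DM, DM, h.fderiv_eq]

theorem A3_det {F : Cn n → Mx n} {z : Cn n} (h : ∀ j k, AnalyticAt ℂ (fun y => F y j k) z) :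
    AnalyticAt ℂ (fun y => (F y).det) z := by
  simp only [det_apply']
  exact Finset.analyticAt_fun_sum _ fun σ _ =>
    analyticAt_const.mul (Finset.analyticAt_fun_prod _ fun i _ => h _ _)

theorem A3_inv {F : Cn n → Mx n} {z : Cn n} (h : ∀ j k, AnalyticAt ℂ (fun y => F y j k) z)
    (h0 : (F z).det ≠ 0) (j k : Fin n) : AnalyticAt ℂ (fun y => (F y)⁻¹ j k) z := by
  simp only [inv_def, Ring.inverse_eq_inv', Matrix.smul_apply, smul_eq_mul, adjugate_apply]
  refine ((A3_det h).inv h0).mul (A3_det fun i l => ?_)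
  simp only [updateRow_apply]
  split_ifs
  · exact analyticAt_const
  · exact h _ _

theorem A3_one (C : P271A.Cov M P) {a : M.ι} {q : C.Y} (hq : C.π q ∈ (M.e a).source) :
    DM (M.loc a C.pr0) (M.e a (C.π q)) * DM (Tr C a q) (C.D.pr q) = 1 := by
  have h1 : AnalyticAt ℂ (M.loc a C.pr0) (Tr C a q (C.D.pr q)) := by
    rw [Ga_Tr]
    exact C.pr0_an a q hq
  have h2 : M.loc a C.pr0 ∘ Tr C a q =ᶠ[𝓝 (C.D.pr q)] id := by
    filter_upwards [Ga_near C hq, C.D.target_nhds q] with z hz hz'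
    simp only [Function.comp_apply, Tr, id]
    rw [M.loc_e a _ hz, ← C.hpr, C.D.pr_sec hz']
  have h3 := A3_comp h1.differentiableAt (C.T_an a q hq).differentiableAt
  rw [A3_congr h2, Ga_Tr] at h3
  refine h3.symm.trans ?_
  ext j k
  rw [DM, of_apply, fderiv_id, ContinuousLinearMap.id_apply, one_apply, Pi.single_apply]

theorem A3_dens (h : Real C A) {a : M.ι} {z : Cn n} (hz : z ∈ (M.e a).target) {β : Type}
    [TopologicalSpace β] {F : Cn n → β} (hF : ContinuousAt F z) {S : Set β} (hS : IsClosed S)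
    {O : Set (Cn n)} (hO : O ∈ 𝓝 z)
    (H : ∀ q, C.π q ∈ (M.e a).source → M.e a (C.π q) ∈ O → F (M.e a (C.π q)) ∈ S) : F z ∈ S := by
  have hp := (M.e a).map_target hz
  have t : Tendsto (M.e a) (𝓝 ((M.e a).symm z)) (𝓝 z) := by
    have t := ((M.e a).continuousAt hp).tendsto
    rwa [(M.e a).right_inv hz] at t
  have fr := mem_closure_iff_frequently.1 (h.dense ((M.e a).symm z))
  refine hS.mem_of_frequently_of_tendsto ((fr.and_eventually
    (Eventually.and ((M.e a).open_source.mem_nhds hp) (t hO))).mono ?_) (hF.tendsto.comp t)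
  rintro _ ⟨⟨q, rfl⟩, h1, h2⟩
  exact H q h1 h2

/-- The endomorphism in the chart `a`, off the divisor. -/
def A3B (C : P271A.Cov M P) (B : C.Y → Mx n) (a : M.ι) (z : Cn n) : Mx n :=
  (DM (M.loc a C.pr0) z)⁻¹ * Function.extend C.π B 0 ((M.e a).symm z) * DM (M.loc a C.pr0) z

theorem A3B_eq (h : Real C A) (B : C.Y → Mx n) {a : M.ι} {q : C.Y}
    (hq : C.π q ∈ (M.e a).source) : A3B C B a (M.e a (C.π q)) =
      DM (Tr C a q) (C.D.pr q) * B q * DM (M.loc a C.pr0) (M.e a (C.π q)) := by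
  rw [A3B, (M.e a).left_inv hq, h.inj.extend_apply, inv_eq_right_inv (A3_one C hq)]

theorem A3B_zero (B : C.Y → Mx n) {a : M.ι} {z : Cn n} (hz : C.Z ((M.e a).symm z) = 0) :
    A3B C B a z = 0 := by
  rw [A3B, Function.extend_apply', Pi.zero_apply, Matrix.mul_zero, Matrix.zero_mul]
  intro h
  exact (C.range_π.le h) hz

theorem A3B_mem {a : M.ι} {z : Cn n} (hz : z ∈ (M.e a).target) (h : C.Z ((M.e a).symm z) ≠ 0) :
    ∃ q, C.π q ∈ (M.e a).source ∧ z = M.e a (C.π q) := by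
  obtain ⟨q, hq⟩ := C.range_π.ge h
  exact ⟨q, hq ▸ (M.e a).map_target hz, by rw [hq, (M.e a).right_inv hz]⟩

theorem A3B_diff (h : Real C A) {B : C.Y → Mx n} (hB : ∀ j l, C.D.Hol fun y => B y j l) {a : M.ι}
    {q : C.Y} (hq : C.π q ∈ (M.e a).source) (i j : Fin n) :
    DifferentiableAt ℂ (fun z => A3B C B a z i j) (M.e a (C.π q)) := by
  have hS := C.pr0_an a q hq
  have h0 : (DM (M.loc a C.pr0) (M.e a (C.π q))).det ≠ 0 :=
    (isUnit_det_of_right_inverse (A3_one C hq)).ne_zero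
  have h1 : ∀ k l, DifferentiableAt ℂ (fun z => Function.extend C.π B 0 ((M.e a).symm z) k l)
      (M.e a (C.π q)) := fun k l => by
    have h2 := hB k l q
    rw [C.hpr, ← M.loc_e a C.pr0 hq] at h2
    refine (h2.comp _ hS.differentiableAt).congr_of_eventuallyEq ?_
    rw [← (M.e a).map_nhds_eq hq, ← C.lh.map_nhds_eq q]
    refine (P271A.pull_near C hq).mono fun y hy => ?_
    change Function.extend C.π B 0 ((M.e a).symm (M.e a (C.π y))) k l =
      B (C.D.sec q (M.loc a C.pr0 (M.e a (C.π y)))) k l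
    rw [(M.e a).left_inv hy.2, h.inj.extend_apply, M.loc_e a _ hy.2, ← C.hpr, hy.1]
  simp only [A3B, Matrix.mul_apply]
  exact DifferentiableAt.fun_sum fun l _ => (DifferentiableAt.fun_sum fun k _ =>
    (A3_inv (A3_DM hS) h0 i k).differentiableAt.mul (h1 k l)).mul (A3_DM hS l j).differentiableAt

theorem A3_conj {S T : Mx n} (h : S * T = 1) (g B : Mx n) :
    g * (T * B * S) = Sᴴ * (Tᴴ * g * T * B) * S ∧ g = Sᴴ * (Tᴴ * g * T) * S := by
  have h1 : T * S = 1 := mul_eq_one_comm.1 h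
  have h2 : Sᴴ * Tᴴ = 1 := by rw [← conjTranspose_mul, h1, conjTranspose_one]
  constructor
  · simp only [← Matrix.mul_assoc, h2, Matrix.one_mul]
  · simp only [← Matrix.mul_assoc, h2, Matrix.one_mul]
    rw [Matrix.mul_assoc, h1, Matrix.mul_one]

variable {η : Frm M.toAtl} {Φ : C.Y → ℝ} {B : C.Y → Mx n}

theorem A3B_psd (h : Real C A) (hB : A.EB Φ B) {a : M.ι} {q : C.Y} (hq : C.π q ∈ (M.e a).source)
    (hL : LMd A.D Φ q = (DM (Tr C a q) (C.D.pr q))ᴴ * LM (η a) (M.e a (C.π q)) *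
      DM (Tr C a q) (C.D.pr q)) :
    (LM (η a) (M.e a (C.π q)) * A3B C B a (M.e a (C.π q))).PosSemidef := by
  rw [A3B_eq h B hq, (A3_conj (A3_one C hq) _ _).1, ← hL]
  exact (hB.psd _).conjTranspose_mul_mul_same _

theorem A3B_ext (h : Real C A) (hη : Kae M.toAtl η) (hB : A.EB Φ B) {a : M.ι}
    (hL : ∀ q, C.π q ∈ (M.e a).source → LMd A.D Φ q = (DM (Tr C a q) (C.D.pr q))ᴴ *
      LM (η a) (M.e a (C.π q)) * DM (Tr C a q) (C.D.pr q)) (i j : Fin n) :
    ∃ H, DifferentiableOn ℂ H (M.e a).target ∧ ∀ q, C.π q ∈ (M.e a).source →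
      H (M.e a (C.π q)) = A3B C B a (M.e a (C.π q)) i j := by
  obtain ⟨c, hc⟩ := hB.bdd
  have bd : ∀ z ∈ (M.e a).target, ‖A3B C B a z i j‖ ≤
      ∑ k, ‖(LM (η a) z)⁻¹ i k‖ * (|c| * ∑ l, ‖LM (η a) z l l‖) := fun z hz => by
    by_cases h0 : C.Z ((M.e a).symm z) = 0
    · rw [A3B_zero B h0, Matrix.zero_apply, norm_zero]
      positivity
    obtain ⟨q, hq, rfl⟩ := A3B_mem hz h0
    rw [← nonsing_inv_mul_cancel_left (LM (η a) (M.e a (C.π q))) (A3B C B a _)
      (isUnit_iff_ne_zero.2 (hη.2 a _ hz).det_pos.ne'), Matrix.mul_apply]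
    refine (norm_sum_le _ _).trans (Finset.sum_le_sum fun k _ => ?_)
    rw [norm_mul]
    refine mul_le_mul_of_nonneg_left (A1_bound (A3B_psd h hB hq (hL q hq)) (fun ξ => ?_) k j)
      (norm_nonneg _)
    have h1 := A3_conj (A3_one C hq) (LM (η a) (M.e a (C.π q))) (B q)
    rw [A3B_eq h B hq, h1.1, ← hL q hq, Fock_q2_conj]
    refine (hc _ _).trans_eq ?_
    rw [← Fock_q2_conj, hL q hq, ← h1.2]
  have hZ : ∀ {z}, z ∈ (M.e a).target → (M.loc a (fun p => C.G a p * C.Z p) z = 0 ↔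
      C.Z ((M.e a).symm z) = 0) := fun hz =>
    mul_eq_zero_iff_left (C.hG.ne a _ ((M.e a).map_target hz))
  obtain ⟨H, h1, h2, -⟩ := P271A.extendE (h := fun z => A3B C B a z i j) (M.e a).open_target
    (AnalyticOnNhd.differentiableOn (C.hZ a)) (fun z hz h0 => by
      obtain ⟨q, hq, rfl⟩ := A3B_mem hz (mt (hZ hz).2 h0)
      exact A3B_diff h (h.hD ▸ hB.hol) hq i j)
    (fun z hz h0 => by rw [A3B_zero B ((hZ hz).1 h0), Matrix.zero_apply]) fun K hK cK => by
      have h3 : ContinuousOn (fun z => ∑ k, ‖(LM (η a) z)⁻¹ i k‖ *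
          (|c| * ∑ l, ‖LM (η a) z l l‖)) K := fun z hz => by
        have h4 := contDiffAt_LM (hη.1.smAt (a := a) (hK hz))
        refine ContinuousAt.continuousWithinAt ?_
        exact tendsto_finsetSum _ fun k _ => (ApiA_inv h4
          (hη.2 a _ (hK hz)).det_pos.ne' i k).continuousAt.norm.mul (continuousAt_const.mul
            (tendsto_finsetSum _ fun l _ => (h4 l l).continuousAt.norm))
      obtain ⟨R, hR⟩ := cK.exists_bound_of_continuousOn h3
      refine (setLIntegral_mono' (g := fun _ => ENNReal.ofReal (R ^ 2)) cK.measurableSet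
        fun z hz => ENNReal.ofReal_le_ofReal (pow_le_pow_left₀ (norm_nonneg _)
          ((bd z (hK hz)).trans ((le_abs_self _).trans (hR z hz))) 2)).trans_lt ?_
      rw [setLIntegral_const]
      exact ENNReal.mul_lt_top ENNReal.ofReal_lt_top cK.measure_lt_top
  refine ⟨H, h1, fun q hq => h2 _ ((M.e a).map_source hq) (mt (hZ ((M.e a).map_source hq)).1 ?_)⟩
  rw [(M.e a).left_inv hq]
  exact C.range_π.le ⟨q, rfl⟩

theorem A3B_compat (h : Real C A) (B : C.Y → Mx n) {a b : M.ι} {q : C.Y}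
    (hq : C.π q ∈ (M.e a).source) (hb : C.π q ∈ (M.e b).source) :
    DM (M.tr a b) (M.e a (C.π q)) * A3B C B a (M.e a (C.π q)) =
      A3B C B b (M.e b (C.π q)) * DM (M.tr a b) (M.e a (C.π q)) := by
  have hO : M.e a (C.π q) ∈ M.ov a b :=
    ⟨(M.e a).map_source hq, by rwa [mem_preimage, (M.e a).left_inv hq]⟩
  have e : M.tr a b (M.e a (C.π q)) = M.e b (C.π q) := by rw [Atl.tr, (M.e a).left_inv hq]
  have e1 := (A3_congr (M.api_loc_ev a b C.pr0 hO)).trans (A3_comp
    (e ▸ (C.pr0_an b q hb).differentiableAt) (M.analyticOnNhd_tr a b _ hO).differentiableAt)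
  have e3 := A3_one C hq
  rw [e1, e, Matrix.mul_assoc] at e3
  rw [A3B_eq h B hq, A3B_eq h B hb, e1, e, ← inv_eq_right_inv (A3_one C hb), inv_eq_right_inv e3]
  simp only [Matrix.mul_assoc]

theorem A3_par (h : Real C A) (hη : Kae M.toAtl η) (hB : A.EB Φ B)
    (hL : ∀ a q, C.π q ∈ (M.e a).source → LMd A.D Φ q = (DM (Tr C a q) (C.D.pr q))ᴴ *
      LM (η a) (M.e a (C.π q)) * DM (Tr C a q) (C.D.pr q)) :
    ∃ B', Par M η B' ∧ ∀ a q, C.π q ∈ (M.e a).source →
      B' a (M.e a (C.π q)) * DM (Tr C a q) (C.D.pr q) = DM (Tr C a q) (C.D.pr q) * B q := by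
  obtain ⟨H, h1, h3⟩ : ∃ H : EF M.toAtl, (∀ a i j, DifferentiableOn ℂ (fun z => H a z i j)
      (M.e a).target) ∧ ∀ a q, C.π q ∈ (M.e a).source →
        H a (M.e a (C.π q)) = A3B C B a (M.e a (C.π q)) := by
    choose H h1 h2 using fun a => A3B_ext h hη hB (hL a)
    exact ⟨fun a z => of fun i j => H a i j z, h1, fun a q hq =>
      Matrix.ext fun i j => h2 a i j q hq⟩
  have h4 : ∀ {a z}, z ∈ (M.e a).target → ContinuousAt (H a) z := fun hz =>
    A3_cont fun i j => (h1 _ i j).continuousOn.continuousAt ((M.e _).open_target.mem_nhds hz)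
  have h5 : ∀ a, ∀ z ∈ (M.e a).target, (LM (η a) z * H a z).PosSemidef := fun a z hz =>
    A3_dens h hz (F := fun w => LM (η a) w * H a w) ((A3_cont fun j k =>
      (contDiffAt_LM (hη.1.smAt hz) j k).continuousAt).mul (h4 hz)) A1_closed univ_mem
      fun q hq _ => by
        rw [h3 a q hq]
        exact A3B_psd h hB hq (hL a q hq)
  refine ⟨H, ⟨⟨fun a i j =>
    P278F.analyticOnNhd_of_differentiableOn (M.e a).open_target (h1 a i j), fun a b z hz => ?_,
    fun a z hz => (h5 a z hz).1⟩, h5, fun a z hz => ?_⟩, fun a q hq => ?_⟩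
  · have hT := M.analyticOnNhd_tr a b z hz
    have hD := A3_cont fun j k => (A3_DM hT j k).continuousAt
    refine sub_eq_zero.1 (A3_dens h hz.1
      (F := fun w => DM (M.tr a b) w * H a w - H b (M.tr a b w) * DM (M.tr a b) w)
      ((hD.mul (h4 hz.1)).sub (((h4 (ApiA_tgt hz)).comp hT.continuousAt).mul hD))
      (isClosed_singleton (x := 0)) ((M.isOpen_ov a b).mem_nhds hz) fun q hq hO => ?_)
    have hb : C.π q ∈ (M.e b).source := by
      have hb := hO.2
      rwa [mem_preimage, (M.e a).left_inv hq] at hb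
    have e : M.tr a b (M.e a (C.π q)) = M.e b (C.π q) := by rw [Atl.tr, (M.e a).left_inv hq]
    rw [mem_singleton_iff, e, h3 a q hq, h3 b q hb, A3B_compat h B hq hb, sub_self]
  · refine A3_dens h hz (F := fun w => LM (th M a) w * H a w)
      ((A3_cont fun j k => (contDiffAt_LM ((isF_th M).smAt hz) j k).continuousAt).mul (h4 hz))
      (isClosed_singleton (x := 0)) univ_mem fun q hq _ => ?_
    have e := hB.ric q
    rw [h.LM_φ hq, Pi.neg_apply, LM_neg ((isF_th M).smAt ((M.e a).map_source hq)), Matrix.mul_neg,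
      Matrix.neg_mul, Matrix.neg_mul, neg_eq_zero] at e
    rw [mem_singleton_iff, h3 a q hq, A3B_eq h B hq, (A3_conj (A3_one C hq) _ _).1, e,
      Matrix.mul_zero, Matrix.zero_mul]
  · rw [h3 a q hq, A3B_eq h B hq, Matrix.mul_assoc, A3_one C hq, Matrix.mul_one]

end Vale.Agent.P299
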