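import Vale.Agent.P272.APRing

/-! P299: the Bochner formula for vector fields in a ring with derivations. -/

open Matrix
open scoped ComplexOrder

noncomputable section

namespace Vale.Agent.P299

open Vale.Agent.P272 Vale.Agent.P272.AP

variable {n : ℕ} {R : Type} [CommRing R] [StarRing R]

theorem BbX_mulVec {δ : R →+ R} (h : IsDer δ) (A : MR n R) (v : Fin n → R) :
    (fun i => δ ((A *ᵥ v) i)) = A.map δ *ᵥ v + A *ᵥ fun i => δ (v i) := by
  funext i
  simp only [mulVec, dotProduct, map_sum, h _ _, Finset.sum_add_distrib, Pi.add_apply, map_apply]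

theorem BbX_dot {δ : R →+ R} (h : IsDer δ) (u v : Fin n → R) :
    δ (u ⬝ᵥ v) = (fun i => δ (u i)) ⬝ᵥ v + u ⬝ᵥ fun i => δ (v i) := by
  simp only [dotProduct, map_sum, h _ _, Finset.sum_add_distrib]

variable {D : DR n R} (K : KS D)

/-- The Hermitian product. -/
def bh (u v : Fin n → R) : R := star u ⬝ᵥ K.G *ᵥ v

/-- The antiholomorphic derivative. -/
def bb (D : DR n R) (c : Fin n) (v : Fin n → R) : Fin n → R := fun i => D.b c (v i)

/-- The covariant derivative. -/
def nv (a : Fin n) (v : Fin n → R) : Fin n → R := (fun i => D.d a (v i)) + K.Γ a *ᵥ v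

/-- The two rough Laplacians. -/
def bT (v : Fin n → R) : Fin n → R := ∑ a, ∑ c, K.P a c • bb D c (nv K a v)

/-- The two rough Laplacians. -/
def bT' (v : Fin n → R) : Fin n → R := ∑ a, ∑ c, K.P a c • nv K a (bb D c v)

theorem G_nv (a : Fin n) (v : Fin n → R) :
    K.G *ᵥ nv K a v = fun i => D.d a ((K.G *ᵥ v) i) := by
  rw [BbX_mulVec (D.der a), nv, mulVec_add, mulVec_mulVec, K.G_Γ, add_comm]

theorem star_bh (u v : Fin n → R) : star (bh K u v) = bh K v u := by
  rw [bh, bh, ← star_dotProduct_star, star_star, star_mulVec, K.herm, ← dotProduct_mulVec]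

theorem bh_add (u v w : Fin n → R) : bh K u (v + w) = bh K u v + bh K u w := by
  rw [bh, mulVec_add, dotProduct_add, bh, bh]

theorem bh_sum (u : Fin n → R) (v : Fin n → Fin n → Fin n → R) (c : MR n R) :
    bh K u (∑ a, ∑ b, c a b • v a b) = ∑ a, ∑ b, c a b * bh K u (v a b) := by
  simp only [bh, mulVec_sum, dotProduct_sum, mulVec_smul, dotProduct_smul, smul_eq_mul]

theorem d_bh (a : Fin n) (u v : Fin n → R) :
    D.d a (bh K u v) = bh K (bb D a u) v + bh K u (nv K a v) := by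
  rw [bh, BbX_dot (D.der a), bh, bh, G_nv]
  congr 2
  funext i
  exact (D.star_b a (u i)).symm

theorem b_bh (c : Fin n) (u v : Fin n → R) :
    D.b c (bh K u v) = bh K (nv K c u) v + bh K u (bb D c v) := by
  rw [← star_bh K v u, ← D.star_d, d_bh, star_add, star_bh, star_bh, add_comm]

theorem bb_nv (a c : Fin n) (v : Fin n → R) :
    bb D c (nv K a v) = nv K a (bb D c v) + (K.Γ a).map (D.b c) *ᵥ v := by
  have h := BbX_mulVec (D.derb c) (K.Γ a) v
  funext i
  have h1 := congrFun h i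
  simp only [bb, nv, Pi.add_apply, map_add, D.db] at h1 ⊢
  rw [h1]
  exact (add_assoc _ _ _).symm.trans (add_right_comm _ _ _)

theorem bT_eq (v : Fin n → R) : bT K v = bT' K v + (K.P * D.lm K.l) *ᵥ v := by
  simp only [bT, bT', bb_nv, smul_add, Finset.sum_add_distrib, ← K.ricci, sum_mulVec,
    smul_mulVec]

/-- The Bochner formula. -/
theorem boch (v : Fin n → R) : D.lap K.P (bh K v v) = bh K (bT' K v) v + bh K v (bT K v) +
    ∑ a, ∑ c, K.P a c * bh K (bb D a v) (bb D c v) +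
    ∑ a, ∑ c, K.P a c * bh K (nv K c v) (nv K a v) := by
  have h1 : bh K (bT' K v) v = ∑ a, ∑ c, K.P a c * bh K (nv K c (bb D a v)) v := by
    rw [← star_bh, bT', bh_sum, Finset.sum_comm]
    simp only [star_sum, star_mul', star_bh, ← conjTranspose_apply, K.hP]
  rw [h1, bT, bh_sum]
  simp only [DR.lap, d_bh, map_add, b_bh, mul_add, Finset.sum_add_distrib]
  ring

theorem bh_ric (u v : Fin n → R) : bh K u ((K.P * D.lm K.l) *ᵥ v) = star u ⬝ᵥ D.lm K.l *ᵥ v := by
  rw [bh, mulVec_mulVec, ← mul_assoc, K.GP, one_mul]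

theorem bb_zero (c : Fin n) : bb D c (0 : Fin n → R) = 0 := funext fun _ => map_zero _

theorem nv_zero (c : Fin n) : nv K c (0 : Fin n → R) = 0 := by
  rw [nv, mulVec_zero, add_zero]
  exact funext fun _ => map_zero _

theorem bT'_hol {v : Fin n → R} (h : ∀ c, bb D c v = 0) : bT' K v = 0 := by
  simp only [bT', h, nv_zero, smul_zero, Finset.sum_const_zero]

theorem G_inj {u v : Fin n → R} (h : K.G *ᵥ u = K.G *ᵥ v) : u = v := by
  have h1 := congrArg (K.P *ᵥ ·) h
  simpa only [mulVec_mulVec, K.PG, one_mulVec] using h1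

theorem ric_zero {v : Fin n → R} (h : ∀ c, bb D c v = 0) (h' : ∀ c, nv K c v = 0) :
    D.lm K.l *ᵥ v = 0 := by
  have h1 := bT_eq K v
  simp only [bT'_hol K h, bT, h', bb_zero, smul_zero, Finset.sum_const_zero, zero_add] at h1
  have h2 := congrArg (K.G *ᵥ ·) h1
  simpa only [mulVec_mulVec, ← mul_assoc, K.GP, one_mul, mulVec_zero] using h2.symm

theorem bT_Q {Q : MR n R} (hQ : ∀ c, Q.map (D.b c) = 0) (hh : (K.G * Q)ᴴ = K.G * Q)
    (v : Fin n → R) : bT K (Q *ᵥ v) = Q *ᵥ bT K v := by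
  have h0 : K.G * Q = Qᴴ * K.G := by rw [← hh, conjTranspose_mul, K.herm]
  have h1 : ∀ a, nv K a (Q *ᵥ v) = Q *ᵥ nv K a v := fun a => by
    refine G_inj K ?_
    rw [G_nv, mulVec_mulVec, mulVec_mulVec, h0, ← mulVec_mulVec, ← mulVec_mulVec,
      BbX_mulVec (D.der a), ← D.ct_b, hQ, G_nv, conjTranspose_zero, zero_mulVec, zero_add]
  have h2 : ∀ c w, bb D c (Q *ᵥ w) = Q *ᵥ bb D c w := fun c w => by
    have h3 := BbX_mulVec (D.derb c) Q w
    rw [hQ, zero_mulVec, zero_add] at h3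
    exact h3
  simp only [bT, h1, h2, mulVec_sum, mulVec_smul]

theorem bT_grad (f : R) :
    bT K (K.P *ᵥ fun j => D.b j f) = K.P *ᵥ fun j => D.b j (D.lap K.P f) := by
  have h1 : ∀ a, nv K a (K.P *ᵥ fun j => D.b j f) = fun i => (K.P * D.lm f) i a := fun a => by
    refine G_inj K ?_
    rw [G_nv, mulVec_mulVec, K.GP, one_mulVec]
    funext i
    have h2 : (K.G * (K.P * D.lm f)) i a = D.lm f i a := by rw [← mul_assoc, K.GP, one_mul]
    exact h2.symm
  have h2 : ∀ c, K.G * (K.P * D.lm f).map (D.b c) =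
      (D.lm f).map (D.b c) - K.G.map (D.b c) * (K.P * D.lm f) := fun c => by
    have h3 := (D.derb c).mmul K.G (K.P * D.lm f)
    rw [← mul_assoc, K.GP, one_mul] at h3
    rw [h3, add_sub_cancel_left]
  have h3 : ∀ a c j, (K.G * (K.P * D.lm f).map (D.b c)) j a =
      (K.G * (K.P * D.lm f).map (D.b j)) c a := fun a c j => by
    rw [h2, h2]
    simp only [Matrix.sub_apply, mul_apply (M := K.G.map _), map_apply, K.symb c j, DR.lm,
      of_apply, ← D.db, D.bb c j]
  refine G_inj K ?_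
  rw [mulVec_mulVec, K.GP, one_mulVec]
  funext j
  have h4 : ∀ a c, (K.G *ᵥ bb D c fun i => (K.P * D.lm f) i a) j =
      (K.G * (K.P * D.lm f).map (D.b c)) j a := fun a c => rfl
  simp only [bT, h1, mulVec_sum, mulVec_smul, Finset.sum_apply, Pi.smul_apply, smul_eq_mul, h4,
    h3 _ _ j]
  calc _ = (K.P * (K.G * (K.P * D.lm f).map (D.b j))).trace := by
        simp only [trace, diag_apply, mul_apply (M := K.P) (N := K.G * _)]
    _ = _ := by rw [← mul_assoc, K.PG, one_mul, ← map_tr, D.lap_eq]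

/-- The pointwise positivity. -/
theorem BbX_pos {P G : Mx n} (hP : P.PosDef) (hG : G.PosDef) (X : Fin n → Fin n → ℂ) :
    0 ≤ (∑ a, ∑ c, P a c * (star (X c) ⬝ᵥ G *ᵥ X a)).re ∧
      ((∑ a, ∑ c, P a c * (star (X c) ⬝ᵥ G *ᵥ X a)).re = 0 → ∀ a, X a = 0) := by
  have hM := hG.posSemidef.conjTranspose_mul_mul_same (Matrix.of X)ᵀ
  have e : ∀ a c, star (X c) ⬝ᵥ G *ᵥ X a = (((Matrix.of X)ᵀ)ᴴ * G * (Matrix.of X)ᵀ) c a :=
    fun a c => by
      rw [dotProduct_mulVec]
      rfl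
  have e2 : ∑ a, ∑ c, P a c * (star (X c) ⬝ᵥ G *ᵥ X a) =
      (P * (((Matrix.of X)ᵀ)ᴴ * G * (Matrix.of X)ᵀ)).trace := by
    simp only [e, trace, diag_apply, mul_apply (M := P)]
  rw [e2]
  refine ⟨trace_mul_nonneg hP.posSemidef hM, fun h a => ?_⟩
  obtain ⟨y, hy⟩ := Mat_root hP.posSemidef
  have hu : IsUnit y := by
    have h1 := hP.isUnit
    rw [hy, isUnit_iff_isUnit_det, det_mul] at h1
    exact (isUnit_iff_isUnit_det y).2 (isUnit_of_mul_isUnit_right h1)
  have h2 := hM.mul_mul_conjTranspose_same y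
  have h3 : (y * (((Matrix.of X)ᵀ)ᴴ * G * (Matrix.of X)ᵀ) * yᴴ).trace = 0 := by
    have h7 := (Complex.nonneg_iff.1 h2.trace_nonneg).2.symm
    rw [trace_mul_cycle, ← hy] at h7 ⊢
    exact Complex.ext h h7
  have h4 := h2.trace_eq_zero_iff.1 h3
  have hu' : IsUnit yᴴ := by simpa [star_eq_conjTranspose] using hu.star
  rw [hu'.mul_left_eq_zero, hu.mul_right_eq_zero] at h4
  by_contra h5
  have h6 := hG.dotProduct_mulVec_pos h5
  rw [e, h4] at h6
  exact lt_irrefl _ h6

end Vale.Agent.P299
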