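import Vale.Agent.P299.Defs2
import Vale.Agent.P299.BbX1

/-! P299: local Bochner formulas. -/

open MeasureTheory Set Filter Topology Matrix
open scoped ContDiff ENNReal ComplexConjugate ComplexOrder

noncomputable section

namespace Vale.Agent.P299

open Vale.Agent.P271 Vale.Agent.P272

variable {n : ℕ} {U : Set (Cn n)} {Φ : Cn n → ℝ}

section Aux
open Vale.Agent.P272.AP Vale.Agent.P271A

variable {hU : IsOpen U} {K : KS (DU hU)} {v : Fin n → SU hU} {ζ : Cn n → Cn n}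

theorem Bb_mv (y : U) (A : MR n (SU hU)) (u : Fin n → SU hU) :
    ev hU y ∘ (A *ᵥ u) = A.map (ev hU y) *ᵥ (ev hU y ∘ u) :=
  funext fun i => RingHom.map_mulVec _ A u i

theorem Bb_dot (y : U) (A : MR n (SU hU)) (u w : Fin n → SU hU) : ev hU y (star u ⬝ᵥ A *ᵥ w) =
    star (ev hU y ∘ u) ⬝ᵥ A.map (ev hU y) *ᵥ (ev hU y ∘ w) := by
  rw [RingHom.map_dotProduct, Bb_mv]
  rfl

theorem Bb_vec (hv : ∀ i, Rep (v i) fun z => ζ z i) (y : U) : ev hU y ∘ v = ζ y :=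
  funext fun i => hv i y

theorem Bb_an {g : SU hU} {F : Cn n → ℂ} (h : Rep g F) {z : Cn n} (hz : z ∈ U)
    (h0 : ∀ᶠ w in 𝓝 z, ∀ hw : w ∈ U, ∀ a, ev hU ⟨w, hw⟩ ((DU hU).b a g) = 0) :
    AnalyticAt ℂ F z := by
  refine P278F.analyticAt_of_eventually ?_
  filter_upwards [h0, hU.mem_nhds hz] with w h1 hw
  refine differentiableAt_of_eX ((h.sm ⟨w, hw⟩).differentiableAt (by simp)) fun j => ?_
  rw [Brid_bv, ← h1 hw j]
  exact (h.b j ⟨w, hw⟩).symm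

theorem Bb_hol {g : SU hU} {F : Cn n → ℂ} (h : Rep g F) (hF : AnalyticOnNhd ℂ F U) (a : Fin n) :
    (DU hU).b a g = 0 :=
  SU_ext fun y => (h.b a y).trans (dzb_hol (hF y y.2).differentiableAt)

theorem Bb_low (hG : ∀ y : U, K.G.map (ev hU y) = LM Φ y) (hv : ∀ i, Rep (v i) fun z => ζ z i)
    (i : Fin n) : Rep (star ((K.G *ᵥ v) i)) fun w => star (LM Φ w *ᵥ ζ w) i := fun y => by
  rw [ev_star, RingHom.map_mulVec, hG, Bb_vec hv]
  rfl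

theorem Bb_b_low (a i : Fin n) :
    (DU hU).b a (star ((K.G *ᵥ v) i)) = star ((K.G *ᵥ nv K a v) i) := by
  rw [G_nv, (DU hU).star_d]

theorem Bb_core (hp : ∀ z ∈ U, (LM Φ z).PosDef) (hG : ∀ y : U, K.G.map (ev hU y) = LM Φ y)
    (hP : ∀ y : U, K.P.map (ev hU y) = (LM Φ y)⁻¹) (hv : ∀ i, Rep (v i) fun z => ζ z i)
    (h0 : ∀ y : U, 0 ≤ (ev hU y (bh K (bT' K v) v + bh K v (bT K v))).re) :
    (∀ z ∈ U, 0 ≤ ((LM Φ z)⁻¹ * LM (fun w => q2 (LM Φ w) (ζ w)) z).trace.re) ∧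
      ∀ z ∈ U, (∀ᶠ w in 𝓝 z, q2 (LM Φ w) (ζ w) = q2 (LM Φ z) (ζ z)) →
        AnalyticAt ℂ ζ z ∧ AnalyticAt ℂ (fun w => star (LM Φ w *ᵥ ζ w)) z := by
  have hS : Rep (bh K v v) fun w => (q2 (LM Φ w) (ζ w) : ℝ) := fun y => by
    rw [bh, Bb_dot, hG, Bb_vec hv]
    exact Complex.ext rfl (Loc_im (hp y y.2).1 _)
  have e5 : ∀ (y : U) a c, ev hU y (K.P a c) = (LM Φ y)⁻¹ a c := fun y a c =>
    congrFun (congrFun (hP y) a) c
  have key : ∀ y : U, ((LM Φ y)⁻¹ * LM (fun w => q2 (LM Φ w) (ζ w)) y).trace.re =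
      (ev hU y (bh K (bT' K v) v + bh K v (bT K v))).re +
      (∑ a, ∑ c, ((LM Φ y)⁻¹)ᵀ a c * (star (ev hU y ∘ bb (DU hU) c v) ⬝ᵥ
        LM Φ y *ᵥ (ev hU y ∘ bb (DU hU) a v))).re +
      (∑ a, ∑ c, (LM Φ y)⁻¹ a c * (star (ev hU y ∘ nv K c v) ⬝ᵥ
        LM Φ y *ᵥ (ev hU y ∘ nv K a v))).re := fun y => by
    have h1 := hS.lap K.P y
    rw [boch, hP, map_add, map_add] at h1
    rw [← h1, Complex.add_re, Complex.add_re, Finset.sum_comm (f := fun a c => ((LM Φ y)⁻¹)ᵀ a c * _)]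
    simp only [map_sum, map_mul, e5, bh, Bb_dot, hG, transpose_apply]
  have p1 := fun y : U => BbX_pos (hp y y.2).inv.transpose (hp y y.2)
    fun a => ev hU y ∘ bb (DU hU) a v
  have p2 := fun y : U => BbX_pos (hp y y.2).inv (hp y y.2) fun a => ev hU y ∘ nv K a v
  refine ⟨fun z hz => ?_, fun z hz h => ?_⟩
  · rw [key ⟨z, hz⟩]
    exact add_nonneg (add_nonneg (h0 _) (p1 _).1) (p2 _).1
  have h1 : ∀ᶠ w in 𝓝 z, ∀ hw : w ∈ U, (∀ a, ev hU ⟨w, hw⟩ ∘ bb (DU hU) a v = 0) ∧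
      ∀ a, ev hU ⟨w, hw⟩ ∘ nv K a v = 0 := by
    filter_upwards [h.eventually_nhds] with w h2 hw
    have h3 := key ⟨w, hw⟩
    rw [LM_congr (ψ := fun _ => q2 (LM Φ z) (ζ z)) h2, LM_const, Matrix.mul_zero, trace_zero,
      Complex.zero_re] at h3
    have h4 := h0 ⟨w, hw⟩
    have h5 := (p1 ⟨w, hw⟩).1
    have h6 := (p2 ⟨w, hw⟩).1
    exact ⟨(p1 ⟨w, hw⟩).2 (by linarith), (p2 ⟨w, hw⟩).2 (by linarith)⟩
  refine ⟨analyticAt_pi_iff.2 fun i => Bb_an (hv i) hz (h1.mono fun w h2 hw a => ?_),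
    analyticAt_pi_iff.2 fun i => Bb_an (Bb_low hG hv i) hz (h1.mono fun w h2 hw a => ?_)⟩
  · exact congrFun ((h2 hw).1 a) i
  · rw [Bb_b_low, ev_star, RingHom.map_mulVec, (h2 hw).2 a, mulVec_zero, Pi.zero_apply, star_zero]

theorem Bb_res (hU : IsOpen U) {F : Cn n → ℂ} (hF : AnalyticOnNhd ℂ F U) : ∃ g : SU hU, Rep g F :=
  ⟨_, rep_res F fun z hz => ((hF z hz).contDiffAt (n := ∞)).restrict_scalars ℝ⟩

end Aux

/-- The Bochner formula for holomorphic vector fields in the kernel of the Ricci form. -/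
theorem boch_hol (hU : IsOpen U) (hΦ : ContDiffOn ℝ ∞ Φ U) (hp : ∀ z ∈ U, (LM Φ z).PosDef)
    {ζ : Cn n → Cn n} (hζ : AnalyticOnNhd ℂ ζ U)
    (hr : ∀ z ∈ U, LM (fun w => Real.log (LM Φ w).det.re) z *ᵥ ζ z = 0) :
    (∀ z ∈ U, 0 ≤ ((LM Φ z)⁻¹ * LM (fun w => q2 (LM Φ w) (ζ w)) z).trace.re) ∧
      ∀ z ∈ U, (∀ᶠ w in 𝓝 z, q2 (LM Φ w) (ζ w) = q2 (LM Φ z) (ζ z)) →
        AnalyticAt ℂ (fun w => star (LM Φ w *ᵥ ζ w)) z := by
  obtain ⟨K, φ, -, -, hG, hP, -, hl⟩ :=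
    AP.exists_KS (hU := hU) (fun z hz => hΦ.contDiffAt (hU.mem_nhds hz)) hp
  have ha : ∀ i, AnalyticOnNhd ℂ (fun z => ζ z i) U := fun i z hz =>
    analyticAt_pi_iff.1 (hζ z hz) i
  choose v hv using fun i => Bb_res hU (ha i)
  have hb : ∀ c, bb (AP.DU hU) c v = 0 := fun c => funext fun i => Bb_hol (hv i) (ha i) c
  have h := Bb_core hp hG hP hv fun y => by
    rw [bT_eq, bT'_hol K hb, zero_add, bh_ric, bh, star_zero, zero_dotProduct, zero_add, Bb_dot,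
      hl.lm, Bb_vec hv, hr y y.2, dotProduct_zero, Complex.zero_re]
  exact ⟨h.1, fun z hz h1 => (h.2 z hz h1).2⟩

/-- The Bochner formula for a projected gradient. -/
theorem boch_grad (hU : IsOpen U) (hΦ : ContDiffOn ℝ ∞ Φ U) (hp : ∀ z ∈ U, (LM Φ z).PosDef)
    (hr : ∀ z ∈ U, (-LM (fun w => Real.log (LM Φ w).det.re) z).PosSemidef)
    {Q : Cn n → Mx n} (hQ : ∀ i j, AnalyticOnNhd ℂ (fun z => Q z i j) U)
    (hQ1 : ∀ z ∈ U, (LM Φ z * Q z).IsHermitian) (hQ2 : ∀ z ∈ U, Q z * Q z = Q z)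
    {f : Cn n → ℝ} (hf : ContDiffOn ℝ ∞ f U) {c : ℝ}
    (hc : ∀ z ∈ U, ((LM Φ z)⁻¹ * LM f z).trace.re = c) {ζ : Cn n → Cn n}
    (hζ : ∀ z, ζ z = (Q z * (LM Φ z)⁻¹) *ᵥ fun j => dzb (Pi.single j 1) (fun w => (f w : ℂ)) z) :
    (∀ z ∈ U, 0 ≤ ((LM Φ z)⁻¹ * LM (fun w => q2 (LM Φ w) (ζ w)) z).trace.re) ∧
      ∀ z ∈ U, (∀ᶠ w in 𝓝 z, q2 (LM Φ w) (ζ w) = q2 (LM Φ z) (ζ z)) →
        AnalyticAt ℂ ζ z ∧ AnalyticAt ℂ (fun w => star (LM Φ w *ᵥ ζ w)) z := by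
  obtain ⟨K, φ, -, -, hG, hP, -, hl⟩ :=
    AP.exists_KS (hU := hU) (fun z hz => hΦ.contDiffAt (hU.mem_nhds hz)) hp
  choose Q' hQ' using fun i j => Bb_res hU (hQ i j)
  have hQm : ∀ y : U, (Matrix.of Q').map (AP.ev hU y) = Q y := fun y => by
    ext i j
    exact hQ' i j y
  have hf' : ∀ z ∈ U, ContDiffAt ℝ ∞ f z := fun z hz => hf.contDiffAt (hU.mem_nhds hz)
  have hg := AP.rep_res (hU := hU) (fun z => (f z : ℂ)) fun z hz => P271A.Brid_ofReal (hf' z hz)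
  generalize AP.res hU (fun z => (f z : ℂ)) _ = g at hg
  have h1 : AP.Rep ((AP.DU hU).lap K.P g) fun _ => (c : ℂ) := fun y => by
    rw [hg.lap, hP, ← hc y y.2]
    refine (Complex.conj_eq_iff_re.1 ?_).symm
    rw [← Complex.star_def, ← trace_conjTranspose, conjTranspose_mul, (LM_herm (hf' y y.2)).eq,
      (hp y y.2).inv.1.eq, trace_mul_comm]
  have h2 : bT K (Matrix.of Q' *ᵥ K.P *ᵥ fun j => (AP.DU hU).b j g) = 0 := by
    rw [bT_Q, bT_grad, funext fun j => Bb_hol h1 analyticOnNhd_const j]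
    · exact (congrArg _ (mulVec_zero _)).trans (mulVec_zero _)
    · intro a
      ext1 i j
      exact Bb_hol (hQ' i j) (hQ i j) a
    · refine AP.SU_mext fun y => ?_
      rw [AP.map_ct (AP.ev_star hU y), Matrix.map_mul, hG, hQm]
      exact hQ1 y y.2
  have hv : ∀ i, AP.Rep ((Matrix.of Q' *ᵥ K.P *ᵥ fun j => (AP.DU hU).b j g) i) fun z => ζ z i :=
    fun i y => by
      rw [RingHom.map_mulVec, Bb_mv, hQm, hP, mulVec_mulVec]
      exact (congrFun (congrArg _ (funext fun j => hg.b j y)) i).trans (congrFun (hζ y) i).symm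
  generalize (Matrix.of Q' *ᵥ K.P *ᵥ fun j => (AP.DU hU).b j g) = v at h2 hv
  refine Bb_core hp hG hP hv fun y => ?_
  have h3 := bT_eq K v
  rw [h2] at h3
  have h4 : bh K v (bT' K v) = -(star v ⬝ᵥ (AP.DU hU).lm K.l *ᵥ v) := by
    rw [← bh_ric K v v, eq_neg_iff_add_eq_zero, ← bh_add, ← h3, bh, mulVec_zero, dotProduct_zero]
  rw [h2, ← star_bh, h4, bh, mulVec_zero, dotProduct_zero, add_zero, AP.ev_star, map_neg, Bb_dot,
    hl.lm, Bb_vec hv, Complex.star_def, Complex.conj_re, ← dotProduct_neg, ← neg_mulVec]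
  exact (Complex.nonneg_iff.1 ((hr y y.2).dotProduct_mulVec_nonneg _)).1

/-- Parallel fields are killed by the Ricci form. -/
theorem ric_par (hU : IsOpen U) (hΦ : ContDiffOn ℝ ∞ Φ U) (hp : ∀ z ∈ U, (LM Φ z).PosDef)
    {ζ : Cn n → Cn n} (hζ : AnalyticOnNhd ℂ ζ U)
    (hζ' : AnalyticOnNhd ℂ (fun w => star (LM Φ w *ᵥ ζ w)) U) :
    ∀ z ∈ U, LM (fun w => Real.log (LM Φ w).det.re) z *ᵥ ζ z = 0 := by
  obtain ⟨K, φ, -, -, hG, hP, -, hl⟩ :=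
    AP.exists_KS (hU := hU) (fun z hz => hΦ.contDiffAt (hU.mem_nhds hz)) hp
  have ha : ∀ i, AnalyticOnNhd ℂ (fun z => ζ z i) U := fun i z hz =>
    analyticAt_pi_iff.1 (hζ z hz) i
  choose v hv using fun i => Bb_res hU (ha i)
  have hb : ∀ c, bb (AP.DU hU) c v = 0 := fun c => funext fun i => Bb_hol (hv i) (ha i) c
  have hn : ∀ c, nv K c v = 0 := fun c => by
    refine G_inj K (funext fun i => ?_)
    have h1 := Bb_hol (Bb_low hG hv i) (fun z hz => analyticAt_pi_iff.1 (hζ' z hz) i) c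
    rw [Bb_b_low, star_eq_zero] at h1
    rw [h1, mulVec_zero, Pi.zero_apply]
  intro z hz
  have h2 := Bb_mv ⟨z, hz⟩ ((AP.DU hU).lm K.l) v
  rw [ric_zero K hb hn, hl.lm, Bb_vec hv] at h2
  exact h2.symm.trans (funext fun _ => map_zero _)

end Vale.Agent.P299
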