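import Vale.Agent.P299.Bb

/-! P299: the Bochner formula for a projected gradient of a general function. -/

open MeasureTheory Set Filter Topology Matrix
open scoped ContDiff ENNReal ComplexConjugate ComplexOrder

noncomputable section

namespace Vale.Agent.P299

open Vale.Agent.P271 Vale.Agent.P272

variable {n : ℕ} {U : Set (Cn n)} {Φ : Cn n → ℝ}

section Aux
open Vale.Agent.P272.AP Vale.Agent.P271A

variable {hU : IsOpen U} {K : KS (DU hU)} {v : Fin n → SU hU} {ζ : Cn n → Cn n}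

theorem Bb_core' (hp : ∀ z ∈ U, (LM Φ z).PosDef) (hG : ∀ y : U, K.G.map (ev hU y) = LM Φ y)
    (hP : ∀ y : U, K.P.map (ev hU y) = (LM Φ y)⁻¹) (hv : ∀ i, Rep (v i) fun z => ζ z i)
    {t : Cn n → ℝ} (h0 : ∀ y : U, t y ≤ (ev hU y (bh K (bT' K v) v + bh K v (bT K v))).re) :
    (∀ z ∈ U, t z ≤ ((LM Φ z)⁻¹ * LM (fun w => q2 (LM Φ w) (ζ w)) z).trace.re) ∧
      ∀ z ∈ U, (∀ᶠ w in 𝓝 z, q2 (LM Φ w) (ζ w) = q2 (LM Φ z) (ζ z)) → (∀ᶠ w in 𝓝 z, 0 ≤ t w) →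
        AnalyticAt ℂ ζ z ∧ AnalyticAt ℂ (fun w => star (LM Φ w *ᵥ ζ w)) z := by
  have hS : Rep (bh K v v) fun w => (q2 (LM Φ w) (ζ w) : ℝ) := fun y => by
    rw [bh, Bb_dot, hG, Bb_vec hv]
    exact Complex.ext rfl (Loc_im (hp y y.2).1 _)
  have e5 : ∀ (y : U) a c, ev hU y (K.P a c) = (LM Φ y)⁻¹ a c := fun y a c =>
    congrFun (congrFun (hP y) a) c
  have key : ∀ y : U, ((LM Φ y)⁻¹ * LM (fun w => q2 (LM Φ w) (ζ w)) y).trace.re =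
      (ev hU y (bh K (bT' K v) v + bh K v (bT K v))).re +
      (∑ a, ∑ c, ((LM Φ y)⁻¹)ᵀ a c * (star (ev hU y ∘ bb (DU hU) c v) ⬝ᵥ
        LM Φ y *ᵥ (ev hU y ∘ bb (DU hU) a v))).re +
      (∑ a, ∑ c, (LM Φ y)⁻¹ a c * (star (ev hU y ∘ nv K c v) ⬝ᵥ
        LM Φ y *ᵥ (ev hU y ∘ nv K a v))).re := fun y => by
    have h1 := hS.lap K.P y
    rw [boch, hP, map_add, map_add] at h1
    rw [← h1, Complex.add_re, Complex.add_re,
      Finset.sum_comm (f := fun a c => ((LM Φ y)⁻¹)ᵀ a c * _)]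
    simp only [map_sum, map_mul, e5, bh, Bb_dot, hG, transpose_apply]
  have p1 := fun y : U => BbX_pos (hp y y.2).inv.transpose (hp y y.2)
    fun a => ev hU y ∘ bb (DU hU) a v
  have p2 := fun y : U => BbX_pos (hp y y.2).inv (hp y y.2) fun a => ev hU y ∘ nv K a v
  refine ⟨fun z hz => ?_, fun z hz h ht => ?_⟩
  · rw [key ⟨z, hz⟩]
    linarith [h0 ⟨z, hz⟩, (p1 ⟨z, hz⟩).1, (p2 ⟨z, hz⟩).1]
  have h1 : ∀ᶠ w in 𝓝 z, ∀ hw : w ∈ U, (∀ a, ev hU ⟨w, hw⟩ ∘ bb (DU hU) a v = 0) ∧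
      ∀ a, ev hU ⟨w, hw⟩ ∘ nv K a v = 0 := by
    filter_upwards [h.eventually_nhds, ht] with w h2 h7 hw
    have h3 := key ⟨w, hw⟩
    rw [LM_congr (ψ := fun _ => q2 (LM Φ z) (ζ z)) h2, LM_const, Matrix.mul_zero, trace_zero,
      Complex.zero_re] at h3
    have h4 := h7.trans (h0 ⟨w, hw⟩)
    have h5 := (p1 ⟨w, hw⟩).1
    have h6 := (p2 ⟨w, hw⟩).1
    exact ⟨(p1 ⟨w, hw⟩).2 (by linarith), (p2 ⟨w, hw⟩).2 (by linarith)⟩
  refine ⟨analyticAt_pi_iff.2 fun i => Bb_an (hv i) hz (h1.mono fun w h2 hw a => ?_),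
    analyticAt_pi_iff.2 fun i => Bb_an (Bb_low hG hv i) hz (h1.mono fun w h2 hw a => ?_)⟩
  · exact congrFun ((h2 hw).1 a) i
  · rw [Bb_b_low, ev_star, RingHom.map_mulVec, (h2 hw).2 a, mulVec_zero, Pi.zero_apply, star_zero]

end Aux

/-- The Bochner formula for a projected gradient of a function with Laplacian `l`. -/
theorem boch_gen (hU : IsOpen U) (hΦ : ContDiffOn ℝ ∞ Φ U) (hp : ∀ z ∈ U, (LM Φ z).PosDef)
    (hr : ∀ z ∈ U, (-LM (fun w => Real.log (LM Φ w).det.re) z).PosSemidef)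
    {Q : Cn n → Mx n} (hQ : ∀ i j, AnalyticOnNhd ℂ (fun z => Q z i j) U)
    (hQ1 : ∀ z ∈ U, (LM Φ z * Q z).IsHermitian)
    {f : Cn n → ℝ} (hf : ContDiffOn ℝ ∞ f U) {l : Cn n → ℝ}
    (hc : ∀ z ∈ U, ((LM Φ z)⁻¹ * LM f z).trace.re = l z) {ζ : Cn n → Cn n}
    (hζ : ∀ z ∈ U,
      ζ z = (Q z * (LM Φ z)⁻¹) *ᵥ fun j => dzb (Pi.single j 1) (fun w => (f w : ℂ)) z) :
    (∀ z ∈ U, 2 * (star (ζ z) ⬝ᵥ LM Φ z *ᵥ (Q z * (LM Φ z)⁻¹) *ᵥ
        fun j => dzb (Pi.single j 1) (fun w => (l w : ℂ)) z).re ≤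
        ((LM Φ z)⁻¹ * LM (fun w => q2 (LM Φ w) (ζ w)) z).trace.re) ∧
      ∀ z ∈ U, (∀ᶠ w in 𝓝 z, q2 (LM Φ w) (ζ w) = q2 (LM Φ z) (ζ z)) →
        (∀ᶠ w in 𝓝 z, 0 ≤ (star (ζ w) ⬝ᵥ LM Φ w *ᵥ (Q w * (LM Φ w)⁻¹) *ᵥ
          fun j => dzb (Pi.single j 1) (fun x => (l x : ℂ)) w).re) →
        AnalyticAt ℂ ζ z ∧ AnalyticAt ℂ (fun w => star (LM Φ w *ᵥ ζ w)) z := by
  obtain ⟨K, φ, -, -, hG, hP, -, hl⟩ :=
    AP.exists_KS (hU := hU) (fun z hz => hΦ.contDiffAt (hU.mem_nhds hz)) hp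
  choose Q' hQ' using fun i j => Bb_res hU (hQ i j)
  have hQm : ∀ y : U, (Matrix.of Q').map (AP.ev hU y) = Q y := fun y => by
    ext i j
    exact hQ' i j y
  have hf' : ∀ z ∈ U, ContDiffAt ℝ ∞ f z := fun z hz => hf.contDiffAt (hU.mem_nhds hz)
  have hg := AP.rep_res (hU := hU) (fun z => (f z : ℂ)) fun z hz => P271A.Brid_ofReal (hf' z hz)
  generalize AP.res hU (fun z => (f z : ℂ)) _ = g at hg
  have h1 : AP.Rep ((AP.DU hU).lap K.P g) fun z => (l z : ℂ) := fun y => by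
    rw [hg.lap, hP]
    change _ = ((l y : ℝ) : ℂ)
    rw [← hc y y.2]
    refine (Complex.conj_eq_iff_re.1 ?_).symm
    rw [← Complex.star_def, ← trace_conjTranspose, conjTranspose_mul, (LM_herm (hf' y y.2)).eq,
      (hp y y.2).inv.1.eq, trace_mul_comm]
  have h2 : ∀ y : U, AP.ev hU y ∘ bT K (Matrix.of Q' *ᵥ K.P *ᵥ fun j => (AP.DU hU).b j g) =
      (Q y * (LM Φ y)⁻¹) *ᵥ fun j => dzb (Pi.single j 1) (fun x => (l x : ℂ)) y := fun y => by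
    rw [bT_Q, bT_grad, Bb_mv, Bb_mv, hQm, hP, mulVec_mulVec]
    · exact congrArg _ (funext fun j => h1.b j y)
    · intro a
      ext1 i j
      exact Bb_hol (hQ' i j) (hQ i j) a
    · refine AP.SU_mext fun y => ?_
      rw [AP.map_ct (AP.ev_star hU y), Matrix.map_mul, hG, hQm]
      exact hQ1 y y.2
  have hv : ∀ i, AP.Rep ((Matrix.of Q' *ᵥ K.P *ᵥ fun j => (AP.DU hU).b j g) i) fun z => ζ z i :=
    fun i y => by
      rw [RingHom.map_mulVec, Bb_mv, hQm, hP, mulVec_mulVec]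
      exact (congrFun (congrArg _ (funext fun j => hg.b j y)) i).trans
        (congrFun (hζ y y.2) i).symm
  generalize (Matrix.of Q' *ᵥ K.P *ᵥ fun j => (AP.DU hU).b j g) = v at h2 hv
  have h := Bb_core' hp hG hP hv (t := fun z => 2 * (star (ζ z) ⬝ᵥ LM Φ z *ᵥ
      (Q z * (LM Φ z)⁻¹) *ᵥ fun j => dzb (Pi.single j 1) (fun w => (l w : ℂ)) z).re) fun y => by
    have h4 : bh K v (bT' K v) = bh K v (bT K v) - star v ⬝ᵥ (AP.DU hU).lm K.l *ᵥ v := by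
      rw [← bh_ric K v v, eq_sub_iff_add_eq, ← bh_add, ← bT_eq]
    have h5 := (Complex.nonneg_iff.1 ((hr y y.2).dotProduct_mulVec_nonneg (ζ y))).1
    rw [neg_mulVec, dotProduct_neg, Complex.neg_re] at h5
    rw [← star_bh, h4, map_add, AP.ev_star, map_sub, bh, Bb_dot, Bb_dot, hl.lm, Bb_vec hv, hG, h2,
      Complex.add_re, Complex.star_def, Complex.conj_re, Complex.sub_re]
    linarith
  exact ⟨h.1, fun z hz h6 h7 => h.2 z hz h6 (h7.mono fun w hw => mul_nonneg zero_le_two hw)⟩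

end Vale.Agent.P299
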