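import Vale.Agent.P299.Defs2
import Vale.Agent.P278F.Osg

/-! P299: pluriharmonic functions. -/

open MeasureTheory Set Filter Topology Matrix
open scoped ContDiff ENNReal ComplexConjugate ComplexOrder

noncomputable section

namespace Vale.Agent.P299

open Vale.Agent.P271 Vale.Agent.P272

variable {n : ℕ} {U : Set (Cn n)} {Φ : Cn n → ℝ}

theorem Bc_sym {ψ : Cn n → ℝ} {z : Cn n} (hψ : ContDiffAt ℝ ∞ ψ z) (h : LM ψ z = 0) (x y : Cn n) :
    fderiv ℝ (fderiv ℝ ψ) z x (Complex.I • y) = fderiv ℝ (fderiv ℝ ψ) z y (Complex.I • x) := by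
  have h1 := Loc_lev hψ y x
  rw [lev_eq_LM hψ, h, zero_mulVec, dotProduct_zero] at h1
  have h2 := congrArg Complex.im h1
  have hs : IsSymmSndFDerivAt ℝ ψ z := hψ.isSymmSndFDerivAt (by
    rw [minSmoothness_of_isRCLikeNormedField]
    exact WithTop.coe_le_coe.2 (le_top (a := (2 : ℕ∞))))
  rw [hs.eq y]
  simp at h2
  linarith

theorem Bc_hol {f : Cn n → ℂ} {z : Cn n} {L : Cn n →L[ℝ] ℂ} (hf : HasFDerivAt f L z)
    (h : ∀ ξ, L (Complex.I • ξ) = Complex.I * L ξ) : DifferentiableAt ℂ f z := by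
  let L' : Cn n →L[ℂ] ℂ :=
    { toFun := L
      map_add' := map_add _
      map_smul' := fun c ξ => by
        rw [P271A.Brid_L_smul, h, RingHom.id_apply, smul_eq_mul]
        conv_rhs => rw [← Complex.re_add_im c]
        ring
      cont := L.continuous }
  exact (hasFDerivAt_of_restrictScalars ℝ (f' := L') hf rfl).differentiableAt

theorem Bc_P : ∃ P : (Cn n →L[ℝ] ℝ) →L[ℝ] (Cn n →L[ℝ] ℝ), ∀ L v, P L v = -L (Complex.I • v) :=
  ⟨-(ContinuousLinearMap.compL ℝ (Cn n) (Cn n) ℝ).flip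
    ((Complex.I • ContinuousLinearMap.id ℂ (Cn n)).restrictScalars ℝ), fun _ _ => rfl⟩

/-- Pluriharmonic functions are logarithms of holomorphic units. -/
theorem plh_ball {c : Cn n} {r : ℝ} {ψ : Cn n → ℝ} (hψ : ContDiffOn ℝ ∞ ψ (Metric.ball c r))
    (h : ∀ z ∈ Metric.ball c r, LM ψ z = 0) : ∃ g : Cn n → ℂ,
      AnalyticOnNhd ℂ g (Metric.ball c r) ∧ ∀ z ∈ Metric.ball c r,
        g z ≠ 0 ∧ ψ z = Real.log (‖g z‖ ^ 2) := by
  have hat : ∀ z ∈ Metric.ball c r, ContDiffAt ℝ ∞ ψ z := fun z hz =>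
    hψ.contDiffAt (Metric.isOpen_ball.mem_nhds hz)
  obtain ⟨P, hP⟩ := Bc_P (n := n)
  have hd : ∀ z ∈ Metric.ball c r,
      HasFDerivAt (fun w => P (fderiv ℝ ψ w)) (P.comp (fderiv ℝ (fderiv ℝ ψ) z)) z := by
    intro z hz
    have h1 : ContDiffAt ℝ 1 (fderiv ℝ ψ) z :=
      (hat z hz).fderiv_right (m := 1) (WithTop.coe_le_coe.2 (le_top (a := (2 : ℕ∞))))
    exact P.hasFDerivAt.comp z (h1.differentiableAt one_ne_zero).hasFDerivAt
  obtain ⟨χ, hχ⟩ : ∃ χ : Cn n → ℝ, ∀ z ∈ Metric.ball c r, HasFDerivAt χ (P (fderiv ℝ ψ z)) z :=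
    (convex_ball c r).exists_forall_hasFDerivAt_of_fderiv_symmetric Metric.isOpen_ball
      (fun z hz => (hd z hz).differentiableAt.differentiableWithinAt) fun z hz x y => by
        rw [(hd z hz).fderiv, ContinuousLinearMap.comp_apply, ContinuousLinearMap.comp_apply, hP,
          hP, Bc_sym (hat z hz) (h z hz)]
  have hh : ∀ z ∈ Metric.ball c r,
      DifferentiableAt ℂ (fun w => (ψ w : ℂ) + Complex.I * (χ w : ℂ)) z := by
    intro z hz
    have h1 := Complex.ofRealCLM.hasFDerivAt.comp z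
      ((hat z hz).differentiableAt (by simp)).hasFDerivAt
    have h2 := (Complex.ofRealCLM.hasFDerivAt.comp z (hχ z hz)).const_mul Complex.I
    refine Bc_hol (h1.add h2) fun ξ => ?_
    have e : Complex.I • Complex.I • ξ = -ξ := by
      rw [smul_smul, Complex.I_mul_I, neg_one_smul]
    simp only [_root_.add_apply, _root_.smul_apply,
      ContinuousLinearMap.comp_apply, Complex.ofRealCLM_apply, hP, e, map_neg, smul_eq_mul, neg_neg]
    linear_combination (fderiv ℝ ψ z (Complex.I • ξ) : ℂ) * Complex.I_mul_I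
  refine ⟨fun w => Complex.exp (((ψ w : ℂ) + Complex.I * (χ w : ℂ)) * (2 : ℂ)⁻¹),
    P278F.analyticOnNhd_of_differentiableOn Metric.isOpen_ball fun z hz =>
      (((hh z hz).mul_const (2 : ℂ)⁻¹).cexp).differentiableWithinAt,
    fun z _ => ⟨Complex.exp_ne_zero _, ?_⟩⟩
  rw [Complex.norm_exp, Real.log_pow, Real.log_exp]
  simp
  ring

end Vale.Agent.P299
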