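import Vale.Agent.P299.PartL

/-! P299, part C: complex points of subalgebras, generic projections, function fields. -/

open Set Filter Topology MvPolynomial

noncomputable section

namespace Vale.Agent.P299.PC

/-- A complex point of a subalgebra: `v` is an algebra homomorphism on `S`. -/
structure PH (R : Type) [CommRing R] [Algebra ℂ R] where
  S : Subalgebra ℂ R
  v : R → ℂ
  v_c : ∀ c : ℂ, v (algebraMap ℂ R c) = c
  v_add : ∀ {a b : R}, a ∈ S → b ∈ S → v (a + b) = v a + v b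
  v_mul : ∀ {a b : R}, a ∈ S → b ∈ S → v (a * b) = v a * v b

namespace PH
variable {R R' σ : Type} [CommRing R] [Algebra ℂ R] [CommRing R'] [Algebra ℂ R'] (ψ : PH R)

theorem v_zero : ψ.v 0 = 0 := by simpa using ψ.v_c 0

theorem v_one : ψ.v 1 = 1 := by simpa using ψ.v_c 1

/-- The homomorphism of a point. -/
def hom : ψ.S →ₐ[ℂ] ℂ where
  toFun a := ψ.v a
  map_one' := ψ.v_one
  map_zero' := ψ.v_zero
  map_mul' a b := ψ.v_mul a.2 b.2
  map_add' a b := ψ.v_add a.2 b.2
  commutes' c := ψ.v_c c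

theorem hom_apply (a : ψ.S) : ψ.hom a = ψ.v a := rfl

open Classical in
/-- The point of a homomorphism. -/
def ofHom (S : Subalgebra ℂ R) (φ : S →ₐ[ℂ] ℂ) : PH R where
  S := S
  v a := if h : a ∈ S then φ ⟨a, h⟩ else 0
  v_c c := by
    rw [dif_pos (S.algebraMap_mem c)]
    exact φ.commutes c
  v_add ha hb := by
    rw [dif_pos ha, dif_pos hb, dif_pos (add_mem ha hb), ← map_add]
    rfl
  v_mul ha hb := by
    rw [dif_pos ha, dif_pos hb, dif_pos (mul_mem ha hb), ← map_mul]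
    rfl

theorem ofHom_v (S : Subalgebra ℂ R) (φ : S →ₐ[ℂ] ℂ) {a : R} (h : a ∈ S) :
    (ofHom S φ).v a = φ ⟨a, h⟩ := dif_pos h

variable {ψ}

theorem v_neg {a : R} (h : a ∈ ψ.S) : ψ.v (-a) = -ψ.v a := map_neg ψ.hom ⟨a, h⟩

theorem v_sub {a b : R} (h : a ∈ ψ.S) (h' : b ∈ ψ.S) : ψ.v (a - b) = ψ.v a - ψ.v b :=
  map_sub ψ.hom ⟨a, h⟩ ⟨b, h'⟩

theorem v_pow {a : R} (h : a ∈ ψ.S) (j : ℕ) : ψ.v (a ^ j) = ψ.v a ^ j := map_pow ψ.hom ⟨a, h⟩ j

theorem v_sum {ι : Type*} {s : Finset ι} {f : ι → R} (h : ∀ i ∈ s, f i ∈ ψ.S) :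
    ψ.v (∑ i ∈ s, f i) = ∑ i ∈ s, ψ.v (f i) := by
  classical
  induction s using Finset.induction_on with
  | empty => simpa using ψ.v_zero
  | insert a s ha ih =>
    have h1 : ∀ i ∈ s, f i ∈ ψ.S := fun i hi => h i (Finset.mem_insert_of_mem hi)
    rw [Finset.sum_insert ha, Finset.sum_insert ha,
      ψ.v_add (h a (Finset.mem_insert_self a s)) (sum_mem h1), ih h1]

theorem v_prod {ι : Type*} {s : Finset ι} {f : ι → R} (h : ∀ i ∈ s, f i ∈ ψ.S) :
    ψ.v (∏ i ∈ s, f i) = ∏ i ∈ s, ψ.v (f i) := by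
  classical
  induction s using Finset.induction_on with
  | empty => simpa using ψ.v_one
  | insert a s ha ih =>
    have h1 : ∀ i ∈ s, f i ∈ ψ.S := fun i hi => h i (Finset.mem_insert_of_mem hi)
    rw [Finset.prod_insert ha, Finset.prod_insert ha,
      ψ.v_mul (h a (Finset.mem_insert_self a s)) (prod_mem h1), ih h1]

theorem v_aeval {x : σ → R} (h : ∀ i, x i ∈ ψ.S) (p : MvPolynomial σ ℂ) :
    aeval x p ∈ ψ.S ∧ ψ.v (aeval x p) = eval (fun i => ψ.v (x i)) p := by
  induction p using MvPolynomial.induction_on with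
  | C c => exact ⟨by simp, by rw [aeval_C, ψ.v_c, eval_C]⟩
  | add p q hp hq =>
    exact ⟨by rw [map_add]; exact add_mem hp.1 hq.1, by
      rw [map_add, ψ.v_add hp.1 hq.1, hp.2, hq.2, map_add]⟩
  | mul_X p i hp =>
    exact ⟨by rw [map_mul, aeval_X]; exact mul_mem hp.1 (h i), by
      rw [map_mul, aeval_X, ψ.v_mul hp.1 (h i), hp.2, map_mul, eval_X]⟩

/-- Points that agree on a set agree on the algebra it generates. -/
theorem v_adjoin {χ : PH R} {s : Set R} (h : ∀ a ∈ s, a ∈ ψ.S ∧ a ∈ χ.S ∧ χ.v a = ψ.v a) {a : R}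
    (ha : a ∈ Algebra.adjoin ℂ s) : a ∈ ψ.S ∧ a ∈ χ.S ∧ χ.v a = ψ.v a := by
  induction ha using Algebra.adjoin_induction with
  | mem a ha => exact h a ha
  | algebraMap c => exact ⟨ψ.S.algebraMap_mem c, χ.S.algebraMap_mem c, by rw [ψ.v_c, χ.v_c]⟩
  | add a b _ _ ha hb =>
    exact ⟨add_mem ha.1 hb.1, add_mem ha.2.1 hb.2.1, by
      rw [ψ.v_add ha.1 hb.1, χ.v_add ha.2.1 hb.2.1, ha.2.2, hb.2.2]⟩
  | mul a b _ _ ha hb =>
    exact ⟨mul_mem ha.1 hb.1, mul_mem ha.2.1 hb.2.1, by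
      rw [ψ.v_mul ha.1 hb.1, χ.v_mul ha.2.1 hb.2.1, ha.2.2, hb.2.2]⟩

variable (ψ)

/-- Pull-back of a point. -/
def comap (f : R' →ₐ[ℂ] R) : PH R' where
  S := ψ.S.comap f
  v a := ψ.v (f a)
  v_c c := by rw [f.commutes, ψ.v_c]
  v_add ha hb := by rw [map_add]; exact ψ.v_add ha hb
  v_mul ha hb := by rw [map_mul]; exact ψ.v_mul ha hb

/-- Restriction of a point to a smaller algebra. -/
def res (K : Type) [CommRing K] [Algebra ℂ K] [Algebra K R] [IsScalarTower ℂ K R] : PH K :=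
  ψ.comap (IsScalarTower.toAlgHom ℂ K R)

theorem mem_res {K : Type} [CommRing K] [Algebra ℂ K] [Algebra K R] [IsScalarTower ℂ K R]
    {a : K} : a ∈ (ψ.res K).S ↔ algebraMap K R a ∈ ψ.S := Iff.rfl

theorem res_v {K : Type} [CommRing K] [Algebra ℂ K] [Algebra K R] [IsScalarTower ℂ K R]
    (a : K) : (ψ.res K).v a = ψ.v (algebraMap K R a) := rfl

/-- The value of a polynomial at a point of the coefficient ring. -/
def sp (p : MvPolynomial σ R) : MvPolynomial σ ℂ := ∑ μ ∈ p.support, monomial μ (ψ.v (coeff μ p))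

/-- All coefficients are defined at the point. -/
def On (p : MvPolynomial σ R) : Prop := ∀ μ, coeff μ p ∈ ψ.S

theorem coeff_sp (p : MvPolynomial σ R) (μ : σ →₀ ℕ) : coeff μ (ψ.sp p) = ψ.v (coeff μ p) := by
  classical
  simp only [sp, coeff_sum, coeff_monomial, Finset.sum_ite_eq']
  split_ifs with h
  · rfl
  · rw [notMem_support_iff.1 h, ψ.v_zero]

theorem support_sp (p : MvPolynomial σ R) : (ψ.sp p).support ⊆ p.support := fun μ h =>
  mem_support_iff.2 fun h0 => mem_support_iff.1 h (by rw [coeff_sp, h0, ψ.v_zero])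

theorem on_C {a : R} (h : a ∈ ψ.S) : ψ.On (C a : MvPolynomial σ R) := fun μ => by
  classical
  rw [coeff_C]
  split_ifs
  exacts [h, zero_mem _]

theorem on_X (i : σ) : ψ.On (X i : MvPolynomial σ R) := fun μ => by
  classical
  rw [coeff_X]
  split_ifs
  exacts [one_mem _, zero_mem _]

theorem sp_C (a : R) : ψ.sp (C a : MvPolynomial σ R) = C (ψ.v a) := by
  classical
  ext μ
  rw [coeff_sp, coeff_C, coeff_C]
  split_ifs
  exacts [rfl, ψ.v_zero]

theorem sp_X (i : σ) : ψ.sp (X i : MvPolynomial σ R) = X i := by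
  classical
  ext μ
  rw [coeff_sp, coeff_X, coeff_X]
  split_ifs
  exacts [ψ.v_one, ψ.v_zero]

variable {ψ}

theorem sp_add {p q : MvPolynomial σ R} (hp : ψ.On p) (hq : ψ.On q) :
    ψ.sp (p + q) = ψ.sp p + ψ.sp q := by
  ext μ
  simp only [coeff_sp, coeff_add, ψ.v_add (hp μ) (hq μ)]

theorem sp_mul {p q : MvPolynomial σ R} (hp : ψ.On p) (hq : ψ.On q) :
    ψ.sp (p * q) = ψ.sp p * ψ.sp q := by
  classical
  ext μ
  simp only [coeff_sp, coeff_mul]
  rw [v_sum fun a _ => mul_mem (hp _) (hq _)]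
  exact Finset.sum_congr rfl fun a _ => ψ.v_mul (hp _) (hq _)

theorem sp_congr {χ : PH R} {p : MvPolynomial σ R} (h : ∀ μ, χ.v (coeff μ p) = ψ.v (coeff μ p)) :
    χ.sp p = ψ.sp p := by
  ext μ
  rw [coeff_sp, coeff_sp, h]

variable (ψ)

/-- The point of a polynomial ring with coordinates `w`. -/
def poly (w : σ → ℂ) : PH (MvPolynomial σ R) where
  S := { carrier := {p | ψ.On p}
         add_mem' := fun hp hq μ => by rw [coeff_add]; exact add_mem (hp μ) (hq μ)
         mul_mem' := fun hp hq μ => by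
           classical
           rw [coeff_mul]
           exact sum_mem fun a _ => mul_mem (hp _) (hq _)
         algebraMap_mem' := fun c => ψ.on_C (ψ.S.algebraMap_mem c) }
  v p := eval w (ψ.sp p)
  v_c c := by rw [MvPolynomial.algebraMap_apply, sp_C, eval_C, ψ.v_c]
  v_add hp hq := by rw [sp_add hp hq, map_add]
  v_mul hp hq := by rw [sp_mul hp hq, map_mul]

theorem mem_poly {w : σ → ℂ} {p : MvPolynomial σ R} : p ∈ (ψ.poly w).S ↔ ψ.On p := Iff.rfl

theorem poly_v (w : σ → ℂ) (p : MvPolynomial σ R) : (ψ.poly w).v p = eval w (ψ.sp p) := rfl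

/-- The value of a polynomial in one variable at a point of the coefficient ring. -/
def up (G : Polynomial R) : Polynomial ℂ :=
  ∑ i ∈ G.support, Polynomial.monomial i (ψ.v (G.coeff i))

theorem coeff_up (G : Polynomial R) (i : ℕ) : (ψ.up G).coeff i = ψ.v (G.coeff i) := by
  simp only [up, Polynomial.finsetSum_coeff, Polynomial.coeff_monomial, Finset.sum_ite_eq']
  split_ifs with h
  · rfl
  · rw [Polynomial.notMem_support_iff.1 h, ψ.v_zero]

theorem natDegree_up_le (G : Polynomial R) : (ψ.up G).natDegree ≤ G.natDegree :=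
  Polynomial.natDegree_le_iff_coeff_eq_zero.2 fun i hi => by
    rw [coeff_up, Polynomial.coeff_eq_zero_of_natDegree_lt hi, ψ.v_zero]

theorem up_monic {G : Polynomial R} (h : G.Monic) :
    (ψ.up G).Monic ∧ (ψ.up G).natDegree = G.natDegree := by
  have h1 : (ψ.up G).coeff G.natDegree = 1 := by rw [coeff_up, h.coeff_natDegree, ψ.v_one]
  exact ⟨Polynomial.monic_of_natDegree_le_of_coeff_eq_one _ (ψ.natDegree_up_le G) h1,
    le_antisymm (ψ.natDegree_up_le G) (Polynomial.le_natDegree_of_ne_zero (by simp [h1]))⟩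

variable {ψ}

/-- Equations pass to points. -/
theorem up_root {φ : PH R'} {Θ : R' →+* R} {G : Polynomial R'} {ζ : R} (hζ : ζ ∈ ψ.S)
    (h : ∀ i, Θ (G.coeff i) ∈ ψ.S ∧ ψ.v (Θ (G.coeff i)) = φ.v (G.coeff i))
    (h0 : G.eval₂ Θ ζ = 0) : (φ.up G).IsRoot (ψ.v ζ) := by
  rw [Polynomial.IsRoot.def, up, Polynomial.eval_finsetSum, ← ψ.v_zero, ← h0,
    Polynomial.eval₂_eq_sum, Polynomial.sum_def,
    v_sum fun i _ => mul_mem (h i).1 (pow_mem hζ i)]
  refine Finset.sum_congr rfl fun i _ => ?_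
  rw [Polynomial.eval_monomial, ψ.v_mul (h i).1 (pow_mem hζ i), (h i).2, v_pow hζ]

end PH

/-- The sum of the norms of the coefficients. -/
def cn {σ : Type} (p : MvPolynomial σ ℂ) : ℝ := ∑ μ ∈ p.support, ‖coeff μ p‖

section Field
variable {N : ℕ} (K : Type) {F : Type} [Field K] [Field F] [Algebra ℂ K] [Algebra ℂ F]
  [Algebra K F] [IsScalarTower ℂ K F] (J : Type) [Fintype J]

/-- The elements `x` generate the field. -/
def Gn (x : Fin (N + 1) → F) : Prop :=
  x 0 = 1 ∧ ∀ f : F, ∃ p q : MvPolynomial (Fin (N + 1)) ℂ, aeval x q ≠ 0 ∧ f * aeval x q = aeval x p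

/-- `f` has poles only along `P`. -/
def Reg (x : Fin (N + 1) → F) (P : MvPolynomial (Fin (N + 1)) ℂ) (f : F) : Prop :=
  ∃ (j : ℕ) (p : MvPolynomial (Fin (N + 1)) ℂ), f * aeval x P ^ j = aeval x p

/-- The homogeneous coordinate ring over `K`. -/
def HR (x : Fin (N + 1) → F) : Subalgebra K (Polynomial F) :=
  Algebra.adjoin K (range fun i => Polynomial.C (x i) * Polynomial.X)

/-- `z t ^ d` is integral over the homogeneous coordinate ring. -/
def IntK (x : Fin (N + 1) → F) (d : ℕ) (z : F) : Prop :=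
  IsIntegral (HR K x) (Polynomial.C z * Polynomial.X ^ d : Polynomial F)

/-- Variables: coefficients of linear forms and their values. -/
abbrev Vv (N : ℕ) : Type := (J × Fin (N + 1)) ⊕ J

/-- The ring of the affine cone with generic linear forms; the variable `none` is `t`. -/
abbrev EE (N : ℕ) (F : Type) [Field F] : Type := MvPolynomial (Option (J × Fin (N + 1))) F

/-- The generic linear projection. -/
def Th (x : Fin (N + 1) → F) : MvPolynomial (Vv J N) K →ₐ[K] EE J N F :=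
  aeval (Sum.elim (fun a => X (some a)) fun j => X none * ∑ i, X (some (j, i)) * C (x i))

variable {J}

/-- The values of the variables at a point of the cone. -/
def vv (u : J × Fin (N + 1) → ℂ) (t : ℂ) (ξ : Fin (N + 1) → ℂ) : Vv J N → ℂ :=
  Sum.elim u fun j => t * ∑ i, u (j, i) * ξ i

variable {K}

/-- The integral multiple of `z t ^ d`. -/
def zt (x : Fin (N + 1) → F) (Cw : MvPolynomial (J × Fin (N + 1)) K) (n d : ℕ) (z : F) :
    EE J N F :=
  Th K J x (rename Sum.inl Cw) ^ n * (C z * X none ^ d)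

/-- `Cw` vanishes on families of hyperplanes through the generic point. -/
def Chow (x : Fin (N + 1) → F) (Cw : MvPolynomial (J × Fin (N + 1)) K) : Prop :=
  ∀ (R : Type) [CommRing R] [Algebra F R] [Algebra K R] [IsScalarTower K F R]
    (u : J × Fin (N + 1) → R), (∀ j, ∑ i, u (j, i) * algebraMap F R (x i) = 0) → aeval u Cw = 0

variable (K J)

/-- A generic projection with the minimal polynomials of the elements `z k t ^ d`. -/
structure GP (x : Fin (N + 1) → F) (d : ℕ) {κ : Type} (z : κ → F) where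
  Cw : MvPolynomial (J × Fin (N + 1)) K
  n : ℕ
  G : κ → Polynomial (MvPolynomial (Vv J N) K)
  x0 : x 0 = 1
  ne : Cw ≠ 0
  chow : Chow x Cw
  monic : ∀ k, (G k).Monic
  root : ∀ k, (G k).eval₂ (Th K J x).toRingHom (zt x Cw n d (z k)) = 0
  dvd : ∀ k (Q : Polynomial (MvPolynomial (Vv J N) K)),
    Q.eval₂ (Th K J x).toRingHom (zt x Cw n d (z k)) = 0 → G k ∣ Q
  inj : Function.Injective (Th K J x)
  alg : ∀ η : EE J N F, η ≠ 0 → ∃ H : Polynomial (MvPolynomial (Vv J N) K),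
    H.coeff 0 ≠ 0 ∧ H.eval₂ (Th K J x).toRingHom η = 0

variable {K J} {x : Fin (N + 1) → F} {d : ℕ} {κ : Type} {z : κ → F} (g : GP K J x d z)

/-- The index set of the numerators. -/
abbrev GP.I : Type := Σ k : κ, Σ i : Fin (g.G k).natDegree, ((g.G k).coeff i).support

/-- The numerators. -/
def GP.fam (M : ℕ) (β : g.I) : K :=
  coeff β.2.2.1 ((g.G β.1).coeff β.2.1) ^ (M / ((g.G β.1).natDegree - β.2.1))

/-- The denominators. -/
def GP.afam (M : ℕ) (α : g.Cw.support) : K := coeff α.1 g.Cw ^ (g.n * M)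

/-- `M` is a common multiple of the weights. -/
def GP.Mul (M : ℕ) : Prop := 0 < M ∧ ∀ k i, i < (g.G k).natDegree → (g.G k).natDegree - i ∣ M

/-- All data are defined at the point. -/
def GP.At (χ : PH F) : Prop :=
  (χ.res K).On g.Cw ∧ (∀ k i, (χ.res K).On ((g.G k).coeff i)) ∧ ∀ k, z k ∈ χ.S

end Field

variable {n N : ℕ} {Y : Type} [TopologicalSpace Y] [MeasurableSpace Y] (A : AD n N Y)
  {F : Type} [Field F] [Algebra ℂ F]

/-- `F` is the function field of the affine model. -/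
structure FF (x : Fin (N + 1) → F) : Prop where
  gen : Gn x
  ker : ∀ p, aeval x p = 0 ↔ A.ev p = 0

/-- `K` is the field of rational first integrals. -/
def IsK (x : Fin (N + 1) → F) (m0 : ℕ) (K : IntermediateField ℂ F) : Prop :=
  ∀ f p q, aeval x q ≠ 0 → f * aeval x q = aeval x p → (f ∈ K ↔ A.FlatQ m0 0 (A.ev p) (A.ev q))

variable {A} {x : Fin (N + 1) → F} (hF : FF A x)
include hF

theorem FF.quot {y : Y} {f : F} {p q p' q' : MvPolynomial (Fin (N + 1)) ℂ} (hq : A.ev q y ≠ 0)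
    (hq' : A.ev q' y ≠ 0) (h : f * aeval x q = aeval x p) (h' : f * aeval x q' = aeval x p') :
    A.ev p y / A.ev q y = A.ev p' y / A.ev q' y := by
  have h1 := congrFun ((hF.ker (p * q' - p' * q)).1 (by
    rw [map_sub, map_mul, map_mul, ← h, ← h']; ring)) y
  simp only [AD.ev, map_sub, map_mul, Pi.zero_apply] at h1 hq hq' ⊢
  rw [div_eq_div_iff hq hq']
  exact sub_eq_zero.1 h1

open Classical in
/-- The value of a rational function. -/
def FF.val (_ : FF A x) (y : Y) (f : F) : ℂ :=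
  if h : ∃ p q, A.ev q y ≠ 0 ∧ f * aeval x q = aeval x p then
    A.ev h.choose y / A.ev h.choose_spec.choose y else 0

theorem FF.val_eq {y : Y} {f : F} {p q : MvPolynomial (Fin (N + 1)) ℂ} (hq : A.ev q y ≠ 0)
    (h : f * aeval x q = aeval x p) : hF.val y f = A.ev p y / A.ev q y := by
  have h1 : ∃ p q, A.ev q y ≠ 0 ∧ f * aeval x q = aeval x p := ⟨p, q, hq, h⟩
  rw [FF.val, dif_pos h1]
  exact hF.quot h1.choose_spec.choose_spec.1 hq h1.choose_spec.choose_spec.2 h

/-- The point of the function field given by a point of the model. -/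
def FF.pt (y : Y) : PH F where
  S := { carrier := {f | ∃ p q : MvPolynomial (Fin (N + 1)) ℂ,
           A.ev q y ≠ 0 ∧ f * aeval x q = aeval x p}
         add_mem' := by
           rintro a b ⟨p, q, hq, h⟩ ⟨p', q', hq', h'⟩
           exact ⟨p * q' + p' * q, q * q', by simpa [AD.ev] using ⟨hq, hq'⟩, by
             rw [map_add, map_mul, map_mul, map_mul, ← h, ← h']; ring⟩
         mul_mem' := by
           rintro a b ⟨p, q, hq, h⟩ ⟨p', q', hq', h'⟩
           exact ⟨p * p', q * q', by simpa [AD.ev] using ⟨hq, hq'⟩, by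
             rw [map_mul, map_mul, ← h, ← h']; ring⟩
         algebraMap_mem' := fun c => ⟨C c, 1, by simp [AD.ev], by simp⟩ }
  v := hF.val y
  v_c c := by
    rw [hF.val_eq (p := C c) (q := 1) (by simp [AD.ev]) (by simp)]
    simp [AD.ev]
  v_add := by
    rintro a b ⟨p, q, hq, h⟩ ⟨p', q', hq', h'⟩
    rw [hF.val_eq hq h, hF.val_eq hq' h', hF.val_eq (p := p * q' + p' * q) (q := q * q')
      (by simpa [AD.ev] using ⟨hq, hq'⟩)
      (by rw [map_add, map_mul, map_mul, map_mul, ← h, ← h']; ring), div_add_div _ _ hq hq']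
    simp only [AD.ev, map_add, map_mul]
    ring
  v_mul := by
    rintro a b ⟨p, q, hq, h⟩ ⟨p', q', hq', h'⟩
    rw [hF.val_eq hq h, hF.val_eq hq' h', hF.val_eq (p := p * p') (q := q * q')
      (by simpa [AD.ev] using ⟨hq, hq'⟩) (by rw [map_mul, map_mul, ← h, ← h']; ring),
      div_mul_div_comm]
    simp only [AD.ev, map_mul]

theorem FF.mem_pt {y : Y} {f : F} :
    f ∈ (hF.pt y).S ↔ ∃ p q : MvPolynomial (Fin (N + 1)) ℂ,
      A.ev q y ≠ 0 ∧ f * aeval x q = aeval x p := Iff.rfl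

theorem FF.pt_v {y : Y} {f : F} {p q : MvPolynomial (Fin (N + 1)) ℂ} (hq : A.ev q y ≠ 0)
    (h : f * aeval x q = aeval x p) : (hF.pt y).v f = A.ev p y / A.ev q y := hF.val_eq hq h

theorem FF.pt_aeval (y : Y) (p : MvPolynomial (Fin (N + 1)) ℂ) :
    aeval x p ∈ (hF.pt y).S ∧ (hF.pt y).v (aeval x p) = A.ev p y :=
  ⟨⟨p, 1, by simp [AD.ev], by simp⟩, by
    rw [hF.pt_v (p := p) (q := 1) (by simp [AD.ev]) (by simp)]
    simp [AD.ev]⟩

theorem FF.pt_x (y : Y) (i : Fin (N + 1)) : x i ∈ (hF.pt y).S ∧ (hF.pt y).v (x i) = A.x i y := by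
  have h := hF.pt_aeval y (X i)
  rw [aeval_X] at h
  simpa [AD.ev] using h

/-- The normalised size of the family `z`. -/
def FF.zn (d : ℕ) {κ : Type} [Fintype κ] (z : κ → F) (y : Y) : ℝ :=
  (∑ k, ‖(hF.pt y).v (z k)‖ ^ 2) / A.nx y ^ d

/-- The squared norm of a family of elements of `K` at a point. -/
def FF.sq {K : Type} [Field K] [Algebra K F] {I : Type} [Fintype I] (a : I → K) (y : Y) : ℝ :=
  ∑ i, ‖(hF.pt y).v (algebraMap K F (a i))‖ ^ 2

/-- The lower bound for the supremum over the fibres. -/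
def FF.Lo (K : Type) [Field K] [Algebra K F] (P : MvPolynomial (Fin (N + 1)) ℂ) (h : Y → ℝ)
    (a f : Y → ℝ) : Prop :=
  ∃ c : ℝ, 0 < c ∧ ∀ y₀, A.ev P y₀ ≠ 0 → ∃ O ∈ 𝓝 y₀, ∃ Q, IsCompact Q ∧ (∀ ς ∈ Q, A.ev P ς ≠ 0) ∧
    ∀ T : Finset K, ∃ D, A.ev D ≠ 0 ∧ ∀ y ∈ O, A.ev D y ≠ 0 → ∃ ς ∈ Q,
      (∀ b ∈ T, algebraMap K F b ∈ (hF.pt y).S ∧ algebraMap K F b ∈ (hF.pt ς).S ∧
        (hF.pt ς).v (algebraMap K F b) = (hF.pt y).v (algebraMap K F b)) ∧ c * f y ≤ h ς * a y

end Vale.Agent.P299.PC
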