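import Vale.Agent.P299.CA

/-! P299, part C: extension of complex points (Chevalley).
`chev`: copy the proof of `generic_surj` in `Vale/Agent/P290G/GenS.lean`. Let `R0 = adjoin ℂ s0` and
`R1 = Localization.Away b` over `adjoin ℂ (s0 ∪ s)` (a domain of finite type over `ℂ`); the injective map
`f : R0 → R1` is of finite presentation (`RingHom.FinitePresentation.of_finiteType`, `R0` is Noetherian), so the range
of `PrimeSpectrum.comap f` is constructible and contains `⊥`, hence contains a basic open set `D ≠ 0`. The kernel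
`m` of `φ.hom` restricted to `R0` is a prime not containing `D`; take a prime `q` of `R1` over it, a maximal ideal `M`
above `q`; `R1 ⧸ M` is `ℂ` (`finite_of_finite_type_of_isJacobsonRing`, `IsAlgClosed.algebraMap_bijective_of_isIntegral`),
`a - φ a ∈ m`. Use `PH.ofHom`.
`chev2`: apply `chev` to `insert ζ s0`; the element `D0` is algebraic over `adjoin ℂ s0`, so it divides a nonzero
element of `adjoin ℂ s0` inside `adjoin ℂ (insert ζ s0)` (polynomial with nonzero constant coefficient,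
`IsAlgebraic.exists_nonzero_coeff_and_aeval_eq_zero`).
`root`: `S` is the image of `Polynomial φ.S` under `eval₂ (Θ ∘ val) ζ`; the value of `Q (ζ)` is `Q.eval₂ φ.hom Z`. If
`Q (ζ) = 0`, lift `G` to a monic `G'` over `φ.S` (`Polynomial.lifts_and_natDegree_eq_and_monic`, or `toSubring`),
`Polynomial.map_dvd_map` gives `G' ∣ Q`. Build the homomorphism with `Ideal.Quotient.liftₐ` or `AlgHom.liftOfSurjective`. -/

open Set Filter Topology MvPolynomial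

noncomputable section

namespace Vale.Agent.P299.PC

variable {R B : Type} [CommRing R] [Algebra ℂ R] [CommRing B] [Algebra ℂ B]

theorem cb_point {T : Type} [CommRing T] [Algebra ℂ T] [Algebra.FiniteType ℂ T] (M : Ideal T)
    (hM : M.IsMaximal) : ∃ χ : T →ₐ[ℂ] ℂ, ∀ a ∈ M, χ a = 0 := by
  let _ : Field (T ⧸ M) := Ideal.Quotient.field M
  have h1 : Module.Finite ℂ (T ⧸ M) := finite_of_finite_type_of_isJacobsonRing ℂ (T ⧸ M)
  have h2 : Function.Bijective (Algebra.ofId ℂ (T ⧸ M)) :=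
    IsAlgClosed.algebraMap_bijective_of_isIntegral
  refine ⟨((AlgEquiv.ofBijective _ h2).symm : (T ⧸ M) →ₐ[ℂ] ℂ).comp (Ideal.Quotient.mkₐ ℂ M),
    fun a ha => ?_⟩
  rw [AlgHom.comp_apply, Ideal.Quotient.mkₐ_eq_mk, Ideal.Quotient.eq_zero_iff_mem.2 ha, map_zero]

theorem cb_chev {R0 R1 : Type} [CommRing R0] [CommRing R1] [IsDomain R0] [IsDomain R1]
    [Algebra ℂ R0] [Algebra ℂ R1] [Algebra.FiniteType ℂ R0] [Algebra.FiniteType ℂ R1]
    (F : R0 →ₐ[ℂ] R1) (hi : Function.Injective F) :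
    ∃ D : R0, D ≠ 0 ∧ ∀ φ : R0 →ₐ[ℂ] ℂ, φ D ≠ 0 → ∃ χ : R1 →ₐ[ℂ] ℂ, ∀ a, χ (F a) = φ a := by
  obtain ⟨f, hf⟩ : ∃ f : R0 →+* R1, f = F.toRingHom := ⟨_, rfl⟩
  have : IsNoetherianRing R0 := Algebra.FiniteType.isNoetherianRing ℂ R0
  have h1 : f.FinitePresentation := by
    refine RingHom.FinitePresentation.of_finiteType.1
      (RingHom.FiniteType.of_comp_finiteType (f := algebraMap ℂ R0) ?_)
    rw [show f.comp (algebraMap ℂ R0) = algebraMap ℂ R1 from hf ▸ F.comp_algebraMap]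
    exact RingHom.finiteType_algebraMap.2 inferInstance
  obtain ⟨T, hT⟩ := PrimeSpectrum.exists_constructibleSetData_iff.2
    (PrimeSpectrum.isConstructible_range_comap h1)
  have h2 : (⟨⊥, Ideal.isPrime_bot⟩ : PrimeSpectrum R0) ∈ T.toSet := by
    rw [hT]
    exact ⟨⟨⊥, Ideal.isPrime_bot⟩,
      PrimeSpectrum.ext (Ideal.comap_bot_of_injective f (hf ▸ hi))⟩
  obtain ⟨B, hB, h3, h4⟩ := mem_iUnion₂.1 h2
  refine ⟨B.f, fun h => h4 (singleton_subset_iff.2 h), fun φ hy => ?_⟩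
  have h5 : (⟨RingHom.ker φ.toRingHom, RingHom.ker_isPrime _⟩ : PrimeSpectrum R0) ∈ T.toSet := by
    refine mem_iUnion₂.2 ⟨B, hB, fun g hg => ?_, fun h => hy ?_⟩
    · rw [show g = 0 from h3 hg]
      exact zero_mem (RingHom.ker φ.toRingHom)
    · exact h (mem_singleton B.f)
  rw [hT] at h5
  obtain ⟨q, hq⟩ := h5
  obtain ⟨M, hM, h6⟩ := q.asIdeal.exists_le_maximal q.isPrime.ne_top
  obtain ⟨χ, hχ⟩ := cb_point M hM
  refine ⟨χ, fun a => ?_⟩
  have h7 : a - algebraMap ℂ R0 (φ a) ∈ (PrimeSpectrum.comap f q).asIdeal := by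
    rw [hq]
    show φ (a - algebraMap ℂ R0 (φ a)) = 0
    rw [map_sub, φ.commutes]
    exact sub_self _
  have h8 : χ (F (a - algebraMap ℂ R0 (φ a))) = 0 := hχ _ (h6 (by subst hf; exact h7))
  rw [map_sub, map_sub, F.commutes, χ.commutes] at h8
  exact sub_eq_zero.1 h8

theorem cb_ft {s : Set R} (hs : s.Finite) : Algebra.FiniteType ℂ (Algebra.adjoin ℂ s) :=
  (Subalgebra.fg_iff_finiteType _).1 (Subalgebra.fg_def.2 ⟨s, hs, rfl⟩)

theorem chev [IsDomain R] {s0 s : Set R} (h0 : s0.Finite) (hs : s.Finite) {b : R}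
    (hb : b ∈ Algebra.adjoin ℂ (s0 ∪ s)) (hb0 : b ≠ 0) :
    ∃ D ∈ Algebra.adjoin ℂ s0, D ≠ 0 ∧ ∀ φ : PH R, (∀ a ∈ s0, a ∈ φ.S) → φ.v D ≠ 0 →
      ∃ χ : PH R, (∀ a ∈ s, a ∈ χ.S) ∧ (∀ a ∈ s0, a ∈ χ.S ∧ χ.v a = φ.v a) ∧ χ.v b ≠ 0 := by
  have f0 := cb_ft h0
  have f1 := cb_ft (h0.union hs)
  have hle : Algebra.adjoin ℂ s0 ≤ Algebra.adjoin ℂ (s0 ∪ s) :=
    Algebra.adjoin_mono subset_union_left
  obtain ⟨b', hb'⟩ : ∃ b' : Algebra.adjoin ℂ (s0 ∪ s), b' = ⟨b, hb⟩ := ⟨_, rfl⟩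
  have hb1 : b' ≠ 0 := fun h => hb0 (by rw [hb'] at h; exact congrArg Subtype.val h)
  have hpow : Submonoid.powers b' ≤ nonZeroDivisors _ := powers_le_nonZeroDivisors_of_noZeroDivisors hb1
  have d1 : IsDomain (Localization.Away b') := IsLocalization.isDomain_localization hpow
  have f2 : Algebra.FiniteType ℂ (Localization.Away b') :=
    Algebra.FiniteType.trans f1 inferInstance
  have hinj : Function.Injective
      (IsScalarTower.toAlgHom ℂ (Algebra.adjoin ℂ (s0 ∪ s)) (Localization.Away b')) :=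
    IsLocalization.injective (Localization.Away b') hpow
  obtain ⟨D, hD, h⟩ := cb_chev
    ((IsScalarTower.toAlgHom ℂ (Algebra.adjoin ℂ (s0 ∪ s)) (Localization.Away b')).comp
      (Subalgebra.inclusion hle)) (hinj.comp (Subalgebra.inclusion_injective hle))
  refine ⟨D, D.2, fun h1 => hD (Subtype.ext h1), fun φ hφ hv => ?_⟩
  have hS : Algebra.adjoin ℂ s0 ≤ φ.S := Algebra.adjoin_le hφ
  obtain ⟨χ, hχ⟩ := h (φ.hom.comp (Subalgebra.inclusion hS)) hv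
  refine ⟨PH.ofHom (Algebra.adjoin ℂ (s0 ∪ s))
    (χ.comp (IsScalarTower.toAlgHom ℂ (Algebra.adjoin ℂ (s0 ∪ s)) (Localization.Away b'))),
    fun a ha => Algebra.subset_adjoin (Or.inr ha), fun a ha => ?_, ?_⟩
  · have ha' : a ∈ Algebra.adjoin ℂ (s0 ∪ s) := Algebra.subset_adjoin (Or.inl ha)
    refine ⟨ha', ?_⟩
    rw [PH.ofHom_v _ _ ha']
    exact hχ ⟨a, Algebra.subset_adjoin ha⟩
  · rw [PH.ofHom_v _ _ hb, ← hb']
    exact ((IsLocalization.Away.algebraMap_isUnit (S := Localization.Away b') b').map χ).ne_zero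

/-- a nonzero element of `A [ζ]` divides a nonzero element of `A` -/
theorem cb_div [IsDomain R] {s0 : Set R} {ζ D0 : R} (hζ : IsAlgebraic (Algebra.adjoin ℂ s0) ζ)
    (hD : D0 ∈ Algebra.adjoin ℂ (insert ζ s0)) (hD0 : D0 ≠ 0) :
    ∃ D ∈ Algebra.adjoin ℂ s0, D ≠ 0 ∧ ∃ c ∈ Algebra.adjoin ℂ (insert ζ s0), D = D0 * c := by
  have halg : ∀ a ∈ Algebra.adjoin ℂ (insert ζ s0), IsAlgebraic (Algebra.adjoin ℂ s0) a := by
    intro a ha
    induction ha using Algebra.adjoin_induction with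
    | mem a ha =>
      rcases ha with rfl | ha
      · exact hζ
      · exact isAlgebraic_algebraMap (⟨a, Algebra.subset_adjoin ha⟩ : Algebra.adjoin ℂ s0)
    | algebraMap c =>
      exact isAlgebraic_algebraMap
        (⟨algebraMap ℂ R c, Subalgebra.algebraMap_mem _ c⟩ : Algebra.adjoin ℂ s0)
    | add a b _ _ ha hb => exact ha.add hb
    | mul a b _ _ ha hb => exact ha.mul hb
  obtain ⟨p, hp0, hp⟩ := (halg D0 hD).exists_nonzero_coeff_and_aeval_eq_zero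
    (mem_nonZeroDivisors_of_ne_zero hD0)
  have hle : Algebra.adjoin ℂ s0 ≤ Algebra.adjoin ℂ (insert ζ s0) :=
    Algebra.adjoin_mono (subset_insert _ _)
  have hmem : ∀ q : Polynomial (Algebra.adjoin ℂ s0),
      Polynomial.aeval D0 q ∈ Algebra.adjoin ℂ (insert ζ s0) := by
    intro q
    rw [Polynomial.aeval_eq_sum_range]
    refine sum_mem fun i _ => ?_
    rw [Algebra.smul_def]
    exact mul_mem (hle (q.coeff i).2) (pow_mem hD i)
  refine ⟨p.coeff 0, (p.coeff 0).2, fun h => hp0 (Subtype.ext h),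
    -Polynomial.aeval D0 p.divX, neg_mem (hmem _), ?_⟩
  have h1 := congrArg (Polynomial.aeval D0) (Polynomial.X_mul_divX_add p)
  rw [hp, map_add, map_mul, Polynomial.aeval_X, Polynomial.aeval_C] at h1
  have h2 : algebraMap (Algebra.adjoin ℂ s0) R (p.coeff 0) = (p.coeff 0 : R) := rfl
  rw [h2] at h1
  linear_combination h1

theorem chev2 [IsDomain R] {s0 s : Set R} (h0 : s0.Finite) (hs : s.Finite) {ζ b : R}
    (hζ : IsAlgebraic (Algebra.adjoin ℂ s0) ζ) (hb : b ∈ Algebra.adjoin ℂ (insert ζ s0 ∪ s))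
    (hb0 : b ≠ 0) :
    ∃ D ∈ Algebra.adjoin ℂ s0, D ≠ 0 ∧ ∀ φ : PH R, (∀ a ∈ insert ζ s0, a ∈ φ.S) → φ.v D ≠ 0 →
      ∃ χ : PH R, (∀ a ∈ s, a ∈ χ.S) ∧ (∀ a ∈ insert ζ s0, a ∈ χ.S ∧ χ.v a = φ.v a) ∧
        χ.v b ≠ 0 := by
  obtain ⟨D0, hD, hD0, h⟩ := chev (h0.insert ζ) hs hb hb0
  obtain ⟨D, h1, h2, c, hc, rfl⟩ := cb_div hζ hD hD0
  refine ⟨_, h1, h2, fun φ hφ hv => h φ hφ fun h3 => hv ?_⟩
  have hS : Algebra.adjoin ℂ (insert ζ s0) ≤ φ.S := Algebra.adjoin_le hφ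
  rw [φ.v_mul (hS hD) (hS hc), h3, zero_mul]

theorem PH.root (Θ : B →ₐ[ℂ] R) {ζ : R} {G : Polynomial B} (hG : G.Monic)
    (hd : ∀ Q : Polynomial B, Q.eval₂ Θ.toRingHom ζ = 0 → G ∣ Q) (φ : PH B)
    (hφ : ∀ i, G.coeff i ∈ φ.S) {Z : ℂ} (hZ : (φ.up G).IsRoot Z) :
    ∃ χ : PH R, ζ ∈ χ.S ∧ χ.v ζ = Z ∧ ∀ b ∈ φ.S, Θ b ∈ χ.S ∧ χ.v (Θ b) = φ.v b := by
  obtain ⟨ι, hι⟩ : ∃ ι : φ.S →+* B, ι = φ.S.val.toRingHom := ⟨_, rfl⟩
  have hι' : ∀ a : φ.S, ι a = a := fun a => by rw [hι]; rfl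
  have hinj : Function.Injective ι := fun a b h => Subtype.ext (by rwa [hι', hι'] at h)
  have hl : G ∈ Polynomial.lifts ι := by
    rw [Polynomial.lifts_iff_coeff_lifts]
    exact fun i => ⟨⟨G.coeff i, hφ i⟩, hι' _⟩
  obtain ⟨G', hG', -, hm⟩ := Polynomial.lifts_and_natDegree_eq_and_monic hl hG
  have hup : G'.map φ.hom.toRingHom = φ.up G := by
    ext i
    rw [Polynomial.coeff_map, PH.coeff_up, ← hG', Polynomial.coeff_map, hι']
    rfl
  obtain ⟨E, hE⟩ : ∃ E : Polynomial φ.S →ₐ[ℂ] R,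
      E = Polynomial.eval₂AlgHom (Θ.comp φ.S.val) ζ fun _ => Commute.all _ _ := ⟨_, rfl⟩
  obtain ⟨V, hV⟩ : ∃ V : Polynomial φ.S →ₐ[ℂ] ℂ,
      V = Polynomial.eval₂AlgHom φ.hom Z fun _ => Commute.all _ _ := ⟨_, rfl⟩
  have hE1 : ∀ Q, E Q = (Q.map ι).eval₂ Θ.toRingHom ζ := fun Q => by
    rw [hE, Polynomial.eval₂_map, hι]
    rfl
  have hV1 : ∀ Q, V Q = (Q.map φ.hom.toRingHom).eval Z := fun Q => by
    rw [hV, Polynomial.eval_map]
    rfl
  have hker : ∀ Q, E Q = 0 → V Q = 0 := by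
    intro Q hQ
    rw [hE1] at hQ
    have h1 := hd _ hQ
    rw [← hG', Polynomial.map_dvd_map ι hinj hm] at h1
    obtain ⟨P, rfl⟩ := h1
    rw [map_mul, hV1 G', hup, hZ.eq_zero, zero_mul]
  have hsur : Function.Surjective E.rangeRestrict := E.rangeRestrict_surjective
  have hk : RingHom.ker E.rangeRestrict.toRingHom ≤ RingHom.ker V.toRingHom := fun Q hQ =>
    hker Q (congrArg Subtype.val (show E.rangeRestrict Q = 0 from hQ))
  obtain ⟨W, hW⟩ : ∃ W : E.range →ₐ[ℂ] ℂ, ∀ Q, W (E.rangeRestrict Q) = V Q :=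
    ⟨AlgHom.liftOfSurjective E.rangeRestrict hsur V hk, fun Q =>
      AlgHom.liftOfSurjective_apply _ _ _ _ Q⟩
  have key : ∀ Q, E Q ∈ (PH.ofHom E.range W).S ∧ (PH.ofHom E.range W).v (E Q) = V Q := fun Q =>
    ⟨⟨Q, rfl⟩, by rw [PH.ofHom_v _ _ (show E Q ∈ E.range from ⟨Q, rfl⟩)]; exact hW Q⟩
  have hX := key Polynomial.X
  rw [hE1, hV1, Polynomial.map_X, Polynomial.map_X, Polynomial.eval₂_X, Polynomial.eval_X] at hX
  refine ⟨PH.ofHom E.range W, hX.1, hX.2, fun b hb => ?_⟩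
  have hC := key (Polynomial.C ⟨b, hb⟩)
  rw [hE1, hV1, Polynomial.map_C, Polynomial.map_C, Polynomial.eval₂_C, Polynomial.eval_C,
    hι'] at hC
  exact hC

end Vale.Agent.P299.PC
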