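import Vale.Agent.P299.CA

/-! P299, part C: estimates for roots and values of complex polynomials.
`root_le`: `‖Z‖ ^ e ≤ ∑ i < e, ‖c i‖ ‖Z‖ ^ i` (`Monic.as_sum`), take the largest term; `e ≥ 1` since a monic constant has
no root. `root_ge`: `Polynomial.coeff_le_of_roots_le` with `B` the largest norm of a root, `Nat.choose_le_two_pow`-type
bound. `root_lo`: if `‖w‖ ≤ 1` then `‖h 0‖ ≤ ‖w‖ ∑ ‖h i‖`. `chow_bd`: let `‖p m‖` be maximal and larger than `2`, put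
`u' (j, i) = u (j, i) - if i = m then Wv j / p m else 0`; then `eval u' c = 0`, `‖u'‖ ≤ 3`, and `eval_sub_le` gives
`c1 * cn c ≤ L * cn c * (2 / ‖p m‖)`. For `eval_sub_le` treat monomials (each is Lipschitz on the ball: it is `ContDiff`
on a compact convex set, or induct on the number of factors). -/

open Set Filter Topology MvPolynomial

noncomputable section

namespace Vale.Agent.P299.PC

variable {σ : Type} [Fintype σ]

omit [Fintype σ] in
theorem cn_nonneg (p : MvPolynomial σ ℂ) : 0 ≤ cn p :=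
  Finset.sum_nonneg fun _ _ => norm_nonneg _

omit [Fintype σ] in
theorem norm_coeff_le (p : MvPolynomial σ ℂ) (μ : σ →₀ ℕ) : ‖coeff μ p‖ ≤ cn p := by
  by_cases h : μ ∈ p.support
  · exact Finset.single_le_sum (f := fun μ => ‖coeff μ p‖) (fun _ _ => norm_nonneg _) h
  · rw [notMem_support_iff.1 h, norm_zero]
    exact cn_nonneg p

omit [Fintype σ] in
theorem cn_eq {p : MvPolynomial σ ℂ} {S : Finset (σ →₀ ℕ)} (h : p.support ⊆ S) :
    cn p = ∑ μ ∈ S, ‖coeff μ p‖ :=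
  Finset.sum_subset h fun μ _ h' => by rw [notMem_support_iff.1 h', norm_zero]

omit [Fintype σ] in
theorem cn_pos {p : MvPolynomial σ ℂ} (h : p ≠ 0) : 0 < cn p := by
  obtain ⟨μ, hμ⟩ := ne_zero_iff.1 h
  exact (norm_pos_iff.2 hμ).trans_le (norm_coeff_le p μ)

theorem eval_le (S : Finset (σ →₀ ℕ)) (B : ℝ) : ∃ L : ℝ, 0 < L ∧ ∀ p : MvPolynomial σ ℂ,
    p.support ⊆ S → ∀ v : σ → ℂ, ‖v‖ ≤ B → ‖eval v p‖ ≤ L * cn p := by
  choose C hC using fun μ : σ →₀ ℕ => (isCompact_closedBall (0 : σ → ℂ) B).exists_bound_of_continuousOn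
    (f := fun v => ∏ i ∈ μ.support, v i ^ μ i) (by fun_prop)
  refine ⟨∑ μ ∈ S, |C μ| + 1, by positivity, fun p hp v hv => ?_⟩
  rw [eval_eq, cn, Finset.mul_sum]
  refine norm_sum_le_of_le _ fun μ hμ => ?_
  rw [norm_mul, mul_comm]
  refine mul_le_mul_of_nonneg_right ((hC μ v (mem_closedBall_zero_iff.2 hv)).trans
    ((le_abs_self _).trans ?_)) (norm_nonneg _)
  have := Finset.single_le_sum (f := fun μ => |C μ|) (fun _ _ => abs_nonneg _) (hp hμ)
  linarith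

theorem eval_sub_le (S : Finset (σ →₀ ℕ)) (B : ℝ) : ∃ L : ℝ, 0 < L ∧ ∀ p : MvPolynomial σ ℂ,
    p.support ⊆ S → ∀ v v' : σ → ℂ, ‖v‖ ≤ B → ‖v'‖ ≤ B →
      ‖eval v p - eval v' p‖ ≤ L * cn p * ‖v - v'‖ := by
  have h1 : ∀ μ : σ →₀ ℕ, ∃ L : NNReal, LipschitzOnWith L
      (fun v : σ → ℂ => ∏ i ∈ μ.support, v i ^ μ i) (Metric.closedBall 0 B) := fun μ =>
    ContDiffOn.exists_lipschitzOnWith (f := fun v : σ → ℂ => ∏ i ∈ μ.support, v i ^ μ i)
      (ContDiff.contDiffOn (by fun_prop : ContDiff ℝ 1 _)) one_ne_zero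
      (convex_closedBall _ _) (isCompact_closedBall _ _)
  choose C hC using h1
  refine ⟨∑ μ ∈ S, (C μ : ℝ) + 1, by positivity, fun p hp v v' hv hv' => ?_⟩
  rw [eval_eq, eval_eq, ← Finset.sum_sub_distrib, cn, Finset.mul_sum, Finset.sum_mul]
  refine norm_sum_le_of_le _ fun μ hμ => ?_
  rw [← mul_sub, norm_mul, mul_comm _ ‖coeff μ p‖, mul_assoc]
  refine mul_le_mul_of_nonneg_left (((hC μ).norm_sub_le (mem_closedBall_zero_iff.2 hv)
    (mem_closedBall_zero_iff.2 hv')).trans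
      (mul_le_mul_of_nonneg_right ?_ (norm_nonneg _))) (norm_nonneg _)
  have := Finset.single_le_sum (f := fun μ => (C μ : ℝ)) (fun _ _ => NNReal.coe_nonneg _) (hp hμ)
  linarith

theorem root_le {g : Polynomial ℂ} (hg : g.Monic) {Z : ℂ} (hZ : g.IsRoot Z) :
    ∃ i < g.natDegree, ‖Z‖ ^ (g.natDegree - i) ≤ g.natDegree * ‖g.coeff i‖ := by
  have he : 0 < g.natDegree := Polynomial.natDegree_pos_of_monic_of_aeval_eq_zero hg
    (by rw [Polynomial.coe_aeval_eq_eval]; exact hZ)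
  by_cases h0 : Z = 0
  · exact ⟨0, he, by rw [h0, norm_zero, zero_pow (by omega)]; positivity⟩
  obtain ⟨i, hi, hm⟩ := Finset.exists_max_image (Finset.range g.natDegree)
    (fun i => ‖g.coeff i‖ * ‖Z‖ ^ i) ⟨0, Finset.mem_range.2 he⟩
  have h1 : Z ^ g.natDegree = -∑ j ∈ Finset.range g.natDegree, g.coeff j * Z ^ j := by
    have := hZ.eq_zero
    rw [Polynomial.eval_eq_sum_range, Finset.sum_range_succ, hg.coeff_natDegree, one_mul] at this
    exact eq_neg_of_add_eq_zero_right this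
  have h2 : ‖Z‖ ^ g.natDegree ≤ g.natDegree * (‖g.coeff i‖ * ‖Z‖ ^ i) := by
    rw [← norm_pow, h1, norm_neg]
    refine (norm_sum_le_of_le _ fun j hj => ?_).trans_eq
      (by rw [Finset.sum_const, Finset.card_range, nsmul_eq_mul])
    rw [norm_mul, norm_pow]
    exact hm j hj
  have hi' := Finset.mem_range.1 hi
  refine ⟨i, hi', le_of_mul_le_mul_right ?_ (pow_pos (norm_pos_iff.2 h0) i)⟩
  rwa [← pow_add, Nat.sub_add_cancel hi'.le, mul_assoc]

theorem root_ge {g : Polynomial ℂ} (hg : g.Monic) {i : ℕ} (hi : i < g.natDegree) :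
    ∃ Z, g.IsRoot Z ∧ ‖g.coeff i‖ ≤ 2 ^ g.natDegree * ‖Z‖ ^ (g.natDegree - i) := by
  have hs := IsAlgClosed.splits g
  obtain ⟨Z, hZ, hm⟩ := g.roots.exists_max_image norm (hs := by
    intro h0
    have := hs.natDegree_eq_card_roots
    rw [h0, Multiset.card_zero] at this
    omega)
  refine ⟨Z, (Polynomial.mem_roots hg.ne_zero).1 hZ, ?_⟩
  have h1 := Polynomial.coeff_le_of_roots_le (f := RingHom.id ℂ) (B := ‖Z‖) i hg
    (by rwa [Polynomial.map_id]) (by rwa [Polynomial.map_id])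
  rw [Polynomial.map_id] at h1
  rw [mul_comm]
  refine h1.trans (mul_le_mul_of_nonneg_left ?_ (by positivity))
  exact_mod_cast Nat.choose_le_two_pow _ _

theorem root_lo {h : Polynomial ℂ} {w : ℂ} (hw : h.IsRoot w) {e : ℕ} (he : h.natDegree ≤ e)
    {δ : ℝ} (hδ : δ ≤ 1) (h0 : h.coeff 0 ≠ 0)
    (h1 : δ * ∑ i ∈ Finset.range (e + 1), ‖h.coeff i‖ ≤ ‖h.coeff 0‖) : δ ≤ ‖w‖ := by
  by_contra hlt
  push Not at hlt
  have h2 : h.coeff 0 = -∑ i ∈ Finset.range e, h.coeff (i + 1) * w ^ (i + 1) := by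
    have := hw.eq_zero
    rw [Polynomial.eval_eq_sum_range' (Nat.lt_succ_of_le he), Finset.sum_range_succ', pow_zero,
      mul_one] at this
    exact eq_neg_of_add_eq_zero_right this
  have h3 : ‖h.coeff 0‖ ≤ ‖w‖ * ∑ i ∈ Finset.range e, ‖h.coeff (i + 1)‖ := by
    rw [h2, norm_neg, Finset.mul_sum]
    refine norm_sum_le_of_le _ fun i _ => ?_
    rw [norm_mul, norm_pow, mul_comm, pow_succ']
    exact mul_le_mul_of_nonneg_right (mul_le_of_le_one_right (norm_nonneg _)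
      (pow_le_one₀ (norm_nonneg _) (hlt.le.trans hδ))) (norm_nonneg _)
  rw [Finset.sum_range_succ'] at h1
  have h4 : 0 ≤ ∑ i ∈ Finset.range e, ‖h.coeff (i + 1)‖ := Finset.sum_nonneg fun _ _ => norm_nonneg _
  have h5 := mul_pos ((norm_nonneg w).trans_lt hlt) (norm_pos_iff.2 h0)
  nlinarith [mul_le_mul_of_nonneg_right hlt.le h4]

theorem chow_bd {J ι : Type} [Fintype J] [Fintype ι] (S : Finset (J × ι →₀ ℕ)) {c1 : ℝ}
    (hc : 0 < c1) : ∃ B : ℝ, 0 < B ∧ ∀ c : MvPolynomial (J × ι) ℂ, c.support ⊆ S → c ≠ 0 →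
      ∀ p : ι → ℂ, (∀ u' : J × ι → ℂ, (∀ j, ∑ i, u' (j, i) * p i = 0) → eval u' c = 0) →
      ∀ u : J × ι → ℂ, ‖u‖ ≤ 2 → c1 * cn c ≤ ‖eval u c‖ → (∀ j, ‖∑ i, u (j, i) * p i‖ ≤ 2) →
      ∀ m, ‖p m‖ ≤ B := by
  classical
  obtain ⟨L, hL, h⟩ := eval_sub_le S 3
  refine ⟨2 + 2 * L / c1, by positivity, fun c hS h0 p hp u hu h1 hW m => ?_⟩
  have h6 : 0 < 2 * L / c1 := by positivity
  by_contra hlt
  push Not at hlt
  have hm : 2 < ‖p m‖ := by linarith
  have hm0 : p m ≠ 0 := norm_pos_iff.1 (by linarith)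
  obtain ⟨w, hw⟩ : ∃ w : J × ι → ℂ,
      w = fun a => if a.2 = m then (∑ i, u (a.1, i) * p i) / p m else 0 := ⟨_, rfl⟩
  have h2 : ‖w‖ ≤ 2 / ‖p m‖ := (pi_norm_le_iff_of_nonneg (by positivity)).2 fun a => by
    simp only [hw]
    split_ifs
    · rw [norm_div]
      exact div_le_div_of_nonneg_right (hW _) (norm_nonneg _)
    · rw [norm_zero]
      positivity
  have h3 : eval (u - w) c = 0 := hp _ fun j => by
    simp [hw, sub_mul, Finset.sum_sub_distrib, hm0]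
  have h4 : 2 / ‖p m‖ ≤ 1 := (div_le_one (by linarith)).2 hm.le
  have h5 := h c hS u (u - w) (by linarith) ((norm_sub_le _ _).trans (by linarith))
  rw [h3, sub_zero, sub_sub_cancel] at h5
  have h7 := (h1.trans h5).trans (mul_le_mul_of_nonneg_left h2 (mul_pos hL (cn_pos h0)).le)
  rw [mul_right_comm] at h7
  have h8 := le_of_mul_le_mul_right h7 (cn_pos h0)
  rw [← mul_div_assoc, le_div_iff₀ (by linarith)] at h8
  have h9 : ‖p m‖ ≤ 2 * L / c1 := by
    rw [le_div_iff₀ hc]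
    linarith
  linarith

end Vale.Agent.P299.PC
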