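import Vale.Agent.P299.CC

/-! P299, part C: polynomials of bounded degree are large at some point of the unit ball.
`dense_ne_zero`: `AnalyticOnNhd.eval_mvPolynomial`, `eq_of_eventuallyEq`, `MvPolynomial.funext` (see `inj_of_open` in
`Vale/Agent/P290G/GenS.lean`). `pn`: parametrise polynomials with support in `S` by `a : S → ℂ`
(`∑ μ : S, monomial μ (a μ)`); the set of pairs `(a, a')` with `∑ ‖a μ‖ = 1 = ∑ ‖a' μ‖` is compact; each pair has a point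
`v` of the open unit ball where both polynomials are nonzero (density for the product), and this persists with a lower
bound near the pair; finite subcover (`IsCompact.induction_on` or `elim_nhds_subcover`). Scale; a zero polynomial may be
replaced by the other one. The strict inequalities persist near `v`, where `h` is nonzero somewhere. -/

open Set Filter Topology MvPolynomial

noncomputable section

namespace Vale.Agent.P299.PC

variable {σ : Type} [Fintype σ]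

theorem dense_ne_zero {h : MvPolynomial σ ℂ} (h0 : h ≠ 0) : Dense {v : σ → ℂ | eval v h ≠ 0} := by
  rw [dense_iff_inter_open]
  rintro U hU ⟨x, hx⟩
  by_contra hc
  refine h0 (MvPolynomial.funext fun v => ?_)
  have h1 : (fun v => eval v h) =ᶠ[𝓝 x] fun _ => 0 := by
    filter_upwards [hU.mem_nhds hx] with y hy
    by_contra h2
    exact hc ⟨y, hy, h2⟩
  have h2 := (AnalyticOnNhd.eval_mvPolynomial h).eq_of_eventuallyEq analyticOnNhd_const h1
  rw [map_zero]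
  exact congrFun h2 v

/-- the polynomial with coefficients `a` -/
def cd_pol (S : Finset (σ →₀ ℕ)) (a : S → ℂ) : MvPolynomial σ ℂ := ∑ μ : S, monomial μ.1 (a μ)

omit [Fintype σ] in
theorem cd_coeff (S : Finset (σ →₀ ℕ)) (a : S → ℂ) (μ : S) : coeff μ.1 (cd_pol S a) = a μ := by
  classical
  rw [cd_pol, coeff_sum, Finset.sum_eq_single μ]
  · simp
  · intro ν _ hν
    rw [coeff_monomial, if_neg fun h => hν (Subtype.ext h)]
  · simp

omit [Fintype σ] in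
theorem cd_cont (S : Finset (σ →₀ ℕ)) (v : σ → ℂ) :
    Continuous fun a : S → ℂ => eval v (cd_pol S a) := by
  simp only [cd_pol, map_sum, eval_monomial]
  fun_prop

theorem cd_ball {h : MvPolynomial σ ℂ} (h0 : h ≠ 0) : ∃ v : σ → ℂ, ‖v‖ < 1 ∧ eval v h ≠ 0 := by
  obtain ⟨v, h1, h2⟩ := (dense_ne_zero h0).inter_open_nonempty (Metric.ball 0 1) Metric.isOpen_ball
    ⟨0, Metric.mem_ball_self one_pos⟩
  exact ⟨v, mem_ball_zero_iff.1 h1, h2⟩

theorem cd_pair (S : Finset (σ →₀ ℕ)) : ∃ c : ℝ, 0 < c ∧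
    ∀ x ∈ {a : S → ℂ | ∑ μ, ‖a μ‖ = 1} ×ˢ {a : S → ℂ | ∑ μ, ‖a μ‖ = 1}, ∃ v : σ → ℂ, ‖v‖ < 1 ∧
      c < ‖eval v (cd_pol S x.1)‖ ∧ c < ‖eval v (cd_pol S x.2)‖ := by
  have hK : IsCompact {a : S → ℂ | ∑ μ, ‖a μ‖ = 1} := by
    refine (isCompact_closedBall (0 : S → ℂ) 1).of_isClosed_subset
      (isClosed_eq (by fun_prop) continuous_const) fun a ha => ?_
    rw [mem_closedBall_zero_iff, pi_norm_le_iff_of_nonneg zero_le_one]
    intro μ
    exact (Finset.single_le_sum (f := fun μ => ‖a μ‖) (fun _ _ => norm_nonneg _)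
      (Finset.mem_univ μ)).trans ha.le
  have hne : ∀ a : S → ℂ, ∑ μ, ‖a μ‖ = 1 → cd_pol S a ≠ 0 := by
    intro a ha h
    have h1 : ∀ μ, a μ = 0 := fun μ => by rw [← cd_coeff S a μ, h, coeff_zero]
    simp [h1] at ha
  refine (hK.prod hK).induction_on (p := fun T => ∃ c : ℝ, 0 < c ∧ ∀ x ∈ T, ∃ v : σ → ℂ, ‖v‖ < 1 ∧
    c < ‖eval v (cd_pol S x.1)‖ ∧ c < ‖eval v (cd_pol S x.2)‖) ⟨1, one_pos, by simp⟩ ?_ ?_ ?_
  · rintro s t hst ⟨c, hc, h⟩
    exact ⟨c, hc, fun x hx => h x (hst hx)⟩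
  · rintro s t ⟨c, hc, h⟩ ⟨c', hc', h'⟩
    refine ⟨min c c', lt_min hc hc', fun x hx => ?_⟩
    rcases hx with hx | hx
    · obtain ⟨v, h1, h2, h3⟩ := h x hx
      exact ⟨v, h1, (min_le_left _ _).trans_lt h2, (min_le_left _ _).trans_lt h3⟩
    · obtain ⟨v, h1, h2, h3⟩ := h' x hx
      exact ⟨v, h1, (min_le_right _ _).trans_lt h2, (min_le_right _ _).trans_lt h3⟩
  · intro x hx
    obtain ⟨v, h1, h2⟩ := cd_ball (mul_ne_zero (hne _ hx.1) (hne _ hx.2))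
    rw [map_mul, mul_ne_zero_iff] at h2
    have h3 := norm_pos_iff.2 h2.1
    have h4 := norm_pos_iff.2 h2.2
    obtain ⟨c, hc0, hc⟩ := exists_between (lt_min h3 h4)
    refine ⟨{y | c < ‖eval v (cd_pol S y.1)‖ ∧ c < ‖eval v (cd_pol S y.2)‖},
      mem_nhdsWithin_of_mem_nhds (IsOpen.mem_nhds ?_ (lt_min_iff.1 hc)), c, hc0,
      fun y hy => ⟨v, h1, hy⟩⟩
    exact (isOpen_lt continuous_const ((cd_cont S v).comp continuous_fst).norm).inter
      (isOpen_lt continuous_const ((cd_cont S v).comp continuous_snd).norm)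

theorem cd_norm {S : Finset (σ →₀ ℕ)} {p : MvPolynomial σ ℂ} (hp : p.support ⊆ S) (h0 : p ≠ 0) :
    ∃ a : S → ℂ, ∑ μ, ‖a μ‖ = 1 ∧ ∀ v, ‖eval v p‖ = ‖eval v (cd_pol S a)‖ * cn p := by
  have h1 := cn_pos h0
  refine ⟨fun μ => ((cn p)⁻¹ : ℝ) * coeff μ.1 p, ?_, fun v => ?_⟩
  · simp only [norm_mul, Complex.norm_real, Real.norm_eq_abs, abs_of_pos (inv_pos.2 h1)]
    rw [← Finset.mul_sum, Finset.sum_coe_sort S fun μ => ‖coeff μ p‖, ← cn_eq hp,
      inv_mul_cancel₀ h1.ne']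
  · have h2 : eval v (cd_pol S fun μ => ((cn p)⁻¹ : ℝ) * coeff μ.1 p) =
        ((cn p)⁻¹ : ℝ) * eval v p := by
      have h3 : p = ∑ μ ∈ S, monomial μ (coeff μ p) := by
        conv_lhs => rw [p.as_sum]
        refine Finset.sum_subset hp fun μ _ hμ => ?_
        rw [notMem_support_iff.1 hμ, map_zero]
      rw [congrArg (eval v) h3]
      simp only [cd_pol, map_sum, eval_monomial, Finset.mul_sum, mul_assoc]
      exact Finset.sum_coe_sort S fun μ => (((cn p)⁻¹ : ℝ) : ℂ) *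
        (coeff μ p * μ.prod fun n e => v n ^ e)
    rw [h2, norm_mul, Complex.norm_real, Real.norm_eq_abs, abs_of_pos (inv_pos.2 h1)]
    field_simp

theorem cd_two (S : Finset (σ →₀ ℕ)) : ∃ c : ℝ, 0 < c ∧ ∀ p q h : MvPolynomial σ ℂ,
    p.support ⊆ S → q.support ⊆ S → p ≠ 0 → q ≠ 0 → h ≠ 0 → ∃ v : σ → ℂ, ‖v‖ ≤ 1 ∧
      c * cn p ≤ ‖eval v p‖ ∧ c * cn q ≤ ‖eval v q‖ ∧ eval v h ≠ 0 := by
  obtain ⟨c, hc, h⟩ := cd_pair S
  refine ⟨c, hc, fun p q g hp hq hp0 hq0 hg => ?_⟩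
  obtain ⟨a, ha, ha'⟩ := cd_norm hp hp0
  obtain ⟨b, hb, hb'⟩ := cd_norm hq hq0
  obtain ⟨v, h1, h2, h3⟩ := h (a, b) ⟨ha, hb⟩
  have ho : IsOpen {w : σ → ℂ | ‖w‖ < 1 ∧ c < ‖eval w (cd_pol S a)‖ ∧ c < ‖eval w (cd_pol S b)‖} :=
    (isOpen_lt continuous_norm continuous_const).inter
      ((isOpen_lt continuous_const (MvPolynomial.continuous_eval _).norm).inter
        (isOpen_lt continuous_const (MvPolynomial.continuous_eval _).norm))
  obtain ⟨w, ⟨h4, h5, h6⟩, h7⟩ := (dense_ne_zero hg).inter_open_nonempty _ ho ⟨v, h1, h2, h3⟩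
  refine ⟨w, h4.le, ?_, ?_, h7⟩
  · rw [ha']; exact mul_le_mul_of_nonneg_right h5.le (cn_nonneg p)
  · rw [hb']; exact mul_le_mul_of_nonneg_right h6.le (cn_nonneg q)

theorem pn (S : Finset (σ →₀ ℕ)) : ∃ c : ℝ, 0 < c ∧ ∀ p q h : MvPolynomial σ ℂ,
    p.support ⊆ S → q.support ⊆ S → h ≠ 0 → ∃ v : σ → ℂ, ‖v‖ ≤ 1 ∧ c * cn p ≤ ‖eval v p‖ ∧
      c * cn q ≤ ‖eval v q‖ ∧ eval v h ≠ 0 := by
  obtain ⟨c, hc, h⟩ := cd_two S
  have hz : ∀ v : σ → ℂ, c * cn (0 : MvPolynomial σ ℂ) ≤ ‖eval v (0 : MvPolynomial σ ℂ)‖ :=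
    fun v => by simp [cn]
  refine ⟨c, hc, fun p q g hp hq hg => ?_⟩
  by_cases hp0 : p = 0
  · by_cases hq0 : q = 0
    · obtain ⟨v, h1, h2⟩ := cd_ball hg
      rw [hp0, hq0]
      exact ⟨v, h1.le, hz v, hz v, h2⟩
    · obtain ⟨v, h1, h2, -, h3⟩ := h q q g hq hq hq0 hq0 hg
      rw [hp0]
      exact ⟨v, h1, hz v, h2, h3⟩
  · by_cases hq0 : q = 0
    · obtain ⟨v, h1, h2, -, h3⟩ := h p p g hp hp hp0 hp0 hg
      rw [hq0]
      exact ⟨v, h1, h2, hz v, h3⟩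
    · exact h p q g hp hq hp0 hq0 hg

end Vale.Agent.P299.PC
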