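import Vale.Agent.P299.CA

/-! P299, part C: a subfield of a finitely generated field is finitely generated.
Let `c : Fin r → F` be a finite transcendence basis of `F` over `K` (`fin_trdeg`, `exists_isTranscendenceBasis'`). For
a finite `T ⊆ K` let `L T = IntermediateField.adjoin ℂ (image of T ∪ range c)`. If `T` contains the coefficients of
equations of the `x i` over `K[c]` then `F` is finite over `L T`. Among such `T` take one with minimal
`finrank (L T) F`; for `k : K` the tower `L T ≤ L (insert k T)` has equal finite ranks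
(`IntermediateField.eq_of_le_of_finrank_le'`), so `k ∈ L T`: `k * q (c) = p (c)` with polynomials `p, q` over
`adjoin ℂ T` (`IntermediateField.mem_adjoin_iff_div`-type lemma, or induction), and algebraic independence of `c`
over `K` gives `C k * q = p`; compare a nonzero coefficient of `q`.
`fin_trdeg`: `F` is algebraic over `adjoin K (range x)`, `Algebra.IsAlgebraic.trdeg_le_cardinalMk`. -/

open Set Filter Topology MvPolynomial

noncomputable section

namespace Vale.Agent.P299.PC

variable {N : ℕ} {K F : Type} [Field K] [Field F] [Algebra ℂ K] [Algebra ℂ F] [Algebra K F]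
  [IsScalarTower ℂ K F] {J : Type} [Fintype J] {x : Fin (N + 1) → F}

theorem ce_ess (hx : Gn x) : Algebra.EssFiniteType ℂ F := by
  classical
  refine IntermediateField.fg_top_iff.1 ⟨Finset.univ.image x, top_le_iff.1 fun f _ => ?_⟩
  obtain ⟨p, q, h1, h2⟩ := hx.2 f
  rw [Finset.coe_image, Finset.coe_univ, image_univ, IntermediateField.mem_adjoin_range_iff]
  exact ⟨p, q, (eq_div_iff h1).2 h2⟩

theorem ce_poly {ι : Type} (T : Set K) (c : ι → F) {r : F}
    (hr : r ∈ Algebra.adjoin ℂ (algebraMap K F '' T ∪ range c)) :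
    ∃ p : MvPolynomial ι (Algebra.adjoin ℂ T),
      aeval c (MvPolynomial.map (algebraMap (Algebra.adjoin ℂ T) K) p) = r := by
  induction hr using Algebra.adjoin_induction with
  | mem a ha =>
    rcases ha with ⟨t, ht, rfl⟩ | ⟨i, rfl⟩
    · exact ⟨C ⟨t, Algebra.subset_adjoin ht⟩, by simp⟩
    · exact ⟨X i, by simp⟩
  | algebraMap a =>
    refine ⟨C (algebraMap ℂ _ a), ?_⟩
    rw [map_C, aeval_C, ← IsScalarTower.algebraMap_apply, ← IsScalarTower.algebraMap_apply]
  | add a b _ _ ha hb =>
    obtain ⟨p, rfl⟩ := ha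
    obtain ⟨q, rfl⟩ := hb
    exact ⟨p + q, by simp⟩
  | mul a b _ _ ha hb =>
    obtain ⟨p, rfl⟩ := ha
    obtain ⟨q, rfl⟩ := hb
    exact ⟨p * q, by simp⟩


theorem fin_trdeg (K : Type) [Field K] [Algebra ℂ K] [Algebra K F] [IsScalarTower ℂ K F]
    (hx : Gn x) : ∃ r : ℕ, Algebra.trdeg K F = r := by
  have := ce_ess hx
  have : Algebra.EssFiniteType K F := Algebra.EssFiniteType.of_comp ℂ K F
  exact Cardinal.lt_aleph0.1 (trdeg_lt_aleph0 K F)

theorem fg_K (K : Type) [Field K] [Algebra ℂ K] [Algebra K F] [IsScalarTower ℂ K F] (hx : Gn x) :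
    ∃ T : Finset K, ∀ k : K, ∃ a ∈ Algebra.adjoin ℂ (T : Set K),
      ∃ b ∈ Algebra.adjoin ℂ (T : Set K), b ≠ 0 ∧ k * b = a := by
  classical
  have := ce_ess hx
  have : Algebra.EssFiniteType K F := Algebra.EssFiniteType.of_comp ℂ K F
  have : FinTrdeg ℂ K := FinTrdeg.of_trdeg ((trdeg_le_of_injective (IsScalarTower.toAlgHom ℂ K F)
    (algebraMap K F).injective).trans_lt (trdeg_lt_aleph0 ℂ F))
  obtain ⟨b, hb⟩ := exists_finset_isTranscendenceBasis ℂ K
  obtain ⟨c, hc⟩ := exists_finset_isTranscendenceBasis K F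
  let L : Finset K → IntermediateField ℂ F := fun T =>
    IntermediateField.adjoin ℂ (algebraMap K F '' (T : Set K) ∪ range ((↑) : c → F))
  have hfin : ∀ T, b ⊆ T → FiniteDimensional (L T) F := fun T hT => by
    have : Algebra.EssFiniteType (L T) F := Algebra.EssFiniteType.of_comp ℂ (L T) F
    have : Algebra.IsAlgebraic (L T) F := ⟨fun f =>
      IsAlgebraic.tower_top_of_subalgebra_le (B := (L T).toSubalgebra) (by
        rw [Algebra.adjoin_le_iff]
        rintro _ ⟨i | i, rfl⟩
        · exact IntermediateField.subset_adjoin _ _ (Or.inr ⟨i, rfl⟩)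
        · exact IntermediateField.subset_adjoin _ _ (Or.inl ⟨i, hT i.2, rfl⟩))
        ((hb.sumElim_comp hc).isAlgebraic.isAlgebraic f)⟩
    exact Algebra.finite_of_essFiniteType_of_isAlgebraic
  obtain ⟨T, hT, hmin⟩ := (measure fun T => Module.finrank (L T) F).wf.has_min {T | b ⊆ T}
    ⟨b, Finset.Subset.refl b⟩
  refine ⟨T, fun k => ?_⟩
  have := hfin T hT
  have e : L T = L (insert k T) := IntermediateField.eq_of_le_of_finrank_le'
    (IntermediateField.adjoin.mono _ _ _ (union_subset_union_left _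
      (image_mono (by simp)))) (not_lt.1 (hmin _ (Finset.Subset.trans hT (Finset.subset_insert _ _))))
  have h1 : algebraMap K F k ∈ L T :=
    e ▸ IntermediateField.subset_adjoin _ _ (Or.inl ⟨k, by simp, rfl⟩)
  obtain ⟨r, hr, s, hs, h2⟩ := IntermediateField.mem_adjoin_iff_div.1 h1
  obtain ⟨p, rfl⟩ := ce_poly _ _ hr
  obtain ⟨q, rfl⟩ := ce_poly _ _ hs
  by_cases h0 : MvPolynomial.map (algebraMap (Algebra.adjoin ℂ (T : Set K)) K) q = 0
  · rw [h0, map_zero, div_zero, map_eq_zero] at h2
    exact ⟨0, zero_mem _, 1, one_mem _, one_ne_zero, by simp [h2]⟩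
  · have hi : Function.Injective (aeval ((↑) : c → F) : MvPolynomial c K →ₐ[K] F) := hc.1
    rw [eq_div_iff (fun h => h0 (hi (h.trans (map_zero _).symm))), ← aeval_C ((↑) : c → F),
      ← map_mul] at h2
    obtain ⟨μ, hμ⟩ := ne_zero_iff.1 h0
    have h3 := congrArg (coeff μ) (hi h2)
    rw [coeff_C_mul, coeff_map, coeff_map] at h3
    rw [coeff_map] at hμ
    exact ⟨_, (coeff μ p).2, _, (coeff μ q).2, hμ, h3⟩

end Vale.Agent.P299.PC
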