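import Vale.Agent.P299.CA

/-! P299, part C: the Chow polynomial.
`exists_chow`: in `R0 = MvPolynomial (J × Fin N) F` let `w (j, i.succ) = X (j, i)` and
`w (j, 0) = -∑ i, X (j, i) * C (x i.succ)`. `trdeg K R0 = r + card J * N < card J * (N + 1)` (`trdeg_add_eq`,
`MvPolynomial.trdeg_of_isDomain`), so `w` is not algebraically independent over `K`
(`AlgebraicIndependent.cardinalMk_le_trdeg`); this gives `Cw`. For general `u` apply the `F`-algebra map
`X (j, i) ↦ u (j, i.succ)`, which sends `w` to `u` because `x 0 = 1`.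
`th_rename`: `Th (rename inl c) = rename some (map (algebraMap K F) c)`.
`chow_int`: write `lam = C (x m) * X none`, may assume `lam ≠ 0`. In the fraction field `Ω` of `EE` put `s = lam⁻¹`,
`u' (j, i) = X (some (j, i)) - if i = m then Th (X (inr j)) * s else 0`; `Chow` gives `aeval u' Cw = 0`. So `s` is a root
of the polynomial `q = aeval (fun a => C (X (inl a)) - if a.2 = m then C (X (inr a.1)) * X else 0) Cw` over
`MvPolynomial (Vv J N) K`, whose constant coefficient is `rename inl Cw ≠ 0`; `lam` is a root of `q.reverse`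
(`Polynomial.eval₂_reverse_eq_zero_iff`, `reverse_leadingCoeff`), then `RingHom.isIntegralElem_leadingCoeff_mul`. -/

open Set Filter Topology MvPolynomial

noncomputable section

namespace Vale.Agent.P299.PC

variable {N : ℕ} {K F : Type} [Field K] [Field F] [Algebra ℂ K] [Algebra ℂ F] [Algebra K F]
  [IsScalarTower ℂ K F] {J : Type} [Fintype J] {x : Fin (N + 1) → F}

/-- The generic family of hyperplanes through the point `x`. -/
def cf_w (J : Type) (x : Fin (N + 1) → F) (a : J × Fin (N + 1)) : MvPolynomial (J × Fin N) F :=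
  Fin.cases (motive := fun _ => MvPolynomial (J × Fin N) F)
    (-∑ i : Fin N, X (a.1, i) * C (x i.succ)) (fun i => X (a.1, i)) a.2

omit [Algebra ℂ K] [Algebra ℂ F] [IsScalarTower ℂ K F] in
theorem cf_dep {r : ℕ} (hr : Algebra.trdeg K F = r) (hJ : r < Fintype.card J) :
    ¬ AlgebraicIndependent K (cf_w J x) := fun h => by
  have h1 := h.cardinalMk_le_trdeg
  rw [← trdeg_add_eq K F, hr, MvPolynomial.trdeg_of_isDomain] at h1
  simp only [Cardinal.mk_fintype, Fintype.card_prod, Fintype.card_fin, Cardinal.lift_natCast] at h1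
  have h2 : Fintype.card J * (N + 1) ≤ r + Fintype.card J * N := by exact_mod_cast h1
  rw [Nat.mul_succ] at h2
  omega

theorem exists_chow (h0 : x 0 = 1) {r : ℕ} (hr : Algebra.trdeg K F = r)
    (hJ : r < Fintype.card J) :
    ∃ Cw : MvPolynomial (J × Fin (N + 1)) K, Cw ≠ 0 ∧ Chow x Cw := by
  have h := cf_dep (x := x) hr hJ
  rw [algebraicIndependent_iff] at h
  push Not at h
  obtain ⟨p, hp, hp0⟩ := h
  refine ⟨p, hp0, fun R _ _ _ _ u hu => ?_⟩
  set φ : MvPolynomial (J × Fin N) F →ₐ[F] R := aeval fun a => u (a.1, a.2.succ) with hφ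
  have h1 : (fun a => (φ.restrictScalars K) (cf_w J x a)) = u := by
    funext ⟨j, i⟩
    refine Fin.cases ?_ (fun i => ?_) i
    · have h2 := hu j
      rw [Fin.sum_univ_succ, h0, map_one, mul_one] at h2
      simp only [cf_w, Fin.cases_zero, AlgHom.coe_restrictScalars', map_neg, map_sum, map_mul, hφ,
        aeval_X, aeval_C]
      exact (eq_neg_of_add_eq_zero_left h2).symm
    · simp [cf_w, hφ]
  rw [← h1, ← comp_aeval, AlgHom.comp_apply, hp, map_zero]

omit [Algebra ℂ K] [Algebra ℂ F] [IsScalarTower ℂ K F] [Fintype J] in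
theorem cf_th_rename (c : MvPolynomial (J × Fin (N + 1)) K) :
    Th K J x (rename Sum.inl c) = rename some (map (algebraMap K F) c) := by
  induction c using MvPolynomial.induction_on with
  | C a => simp [Th]
  | add p q hp hq => simp only [map_add, hp, hq]
  | mul_X p i hp =>
    simp only [map_mul, hp, rename_X, map_X]
    simp [Th]

theorem th_rename_ne {Cw : MvPolynomial (J × Fin (N + 1)) K} (h : Cw ≠ 0) :
    Th K J x (rename Sum.inl Cw) ≠ 0 := by
  rw [cf_th_rename]
  intro h0
  apply h
  apply map_injective (algebraMap K F) (algebraMap K F).injective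
  apply rename_injective some (Option.some_injective _)
  rw [h0, map_zero, map_zero]

/-- The polynomial of which the inverse of `x m * t` is a root. -/
def cf_q (m : Fin (N + 1)) (Cw : MvPolynomial (J × Fin (N + 1)) K) :
    Polynomial (MvPolynomial (Vv J N) K) :=
  aeval (fun a : J × Fin (N + 1) => (Polynomial.C (X (Sum.inl a)) -
    if a.2 = m then Polynomial.C (X (Sum.inr a.1)) * Polynomial.X else 0 :
      Polynomial (MvPolynomial (Vv J N) K))) Cw

omit [Algebra ℂ K] [Fintype J] in
theorem cf_q_eval {Ω : Type} [CommRing Ω] [Algebra K Ω] (θ : MvPolynomial (Vv J N) K →ₐ[K] Ω)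
    (s : Ω) (m : Fin (N + 1)) (Cw : MvPolynomial (J × Fin (N + 1)) K) :
    (cf_q m Cw).eval₂ θ.toRingHom s = aeval (fun a : J × Fin (N + 1) =>
      θ (X (Sum.inl a)) - if a.2 = m then θ (X (Sum.inr a.1)) * s else 0) Cw := by
  induction Cw using MvPolynomial.induction_on with
  | C a => simp [cf_q, Polynomial.algebraMap_apply]
  | add p q hp hq =>
    simp only [cf_q, map_add, Polynomial.eval₂_add] at hp hq ⊢
    rw [hp, hq]
  | mul_X p i hp =>
    simp only [cf_q, map_mul, Polynomial.eval₂_mul, aeval_X] at hp ⊢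
    rw [hp]
    congr 1
    split_ifs <;> simp [Polynomial.eval₂_sub]

omit [Algebra ℂ K] [Fintype J] in
theorem cf_q_coeff (m : Fin (N + 1)) (Cw : MvPolynomial (J × Fin (N + 1)) K) :
    (cf_q m Cw).coeff 0 = rename Sum.inl Cw := by
  have h := cf_q_eval (AlgHom.id K (MvPolynomial (Vv J N) K)) 0 m Cw
  rw [Polynomial.eval₂_at_zero] at h
  simp only [AlgHom.toRingHom_eq_coe, RingHom.coe_coe, AlgHom.coe_id, id_eq, mul_zero, ite_self,
    sub_zero] at h
  rw [h, rename_eq_aeval]
  rfl

theorem chow_int {Cw : MvPolynomial (J × Fin (N + 1)) K} (h : Cw ≠ 0) (hc : Chow x Cw)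
    (m : Fin (N + 1)) : (Th K J x).toRingHom.IsIntegralElem
      (Th K J x (rename Sum.inl Cw) * (C (x m) * X none)) := by
  by_cases hm : x m = 0
  · rw [hm, map_zero, zero_mul, mul_zero]
    exact RingHom.isIntegralElem_zero _
  have h1 : (cf_q m Cw).coeff 0 ≠ 0 := by
    rw [cf_q_coeff]
    exact fun h0 => h (rename_injective _ Sum.inl_injective (by rw [h0, map_zero]))
  have h2 : (cf_q m Cw).reverse.leadingCoeff = rename Sum.inl Cw := by
    rw [Polynomial.reverse_leadingCoeff, Polynomial.trailingCoeff_eq_coeff_zero h1, cf_q_coeff]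
  rw [← h2]
  refine (Th K J x).toRingHom.isIntegralElem_leadingCoeff_mul _ _ ?_
  set Ω := FractionRing (EE J N F)
  set ι : EE J N F →ₐ[K] Ω := IsScalarTower.toAlgHom K (EE J N F) Ω with hι
  have hinj : Function.Injective ι := IsFractionRing.injective (EE J N F) Ω
  have hl : ι (C (x m) * X none) ≠ 0 := by
    rw [map_ne_zero_iff _ hinj]
    exact mul_ne_zero (by simpa using hm) (X_ne_zero _)
  apply hinj
  let _ : Invertible (ι (C (x m) * X none))⁻¹ := invertibleOfNonzero (inv_ne_zero hl)
  have h3 : (cf_q m Cw).eval₂ (ι.comp (Th K J x)).toRingHom (ι (C (x m) * X none))⁻¹ = 0 := by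
    rw [cf_q_eval]
    refine hc Ω _ fun j => ?_
    have h4 : ∀ i, algebraMap F Ω (x i) = ι (C (x i)) := fun i =>
      IsScalarTower.algebraMap_apply F (EE J N F) Ω (x i)
    simp only [sub_mul, Finset.sum_sub_distrib, ite_mul, zero_mul, Finset.sum_ite_eq',
      Finset.mem_univ, if_true, h4, AlgHom.comp_apply, Th, aeval_X, Sum.elim_inl, Sum.elim_inr]
    rw [map_mul] at hl
    simp only [map_mul, map_sum]
    rw [mul_inv, sub_eq_zero]
    have h5 := mul_inv_cancel₀ (left_ne_zero_of_mul hl)
    have h6 := mul_inv_cancel₀ (right_ne_zero_of_mul hl)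
    generalize (∑ i, ι (X (some (j, i))) * ι (C (x i))) = L
    calc L = L * (ι (C (x m)) * (ι (C (x m)))⁻¹) * (ι (X none) * (ι (X none))⁻¹) := by
          rw [h5, h6, mul_one, mul_one]
      _ = _ := by ring
  rw [← Polynomial.eval₂_reverse_eq_zero_iff, invOf_eq_inv, inv_inv] at h3
  rw [map_zero, ← h3]
  exact Polynomial.hom_eval₂ _ (Th K J x).toRingHom ι.toRingHom _

end Vale.Agent.P299.PC
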