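import Vale.Agent.P299.CE
import Vale.Agent.P299.CF

/-! P299, part C: the generic projection is injective and the cone is algebraic over it. -/

open Set Filter Topology MvPolynomial

noncomputable section

namespace Vale.Agent.P299.PC

variable {N : ℕ} {K F : Type} [Field K] [Field F] [Algebra ℂ K] [Algebra ℂ F] [Algebra K F]
  [IsScalarTower ℂ K F] {J : Type} [Fintype J] {x : Fin (N + 1) → F}

theorem cg_mem {E A : Type} [CommRing E] [CommRing A] [Algebra K E] [Algebra K A]
    (f : A →ₐ[K] E) [Nontrivial E] (a : A) : IsAlgebraic f.range (f a) :=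
  isAlgebraic_algebraMap (⟨f a, a, rfl⟩ : f.range)

theorem cg_int {E A : Type} [CommRing E] [CommRing A] [Algebra K E] [Algebra K A]
    (f : A →ₐ[K] E) [Nontrivial E] {e : E} (h : f.toRingHom.IsIntegralElem e) :
    IsAlgebraic f.range e := by
  obtain ⟨p, hp, h0⟩ := h
  refine IsIntegral.isAlgebraic ⟨p.map f.rangeRestrict.toRingHom, hp.map _, ?_⟩
  rw [Polynomial.eval₂_map]
  exact h0

theorem cg_lift {E A : Type} [CommRing E] [IsDomain E] [CommRing A] [Algebra K E] [Algebra K A]
    (f : A →ₐ[K] E) {e : E} (h : IsAlgebraic f.range e) (he : e ≠ 0) :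
    ∃ H : Polynomial A, H.coeff 0 ≠ 0 ∧ H.eval₂ f.toRingHom e = 0 := by
  obtain ⟨q, hq0, hq⟩ := h.exists_nonzero_coeff_and_aeval_eq_zero (mem_nonZeroDivisors_of_ne_zero he)
  obtain ⟨H, rfl⟩ := Polynomial.map_surjective f.rangeRestrict.toRingHom
    (AlgHom.rangeRestrict_surjective f) q
  refine ⟨H, fun h0 => hq0 (by rw [Polynomial.coeff_map, h0, map_zero]), ?_⟩
  rw [Polynomial.aeval_def, Polynomial.eval₂_map] at hq
  exact hq

theorem th_isAlg (hx : Gn x) {Cw : MvPolynomial (J × Fin (N + 1)) K} (h : Cw ≠ 0)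
    (hc : Chow x Cw) : Algebra.IsAlgebraic (Th K J x).range (EE J N F) := by
  have hm : ∀ m, IsAlgebraic (Th K J x).range (C (x m) * X none : EE J N F) := fun m =>
    IsAlgebraic.of_mul (mem_nonZeroDivisors_of_ne_zero (th_rename_ne h)) (cg_mem _ _)
      (cg_int _ (chow_int h hc m))
  have ht : IsAlgebraic (Th K J x).range (X none : EE J N F) := by
    have h1 := hm 0
    rwa [hx.1, C_1, one_mul] at h1
  have hxm : ∀ m, IsAlgebraic (Th K J x).range (C (x m) : EE J N F) := fun m =>
    IsAlgebraic.of_mul (mem_nonZeroDivisors_of_ne_zero (X_ne_zero none)) ht (by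
      rw [mul_comm]; exact hm m)
  have hp : ∀ p : MvPolynomial (Fin (N + 1)) ℂ,
      IsAlgebraic (Th K J x).range (C (aeval x p) : EE J N F) := fun p => by
    induction p using MvPolynomial.induction_on with
    | C c =>
      have h1 := cg_mem (Th K J x) (algebraMap K _ (algebraMap ℂ K c))
      rw [AlgHom.commutes, MvPolynomial.algebraMap_apply,
        ← IsScalarTower.algebraMap_apply ℂ K F] at h1
      rwa [aeval_C]
    | add p q hp hq => rw [map_add, map_add]; exact hp.add hq
    | mul_X p i hp => rw [map_mul, map_mul, aeval_X]; exact hp.mul (hxm i)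
  have hf : ∀ f : F, IsAlgebraic (Th K J x).range (C f : EE J N F) := fun f => by
    obtain ⟨p, q, hq, hpq⟩ := hx.2 f
    refine IsAlgebraic.of_mul (mem_nonZeroDivisors_of_ne_zero (C_ne_zero.2 hq)) (hp q) ?_
    rw [← map_mul, mul_comm, hpq]
    exact hp p
  have hX : ∀ a, IsAlgebraic (Th K J x).range (X a : EE J N F) := fun a => by
    cases a with
    | none => exact ht
    | some a =>
      have h1 := cg_mem (Th K J x) (X (Sum.inl a))
      rwa [Th, aeval_X, Sum.elim_inl] at h1
  refine ⟨fun e => ?_⟩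
  induction e using MvPolynomial.induction_on with
  | C c => exact hf c
  | add p q hp hq => exact hp.add hq
  | mul_X p i hp => exact hp.mul (hX i)

theorem th_inj (hx : Gn x) {r : ℕ} (hr : Algebra.trdeg K F = r) (hJ : Fintype.card J = r + 1)
    {Cw : MvPolynomial (J × Fin (N + 1)) K} (h : Cw ≠ 0) (hc : Chow x Cw) :
    Function.Injective (Th K J x) := by
  have h1 := th_isAlg hx h hc
  rw [Th, ← Algebra.adjoin_range_eq_range_aeval] at h1
  have h2 : Cardinal.mk (Vv J N) ≤ Algebra.trdeg K (EE J N F) := by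
    rw [← trdeg_add_eq K F (A := EE J N F), hr, MvPolynomial.trdeg_of_isDomain, Cardinal.lift_id,
      Cardinal.mk_fintype, Cardinal.mk_fintype, ← Nat.cast_add, Nat.cast_le, Fintype.card_sum,
      Fintype.card_option, hJ]
    omega
  exact (Algebra.IsAlgebraic.isTranscendenceBasis_of_le_trdeg_of_finite K _ h2).1

theorem th_alg (hx : Gn x) {Cw : MvPolynomial (J × Fin (N + 1)) K} (h : Cw ≠ 0) (hc : Chow x Cw)
    {η : EE J N F} (hη : η ≠ 0) : ∃ H : Polynomial (MvPolynomial (Vv J N) K),
      H.coeff 0 ≠ 0 ∧ H.eval₂ (Th K J x).toRingHom η = 0 :=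
  cg_lift _ ((th_isAlg hx h hc).isAlgebraic η) hη

end Vale.Agent.P299.PC
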