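import Vale.Agent.P299.CG

/-! P299, part C: existence of the generic projection.
`zt_int`: let `B = MvPolynomial (Vv J N) K` act on `EE` through `Th` (`letI := (Th K J x).toRingHom.toAlgebra`),
`c = Th (rename inl Cw)`. The set `T` of `e : EE` with `c ^ n * e` integral over `B` for some `n` is a `K`-subalgebra
containing the `C (x m) * X none` (`chow_int`). The `F`-algebra map `Polynomial F → EE`, `X ↦ X none`
(`Polynomial.aeval`) sends `HR K x` into `T` and a monic equation of `C z * X ^ d` to a monic equation with coefficients in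
`T`; with a common `n`, `c ^ n * (C z * X none ^ d)` is integral over `integralClosure B EE` (`Polynomial.scaleRoots`,
`Polynomial.lifts_and_natDegree_eq_and_monic`), so over `B` (`isIntegral_trans`).
`exists_gp`: `J = Fin (r + 1)`; common `n` for the finitely many `k`; `G k = minpoly B (zt ..)`,
`minpoly.isIntegrallyClosed_dvd` (`B` is a unique factorisation domain, `Th` is injective). -/

open Set Filter Topology MvPolynomial

noncomputable section

namespace Vale.Agent.P299.PC

variable {N : ℕ} {K F : Type} [Field K] [Field F] [Algebra ℂ K] [Algebra ℂ F] [Algebra K F]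
  [IsScalarTower ℂ K F] {J : Type} [Fintype J] {x : Fin (N + 1) → F}

theorem ch_mono {B E : Type} [CommRing B] [CommRing E] [Algebra B E] {c : B} {e : E} {n m : ℕ}
    (h : IsIntegral B (algebraMap B E c ^ n * e)) (hm : n ≤ m) :
    IsIntegral B (algebraMap B E c ^ m * e) := by
  obtain ⟨k, rfl⟩ := Nat.exists_eq_add_of_le hm
  rw [add_comm, pow_add, mul_assoc]
  exact (isIntegral_algebraMap.pow k).mul h

theorem ch_abs {A B E : Type} [CommRing A] [CommRing B] [CommRing E] [Nontrivial E] [Algebra B E]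
    (c : B) (ι : A →+* E) (h : ∀ a, ∃ n, IsIntegral B (algebraMap B E c ^ n * ι a)) {e : E}
    (he : ι.IsIntegralElem e) : ∃ n, IsIntegral B (algebraMap B E c ^ n * e) := by
  obtain ⟨p, hp, h0⟩ := he
  choose ν hν using h
  have hq : (p.map ι).Monic := hp.map ι
  have h1 : (p.map ι).eval e = 0 := by rw [Polynomial.eval_map, h0]
  refine ⟨(Finset.range ((p.map ι).natDegree + 1)).sup fun i => ν (p.coeff i), ?_⟩
  set n := (Finset.range ((p.map ι).natDegree + 1)).sup fun i => ν (p.coeff i) with hn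
  refine IsIntegral.of_aeval_monic_of_isIntegral_coeff
    ((Polynomial.monic_scaleRoots_iff (algebraMap B E c ^ n)).2 hq) ?_ ?_ fun i => ?_
  · rw [Polynomial.natDegree_scaleRoots]
    intro h2
    rw [hq.natDegree_eq_zero.1 h2, Polynomial.eval_one] at h1
    exact one_ne_zero h1
  · rw [Polynomial.scaleRoots_eval_mul, h1, mul_zero]
    exact isIntegral_zero
  · rw [Polynomial.coeff_scaleRoots]
    rcases lt_trichotomy i (p.map ι).natDegree with hi | hi | hi
    · rw [← pow_mul, mul_comm, Polynomial.coeff_map]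
      refine ch_mono (hν _) ?_
      refine le_trans (Finset.le_sup (f := fun i => ν (p.coeff i))
        (Finset.mem_range.2 (Nat.lt_succ_of_lt hi))) ?_
      exact Nat.le_mul_of_pos_right _ (Nat.sub_pos_of_lt hi)
    · rw [hi, hq.coeff_natDegree, Nat.sub_self, pow_zero, mul_one]
      exact isIntegral_one
    · rw [Polynomial.coeff_eq_zero_of_natDegree_lt hi, zero_mul]
      exact isIntegral_zero

theorem ch_adj {k A B E : Type} [CommRing k] [CommRing A] [CommRing B] [CommRing E] [Nontrivial E]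
    [Algebra k A] (Θ : B →+* E) (c : B) (π : A →+* E) {s : Set A}
    (hk : ∀ a, ∃ b, π (algebraMap k A a) = Θ b) (hs : ∀ a ∈ s, Θ.IsIntegralElem (Θ c * π a))
    {e : A} (he : IsIntegral (Algebra.adjoin k s) e) :
    ∃ n0, ∀ n ≥ n0, Θ.IsIntegralElem (Θ c ^ n * π e) := by
  letI : Algebra B E := Θ.toAlgebra
  have key : ∀ a ∈ Algebra.adjoin k s, ∃ n, IsIntegral B (algebraMap B E c ^ n * π a) := by
    intro a ha
    induction ha using Algebra.adjoin_induction with
    | mem a ha => exact ⟨1, by rw [pow_one]; exact hs a ha⟩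
    | algebraMap a =>
      obtain ⟨b, hb⟩ := hk a
      refine ⟨0, ?_⟩
      rw [pow_zero, one_mul, hb]
      exact isIntegral_algebraMap
    | add a b _ _ ha hb =>
      obtain ⟨n, ha⟩ := ha
      obtain ⟨m, hb⟩ := hb
      refine ⟨n + m, ?_⟩
      rw [map_add, mul_add]
      exact (ch_mono ha (Nat.le_add_right _ _)).add (ch_mono hb (Nat.le_add_left _ _))
    | mul a b _ _ ha hb =>
      obtain ⟨n, ha⟩ := ha
      obtain ⟨m, hb⟩ := hb
      refine ⟨n + m, ?_⟩
      rw [map_mul, pow_add, mul_mul_mul_comm]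
      exact ha.mul hb
  obtain ⟨p, hp, h0⟩ := he
  have h1 : (π.comp (algebraMap (Algebra.adjoin k s) A)).IsIntegralElem (π e) :=
    ⟨p, hp, by
      have := congrArg π h0
      rwa [Polynomial.hom_eval₂, map_zero] at this⟩
  obtain ⟨n0, hn⟩ := ch_abs c _ (fun a => key a.1 a.2) h1
  exact ⟨n0, fun n hn' => ch_mono hn hn'⟩

theorem zt_int {Cw : MvPolynomial (J × Fin (N + 1)) K} (h : Cw ≠ 0) (hc : Chow x Cw) {d : ℕ}
    {z : F} (hz : IntK K x d z) :
    ∃ n0, ∀ n ≥ n0, (Th K J x).toRingHom.IsIntegralElem (zt x Cw n d z) := by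
  have h1 := ch_adj (Th K J x).toRingHom (rename Sum.inl Cw)
    (Polynomial.eval₂RingHom (C : F →+* EE J N F) (X none)) (fun a => ⟨algebraMap K _ a, by
      rw [Polynomial.algebraMap_apply, Polynomial.coe_eval₂RingHom, Polynomial.eval₂_C]
      exact ((Th K J x).commutes a).symm⟩) (by
      rintro _ ⟨m, rfl⟩
      rw [Polynomial.coe_eval₂RingHom, Polynomial.eval₂_mul, Polynomial.eval₂_C,
        Polynomial.eval₂_X]
      exact chow_int h hc m) hz
  rw [Polynomial.coe_eval₂RingHom, Polynomial.eval₂_mul, Polynomial.eval₂_C,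
    Polynomial.eval₂_X_pow] at h1
  exact h1

theorem exists_gp (hx : Gn x) {d : ℕ} {κ : Type} [Fintype κ] {z : κ → F}
    (hz : ∀ k, IntK K x d (z k)) : ∃ r : ℕ, Nonempty (GP K (Fin r) x d z) := by
  obtain ⟨r, hr⟩ := fin_trdeg K hx
  obtain ⟨Cw, h, hc⟩ := exists_chow (J := Fin (r + 1)) hx.1 hr (by simp)
  have hi := th_inj hx hr (by simp) h hc
  choose ν hν using fun k => zt_int h hc (hz k)
  letI : Algebra (MvPolynomial (Vv (Fin (r + 1)) N) K) (EE (Fin (r + 1)) N F) :=
    (Th K (Fin (r + 1)) x).toRingHom.toAlgebra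
  haveI : Module.IsTorsionFree (MvPolynomial (Vv (Fin (r + 1)) N) K) (EE (Fin (r + 1)) N F) :=
    Module.isTorsionFree_iff_algebraMap_injective.2 hi
  have hI : ∀ k, IsIntegral (MvPolynomial (Vv (Fin (r + 1)) N) K)
      (zt x Cw (Finset.univ.sup ν) d (z k)) := fun k => hν k _ (Finset.le_sup (Finset.mem_univ k))
  exact ⟨r + 1, ⟨⟨Cw, Finset.univ.sup ν, fun k => minpoly _ (zt x Cw (Finset.univ.sup ν) d (z k)),
    hx.1, h, hc, fun k => minpoly.monic (hI k), fun k => minpoly.aeval _ _,
    fun k Q hQ => minpoly.isIntegrallyClosed_dvd (hI k) hQ, hi, fun η hη => th_alg hx h hc hη⟩⟩⟩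

theorem GP.fam_ne {d : ℕ} {κ : Type} {z : κ → F} (g : GP K J x d z) {k : κ} (hk : z k ≠ 0)
    (M : ℕ) : ∃ β : g.I, g.fam M β ≠ 0 := by
  have h0 : ∃ i < (g.G k).natDegree, (g.G k).coeff i ≠ 0 := by
    by_contra hn
    push Not at hn
    have e : g.G k = Polynomial.X ^ (g.G k).natDegree := by
      conv_lhs => rw [(g.monic k).as_sum]
      rw [Finset.sum_eq_zero fun i hi => by rw [hn i (Finset.mem_range.1 hi)]; simp, add_zero]
    have h1 := g.root k
    rw [e, Polynomial.eval₂_X_pow] at h1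
    refine mul_ne_zero (pow_ne_zero _ (th_rename_ne g.ne))
      (mul_ne_zero ?_ (pow_ne_zero _ (X_ne_zero _))) (eq_zero_of_pow_eq_zero h1)
    rwa [Ne, C_eq_zero]
  obtain ⟨i, hi, h1⟩ := h0
  obtain ⟨μ, hμ⟩ := support_nonempty.2 h1
  exact ⟨⟨k, ⟨i, hi⟩, μ, hμ⟩, pow_ne_zero _ (mem_support_iff.1 hμ)⟩

end Vale.Agent.P299.PC
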