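import Vale.Agent.P299.CD

/-! P299, part C: two integrality tools.
`int_of_pow`: the `T`-submodule of `R` spanned by the `σ * ζ ^ j ∈ T` lies in the Noetherian module `T • 1`, so it is
spanned by finitely many of them (`Submodule.fg_def`, `Submodule.mem_span_finite_of_mem_span`); take a larger `j`, cancel
`σ`, and read the relation as a monic polynomial `X ^ j - ∑ C a * X ^ i` (`Polynomial.monic_X_pow_sub`).
`dvd_of_le`: write `p = g p'`, `q = g q'` with `IsRelPrime p' q'` (unique factorisation, `gcd`); by `dense_ne_zero` for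
`D * g` and continuity the inequality holds for `p', q'` everywhere, so `p'` vanishes on the zeros of `q'`;
`MvPolynomial.vanishingIdeal_zeroLocus_eq_radical` gives `q' ∣ p' ^ m`, so `q'` is a unit.
`hom_mem`: each monomial `x ^ μ * X ^ D` is a product of the generators, using `x 0 = 1` for the missing degree. -/

open Set Filter Topology MvPolynomial

noncomputable section

namespace Vale.Agent.P299.PC

theorem int_of_pow {T R : Type} [CommRing T] [IsNoetherianRing T] [CommRing R] [IsDomain R]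
    [Algebra T R] {σ ζ : R} (hσ : σ ≠ 0)
    (h : ∀ j₀ : ℕ, ∃ j ≥ j₀, σ * ζ ^ j ∈ (algebraMap T R).range) : IsIntegral T ζ := by
  let L : Polynomial T →ₗ[T] R := (LinearMap.mulLeft T σ).comp (Polynomial.aeval ζ).toLinearMap
  let f : ℕ →o Submodule T T :=
    ⟨fun k => ((Polynomial.degreeLT T k).map L).comap (Algebra.linearMap T R),
      fun a b hab => Submodule.comap_mono (Submodule.map_mono (Polynomial.degreeLT_mono hab))⟩
  obtain ⟨n, hn⟩ := monotone_stabilizes_iff_noetherian.2 (inferInstance : IsNoetherian T T) f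
  obtain ⟨j, hj, a, ha⟩ := h n
  have h1 : a ∈ f (j + 1) := ⟨Polynomial.X ^ j, Polynomial.mem_degreeLT.2
    ((Polynomial.degree_X_pow_le j).trans_lt (by exact_mod_cast Nat.lt_succ_self j)), by
      simp [L, ha]⟩
  rw [← hn _ (hj.trans (Nat.le_succ j)), hn _ hj] at h1
  obtain ⟨P, h2, h3⟩ := h1
  have h4 : σ * Polynomial.aeval ζ P = σ * ζ ^ j := h3.trans ha
  refine ⟨_, Polynomial.monic_X_pow_sub (Polynomial.mem_degreeLT.1 h2), ?_⟩
  rw [← Polynomial.aeval_def, map_sub, map_pow, Polynomial.aeval_X, mul_left_cancel₀ hσ h4,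
    sub_self]

theorem dvd_of_le {σ : Type} [Fintype σ] {p q D : MvPolynomial σ ℂ} (hq : q ≠ 0) (hD : D ≠ 0)
    {β : (σ → ℂ) → ℝ} (hβ : Continuous β)
    (h : ∀ w, eval w D ≠ 0 → ‖eval w p‖ ≤ β w * ‖eval w q‖) : q ∣ p := by
  obtain ⟨q', p', g, h1, rfl, rfl⟩ := UniqueFactorizationMonoid.exists_reduced_factors q hq p
  have h2 : ∀ w, ‖eval w p'‖ ≤ β w * ‖eval w q'‖ := fun w => by
    refine closure_minimal (fun w hw => ?_) (isClosed_le (continuous_eval p').norm
      (hβ.mul (continuous_eval q').norm))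
      (dense_ne_zero (mul_ne_zero hD (left_ne_zero_of_mul hq)) w)
    rw [mem_setOf, map_mul] at hw
    have h3 := h w (left_ne_zero_of_mul hw)
    rw [map_mul, map_mul, norm_mul, norm_mul, mul_left_comm] at h3
    exact le_of_mul_le_mul_left h3 (norm_pos_iff.2 (right_ne_zero_of_mul hw))
  have h3 : p' ∈ (Ideal.span {q'}).radical := by
    rw [← vanishingIdeal_zeroLocus_eq_radical (K := ℂ)]
    intro w hw
    have h4 : eval w q' = 0 := hw q' (Ideal.mem_span_singleton_self q')
    have h5 := h2 w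
    rw [h4, norm_zero, mul_zero] at h5
    exact norm_le_zero_iff.1 h5
  obtain ⟨m, hm⟩ := h3
  exact mul_dvd_mul_left g
    ((h1.pow_right (n := m)).isUnit_of_dvd (Ideal.mem_span_singleton.1 hm)).dvd

variable {N : ℕ} {K F : Type} [Field K] [Field F] [Algebra ℂ K] [Algebra ℂ F] [Algebra K F]
  [IsScalarTower ℂ K F] {J : Type} [Fintype J] {x : Fin (N + 1) → F}

theorem hom_mem (K : Type) [Field K] [Algebra ℂ K] [Algebra K F] [IsScalarTower ℂ K F]
    (h0 : x 0 = 1) {p : MvPolynomial (Fin (N + 1)) ℂ} {D : ℕ} (hp : p.totalDegree ≤ D) :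
    Polynomial.C (aeval x p) * Polynomial.X ^ D ∈ HR K x := by
  have h1 : ∀ i, Polynomial.C (x i) * Polynomial.X ∈ HR K x := fun i =>
    Algebra.subset_adjoin ⟨i, rfl⟩
  have h2 : Polynomial.X ∈ HR K x := by simpa [h0] using h1 0
  rw [p.as_sum, map_sum, map_sum, Finset.sum_mul]
  refine sum_mem fun μ hμ => ?_
  obtain ⟨e, rfl⟩ := Nat.exists_eq_add_of_le ((le_totalDegree hμ).trans hp)
  have h3 : Polynomial.C (aeval x (monomial μ (coeff μ p))) *
      Polynomial.X ^ ((μ.sum fun _ e => e) + e) = algebraMap K _ (algebraMap ℂ K (coeff μ p)) *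
      (∏ i, (Polynomial.C (x i) * Polynomial.X) ^ μ i) * Polynomial.X ^ e := by
    rw [aeval_monomial, Finsupp.prod_fintype _ _ fun _ => pow_zero _,
      Finsupp.sum_fintype _ _ fun _ => rfl, Polynomial.algebraMap_apply,
      ← IsScalarTower.algebraMap_apply, map_mul, map_prod, pow_add, ← Finset.prod_pow_eq_pow_sum]
    simp only [mul_pow, Finset.prod_mul_distrib, map_pow, mul_assoc]
  rw [h3]
  exact mul_mem (mul_mem ((HR K x).algebraMap_mem _) (prod_mem fun i _ => pow_mem (h1 i) _))
    (pow_mem h2 e)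

end Vale.Agent.P299.PC
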