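import Vale.Agent.P299.CB
import Vale.Agent.P299.CI

/-! P299, part C: bounded elements are integral.
Noether normalisation (`exists_integral_inj_algHom_of_fg`) of `T = adjoin ℂ (range g)` gives an injective
`Θ : MvPolynomial (Fin s) ℂ →ₐ R` with image in `T`, all `g i` integral. `ζ` is algebraic over `B = MvPolynomial (Fin s) ℂ`,
take `a ≠ 0` with `ζ' = Θ a * ζ` integral (`IsAlgebraic.exists_integral_multiple`), `G = minpoly B ζ'`
(`minpoly.isIntegrallyClosed_dvd`). `chev2` for `s0 = range (Θ ∘ X)`, `ζ'`, and the set `range g ∪ {ζ} ∪ s` gives `D = Θ D'`.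
For `w` with `eval w D' ≠ 0` let `φ = PH.ofHom ⊤ (evaluation at w)`; every root `Z` of `φ.up G` is attained (`PH.root`, then
`chev2`), `Z = a (w) χ ζ`, and `‖χ (g i)‖ ≤ β w` with `β` continuous (`PH.up_root`, `root_le` or
`Polynomial.cauchyBound`: `1 + e * ∑ ‖coefficients at w‖`). `root_ge` bounds `‖G i (w)‖ ≤ β' w * ‖a (w) ^ (e - i)‖`;
`dvd_of_le` gives `G i = a ^ (e - i) * H i`, and `ζ ^ e + ∑ Θ (H i) ζ ^ i = 0`. -/

open Set Filter Topology MvPolynomial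

noncomputable section

namespace Vale.Agent.P299.PC

theorem cj_uniq {σ R : Type} [CommRing R] [Algebra ℂ R] (Θ : MvPolynomial σ ℂ →ₐ[ℂ] R) :
    Θ = aeval fun i => Θ (X i) := aeval_unique Θ

/-- The point with coordinates `w`. -/
def cj_pt {σ : Type} (w : σ → ℂ) : PH (MvPolynomial σ ℂ) where
  S := ⊤
  v := eval w
  v_c c := by simp
  v_add _ _ := map_add _ _ _
  v_mul _ _ := map_mul _ _ _

theorem cj_int {B R : Type} [CommRing B] [Algebra ℂ B] [CommRing R] [Algebra ℂ R]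
    (Θ : B →ₐ[ℂ] R) {S : Subalgebra ℂ R} (hS : ∀ p, Θ p ∈ S) {G : Polynomial B} (hG : G.Monic)
    {ζ : R} (h0 : G.eval₂ Θ.toRingHom ζ = 0) : IsIntegral S ζ :=
  ⟨G.map (Θ.codRestrict S hS).toRingHom, hG.map _, by
    rw [Polynomial.eval₂_map]
    exact h0⟩

theorem cj_bd {σ : Type} {P : Polynomial (MvPolynomial σ ℂ)} (hP : P.Monic) :
    ∃ β : (σ → ℂ) → ℝ, Continuous β ∧ ∀ w Z, ((cj_pt w).up P).IsRoot Z → ‖Z‖ ≤ β w := by
  refine ⟨fun w => 1 + P.natDegree * ∑ j ∈ Finset.range P.natDegree, ‖eval w (P.coeff j)‖,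
    continuous_const.add (continuous_const.mul (continuous_finsetSum _ fun j _ =>
      (MvPolynomial.continuous_eval _).norm)), fun w Z hZ => ?_⟩
  obtain ⟨m1, m2⟩ := (cj_pt w).up_monic hP
  obtain ⟨i, hi, hle⟩ := root_le m1 hZ
  rw [m2] at hi hle
  rw [PH.coeff_up] at hle
  have h1 : ‖eval w (P.coeff i)‖ ≤ ∑ j ∈ Finset.range P.natDegree, ‖eval w (P.coeff j)‖ :=
    Finset.single_le_sum (f := fun j => ‖eval w (P.coeff j)‖) (fun _ _ => norm_nonneg _)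
      (Finset.mem_range.2 hi)
  have h2 := hle.trans (mul_le_mul_of_nonneg_left h1 (Nat.cast_nonneg _))
  have h3 : 0 ≤ ‖Z‖ ^ (P.natDegree - i) := by positivity
  rcases le_total ‖Z‖ 1 with h4 | h4
  · linarith
  · have := le_self_pow₀ h4 (Nat.sub_ne_zero_of_lt hi)
    linarith

theorem cj_norm {R : Type} [CommRing R] [IsDomain R] [Algebra ℂ R] {t : Set R} (ht : t.Finite)
    {ζ : R} (hζ : IsAlgebraic (Algebra.adjoin ℂ t) ζ) :
    ∃ (n : ℕ) (Θ : MvPolynomial (Fin n) ℂ →ₐ[ℂ] R) (a : MvPolynomial (Fin n) ℂ)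
      (G : Polynomial (MvPolynomial (Fin n) ℂ)), Function.Injective Θ ∧
      (∀ p, Θ p ∈ Algebra.adjoin ℂ t) ∧
      (∀ y ∈ t, ∃ P : Polynomial (MvPolynomial (Fin n) ℂ), P.Monic ∧
        P.eval₂ Θ.toRingHom y = 0) ∧ a ≠ 0 ∧ G.Monic ∧ G.eval₂ Θ.toRingHom (Θ a * ζ) = 0 ∧
      ∀ Q : Polynomial (MvPolynomial (Fin n) ℂ), Q.eval₂ Θ.toRingHom (Θ a * ζ) = 0 → G ∣ Q := by
  have := Algebra.FiniteType.adjoin_of_finite (R := ℂ) ht
  obtain ⟨n, θ, hinj, hint⟩ := exists_integral_inj_algHom_of_fg ℂ (Algebra.adjoin ℂ t)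
  set Θ := (Algebra.adjoin ℂ t).val.comp θ with hΘ
  have hi : Function.Injective Θ := Subtype.val_injective.comp hinj
  let _ : Algebra (MvPolynomial (Fin n) ℂ) (Algebra.adjoin ℂ t) := θ.toRingHom.toAlgebra
  let _ : Algebra (MvPolynomial (Fin n) ℂ) R := Θ.toRingHom.toAlgebra
  have : IsScalarTower (MvPolynomial (Fin n) ℂ) (Algebra.adjoin ℂ t) R :=
    IsScalarTower.of_algebraMap_eq fun _ => rfl
  have : Algebra.IsIntegral (MvPolynomial (Fin n) ℂ) (Algebra.adjoin ℂ t) := ⟨hint⟩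
  have : FaithfulSMul (MvPolynomial (Fin n) ℂ) R := (faithfulSMul_iff_algebraMap_injective _ _).2 hi
  obtain ⟨a, ha, hI⟩ :=
    (hζ.restrictScalars_of_isIntegral (MvPolynomial (Fin n) ℂ)).exists_integral_multiple
  rw [Algebra.smul_def] at hI
  refine ⟨n, Θ, a, minpoly _ (Θ a * ζ), hi, fun p => (θ p).2, fun y hy => ?_, ha,
    minpoly.monic hI, minpoly.aeval _ _, fun Q hQ => minpoly.isIntegrallyClosed_dvd hI hQ⟩
  exact (Algebra.IsIntegral.isIntegral (R := MvPolynomial (Fin n) ℂ)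
    (⟨y, Algebra.subset_adjoin hy⟩ : Algebra.adjoin ℂ t)).algebraMap (B := R)


theorem int_of_bdd {R ι : Type} [CommRing R] [IsDomain R] [Algebra ℂ R] [Fintype ι] (g : ι → R)
    {ζ b : R} (hζ : IsAlgebraic (Algebra.adjoin ℂ (range g)) ζ) {s : Set R} (hs : s.Finite)
    (hb : b ∈ Algebra.adjoin ℂ s) (hb0 : b ≠ 0) {C₀ : ℝ}
    (h : ∀ χ : PH R, (∀ i, g i ∈ χ.S) → ζ ∈ χ.S → (∀ a ∈ s, a ∈ χ.S) → χ.v b ≠ 0 →
      ‖χ.v ζ‖ ^ 2 ≤ C₀ * ∑ i, ‖χ.v (g i)‖ ^ 2) :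
    IsIntegral (Algebra.adjoin ℂ (range g)) ζ := by
  obtain ⟨n, Θ, a, G, hinj, hT, hg, ha, hG, hG0, hd⟩ := cj_norm (finite_range g) hζ
  have hS : ∀ p, Θ p ∈ Algebra.adjoin ℂ (range fun i => Θ (X i)) := fun p => by
    rw [Algebra.adjoin_range_eq_range_aeval]
    exact ⟨p, by rw [← cj_uniq Θ]; rfl⟩
  obtain ⟨D, hD, hD0, hch⟩ := chev2 (s0 := range fun i => Θ (X i)) (s := range g ∪ insert ζ s)
    (ζ := Θ a * ζ) (b := b) (finite_range _) ((finite_range g).union (hs.insert ζ))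
    (cj_int Θ hS hG hG0).isAlgebraic
    (Algebra.adjoin_mono (fun y hy => Or.inr (Or.inr (Or.inr hy))) hb) hb0
  rw [Algebra.adjoin_range_eq_range_aeval, ← cj_uniq Θ] at hD
  obtain ⟨D', rfl⟩ := hD
  have hD' : D' ≠ 0 := fun h0 => hD0 (by rw [h0, map_zero])
  choose P hP hP0 using fun i => hg (g i) ⟨i, rfl⟩
  choose β hβ hβ0 using fun i => cj_bd (hP i)
  set γ : (Fin n → ℂ) → ℝ := fun w => 1 + |C₀| * ∑ i, β i w ^ 2 with hγ
  have hγc : Continuous γ := by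
    rw [hγ]
    fun_prop
  have key : ∀ w, eval w D' ≠ 0 → ∀ Z, ((cj_pt w).up G).IsRoot Z → ‖Z‖ ≤ γ w * ‖eval w a‖ := by
    intro w hw Z hZ
    obtain ⟨χ₁, h1, h2, h3⟩ := PH.root Θ hG hd (cj_pt w) (fun _ => trivial) hZ
    obtain ⟨χ, k1, k2, k3⟩ := hch χ₁ (by
      rintro _ (rfl | ⟨i, rfl⟩)
      exacts [h1, (h3 _ trivial).1]) (by
      have := (h3 D' trivial).2
      exact fun h0 => hw (this.symm.trans h0))
    have k4 : ∀ p, Θ p ∈ χ.S ∧ χ.v (Θ p) = eval w p := fun p => by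
      have := PH.v_adjoin (ψ := χ₁) (χ := χ) (fun y hy => ⟨by
        obtain ⟨i, rfl⟩ := hy
        exact (h3 _ trivial).1, k2 y (Or.inr hy)⟩) (hS p)
      exact ⟨this.2.1, this.2.2.trans (h3 p trivial).2⟩
    have kg : ∀ i, g i ∈ χ.S := fun i => k1 _ (Or.inl ⟨i, rfl⟩)
    have kz : ζ ∈ χ.S := k1 _ (Or.inr (Or.inl rfl))
    have k5 := h χ kg kz (fun y hy => k1 y (Or.inr (Or.inr hy))) k3
    have k6 : ∀ i, ‖χ.v (g i)‖ ≤ β i w := fun i =>
      hβ0 i w _ (PH.up_root (φ := cj_pt w) (kg i) (fun j => k4 _) (hP0 i))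
    have k7 : ∑ i, ‖χ.v (g i)‖ ^ 2 ≤ ∑ i, β i w ^ 2 :=
      Finset.sum_le_sum fun i _ => pow_le_pow_left₀ (norm_nonneg _) (k6 i) 2
    have k8 : 0 ≤ ∑ i, ‖χ.v (g i)‖ ^ 2 := Finset.sum_nonneg fun i _ => sq_nonneg _
    have k9 : ‖χ.v ζ‖ ≤ γ w := by
      have e1 := mul_le_mul (le_abs_self C₀) k7 k8 (abs_nonneg _)
      simp only [hγ]
      nlinarith [sq_nonneg (‖χ.v ζ‖ - 1), norm_nonneg (χ.v ζ)]
    rw [← h2, ← (k2 _ (Or.inl rfl)).2, χ.v_mul (k4 a).1 kz, (k4 a).2, norm_mul, mul_comm]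
    exact mul_le_mul_of_nonneg_right k9 (norm_nonneg _)
  have hdv : ∀ i, i < G.natDegree → ∃ H, G.coeff i = a ^ (G.natDegree - i) * H := by
    intro i hi
    refine dvd_of_le (pow_ne_zero _ ha) hD'
      (β := fun w => 2 ^ G.natDegree * γ w ^ (G.natDegree - i)) (by fun_prop) fun w hw => ?_
    obtain ⟨m1, m2⟩ := (cj_pt w).up_monic hG
    obtain ⟨Z, hZ, hle⟩ := root_ge m1 (m2.symm ▸ hi)
    rw [m2, PH.coeff_up] at hle
    refine le_trans hle ?_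
    rw [map_pow, norm_pow, mul_assoc, ← mul_pow]
    exact mul_le_mul_of_nonneg_left (pow_le_pow_left₀ (norm_nonneg _) (key w hw Z hZ) _)
      (by positivity)
  choose! H hH using hdv
  refine cj_int Θ hT (G := Polynomial.X ^ G.natDegree +
    ∑ i : Fin G.natDegree, Polynomial.C (H i) * Polynomial.X ^ (i : ℕ))
    (Polynomial.monic_X_pow_add (Polynomial.degree_sum_fin_lt _)) ?_
  have ha' : Θ a ^ G.natDegree ≠ 0 := pow_ne_zero _ fun h0 => ha (hinj (by rw [h0, map_zero]))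
  refine (mul_eq_zero.1 ?_).resolve_left ha'
  rw [← hG0]
  conv_rhs => rw [hG.as_sum, Finset.sum_range]
  simp only [Polynomial.eval₂_add, Polynomial.eval₂_X_pow, Polynomial.eval₂_finsetSum,
    Polynomial.eval₂_mul, Polynomial.eval₂_C, mul_add, Finset.mul_sum, mul_pow]
  congr 1
  refine Finset.sum_congr rfl fun i _ => ?_
  have e : Θ a ^ G.natDegree = Θ a ^ (G.natDegree - i) * Θ a ^ (i : ℕ) := by
    rw [← pow_add, Nat.sub_add_cancel i.2.le]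
  rw [hH i i.2, map_mul, map_pow, e]
  show _ = Θ a ^ _ * Θ (H i) * _
  show _ * (Θ (H i) * _) = _
  ring

end Vale.Agent.P299.PC
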