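import Vale.Agent.P299.CB

/-! P299, part C: specialisation of the generic projection, attainment of roots.
`th_v`: both sides are computed monomial by monomial (`MvPolynomial.as_sum`, `aeval_monomial`, `PH.v_sum`, `PH.v_prod`),
or: `p` is the image of a polynomial over the subalgebra; induct on it. The other specialisations are `PH.up_root` with
`th_v`. `sp_chow`: apply `Chow` with `R = F` to `u'' (j, i.succ) = algebraMap (u (j, i.succ))`,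
`u'' (j, 0) = -∑ i, algebraMap (u (j, i.succ)) * x i.succ`, whose values are the `u (j, i)`.
`ra`: `chev2` in `EE` with `s0 = Th '' (C '' T ∪ range X)`, `ζ = zt ..` (algebraic by `g.root`, `g.monic`),
`s = {C (x i), X none, C (z k)}`, `b = C (aeval x q)`; `D0 = Th D` with `D ∈ adjoin ℂ (C '' T ∪ range X)`
(`AlgHom.map_adjoin`), whose coefficients lie in `adjoin ℂ T`. Given `ψ, v, Z` use `PH.root` for `ψ.poly v`, then
`chev2`; `χ` is the restriction (`PH.res F`) of the result, `t` the value of `X none`. -/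

open Set Filter Topology MvPolynomial

noncomputable section

namespace Vale.Agent.P299.PC

variable {N : ℕ} {K F : Type} [Field K] [Field F] [Algebra ℂ K] [Algebra ℂ F] [Algebra K F]
  [IsScalarTower ℂ K F] {J : Type} [Fintype J] {x : Fin (N + 1) → F}

variable {d : ℕ} {κ : Type} {z : κ → F}

theorem ck_aeval {R B σ : Type} [CommRing R] [Algebra ℂ R] [CommRing B] [Algebra ℂ B] [Algebra B R]
    {ω : PH R} {φ : PH B} (h : ∀ a ∈ φ.S, algebraMap B R a ∈ ω.S ∧ ω.v (algebraMap B R a) = φ.v a)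
    {u : σ → R} (hu : ∀ i, u i ∈ ω.S) {p : MvPolynomial σ B} (hp : φ.On p) :
    aeval u p ∈ ω.S ∧ ω.v (aeval u p) = eval (fun i => ω.v (u i)) (φ.sp p) := by
  have h1 : ∀ μ : σ →₀ ℕ, ∏ i ∈ μ.support, u i ^ μ i ∈ ω.S := fun μ =>
    prod_mem fun i _ => pow_mem (hu i) _
  rw [aeval_def, eval₂_eq, PH.v_sum fun μ _ => mul_mem (h _ (hp μ)).1 (h1 μ), PH.sp, map_sum]
  refine ⟨sum_mem fun μ _ => mul_mem (h _ (hp μ)).1 (h1 μ), Finset.sum_congr rfl fun μ _ => ?_⟩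
  rw [ω.v_mul (h _ (hp μ)).1 (h1 μ), (h _ (hp μ)).2, PH.v_prod fun i _ => pow_mem (hu i) _,
    eval_monomial, Finsupp.prod]
  simp only [PH.v_pow (hu _)]

theorem ck_C {R σ : Type} [CommRing R] [Algebra ℂ R] (ψ : PH R) (w : σ → ℂ) (a : R) :
    (ψ.poly w).v (C a) = ψ.v a := by rw [PH.poly_v, PH.sp_C, eval_C]

theorem ck_X {R σ : Type} [CommRing R] [Algebra ℂ R] (ψ : PH R) (w : σ → ℂ) (i : σ) :
    (ψ.poly w).v (X i) = w i := by rw [PH.poly_v, PH.sp_X, eval_X]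

omit [Fintype J] in
theorem ck_lin {ω : PH (EE J N F)} (h0 : X none ∈ ω.S) (h1 : ∀ a, X (some a) ∈ ω.S)
    (h2 : ∀ i, C (x i) ∈ ω.S) (j : J) : X none * ∑ i, X (some (j, i)) * C (x i) ∈ ω.S ∧
      ω.v (X none * ∑ i, X (some (j, i)) * C (x i)) =
        ω.v (X none) * ∑ i, ω.v (X (some (j, i))) * ω.v (C (x i)) := by
  have h3 := fun i (_ : i ∈ Finset.univ) => mul_mem (h1 (j, i)) (h2 i)
  refine ⟨mul_mem h0 (sum_mem h3), ?_⟩
  rw [ω.v_mul h0 (sum_mem h3), PH.v_sum h3]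
  simp only [ω.v_mul (h1 _) (h2 _)]

omit [Algebra ℂ K] [IsScalarTower ℂ K F] [Fintype J] in
theorem ck_zt {ω : PH (EE J N F)} {Cw : MvPolynomial (J × Fin (N + 1)) K} {f : F}
    (h0 : X none ∈ ω.S) (h1 : Th K J x (rename Sum.inl Cw) ∈ ω.S) (h2 : C f ∈ ω.S) (n : ℕ) :
    zt x Cw n d f ∈ ω.S ∧ ω.v (zt x Cw n d f) =
      ω.v (Th K J x (rename Sum.inl Cw)) ^ n * (ω.v (C f) * ω.v (X none) ^ d) := by
  have h3 := mul_mem h2 (pow_mem h0 d)
  refine ⟨mul_mem (pow_mem h1 n) h3, ?_⟩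
  rw [zt, ω.v_mul (pow_mem h1 n) h3, ω.v_mul h2 (pow_mem h0 d), PH.v_pow h1, PH.v_pow h0]

theorem ck_ren {R σ τ : Type} [CommRing R] [Algebra ℂ R] {S : Subalgebra ℂ R} {f : σ → τ}
    (hf : Function.Injective f) {p : MvPolynomial σ R} (h : ∀ μ, coeff μ p ∈ S) (μ : τ →₀ ℕ) :
    coeff μ (rename f p) ∈ S := by
  by_cases e : ∃ ν, Finsupp.mapDomain f ν = μ
  · obtain ⟨ν, rfl⟩ := e
    rw [coeff_rename_mapDomain f hf]
    exact h ν
  · rw [coeff_rename_eq_zero f p μ fun ν e' => (e ⟨ν, e'⟩).elim]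
    exact zero_mem _

theorem ck_map {R B : Type} [CommRing R] [Algebra ℂ R] [CommRing B] [Algebra ℂ B] (f : B →ₐ[ℂ] R)
    {s : Set B} {t : Set R} (h : f '' s ⊆ t) {a : B} (ha : a ∈ Algebra.adjoin ℂ s) :
    f a ∈ Algebra.adjoin ℂ t :=
  Algebra.adjoin_mono h (f.map_adjoin s ▸ Subalgebra.mem_map.2 ⟨a, ha, rfl⟩)

theorem ck_mem {R σ : Type} [CommRing R] [Algebra ℂ R] {T : Set R} {p : MvPolynomial σ R} :
    p ∈ Algebra.adjoin ℂ (C '' T ∪ range X) ↔ ∀ μ, coeff μ p ∈ Algebra.adjoin ℂ T := by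
  classical
  have hC : ∀ a ∈ Algebra.adjoin ℂ T, ∀ μ : σ →₀ ℕ, coeff μ (C a) ∈ Algebra.adjoin ℂ T :=
    fun a ha μ => by
      rw [coeff_C]
      split_ifs
      exacts [ha, zero_mem _]
  refine ⟨fun h => ?_, fun h => ?_⟩
  · induction h using Algebra.adjoin_induction with
    | mem a ha =>
      rcases ha with ⟨a, ha, rfl⟩ | ⟨i, rfl⟩
      · exact hC a (Algebra.subset_adjoin ha)
      · intro μ
        rw [coeff_X]
        split_ifs
        exacts [one_mem _, zero_mem _]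
    | algebraMap c => exact hC _ (Subalgebra.algebraMap_mem _ c)
    | add a b _ _ ha hb => exact fun μ => coeff_add μ a b ▸ add_mem (ha μ) (hb μ)
    | mul a b _ _ ha hb => exact fun μ => coeff_mul a b μ ▸ sum_mem fun _ _ => mul_mem (ha _) (hb _)
  · rw [p.as_sum]
    refine sum_mem fun μ _ => ?_
    rw [monomial_eq]
    exact mul_mem (ck_map (IsScalarTower.toAlgHom ℂ R (MvPolynomial σ R)) subset_union_left (h μ))
      (prod_mem fun i _ => pow_mem (Algebra.subset_adjoin (mem_union_right _ (mem_range_self i))) _)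

theorem th_v {χ : PH F} (hx : ∀ i, x i ∈ χ.S) (u : J × Fin (N + 1) → ℂ) (t : ℂ)
    {p : MvPolynomial (Vv J N) K} (hp : (χ.res K).On p) :
    Th K J x p ∈ (χ.poly fun o => o.elim t u).S ∧ (χ.poly fun o => o.elim t u).v (Th K J x p) =
      eval (vv u t fun i => χ.v (x i)) ((χ.res K).sp p) := by
  have h1 := ck_lin (x := x) (ω := χ.poly fun o => o.elim t u) (χ.on_X _) (fun _ => χ.on_X _)
    fun i => χ.on_C (hx i)
  obtain ⟨h2, h3⟩ := ck_aeval (ω := χ.poly fun o : Option (J × Fin (N + 1)) => o.elim t u)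
    (φ := χ.res K) (fun a ha => ⟨χ.on_C ha, ck_C χ _ _⟩) (u := Sum.elim (fun a => X (some a))
      fun j => X none * ∑ i, X (some (j, i)) * C (x i))
    (Sum.rec (fun _ => χ.on_X _) fun j => (h1 j).1) hp
  refine ⟨h2, h3.trans (congrArg (eval · _) (funext (Sum.rec (fun a => ck_X χ _ _) fun j => ?_)))⟩
  refine (h1 j).2.trans ?_
  simp only [ck_X, ck_C]
  rfl

theorem sp_rename {R σ τ : Type} [CommRing R] [Algebra ℂ R] (ψ : PH R) {f : σ → τ}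
    (hf : Function.Injective f) (p : MvPolynomial σ R) :
    (ψ.On (rename f p) ↔ ψ.On p) ∧ ψ.sp (rename f p) = rename f (ψ.sp p) := by
  refine ⟨⟨fun h μ => coeff_rename_mapDomain f hf p μ ▸ h _, ck_ren hf⟩, MvPolynomial.ext _ _
    fun μ => ?_⟩
  by_cases e : ∃ ν, Finsupp.mapDomain f ν = μ
  · obtain ⟨ν, rfl⟩ := e
    rw [PH.coeff_sp, coeff_rename_mapDomain f hf, coeff_rename_mapDomain f hf, PH.coeff_sp]
  · rw [PH.coeff_sp, coeff_rename_eq_zero f p μ fun ν e' => (e ⟨ν, e'⟩).elim,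
      coeff_rename_eq_zero f _ μ fun ν e' => (e ⟨ν, e'⟩).elim, ψ.v_zero]

theorem sp_t {χ : PH F} (hx : ∀ i, x i ∈ χ.S) (u : J × Fin (N + 1) → ℂ) (t : ℂ)
    {H : Polynomial (MvPolynomial (Vv J N) K)} (hH : ∀ i, (χ.res K).On (H.coeff i))
    (h0 : H.eval₂ (Th K J x).toRingHom (X none) = 0) :
    (((χ.res K).poly (vv u t fun i => χ.v (x i))).up H).IsRoot t := by
  have h := PH.up_root (φ := (χ.res K).poly (vv u t fun i => χ.v (x i))) (χ.on_X none)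
    (fun i => th_v hx u t (hH i)) h0
  rwa [ck_X] at h

theorem sp_c {χ : PH F} (hx : ∀ i, x i ∈ χ.S) (u : J × Fin (N + 1) → ℂ) (t : ℂ)
    {H : Polynomial (MvPolynomial (Vv J N) K)} (hH : ∀ i, (χ.res K).On (H.coeff i)) {f : F}
    (hf : f ∈ χ.S) (h0 : H.eval₂ (Th K J x).toRingHom (C f) = 0) :
    (((χ.res K).poly (vv u t fun i => χ.v (x i))).up H).IsRoot (χ.v f) := by
  have h := PH.up_root (φ := (χ.res K).poly (vv u t fun i => χ.v (x i))) (χ.on_C hf)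
    (fun i => th_v hx u t (hH i)) h0
  rwa [ck_C] at h

theorem GP.sp_zt (g : GP K J x d z) {χ : PH F} (hx : ∀ i, x i ∈ χ.S) (hg : g.At χ)
    (u : J × Fin (N + 1) → ℂ) (t : ℂ) (k : κ) :
    (((χ.res K).poly (vv u t fun i => χ.v (x i))).up (g.G k)).IsRoot
      (eval u ((χ.res K).sp g.Cw) ^ g.n * (χ.v (z k) * t ^ d)) := by
  obtain ⟨h1, h2⟩ := sp_rename (χ.res K) (Sum.inl_injective (β := J)) g.Cw
  obtain ⟨h3, h4⟩ := th_v hx u t (h1.2 hg.1)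
  obtain ⟨h5, h6⟩ := ck_zt (d := d) (ω := χ.poly fun o => o.elim t u) (χ.on_X none) h3
    (χ.on_C (hg.2.2 k)) g.n
  have h := PH.up_root (φ := (χ.res K).poly (vv u t fun i => χ.v (x i))) h5
    (fun i => th_v hx u t (hg.2.1 k i)) (g.root k)
  rwa [h6, h4, h2, eval_rename, ck_C, ck_X] at h

theorem GP.sp_chow (g : GP K J x d z) {χ : PH F} (hx : ∀ i, x i ∈ χ.S)
    (hg : (χ.res K).On g.Cw) (u : J × Fin (N + 1) → ℂ)
    (hu : ∀ j, ∑ i, u (j, i) * χ.v (x i) = 0) : eval u ((χ.res K).sp g.Cw) = 0 := by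
  have h1 := fun j i (_ : i ∈ Finset.univ) => mul_mem (χ.S.algebraMap_mem (u (j, i))) (hx i)
  have h2 : ∀ a : J × Fin (N + 1),
      (if a.2 = 0 then ∑ i, algebraMap ℂ F (u (a.1, i)) * x i else 0) ∈ χ.S ∧
        χ.v (if a.2 = 0 then ∑ i, algebraMap ℂ F (u (a.1, i)) * x i else 0) = 0 := fun a => by
    split_ifs
    · refine ⟨sum_mem (h1 _), ?_⟩
      rw [PH.v_sum (h1 _), ← hu a.1]
      simp only [χ.v_mul (χ.S.algebraMap_mem _) (hx _), χ.v_c]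
    · exact ⟨zero_mem _, χ.v_zero⟩
  have h3 := (ck_aeval (ω := χ) (φ := χ.res K) (fun a ha => ⟨ha, rfl⟩)
    (fun a => sub_mem (χ.S.algebraMap_mem (u a)) (h2 a).1) hg).2
  rw [g.chow F _ fun j => by simp [sub_mul, g.x0], χ.v_zero] at h3
  simpa only [PH.v_sub (χ.S.algebraMap_mem _) (h2 _).1, (h2 _).2, χ.v_c, sub_zero] using h3.symm

theorem GP.ra (g : GP K J x d z) (k : κ) (T : Finset K)
    (hG : ∀ i μ, coeff μ ((g.G k).coeff i) ∈ Algebra.adjoin ℂ (T : Set K))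
    (hC : ∀ μ, coeff μ g.Cw ∈ Algebra.adjoin ℂ (T : Set K)) {q : MvPolynomial (Fin (N + 1)) ℂ}
    (hq : aeval x q ≠ 0) :
    ∃ D : MvPolynomial (Vv J N) K, D ≠ 0 ∧ (∀ μ, coeff μ D ∈ Algebra.adjoin ℂ (T : Set K)) ∧
      ∀ ψ : PH K, (∀ a ∈ T, a ∈ ψ.S) → ∀ v, eval v (ψ.sp D) ≠ 0 →
      ∀ Z, ((ψ.poly v).up (g.G k)).IsRoot Z → ∃ (χ : PH F) (t : ℂ), (∀ i, x i ∈ χ.S) ∧
        z k ∈ χ.S ∧ χ.v (aeval x q) ≠ 0 ∧
        (∀ a ∈ T, a ∈ (χ.res K).S ∧ (χ.res K).v a = ψ.v a) ∧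
        v = vv (v ∘ Sum.inl) t (fun i => χ.v (x i)) ∧
        Z = eval (v ∘ Sum.inl) (ψ.sp g.Cw) ^ g.n * (χ.v (z k) * t ^ d) := by
  let Θ := (Th K J x).restrictScalars ℂ
  let s₁ : Set (MvPolynomial (Vv J N) K) := C '' (T : Set K) ∪ range X
  have hΘ : ∀ p ∈ Algebra.adjoin ℂ s₁, Θ p ∈ Algebra.adjoin ℂ (Θ '' s₁) := fun p =>
    ck_map Θ subset_rfl
  have hζ : IsAlgebraic (Algebra.adjoin ℂ (Θ '' s₁)) (zt x g.Cw g.n d (z k)) := by
    obtain ⟨Q, h1, -, h2⟩ := Polynomial.lifts_and_degree_eq_and_monic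
      (f := algebraMap (Algebra.adjoin ℂ (Θ '' s₁)) (EE J N F))
      ((Polynomial.lifts_iff_coeff_lifts _).2 fun i =>
        ⟨⟨_, hΘ _ (ck_mem.2 (hG i))⟩, (Polynomial.coeff_map (Th K J x).toRingHom i).symm⟩)
      ((g.monic k).map (Th K J x).toRingHom)
    refine IsIntegral.isAlgebraic ⟨Q, h2, ?_⟩
    rw [Polynomial.eval₂_eq_eval_map, h1, Polynomial.eval_map, g.root k]
  obtain ⟨D₀, h1, h2, H⟩ := chev2 (s := range (fun i => C (x i)) ∪ {X none, C (z k)})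
    (((T.finite_toSet.image C).union (finite_range X)).image Θ) (toFinite _) hζ
    (ck_map (IsScalarTower.toAlgHom ℂ F (EE J N F)) (s := range x)
      (by rintro _ ⟨_, ⟨i, rfl⟩, rfl⟩; exact Or.inr (Or.inl ⟨i, rfl⟩))
      (Algebra.adjoin_range_eq_range_aeval ℂ x ▸ ⟨q, rfl⟩)) (C_ne_zero.2 hq)
  rw [← Θ.map_adjoin] at h1
  obtain ⟨D, hD, rfl⟩ := h1
  refine ⟨D, fun e => h2 (by rw [e, map_zero]), ck_mem.1 hD, fun ψ hT v hv Z hZ => ?_⟩
  have h3 : ∀ p ∈ Algebra.adjoin ℂ s₁, p ∈ (ψ.poly v).S := fun p hp μ =>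
    Algebra.adjoin_le (S := ψ.S) hT (ck_mem.1 hp μ)
  obtain ⟨χ₁, a1, a2, a3⟩ := PH.root Θ (g.monic k) (g.dvd k) (ψ.poly v)
    (fun i => h3 _ (ck_mem.2 (hG i))) hZ
  have h4 : ∀ a ∈ Θ '' s₁, a ∈ χ₁.S := by
    rintro _ ⟨p, hp, rfl⟩
    exact (a3 p (h3 p (Algebra.subset_adjoin hp))).1
  obtain ⟨ω, b1, b2, b3⟩ := H χ₁ (forall_mem_insert.2 ⟨a1, h4⟩) ((a3 D (h3 D hD)).2.trans_ne hv)
  have key : ∀ p ∈ Algebra.adjoin ℂ s₁, Th K J x p ∈ ω.S ∧ ω.v (Th K J x p) = (ψ.poly v).v p :=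
    fun p hp =>
      have h5 := (PH.v_adjoin (fun a ha => ⟨h4 a ha, b2 a (Or.inr ha)⟩) (hΘ p hp)).2
      ⟨h5.1, h5.2.trans (a3 p (h3 p hp)).2⟩
  have kX := fun a => key (X a) (Algebra.subset_adjoin (Or.inr ⟨a, rfl⟩))
  simp only [Th, aeval_X, ck_X] at kX
  have c0 : X none ∈ ω.S := b1 _ (Or.inr (Or.inl rfl))
  have c1 : ∀ i, C (x i) ∈ ω.S := fun i => b1 _ (Or.inl ⟨i, rfl⟩)
  have c2 : C (z k) ∈ ω.S := b1 _ (Or.inr (Or.inr rfl))
  refine ⟨ω.res F, ω.v (X none), c1, c2, b3, fun a ha => ?_, ?_, ?_⟩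
  · have h5 := key (C a) (Algebra.subset_adjoin (Or.inl ⟨a, ha, rfl⟩))
    rwa [Th, aeval_C, ck_C] at h5
  · refine funext (Sum.rec (fun _ => rfl) fun j => ?_)
    refine (kX (Sum.inr j)).2.symm.trans ((ck_lin c0 (fun a => (kX (Sum.inl a)).1) c1 j).2.trans ?_)
    exact congrArg _ (Finset.sum_congr rfl fun i _ => congrArg (· * _) (kX (Sum.inl (j, i))).2)
  · obtain ⟨h5, h6⟩ := key _ (ck_mem.2 (ck_ren (Sum.inl_injective (β := J)) hC))
    rw [← a2, ← (b2 _ (Or.inl rfl)).2, (ck_zt c0 h5 c2 _).2, h6, PH.poly_v,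
      (sp_rename ψ Sum.inl_injective _).2, eval_rename]
    rfl

end Vale.Agent.P299.PC
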