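import Vale.Agent.P299.CK

/-! P299, part C: points of the function field.
`exists_ff`: `F = FractionRing (MvPolynomial _ ℂ ⧸ I)`, `I` the kernel of `aeval A.x : MvPolynomial _ ℂ →ₐ (Y → ℂ)`, prime by
`mul_ne` (`ev_mem`) and nonemptiness of `Y`. `exists_pt`: `hA.pts` with `PH.v_aeval`; for `f ∈ (pt ς).S` write
`f * q = p`, `q ς ≠ 0`, and apply `χ.v`. `gen_pt`: product of numerators and denominators. `cpt2`: closed subset of
`hA.cpt (δ ^ 2 / max B 1 ^ l0)`; continuity from `Hol.sm` and `Sm.continuous`. `ra2`: `GP.ra` with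
`q = p0 * D`, `D` from `gen_pt` for the image of `T` and `z k`; then `exists_pt`. -/

open Set Filter Topology MvPolynomial

noncomputable section

namespace Vale.Agent.P299.PC

variable {n N : ℕ} {Y : Type} [TopologicalSpace Y] [T2Space Y] [SecondCountableTopology Y]
  [MeasurableSpace Y] [BorelSpace Y] {A : AD n N Y}
  {F : Type} [Field F] [Algebra ℂ F] {x : Fin (N + 1) → F}

theorem ev_mul (p q : MvPolynomial (Fin (N + 1)) ℂ) : A.ev (p * q) = A.ev p * A.ev q :=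
  funext fun _ => map_mul _ _ _

theorem ev_hol (hA : A.Good) (p : MvPolynomial (Fin (N + 1)) ℂ) : A.D.Hol (A.ev p) :=
  (hA.ev_mem le_rfl).1

theorem ev_cont (hA : A.Good) (p : MvPolynomial (Fin (N + 1)) ℂ) : Continuous (A.ev p) :=
  (ev_hol hA p).sm.continuous

theorem cl_aeval (p : MvPolynomial (Fin (N + 1)) ℂ) : aeval A.x p = A.ev p := by
  induction p using MvPolynomial.induction_on with
  | C c => exact funext fun y => by simp [AD.ev]
  | add p q hp hq => exact funext fun y => by simp [AD.ev, hp, hq]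
  | mul_X p i hp => exact funext fun y => by simp [AD.ev, hp]

theorem exists_ff (hA : A.Good) :
    ∃ (F : Type) (_ : Field F) (_ : Algebra ℂ F) (x : Fin (N + 1) → F), FF A x := by
  set I : Ideal (MvPolynomial (Fin (N + 1)) ℂ) := RingHom.ker (aeval A.x : _ →ₐ[ℂ] (Y → ℂ)) with hI
  have hm : ∀ p, p ∈ I ↔ A.ev p = 0 := fun p => by rw [hI, RingHom.mem_ker, cl_aeval]
  obtain ⟨y₀, -⟩ := hA.conn.nonempty
  have : I.IsPrime := ⟨fun h => by
      have h1 := congrFun ((hm 1).1 (h ▸ Submodule.mem_top)) y₀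
      simp [AD.ev] at h1, fun {p q} h => by
      by_contra hn
      rw [not_or, hm, hm] at hn
      exact hA.mul_ne (ev_hol hA p) (ev_hol hA q) hn.1 hn.2 (by rw [← ev_mul, ← hm]; exact h)⟩
  let R := MvPolynomial (Fin (N + 1)) ℂ ⧸ I
  let θ : MvPolynomial (Fin (N + 1)) ℂ →ₐ[ℂ] FractionRing R :=
    (IsScalarTower.toAlgHom ℂ R (FractionRing R)).comp (Ideal.Quotient.mkₐ ℂ I)
  have e : ∀ p, aeval (fun i => θ (X i)) p = algebraMap R (FractionRing R) (Ideal.Quotient.mk I p) :=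
    fun p => (DFunLike.congr_fun (aeval_unique θ) p).symm
  have k : ∀ p, aeval (fun i => θ (X i)) p = 0 ↔ A.ev p = 0 := fun p => by
    rw [e, ← hm, ← Ideal.Quotient.eq_zero_iff_mem]
    exact map_eq_zero_iff _ (IsFractionRing.injective R (FractionRing R))
  refine ⟨FractionRing R, inferInstance, inferInstance, fun i => θ (X i), ⟨?_, fun f => ?_⟩, k⟩
  · have := (k (X 0 - 1)).2 (funext fun y => by simp [AD.ev, hA.x0])
    rw [map_sub, aeval_X, map_one] at this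
    exact sub_eq_zero.1 this
  · obtain ⟨a, b, hb, rfl⟩ := IsFractionRing.div_surjective R f
    obtain ⟨p, rfl⟩ := Ideal.Quotient.mk_surjective a
    obtain ⟨q, rfl⟩ := Ideal.Quotient.mk_surjective b
    have h0 := IsFractionRing.to_map_ne_zero_of_mem_nonZeroDivisors (K := FractionRing R) hb
    exact ⟨p, q, by rw [e]; exact h0, by rw [e, e]; exact div_mul_cancel₀ _ h0⟩

theorem FF.exists_pt (hF : FF A x) (hA : A.Good) {χ : PH F} (hx : ∀ i, x i ∈ χ.S)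
    (h0 : χ.v (aeval x A.p0) ≠ 0) : ∃ ς, (∀ i, A.x i ς = χ.v (x i)) ∧
      ∀ f ∈ χ.S, f ∈ (hF.pt ς).S → (hF.pt ς).v f = χ.v f := by
  obtain ⟨ς, hς⟩ := hA.pts (fun i => χ.v (x i)) (fun p hp => by
    rw [← (PH.v_aeval hx p).2, (hF.ker p).2 hp, χ.v_zero]) (by rwa [← (PH.v_aeval hx _).2])
  have e : ∀ p, A.ev p ς = χ.v (aeval x p) := fun p => by
    rw [(PH.v_aeval hx p).2, AD.ev, funext hς]
  refine ⟨ς, hς, fun f hf ⟨p, q, hq, h⟩ => ?_⟩
  rw [hF.pt_v hq h, div_eq_iff hq, e, e, ← h, χ.v_mul hf (PH.v_aeval hx q).1]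

theorem FF.gen_pt (hF : FF A x) (T : Finset F) : ∃ D, A.ev D ≠ 0 ∧
    (∀ f ∈ T, Reg x D f) ∧ ∀ y, A.ev D y ≠ 0 → ∀ f ∈ T, f ≠ 0 → (hF.pt y).v f ≠ 0 := by
  classical
  choose p q hq h using hF.gen.2
  refine ⟨∏ f ∈ T, q f * if f = 0 then 1 else p f, fun h0 => ?_, fun f hf => ?_,
    fun y hy f hf h0 => ?_⟩
  · have h1 := (hF.ker _).2 h0
    rw [map_prod, Finset.prod_eq_zero_iff] at h1
    obtain ⟨f, -, h1⟩ := h1
    rw [map_mul] at h1
    refine mul_ne_zero (hq f) ?_ h1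
    split_ifs with h2
    · simp
    · rw [← h f]
      exact mul_ne_zero h2 (hq f)
  · obtain ⟨E, hE⟩ := (Dvd.intro _ rfl).trans
      (Finset.dvd_prod_of_mem (fun f => q f * if f = 0 then 1 else p f) hf)
    exact ⟨1, p f * E, by rw [hE, pow_one, map_mul, map_mul, ← mul_assoc, h f]⟩
  · obtain ⟨E, hE⟩ := Finset.dvd_prod_of_mem (fun f => q f * if f = 0 then 1 else p f) hf
    rw [hE, if_neg h0, ev_mul, ev_mul, Pi.mul_apply, Pi.mul_apply] at hy
    have h1 := left_ne_zero_of_mul hy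
    rw [hF.pt_v (left_ne_zero_of_mul h1) (h f)]
    exact div_ne_zero (right_ne_zero_of_mul h1) (left_ne_zero_of_mul h1)

theorem cl_pow (P : MvPolynomial (Fin (N + 1)) ℂ) (j : ℕ) (y : Y) :
    A.ev (P ^ j) y = A.ev P y ^ j := map_pow _ _ _

theorem FF.reg_mem (hF : FF A x) {P : MvPolynomial (Fin (N + 1)) ℂ} {f : F} (h : Reg x P f)
    {y : Y} (hy : A.ev P y ≠ 0) : f ∈ (hF.pt y).S := by
  obtain ⟨j, p, h⟩ := h
  exact ⟨p, P ^ j, by rw [cl_pow]; exact pow_ne_zero _ hy, by rwa [map_pow]⟩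

theorem FF.reg_cont (hF : FF A x) (hA : A.Good) {P : MvPolynomial (Fin (N + 1)) ℂ} {f : F}
    (h : Reg x P f) {y : Y} (hy : A.ev P y ≠ 0) : ContinuousAt (fun y => (hF.pt y).v f) y := by
  obtain ⟨j, p, h⟩ := h
  have h1 : A.ev (P ^ j) y ≠ 0 := by
    rw [cl_pow]
    exact pow_ne_zero _ hy
  refine ((ev_cont hA p).continuousAt.div (ev_cont hA (P ^ j)).continuousAt h1).congr ?_
  filter_upwards [(ev_cont hA (P ^ j)).continuousAt.eventually_ne h1] with y' hy'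
  exact (hF.pt_v hy' (by rwa [map_pow])).symm

theorem Reg.mono {P P' : MvPolynomial (Fin (N + 1)) ℂ} {f : F} (h : Reg x P f) (hP : P ∣ P') :
    Reg x P' f := by
  obtain ⟨j, p, h⟩ := h
  obtain ⟨E, rfl⟩ := hP
  exact ⟨j, p * E ^ j, by rw [map_mul, map_mul, map_pow, mul_pow, ← mul_assoc, h]⟩

/-- The regular elements form a subalgebra. -/
theorem reg_alg (x : Fin (N + 1) → F) (P : MvPolynomial (Fin (N + 1)) ℂ) :
    ∃ S : Subalgebra ℂ F, ∀ f, f ∈ S ↔ Reg x P f :=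
  ⟨{ carrier := {f | Reg x P f}
     add_mem' := by
       rintro a b ⟨j, p, h⟩ ⟨j', p', h'⟩
       exact ⟨j + j', p * P ^ j' + p' * P ^ j, by
         rw [map_add, map_mul, map_mul, map_pow, map_pow, ← h, ← h']; ring⟩
     mul_mem' := by
       rintro a b ⟨j, p, h⟩ ⟨j', p', h'⟩
       exact ⟨j + j', p * p', by rw [map_mul, ← h, ← h']; ring⟩
     algebraMap_mem' := fun c => ⟨0, C c, by simp⟩ }, fun _ => Iff.rfl⟩

theorem cpt2 (hA : A.Good) (P : MvPolynomial (Fin (N + 1)) ℂ) (B : ℝ) {δ : ℝ} (hδ : 0 < δ) :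
    IsCompact {y | A.nx y ≤ B ∧ δ ≤ ‖A.ev A.p0 y‖ ∧ δ ≤ ‖A.ev P y‖} := by
  have hB : 0 < max B 1 ^ A.l0 := pow_pos (one_pos.trans_le (le_max_right _ _)) _
  have hc : Continuous A.nx := continuous_finsetSum _ fun i _ =>
    (hA.hx i).sm.continuous.norm.pow 2
  refine (hA.cpt (δ ^ 2 / max B 1 ^ A.l0) (by positivity)).of_isClosed_subset
    ((isClosed_le hc continuous_const).inter
      ((isClosed_le continuous_const (ev_cont hA _).norm).inter
        (isClosed_le continuous_const (ev_cont hA _).norm))) fun y hy => ?_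
  have h1 : A.nx y ^ A.l0 ≤ max B 1 ^ A.l0 :=
    pow_le_pow_left₀ (zero_le_one.trans (hA.one_le_nx y)) (hy.1.trans (le_max_left _ _)) _
  refine le_trans (mul_le_mul_of_nonneg_left h1 (by positivity)) ?_
  rw [div_mul_cancel₀ _ hB.ne']
  exact pow_le_pow_left₀ hδ.le hy.2.1 2

theorem GP.ra2 {K : Type} [Field K] [Algebra ℂ K] [Algebra K F] [IsScalarTower ℂ K F] {J : Type}
    [Fintype J] {d : ℕ} {κ : Type} {z : κ → F} (g : GP K J x d z) (hF : FF A x) (hA : A.Good)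
    (k : κ) (T : Finset K)
    (hG : ∀ i μ, coeff μ ((g.G k).coeff i) ∈ Algebra.adjoin ℂ (T : Set K))
    (hC : ∀ μ, coeff μ g.Cw ∈ Algebra.adjoin ℂ (T : Set K)) :
    ∃ D : MvPolynomial (Vv J N) K, D ≠ 0 ∧ (∀ μ, coeff μ D ∈ Algebra.adjoin ℂ (T : Set K)) ∧
      ∀ ψ : PH K, (∀ a ∈ T, a ∈ ψ.S) → ∀ v, eval v (ψ.sp D) ≠ 0 →
      ∀ Z, ((ψ.poly v).up (g.G k)).IsRoot Z → ∃ (ς : Y) (t : ℂ), z k ∈ (hF.pt ς).S ∧
        (∀ a ∈ T, a ∈ ((hF.pt ς).res K).S ∧ ((hF.pt ς).res K).v a = ψ.v a) ∧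
        v = vv (v ∘ Sum.inl) t (fun i => A.x i ς) ∧
        Z = eval (v ∘ Sum.inl) (ψ.sp g.Cw) ^ g.n * ((hF.pt ς).v (z k) * t ^ d) := by
  classical
  obtain ⟨D, hD, hR, -⟩ := hF.gen_pt (insert (z k) (T.image (algebraMap K F)))
  obtain ⟨y₀, -⟩ := hA.conn.nonempty
  have h0 : aeval x (A.p0 * D) ≠ 0 := by
    rw [map_mul]
    exact mul_ne_zero (fun h => hA.ne0 y₀ (congrFun ((hF.ker _).1 h) y₀))
      fun h => hD ((hF.ker _).1 h)
  obtain ⟨D', h1, h2, h3⟩ := g.ra k T hG hC h0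
  refine ⟨D', h1, h2, fun ψ hψ v hv Z hZ => ?_⟩
  obtain ⟨χ, t, hx, hz, hq, hT, e1, e2⟩ := h3 ψ hψ v hv Z hZ
  rw [map_mul, χ.v_mul (PH.v_aeval hx _).1 (PH.v_aeval hx _).1] at hq
  obtain ⟨ς, hς, hv'⟩ := hF.exists_pt hA hx (left_ne_zero_of_mul hq)
  have hD' : A.ev D ς ≠ 0 := by
    rw [AD.ev, funext hς, ← (PH.v_aeval hx D).2]
    exact right_ne_zero_of_mul hq
  have m1 := hF.reg_mem (hR _ (Finset.mem_insert_self _ _)) hD'
  refine ⟨ς, t, m1, fun a ha => ?_, by rw [funext hς]; exact e1, by rw [hv' _ hz m1]; exact e2⟩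
  have m2 := hF.reg_mem (hR _ (Finset.mem_insert_of_mem (Finset.mem_image_of_mem _ ha))) hD'
  exact ⟨m2, (hv' _ (hT a ha).1 m2).trans (hT a ha).2⟩

end Vale.Agent.P299.PC
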