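import Vale.Agent.P299.CL
import Vale.Agent.P299.CD

/-! P299, part C: the upper bound and the pointwise lower bound.
`up`: fix `y`, `t = 1 / √(nx y)`, `cw = sp Cw`; `pn` (with `p = q = cw`, `h = 1`) gives `‖u‖ ≤ 1` with `c * cn cw ≤ ‖cw u‖`;
`v = vv u t (x y)` has norm at most `N + 1`. `sp_zt`, `up_monic`, `root_le`, `coeff_up`, `poly_v`, `eval_le` give `i < e` with
`‖Z‖ ^ (e - i) ≤ e L cn (sp (G.coeff i))`; raise to the power `2 M / (e - i)`, use `cn_eq` with `support_sp` and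
`pow_sum_le_card_mul_sum_pow`, `PH.v_pow`; and `‖Z‖ ^ 2 = ‖cw u‖ ^ (2 n) * (‖z‖ ^ 2 / nx ^ d)`, `norm_coeff_le`. All
constants come from finitely many `k, i`.
`lo1`: `chow_bd` for `p = t • x ς` (`sp_chow` at `ς` when `t ≠ 0`; trivial bound when `t = 0`), so `‖t‖ ^ 2 * nx ≤ (N + 1) B ^ 2`;
`‖cw u‖ ≤ L * cn cw` (`eval_le`) and `cn cw ^ (2 n M) ≤ C * sq afam` (`cn_eq`, power mean; the support is nonempty). -/

open Set Filter Topology MvPolynomial

noncomputable section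

namespace Vale.Agent.P299.PC

variable {n N : ℕ} {Y : Type} [TopologicalSpace Y] [T2Space Y] [SecondCountableTopology Y]
  [MeasurableSpace Y] [BorelSpace Y] {A : AD n N Y}
  {K F : Type} [Field K] [Field F] [Algebra ℂ K] [Algebra ℂ F] [Algebra K F] [IsScalarTower ℂ K F]
  {J : Type} [Fintype J] {x : Fin (N + 1) → F} {d : ℕ} {κ : Type} [Fintype κ] {z : κ → F}

theorem cm_pow {ι : Type} {s : Finset ι} {f : ι → ℝ} (hf : ∀ i ∈ s, 0 ≤ f i) {m : ℕ}
    (h : 0 < m ∨ s.Nonempty) : (∑ i ∈ s, f i) ^ m ≤ (s.card + 1) ^ m * ∑ i ∈ s, f i ^ m := by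
  cases m with
  | zero => simpa using h
  | succ m =>
    refine (pow_sum_le_card_mul_sum_pow hf m).trans (mul_le_mul_of_nonneg_right ?_
      (Finset.sum_nonneg fun i hi => pow_nonneg (hf i hi) _))
    have h0 : (0 : ℝ) ≤ s.card := Nat.cast_nonneg _
    exact (pow_le_pow_left₀ h0 (le_add_of_nonneg_right zero_le_one) m).trans
      (pow_le_pow_right₀ (le_add_of_nonneg_left h0) (Nat.le_succ m))

theorem cm_sq {σ : Type} {ψ : PH K} {p : MvPolynomial σ K} (hp : ψ.On p) (m : ℕ) :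
    ∑ α : p.support, ‖ψ.v (coeff α.1 p ^ m)‖ ^ 2 =
      ∑ μ ∈ p.support, ‖coeff μ (ψ.sp p)‖ ^ (2 * m) := by
  rw [← Finset.sum_coe_sort p.support]
  refine Finset.sum_congr rfl fun α _ => ?_
  rw [PH.v_pow (hp _), PH.coeff_sp, norm_pow, ← pow_mul, mul_comm]

theorem cm_cn {σ : Type} {ψ : PH K} {p : MvPolynomial σ K} (hp : ψ.On p) {m : ℕ}
    (h : 0 < m ∨ p.support.Nonempty) : cn (ψ.sp p) ^ (2 * m) ≤
      (p.support.card + 1) ^ (2 * m) * ∑ α : p.support, ‖ψ.v (coeff α.1 p ^ m)‖ ^ 2 := by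
  rw [cm_sq hp, cn_eq (ψ.support_sp p)]
  exact cm_pow (fun _ _ => norm_nonneg _) (h.imp_left fun h => by omega)

theorem cm_nx (hA : A.Good) (y : Y) : 0 < A.nx y ∧ ∀ i, ‖A.x i y‖ ^ 2 ≤ A.nx y := by
  have h1 : ∀ i, ‖A.x i y‖ ^ 2 ≤ A.nx y := fun i =>
    Finset.single_le_sum (f := fun i => ‖A.x i y‖ ^ 2) (fun _ _ => sq_nonneg _) (Finset.mem_univ i)
  refine ⟨lt_of_lt_of_le ?_ (h1 0), h1⟩
  simp [hA.x0]

theorem cm_norm (a b t : ℂ) (k d M : ℕ) :
    ‖a ^ k * (b * t ^ d)‖ ^ (2 * M) = ‖a‖ ^ (2 * (k * M)) * (‖b‖ ^ 2 * (‖t‖ ^ 2) ^ d) ^ M := by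
  simp only [norm_mul, norm_pow]
  ring

theorem GP.up (g : GP K J x d z) (hF : FF A x) (hA : A.Good) {M : ℕ} (hM : g.Mul M) :
    ∃ C₀ : ℝ, ∀ y, g.At (hF.pt y) →
      hF.zn d z y ^ M * hF.sq (g.afam M) y ≤ C₀ * hF.sq (g.fam M) y := by
  obtain ⟨c, hc, h1⟩ := pn g.Cw.support
  choose L hL h2 using fun k i => eval_le ((g.G k).coeff i).support (N + 1 : ℝ)
  let C : κ → ℕ → ℝ := fun k i => ((g.G k).natDegree * L k i *
    (((g.G k).coeff i).support.card + 1)) ^ (2 * (M / ((g.G k).natDegree - i)))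
  have hC : ∀ k i, 0 ≤ C k i := fun k i => by
    have := hL k i
    positivity
  refine ⟨(Fintype.card κ + 1) ^ M * (g.Cw.support.card * c⁻¹ ^ (2 * (g.n * M))) *
    ∑ k, ∑ i ∈ Finset.range (g.G k).natDegree, C k i, fun y hy => ?_⟩
  set ψ := (hF.pt y).res K with hψ
  obtain ⟨u, u1, u2, -⟩ := h1 _ _ 1 (ψ.support_sp _) (ψ.support_sp _) one_ne_zero
  obtain ⟨n0, n1⟩ := cm_nx hA y
  obtain ⟨t, ht⟩ : ∃ t : ℂ, ‖t‖ ^ 2 = (A.nx y)⁻¹ := ⟨(√(A.nx y)⁻¹ : ℝ), by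
    rw [Complex.norm_real, Real.norm_eq_abs, sq_abs, Real.sq_sqrt (by positivity)]⟩
  have f0 : 0 ≤ hF.sq (g.fam M) y := Finset.sum_nonneg fun _ _ => sq_nonneg _
  have hv : ‖vv u t fun i => (hF.pt y).v (x i)‖ ≤ (N + 1 : ℝ) := by
    refine (pi_norm_le_iff_of_nonneg (by positivity)).2 fun a => ?_
    rcases a with a | j
    · exact ((norm_le_pi_norm u a).trans u1).trans (le_add_of_nonneg_left (Nat.cast_nonneg _))
    · change ‖t * ∑ i, _‖ ≤ _
      rw [Finset.mul_sum]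
      refine (norm_sum_le _ _).trans ((Finset.sum_le_card_nsmul _ _ 1 fun i _ => ?_).trans
        (by simp))
      have a1 : ‖t‖ * ‖A.x i y‖ ≤ 1 := by
        rw [← sq_le_one_iff₀ (by positivity), mul_pow, ht, inv_mul_le_iff₀ n0, mul_one]
        exact n1 i
      beta_reduce
      rw [(hF.pt_x y i).2, mul_left_comm, norm_mul, norm_mul]
      exact mul_le_one₀ ((norm_le_pi_norm u _).trans u1) (by positivity) a1
  have h3 : ∀ k, ‖eval u (ψ.sp g.Cw)‖ ^ (2 * (g.n * M)) *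
      (‖(hF.pt y).v (z k)‖ ^ 2 / A.nx y ^ d) ^ M ≤
      (∑ i ∈ Finset.range (g.G k).natDegree, C k i) * hF.sq (g.fam M) y := fun k => by
    obtain ⟨a1, a2⟩ := (ψ.poly (vv u t fun i => (hF.pt y).v (x i))).up_monic (g.monic k)
    obtain ⟨i, hi, a3⟩ := root_le a1 (g.sp_zt (fun i => (hF.pt_x y i).1) hy u t k)
    rw [a2] at hi a3
    rw [PH.coeff_up, PH.poly_v] at a3
    obtain ⟨m, hm⟩ := hM.2 k i hi
    have m0 : 0 < m := Nat.pos_of_ne_zero fun e => hM.1.ne' (by rw [hm, e, mul_zero])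
    have m1 : M / ((g.G k).natDegree - i) = m := by
      rw [hm, Nat.mul_div_cancel_left _ (by omega)]
    have a4 := a3.trans (mul_le_mul_of_nonneg_left (h2 k i _ (ψ.support_sp _) _ hv)
      (Nat.cast_nonneg _))
    have a5 := pow_le_pow_left₀ (by positivity) a4 (2 * m)
    rw [← pow_mul, mul_left_comm _ 2, ← hm, cm_norm, ht, inv_pow, ← div_eq_mul_inv] at a5
    have a6 : ∑ α : ((g.G k).coeff i).support, ‖ψ.v (coeff α.1 ((g.G k).coeff i) ^ m)‖ ^ 2 ≤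
        hF.sq (g.fam M) y := by
      rw [FF.sq, Fintype.sum_sigma]
      refine le_trans ?_ (Finset.single_le_sum (fun _ _ => by positivity) (Finset.mem_univ k))
      rw [Fintype.sum_sigma]
      refine le_trans ?_ (Finset.single_le_sum (fun _ _ => by positivity)
        (Finset.mem_univ ⟨i, hi⟩))
      simp only [GP.fam, m1]
      exact le_rfl
    have l0 := hL k i
    refine a5.trans (le_trans ?_ (mul_le_mul_of_nonneg_right (Finset.single_le_sum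
      (fun i _ => hC k i) (Finset.mem_range.2 hi)) f0))
    simp only [C, m1, mul_pow, mul_assoc]
    gcongr
    exact (cm_cn (hy.2.1 k i) (Or.inl m0)).trans (by gcongr)
  have h4 : hF.sq (g.afam M) y ≤ g.Cw.support.card * c⁻¹ ^ (2 * (g.n * M)) *
      ‖eval u (ψ.sp g.Cw)‖ ^ (2 * (g.n * M)) := by
    refine (cm_sq hy.1 _).le.trans ((Finset.sum_le_card_nsmul _ _ _ fun μ _ =>
      pow_le_pow_left₀ (norm_nonneg _) ((norm_coeff_le _ μ).trans
        ((le_inv_mul_iff₀ hc).2 u2)) _).trans (le_of_eq ?_))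
    rw [nsmul_eq_mul, mul_pow, mul_assoc]
  have h5 : hF.zn d z y ^ M ≤
      (Fintype.card κ + 1) ^ M * ∑ k, (‖(hF.pt y).v (z k)‖ ^ 2 / A.nx y ^ d) ^ M := by
    rw [FF.zn, Finset.sum_div]
    exact cm_pow (fun _ _ => by positivity) (Or.inl hM.1)
  refine (mul_le_mul h5 h4 (Finset.sum_nonneg fun _ _ => sq_nonneg _) (by positivity)).trans ?_
  have h6 := Finset.sum_le_sum fun k (_ : k ∈ Finset.univ) => h3 k
  rw [← Finset.mul_sum, ← Finset.sum_mul] at h6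
  refine le_trans (le_of_eq ?_) ((mul_le_mul_of_nonneg_left h6 (by positivity :
    0 ≤ (Fintype.card κ + 1 : ℝ) ^ M * (g.Cw.support.card * c⁻¹ ^ (2 * (g.n * M))))).trans_eq ?_)
  · ring
  · ring

theorem GP.lo1 (g : GP K J x d z) (hF : FF A x) (hA : A.Good) (M : ℕ) {c1 : ℝ} (hc : 0 < c1) :
    ∃ B : ℝ, 0 < B ∧ ∀ (y ς : Y) (u : J × Fin (N + 1) → ℂ) (t : ℂ) (k : κ),
      ((hF.pt y).res K).On g.Cw → ((hF.pt ς).res K).On g.Cw →
      ((hF.pt ς).res K).sp g.Cw = ((hF.pt y).res K).sp g.Cw → ((hF.pt y).res K).sp g.Cw ≠ 0 →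
      ‖vv u t fun i => A.x i ς‖ ≤ 2 →
      c1 * cn (((hF.pt y).res K).sp g.Cw) ≤ ‖eval u (((hF.pt y).res K).sp g.Cw)‖ →
      ‖t‖ ^ 2 * A.nx ς ≤ B ∧
        ‖eval u (((hF.pt y).res K).sp g.Cw) ^ g.n * ((hF.pt ς).v (z k) * t ^ d)‖ ^ (2 * M) ≤
          B * (hF.zn d z ς ^ M * hF.sq (g.afam M) y) := by
  obtain ⟨B₀, hB, h1⟩ := chow_bd g.Cw.support hc
  obtain ⟨L, hL, h2⟩ := eval_le g.Cw.support 2
  obtain ⟨B₁, hB₁, b1⟩ : ∃ B₁ : ℝ, B₁ = (N + 1) * B₀ ^ 2 ∧ 0 < B₁ := ⟨_, rfl, by positivity⟩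
  refine ⟨B₁ + (L * (g.Cw.support.card + 1)) ^ (2 * (g.n * M)) * (B₁ ^ d) ^ M, by positivity,
    fun y ς u t k a1 a2 a3 a4 a5 a6 => ?_⟩
  have u1 : ‖u‖ ≤ 2 := (pi_norm_le_iff_of_nonneg zero_le_two).2 fun a =>
    (norm_le_pi_norm (vv u t fun i => A.x i ς) (Sum.inl a)).trans a5
  have e : ∀ (u' : J × Fin (N + 1) → ℂ) j,
      ∑ i, u' (j, i) * (t * A.x i ς) = t * ∑ i, u' (j, i) * A.x i ς := fun u' j => by
    rw [Finset.mul_sum]
    exact Finset.sum_congr rfl fun i _ => mul_left_comm _ _ _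
  obtain ⟨n0, -⟩ := cm_nx hA ς
  have h3 : ‖t‖ ^ 2 * A.nx ς ≤ B₁ := by
    rcases eq_or_ne t 0 with rfl | t0
    · simpa using b1.le
    have h4 := h1 _ (PH.support_sp _ _) a4 (fun i => t * A.x i ς) (fun u' hu => by
      rw [← a3]
      refine g.sp_chow (fun i => (hF.pt_x ς i).1) a2 u' fun j => ?_
      simp only [(hF.pt_x ς _).2]
      exact (mul_eq_zero.1 ((e u' j).symm.trans (hu j))).resolve_left t0) u u1 a6 fun j => by
        rw [e]
        exact (norm_le_pi_norm (vv u t fun i => A.x i ς) (Sum.inr j)).trans a5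
    rw [AD.nx, Finset.mul_sum, hB₁]
    refine (Finset.sum_le_card_nsmul _ _ (B₀ ^ 2) fun i _ => ?_).trans (by simp)
    rw [← mul_pow, ← norm_mul]
    exact pow_le_pow_left₀ (norm_nonneg _) (h4 i) 2
  refine ⟨h3.trans (le_add_of_nonneg_right (by positivity)), ?_⟩
  have f0 : 0 ≤ hF.sq (g.afam M) y := Finset.sum_nonneg fun _ _ => sq_nonneg _
  have z0 : 0 ≤ hF.zn d z ς := by
    unfold FF.zn
    positivity
  have h4 : ‖(hF.pt ς).v (z k)‖ ^ 2 * (‖t‖ ^ 2) ^ d ≤ B₁ ^ d * hF.zn d z ς := by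
    rw [FF.zn, mul_div_assoc', le_div_iff₀ (by positivity), mul_assoc, ← mul_pow, mul_comm]
    exact mul_le_mul (pow_le_pow_left₀ (by positivity) h3 d) (Finset.single_le_sum
      (f := fun k => ‖(hF.pt ς).v (z k)‖ ^ 2) (fun _ _ => sq_nonneg _) (Finset.mem_univ k))
      (sq_nonneg _) (by positivity)
  have h5 : ‖eval u (((hF.pt y).res K).sp g.Cw)‖ ^ (2 * (g.n * M)) ≤
      (L * (g.Cw.support.card + 1)) ^ (2 * (g.n * M)) * hF.sq (g.afam M) y := by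
    refine (pow_le_pow_left₀ (norm_nonneg _) (h2 _ (PH.support_sp _ _) u u1) _).trans ?_
    rw [mul_pow, mul_pow, mul_assoc]
    exact mul_le_mul_of_nonneg_left (cm_cn a1 (Or.inr (support_nonempty.2 g.ne))) (by positivity)
  rw [cm_norm]
  refine (mul_le_mul h5 (pow_le_pow_left₀ (by positivity) h4 M) (by positivity)
    (by positivity)).trans ?_
  rw [add_mul]
  refine le_trans (le_of_eq ?_) (le_add_of_nonneg_left (by positivity))
  ring

end Vale.Agent.P299.PC
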