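import Vale.Agent.P299.CL
import Vale.Agent.P299.CD

/-! P299, part C: good parameters near a point.
At `y₀` take `β = ⟨k, i, μ⟩` maximising `‖fam M β‖` (the sum is positive), so
`sq fam ≤ card * cn (sp (G.coeff i)) ^ (2 * (M / (e - i)))`. Apply `pn` (for a finite set of exponents containing the supports
of `rename inl Cw` and of all `(G k).coeff i`; `sp_rename`, `cn (rename inl p) = cn p`, `eval_rename`) to
`p = sp (rename inl Cw)`, `q = sp (G.coeff i)`, `h = ∏ l, sp ((H l).coeff 0)`. With half the constants all inequalities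
are strict at `(y₀, v₀)`; all terms are continuous at `(y₀, v₀)` (`reg_cont`, `cn_eq` with `support_sp`,
`eval v (sp p) = ∑ μ ∈ p.support, ..`); use `mem_nhds_prod_iff`. -/

open Set Filter Topology MvPolynomial

noncomputable section

namespace Vale.Agent.P299.PC

variable {n N : ℕ} {Y : Type} [TopologicalSpace Y] [T2Space Y] [SecondCountableTopology Y]
  [MeasurableSpace Y] [BorelSpace Y] {A : AD n N Y}
  {K F : Type} [Field K] [Field F] [Algebra ℂ K] [Algebra ℂ F] [Algebra K F] [IsScalarTower ℂ K F]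
  {J : Type} [Fintype J] {x : Fin (N + 1) → F} {d : ℕ} {κ : Type} [Fintype κ] {z : κ → F}

theorem sp_cont (hF : FF A x) (hA : A.Good) {P : MvPolynomial (Fin (N + 1)) ℂ} {σ : Type}
    {p : MvPolynomial σ K} (h : ∀ μ, Reg x P (algebraMap K F (coeff μ p))) {y : Y}
    (hy : A.ev P y ≠ 0) (v : σ → ℂ) :
    ContinuousAt (fun w : Y × (σ → ℂ) => eval w.2 (((hF.pt w.1).res K).sp p)) (y, v) ∧
      ContinuousAt (fun y => cn (((hF.pt y).res K).sp p)) y := by
  have hc : ∀ μ, ContinuousAt (fun y => ((hF.pt y).res K).v (coeff μ p)) y := fun μ =>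
    hF.reg_cont hA (h μ) hy
  constructor
  · simp only [PH.sp, map_sum, eval_monomial, Finsupp.prod]
    refine tendsto_finset_sum _ fun μ _ => ContinuousAt.mul ?_ (by fun_prop)
    exact ContinuousAt.comp (g := fun y => ((hF.pt y).res K).v (coeff μ p)) (f := Prod.fst)
      (x := (y, v)) (hc μ) continuousAt_fst
  · simp only [fun y => cn_eq (((hF.pt y).res K).support_sp p), PH.coeff_sp]
    exact tendsto_finset_sum _ fun μ _ => (hc μ).norm

theorem cn_rename {σ τ : Type} {f : σ → τ} (hf : Function.Injective f) (p : MvPolynomial σ ℂ) :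
    cn (rename f p) = cn p := by
  classical
  rw [cn, cn, support_rename_of_injective hf,
    Finset.sum_image fun a _ b _ h => Finsupp.mapDomain_injective hf h]
  exact Finset.sum_congr rfl fun μ _ => by rw [coeff_rename_mapDomain f hf]

theorem GP.near (g : GP K J x d z) (hF : FF A x) (hA : A.Good) {M : ℕ} (hM : g.Mul M)
    {P : MvPolynomial (Fin (N + 1)) ℂ} {L : Type} [Fintype L]
    (H : L → Polynomial (MvPolynomial (Vv J N) K))
    (rC : ∀ μ, Reg x P (algebraMap K F (coeff μ g.Cw)))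
    (rG : ∀ k i μ, Reg x P (algebraMap K F (coeff μ ((g.G k).coeff i))))
    (rH : ∀ l i μ, Reg x P (algebraMap K F (coeff μ ((H l).coeff i))))
    (nC : ∀ y, A.ev P y ≠ 0 → ((hF.pt y).res K).sp g.Cw ≠ 0)
    (nG : ∀ y, A.ev P y ≠ 0 → hF.sq (g.fam M) y ≠ 0)
    (nH : ∀ l y, A.ev P y ≠ 0 → ((hF.pt y).res K).sp ((H l).coeff 0) ≠ 0) :
    ∃ c1 : ℝ, 0 < c1 ∧ ∀ y₀, A.ev P y₀ ≠ 0 → ∃ (k : κ) (i : ℕ) (δ : ℝ) (v₀ : Vv J N → ℂ),
      i < (g.G k).natDegree ∧ 0 < δ ∧ δ ≤ 1 ∧ ∃ O ∈ 𝓝 y₀, ∃ V ∈ 𝓝 v₀, ∀ y ∈ O, ∀ v ∈ V,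
        A.ev P y ≠ 0 ∧ ‖v‖ ≤ 2 ∧
        c1 * cn (((hF.pt y).res K).sp g.Cw) ≤
          ‖eval (v ∘ Sum.inl) (((hF.pt y).res K).sp g.Cw)‖ ∧
        c1 * hF.sq (g.fam M) y ≤ ‖eval v (((hF.pt y).res K).sp ((g.G k).coeff i))‖ ^
          (2 * (M / ((g.G k).natDegree - i))) ∧
        ∀ l, eval v (((hF.pt y).res K).sp ((H l).coeff 0)) ≠ 0 ∧
          δ * ∑ j ∈ Finset.range ((H l).natDegree + 1),
            ‖eval v (((hF.pt y).res K).sp ((H l).coeff j))‖ ≤
            ‖eval v (((hF.pt y).res K).sp ((H l).coeff 0))‖ := by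
  classical
  have _ := hM
  obtain ⟨c', hc', hp⟩ := pn ((rename Sum.inl g.Cw : MvPolynomial (Vv J N) K).support ∪
    Finset.univ.biUnion fun k => (Finset.range (g.G k).natDegree).biUnion
      fun i => ((g.G k).coeff i).support)
  obtain ⟨c, hc, hc1, hc2⟩ : ∃ c : ℝ, 0 < c ∧ c ≤ 1 ∧ c ≤ c' :=
    ⟨min 1 c', lt_min one_pos hc', min_le_left _ _, min_le_right _ _⟩
  obtain ⟨RA, hRA⟩ := reg_alg x P
  have rF : ∀ β, Reg x P (algebraMap K F (g.fam M β)) := fun β => by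
    rw [GP.fam, map_pow]
    exact (hRA _).1 (pow_mem ((hRA _).2 (rG _ _ _)) _)
  set r : ℝ := (Fintype.card g.I : ℝ) with hr
  have r0 : 0 ≤ r := Nat.cast_nonneg _
  have c0 : 0 < c ^ (2 * M) * c / (r + 2) := by positivity
  refine ⟨_, c0, fun y₀ hy => ?_⟩
  have s0 : 0 < hF.sq (g.fam M) y₀ :=
    (Finset.sum_nonneg fun _ _ => sq_nonneg _).lt_of_ne' (nG y₀ hy)
  obtain ⟨β, -, hβ⟩ := Finset.exists_max_image Finset.univ
    (fun β => ‖(hF.pt y₀).v (algebraMap K F (g.fam M β))‖ ^ 2)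
    (Finset.nonempty_of_sum_ne_zero (nG y₀ hy))
  obtain ⟨k, i, μ⟩ := β
  obtain ⟨v₀, v1, v2, v3, v4⟩ := hp (((hF.pt y₀).res K).sp (rename Sum.inl g.Cw))
    (((hF.pt y₀).res K).sp ((g.G k).coeff i)) (∏ l, ((hF.pt y₀).res K).sp ((H l).coeff 0))
    ((PH.support_sp _ _).trans Finset.subset_union_left)
    ((PH.support_sp _ _).trans fun a ha => Finset.mem_union_right _ (Finset.mem_biUnion.2
      ⟨k, Finset.mem_univ _, Finset.mem_biUnion.2 ⟨i, Finset.mem_range.2 i.2, ha⟩⟩))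
    (Finset.prod_ne_zero_iff.2 fun l _ => nH l y₀ hy)
  rw [(sp_rename _ Sum.inl_injective _).2, cn_rename Sum.inl_injective, eval_rename] at v2
  rw [map_prod, Finset.prod_ne_zero_iff] at v4
  have k1 : c ^ (2 * M) * c / (r + 2) < c' := by
    rw [div_lt_iff₀ (by positivity)]
    nlinarith [mul_le_of_le_one_left hc.le (pow_le_one₀ (n := 2 * M) hc.le hc1),
      mul_nonneg hc'.le r0]
  have a1 := (mul_lt_mul_of_pos_right k1 (cn_pos (nC y₀ hy))).trans_le v2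
  have a2 : c ^ (2 * M) * c / (r + 2) * hF.sq (g.fam M) y₀ <
      ‖eval v₀ (((hF.pt y₀).res K).sp ((g.G k).coeff i))‖ ^
        (2 * (M / ((g.G k).natDegree - i))) := by
    have b1 : hF.sq (g.fam M) y₀ ≤
        r * ‖(hF.pt y₀).v (algebraMap K F (g.fam M ⟨k, i, μ⟩))‖ ^ 2 := by
      refine (Finset.sum_le_card_nsmul _ _ _ hβ).trans_eq ?_
      rw [nsmul_eq_mul, Finset.card_univ]
    rw [GP.fam, map_pow, PH.v_pow (hF.reg_mem (rG _ _ _) hy), norm_pow, ← pow_mul, mul_comm _ 2,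
      ← PH.res_v, ← PH.coeff_sp] at b1
    have b2 := pow_le_pow_left₀ (by positivity) (((mul_le_mul hc2 (norm_coeff_le _ μ.1)
      (norm_nonneg _) hc'.le)).trans v3) (2 * (M / ((g.G k).natDegree - i)))
    refine lt_of_lt_of_le ?_ b2
    rw [mul_pow, div_mul_eq_mul_div, div_lt_iff₀ (by positivity)]
    have b3 : c ^ (2 * M) * c ≤ c ^ (2 * (M / ((g.G k).natDegree - i))) :=
      (mul_le_of_le_one_right (by positivity) hc1).trans
        (pow_le_pow_of_le_one hc.le hc1 (Nat.mul_le_mul_left 2 (Nat.div_le_self _ _)))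
    refine (mul_le_mul_of_nonneg_right b3 s0.le).trans_lt ?_
    rw [mul_assoc]
    refine mul_lt_mul_of_pos_left ?_ (by positivity)
    by_contra b4
    have b5 := (not_lt.1 b4).trans b1
    nlinarith [pow_nonneg (norm_nonneg (coeff μ.1 (((hF.pt y₀).res K).sp ((g.G k).coeff i))))
      (2 * (M / ((g.G k).natDegree - i)))]
  obtain ⟨δ, ⟨d1, d2⟩, d0⟩ : ∃ δ : ℝ, (δ < 1 ∧ ∀ l, δ * ∑ j ∈ Finset.range ((H l).natDegree + 1),
      ‖eval v₀ (((hF.pt y₀).res K).sp ((H l).coeff j))‖ <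
        ‖eval v₀ (((hF.pt y₀).res K).sp ((H l).coeff 0))‖) ∧ δ ∈ Ioi 0 := by
    refine ((Eventually.filter_mono nhdsWithin_le_nhds ((gt_mem_nhds one_pos).and
      (eventually_all.2 fun l => ?_))).and (self_mem_nhdsWithin (a := (0 : ℝ)) (s := Ioi 0))).exists
    refine ContinuousAt.eventually_lt (by fun_prop) continuousAt_const ?_
    rw [zero_mul]
    exact norm_pos_iff.2 (v4 l (Finset.mem_univ _))
  have t1 : ∀ {f : Y → ℝ}, ContinuousAt f y₀ →
      ContinuousAt (fun w : Y × (Vv J N → ℂ) => f w.1) (y₀, v₀) := fun hf =>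
    ContinuousAt.comp (f := Prod.fst) (x := (y₀, v₀)) hf continuousAt_fst
  have e1 : ∀ᶠ w : Y × (Vv J N → ℂ) in 𝓝 (y₀, v₀), A.ev P w.1 ≠ 0 :=
    ((ev_cont hA P).comp continuous_fst).continuousAt.eventually_ne hy
  have e2 : ∀ᶠ w : Y × (Vv J N → ℂ) in 𝓝 (y₀, v₀), ‖w.2‖ < 2 :=
    ContinuousAt.eventually_lt (by fun_prop) continuousAt_const (v1.trans_lt one_lt_two)
  have e3 := ContinuousAt.eventually_lt ((t1 (sp_cont hF hA rC hy 0).2).const_mul _)
    (ContinuousAt.comp (f := fun w : Y × (Vv J N → ℂ) => (w.1, w.2 ∘ Sum.inl)) (x := (y₀, v₀))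
      (sp_cont hF hA rC hy (v₀ ∘ Sum.inl)).1 (by fun_prop)).norm a1
  have e4 := ContinuousAt.eventually_lt ((t1 (f := hF.sq (g.fam M)) (tendsto_finset_sum _
    fun β _ => ((hF.reg_cont hA (rF β) hy).norm.pow 2))).const_mul _)
    ((sp_cont hF hA (rG k i) hy v₀).1.norm.pow _) a2
  have e5 := eventually_all.2 fun l => ContinuousAt.eventually_lt (ContinuousAt.const_mul
    (f := fun w : Y × (Vv J N → ℂ) => ∑ j ∈ Finset.range ((H l).natDegree + 1),
      ‖eval w.2 (((hF.pt w.1).res K).sp ((H l).coeff j))‖)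
    (tendsto_finset_sum _ fun j _ => (sp_cont hF hA (rH l j) hy v₀).1.norm) δ)
    (sp_cont hF hA (rH l 0) hy v₀).1.norm (d2 l)
  obtain ⟨O, hO, V, hV, h⟩ := mem_nhds_prod_iff.1 (e1.and (e2.and (e3.and (e4.and e5))))
  refine ⟨k, i, δ, v₀, i.2, d0, d1.le, O, hO, V, hV, fun y hy v hv => ?_⟩
  obtain ⟨f1, f2, f3, f4, f5⟩ := h (mk_mem_prod hy hv)
  exact ⟨f1, f2.le, f3.le, f4.le, fun l => ⟨norm_pos_iff.1 ((mul_nonneg (le_of_lt d0)
    (Finset.sum_nonneg fun _ _ => norm_nonneg _)).trans_lt (f5 l)), (f5 l).le⟩⟩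

end Vale.Agent.P299.PC
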