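import Vale.Agent.P299.CM
import Vale.Agent.P299.CN

/-! P299, part C: the lower bound. -/

open Set Filter Topology MvPolynomial

noncomputable section

namespace Vale.Agent.P299.PC

variable {n N : ℕ} {Y : Type} [TopologicalSpace Y] [T2Space Y] [SecondCountableTopology Y]
  [MeasurableSpace Y] [BorelSpace Y] {A : AD n N Y}
  {K F : Type} [Field K] [Field F] [Algebra ℂ K] [Algebra ℂ F] [Algebra K F] [IsScalarTower ℂ K F]
  {J : Type} [Fintype J] {x : Fin (N + 1) → F} {d : ℕ} {κ : Type} [Fintype κ] {z : κ → F}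

theorem co_fin {σ R : Type} [CommRing R] (p : MvPolynomial σ R) :
    (range fun μ => coeff μ p).Finite := by
  refine ((p.support.finite_toSet.image fun μ => coeff μ p).insert 0).subset ?_
  rintro _ ⟨μ, rfl⟩
  by_cases h : μ ∈ p.support
  · exact Or.inr ⟨μ, h, rfl⟩
  · exact Or.inl (notMem_support_iff.1 h)

theorem co_fin2 {σ R : Type} [CommRing R] (G : Polynomial (MvPolynomial σ R)) :
    {a | ∃ i μ, a = coeff μ (G.coeff i)}.Finite := by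
  refine ((G.support.finite_toSet.biUnion fun i _ => co_fin (G.coeff i)).insert 0).subset ?_
  rintro _ ⟨i, μ, rfl⟩
  by_cases h : i ∈ G.support
  · exact Or.inr (mem_biUnion h ⟨μ, rfl⟩)
  · exact Or.inl (by rw [Polynomial.notMem_support_iff.1 h, coeff_zero])

omit [IsScalarTower ℂ K F] [Algebra ℂ F] [Algebra ℂ K] [Fintype κ] [Fintype J] in
/-- A finite set containing all coefficients. -/
theorem GP.co_T (g : GP K J x d z) (k : κ) {L : Type} [Finite L]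
    (H : L → Polynomial (MvPolynomial (Vv J N) K)) (T : Finset K) :
    ∃ T' : Finset K, T ⊆ T' ∧ (∀ μ, coeff μ g.Cw ∈ T') ∧ (∀ i μ, coeff μ ((g.G k).coeff i) ∈ T') ∧
      ∀ l i μ, coeff μ ((H l).coeff i) ∈ T' := by
  classical
  refine ⟨T ∪ ((co_fin g.Cw).toFinset ∪ ((co_fin2 (g.G k)).toFinset ∪
    (finite_iUnion fun l => co_fin2 (H l)).toFinset)), Finset.subset_union_left, fun μ => ?_,
    fun i μ => ?_, fun l i μ => ?_⟩
  · simp
  · simp only [Finset.mem_union, Finite.mem_toFinset]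
    exact Or.inr (Or.inr (Or.inl ⟨i, μ, rfl⟩))
  · simp only [Finset.mem_union, Finite.mem_toFinset]
    exact Or.inr (Or.inr (Or.inr (mem_iUnion.2 ⟨l, i, μ, rfl⟩)))

omit [Fintype J] in
theorem co_root {ψ χ : PH K} {H : Polynomial (MvPolynomial (Vv J N) K)} {v : Vv J N → ℂ} {w : ℂ}
    {δ : ℝ} (hw : ((χ.poly v).up H).IsRoot w) (he : ∀ i, χ.sp (H.coeff i) = ψ.sp (H.coeff i))
    (hδ : δ ≤ 1) (h : eval v (ψ.sp (H.coeff 0)) ≠ 0 ∧
      δ * ∑ j ∈ Finset.range (H.natDegree + 1), ‖eval v (ψ.sp (H.coeff j))‖ ≤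
        ‖eval v (ψ.sp (H.coeff 0))‖) : δ ≤ ‖w‖ := by
  refine root_lo hw (PH.natDegree_up_le _ H) hδ ?_ ?_
  · rw [PH.coeff_up, PH.poly_v, he]
    exact h.1
  · simp only [PH.coeff_up, PH.poly_v, he]
    exact h.2

theorem GP.lo (g : GP K J x d z) (hF : FF A x) (hA : A.Good) {M : ℕ} (hM : g.Mul M)
    {P P2 Pa : MvPolynomial (Fin (N + 1)) ℂ} {ks : K} {j : ℕ} (hP : P = P2 * Pa)
    (hk : aeval x Pa = algebraMap K F ks * aeval x P2 ^ j) (rk : Reg x P (algebraMap K F ks))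
    (H : Fin 3 → Polynomial (MvPolynomial (Vv J N) K))
    (e0 : (H 0).eval₂ (Th K J x).toRingHom (X none) = 0)
    (e1 : (H 1).eval₂ (Th K J x).toRingHom (C (aeval x A.p0)) = 0)
    (e2 : (H 2).eval₂ (Th K J x).toRingHom (C (aeval x P2)) = 0)
    (rC : ∀ μ, Reg x P (algebraMap K F (coeff μ g.Cw)))
    (rG : ∀ k i μ, Reg x P (algebraMap K F (coeff μ ((g.G k).coeff i))))
    (rH : ∀ l i μ, Reg x P (algebraMap K F (coeff μ ((H l).coeff i))))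
    (nC : ∀ y, A.ev P y ≠ 0 → ((hF.pt y).res K).sp g.Cw ≠ 0)
    (nG : ∀ y, A.ev P y ≠ 0 → hF.sq (g.fam M) y ≠ 0)
    (nH : ∀ l y, A.ev P y ≠ 0 → ((hF.pt y).res K).sp ((H l).coeff 0) ≠ 0) :
    hF.Lo K P (fun y => hF.zn d z y ^ M) (hF.sq (g.afam M)) (hF.sq (g.fam M)) := by
  classical
  obtain ⟨c1, hc1, hn⟩ := g.near hF hA hM H rC rG rH nC nG nH
  obtain ⟨B, hB, hl⟩ := g.lo1 hF hA M hc1
  obtain ⟨E, hE⟩ : ∃ E : ℕ, ∀ k, (g.G k).natDegree ≤ E :=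
    ⟨∑ k, (g.G k).natDegree, fun k => Finset.single_le_sum (f := fun k => (g.G k).natDegree)
      (fun _ _ => Nat.zero_le _) (Finset.mem_univ k)⟩
  have hPa : ∀ y, algebraMap K F ks ∈ (hF.pt y).S →
      A.ev Pa y = (hF.pt y).v (algebraMap K F ks) * A.ev P2 y ^ j := fun y hy => by
    rw [← (hF.pt_aeval y Pa).2, hk, (hF.pt y).v_mul hy (pow_mem (hF.pt_aeval y P2).1 j),
      PH.v_pow (hF.pt_aeval y P2).1, (hF.pt_aeval y P2).2]
  have hPy : ∀ y, A.ev P y = A.ev P2 y * A.ev Pa y := fun y => by rw [hP, ev_mul]; rfl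
  refine ⟨c1 / ((2 ^ E) ^ (2 * M) * B), by positivity, fun y₀ hy₀ => ?_⟩
  obtain ⟨k, i, δ, v₀, hi, hδ, hδ1, O, hO, V, hV, hg⟩ := hn y₀ hy₀
  have hk0 : (hF.pt y₀).v (algebraMap K F ks) ≠ 0 := fun h0 =>
    hy₀ (by rw [hPy, hPa y₀ (hF.reg_mem rk hy₀), h0, zero_mul, mul_zero])
  obtain ⟨ε, hε, hε'⟩ : ∃ ε : ℝ, 0 < ε ∧ ε < ‖(hF.pt y₀).v (algebraMap K F ks)‖ :=
    exists_between (norm_pos_iff.2 hk0)
  have hO' : ∀ᶠ y in 𝓝 y₀, ε < ‖(hF.pt y).v (algebraMap K F ks)‖ :=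
    (hF.reg_cont hA rk hy₀).norm.eventually (lt_mem_nhds hε')
  have hδ' : 0 < min δ (δ * (ε * δ ^ j)) := lt_min hδ (by positivity)
  refine ⟨_, inter_mem hO hO', _, cpt2 hA P (B / δ ^ 2) hδ',
    fun ς hς => norm_pos_iff.1 (hδ'.trans_le hς.2.2), fun T => ?_⟩
  obtain ⟨T', hT, tC, tG, tH⟩ := g.co_T k H (insert ks T)
  obtain ⟨D, hD, -, hra⟩ := g.ra2 hF hA k T' (fun i μ => Algebra.subset_adjoin (tG i μ))
    fun μ => Algebra.subset_adjoin (tC μ)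
  obtain ⟨μ₀, hμ₀⟩ := ne_zero_iff.1 hD
  obtain ⟨D', hD', r1, r2⟩ := hF.gen_pt ((insert (coeff μ₀ D) T').image (algebraMap K F))
  refine ⟨D', hD', fun y hy hyD => ?_⟩
  have hyT : ∀ a ∈ T', a ∈ ((hF.pt y).res K).S := fun a ha =>
    hF.reg_mem (r1 _ (Finset.mem_image_of_mem _ (Finset.mem_insert_of_mem ha))) hyD
  have hsp : ((hF.pt y).res K).sp D ≠ 0 := ne_zero_iff.2 ⟨μ₀, by
    rw [PH.coeff_sp, PH.res_v]
    exact r2 y hyD _ (Finset.mem_image_of_mem _ (Finset.mem_insert_self _ _))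
      ((map_ne_zero _).2 hμ₀)⟩
  obtain ⟨v, hvD, hvV⟩ := (dense_ne_zero hsp).inter_nhds_nonempty hV
  obtain ⟨g1, g2, g3, g4, g5⟩ := hg y hy.1 v hvV
  obtain ⟨m1, m2⟩ := (((hF.pt y).res K).poly v).up_monic (g.monic k)
  obtain ⟨Z, hZ, hZ'⟩ := root_ge m1 (m2.symm ▸ hi)
  rw [m2, PH.coeff_up, PH.poly_v] at hZ'
  obtain ⟨ς, t, a1, a2, a3, a4⟩ := hra _ hyT v hvD Z hZ
  have hx : ∀ i, x i ∈ (hF.pt ς).S := fun i => (hF.pt_x ς i).1
  have hv : v = vv (v ∘ Sum.inl) t fun i => (hF.pt ς).v (x i) := by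
    simpa only [(hF.pt_x ς _).2] using a3
  have eH : ∀ l i, ((hF.pt ς).res K).sp ((H l).coeff i) = ((hF.pt y).res K).sp ((H l).coeff i) :=
    fun l i => PH.sp_congr fun μ => (a2 _ (tH l i μ)).2
  have oH : ∀ l i, ((hF.pt ς).res K).On ((H l).coeff i) := fun l i μ => (a2 _ (tH l i μ)).1
  have b0 : δ ≤ ‖t‖ := co_root (hv ▸ sp_t hx _ t (oH 0) e0) (eH 0) hδ1 (g5 0)
  have b1 : δ ≤ ‖A.ev A.p0 ς‖ := (hF.pt_aeval ς _).2 ▸
    co_root (hv ▸ sp_c hx _ t (oH 1) (hF.pt_aeval ς _).1 e1) (eH 1) hδ1 (g5 1)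
  have b2 : δ ≤ ‖A.ev P2 ς‖ := (hF.pt_aeval ς _).2 ▸
    co_root (hv ▸ sp_c hx _ t (oH 2) (hF.pt_aeval ς _).1 e2) (eH 2) hδ1 (g5 2)
  obtain ⟨l1, l2⟩ := hl y ς (v ∘ Sum.inl) t k (fun μ => hyT _ (tC μ)) (fun μ => (a2 _ (tC μ)).1)
    (PH.sp_congr fun μ => (a2 _ (tC μ)).2) (nC y g1) (a3 ▸ g2) g3
  rw [← a4] at l2
  have hks := a2 ks (hT (Finset.mem_insert_self _ _))
  refine ⟨ς, ⟨?_, (min_le_left _ _).trans b1, (min_le_right _ _).trans ?_⟩, fun b hb => ?_, ?_⟩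
  · rw [le_div_iff₀ (by positivity), mul_comm]
    exact (mul_le_mul_of_nonneg_right (pow_le_pow_left₀ hδ.le b0 2)
      (zero_le_one.trans (hA.one_le_nx ς))).trans l1
  · rw [hPy, hPa ς hks.1, norm_mul, norm_mul, norm_pow, ← PH.res_v, hks.2, PH.res_v]
    have : ε ≤ ‖(hF.pt y).v (algebraMap K F ks)‖ := le_of_lt hy.2
    gcongr
  · have hb' := hT (Finset.mem_insert_of_mem hb)
    exact ⟨hyT b hb', (a2 b hb').1, (a2 b hb').2⟩
  · have hm := Nat.mul_div_cancel' (hM.2 k i hi)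
    generalize hm' : M / ((g.G k).natDegree - i) = m at g4 hm
    have hmM : m ≤ M := hm' ▸ Nat.div_le_self _ _
    have h1 : (2 ^ (g.G k).natDegree * ‖Z‖ ^ ((g.G k).natDegree - i)) ^ (2 * m) ≤
        (2 ^ E) ^ (2 * M) * ‖Z‖ ^ (2 * M) := by
      rw [mul_pow, ← pow_mul ‖Z‖, mul_left_comm, hm]
      refine mul_le_mul_of_nonneg_right ?_ (by positivity)
      exact (pow_le_pow_left₀ (by positivity) (pow_le_pow_right₀ one_le_two (hE k)) _).trans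
        (pow_le_pow_right₀ (one_le_pow₀ one_le_two) (by omega))
    have h2 := (g4.trans (pow_le_pow_left₀ (norm_nonneg _) hZ' _)).trans
      (h1.trans (mul_le_mul_of_nonneg_left l2 (by positivity)))
    rw [div_mul_eq_mul_div, div_le_iff₀ (by positivity)]
    exact h2.trans_eq (by ring)

end Vale.Agent.P299.PC
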