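import Vale.Agent.P299.CO
import Vale.Agent.P299.CH

/-! P299, part C: the algebraic description of the fibrewise supremum. -/

open Set Filter Topology MvPolynomial

noncomputable section

namespace Vale.Agent.P299.PC

variable {n N : ℕ} {Y : Type} [TopologicalSpace Y] [T2Space Y] [SecondCountableTopology Y]
  [MeasurableSpace Y] [BorelSpace Y] {A : AD n N Y}
  {K F : Type} [Field K] [Field F] [Algebra ℂ K] [Algebra ℂ F] [Algebra K F] [IsScalarTower ℂ K F]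
  {J : Type} [Fintype J] {x : Fin (N + 1) → F} {d : ℕ} {κ : Type} [Fintype κ] {z : κ → F}

theorem cp_ks {K : Type} [Field K] [Algebra ℂ K] (S : Subalgebra ℂ K)
    (h : ∀ k : K, ∃ a ∈ S, ∃ b ∈ S, b ≠ 0 ∧ k * b = a) (T : Finset K) :
    ∃ ks ∈ S, ks ≠ 0 ∧ ∀ a ∈ T, a * ks ∈ S ∧ (a ≠ 0 → ∃ b ∈ S, a * b = ks) := by
  classical
  induction T using Finset.induction_on with
  | empty => exact ⟨1, one_mem _, one_ne_zero, by simp⟩
  | insert c T _ ih =>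
    obtain ⟨ks, h1, h2, h3⟩ := ih
    obtain ⟨α, hα, β, hβ, hβ0, he⟩ := h c
    obtain ⟨γ, hγ, hγ0, hγ'⟩ : ∃ γ ∈ S, γ ≠ 0 ∧ (c ≠ 0 → γ = c * β) := by
      by_cases hc : c = 0
      · exact ⟨1, one_mem _, one_ne_zero, fun h => absurd hc h⟩
      · exact ⟨α, hα, he ▸ mul_ne_zero hc hβ0, fun _ => he.symm⟩
    refine ⟨ks * (β * γ), mul_mem h1 (mul_mem hβ hγ), mul_ne_zero h2 (mul_ne_zero hβ0 hγ0),
      fun a ha => ?_⟩
    rcases Finset.mem_insert.1 ha with rfl | ha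
    · refine ⟨?_, fun h0 => ⟨ks * (β * β), mul_mem h1 (mul_mem hβ hβ), by rw [hγ' h0]; ring⟩⟩
      rw [show a * (ks * (β * γ)) = (a * β) * (ks * γ) by ring, he]
      exact mul_mem hα (mul_mem h1 hγ)
    · refine ⟨by rw [← mul_assoc]; exact mul_mem (h3 a ha).1 (mul_mem hβ hγ), fun h0 => ?_⟩
      obtain ⟨b, hb, hb'⟩ := (h3 a ha).2 h0
      exact ⟨b * (β * γ), mul_mem hb (mul_mem hβ hγ), by rw [← mul_assoc, hb']⟩

theorem cm (hF : FF A x) (hA : A.Good) (hz : ∀ k, IntK K x d (z k)) (hne : ∃ k, z k ≠ 0)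
    {P0 : MvPolynomial (Fin (N + 1)) ℂ} (hP0 : A.ev P0 ≠ 0) (hr : ∀ k, Reg x P0 (z k)) :
    ∃ (P : MvPolynomial (Fin (N + 1)) ℂ) (M : ℕ) (I I' : Type) (_ : Fintype I) (_ : Fintype I')
      (a : I → K) (f : I' → K) (i0 : I) (j0 : I'), P0 ∣ P ∧ A.ev P ≠ 0 ∧ 0 < M ∧
      (∀ i, Reg x P (algebraMap K F (a i))) ∧ (∀ j, Reg x P (algebraMap K F (f j))) ∧
      (∀ y, A.ev P y ≠ 0 → (hF.pt y).v (algebraMap K F (a i0)) ≠ 0 ∧
        (hF.pt y).v (algebraMap K F (f j0)) ≠ 0) ∧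
      (∃ C₀ : ℝ, ∀ y, A.ev P y ≠ 0 → hF.zn d z y ^ M * hF.sq a y ≤ C₀ * hF.sq f y) ∧
      hF.Lo K P (fun y => hF.zn d z y ^ M) (hF.sq a) (hF.sq f) := by
  classical
  obtain ⟨r, ⟨g⟩⟩ := exists_gp hF.gen hz
  obtain ⟨M, hM⟩ : ∃ M, g.Mul M := ⟨(∑ k, (g.G k).natDegree).factorial, Nat.factorial_pos _,
    fun k i hi => Nat.dvd_factorial (Nat.sub_pos_of_lt hi) ((Nat.sub_le _ _).trans
      (Finset.single_le_sum (f := fun k => (g.G k).natDegree) (fun _ _ => Nat.zero_le _)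
        (Finset.mem_univ k)))⟩
  obtain ⟨T0, hT0⟩ := fg_K K hF.gen
  obtain ⟨P1, hP1, r1, -⟩ := hF.gen_pt (T0.image (algebraMap K F))
  have hne' : ∀ {p}, A.ev p ≠ 0 → aeval x p ≠ 0 := fun h h0 => h ((hF.ker _).1 h0)
  obtain ⟨P2, hP2⟩ : ∃ P2, P2 = P0 * P1 := ⟨_, rfl⟩
  have h2 : aeval x P2 ≠ 0 := by
    rw [hP2, map_mul]
    exact mul_ne_zero (hne' hP0) (hne' hP1)
  obtain ⟨S2, hS2⟩ := reg_alg x P2
  have r2 : ∀ a ∈ Algebra.adjoin ℂ (T0 : Set K), Reg x P2 (algebraMap K F a) := fun a ha =>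
    (hS2 _).1 (Algebra.adjoin_le (S := S2.comap (IsScalarTower.toAlgHom ℂ K F)) (fun b hb =>
      (hS2 _).2 ((r1 _ (Finset.mem_image_of_mem _ hb)).mono (hP2 ▸ dvd_mul_left _ _))) ha)
  obtain ⟨y₀, -⟩ := hA.conn.nonempty
  obtain ⟨H0, n0, e0⟩ := g.alg (X none) (X_ne_zero _)
  obtain ⟨H1, n1, e1⟩ := g.alg (C (aeval x A.p0))
    (C_ne_zero.2 (hne' fun h => hA.ne0 y₀ (congrFun h y₀)))
  obtain ⟨H2, n2, e2⟩ := g.alg (C (aeval x P2)) (C_ne_zero.2 h2)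
  obtain ⟨k₀, hk₀⟩ := hne
  obtain ⟨T, -, tC, -, tH⟩ := g.co_T k₀ (Sum.elim g.G ![H0, H1, H2]) ∅
  obtain ⟨ks, k1, k2, k3⟩ := cp_ks _ hT0 T
  obtain ⟨j, Pa, hk⟩ := r2 ks k1
  have k2' : algebraMap K F ks ≠ 0 := (map_ne_zero _).2 k2
  obtain ⟨P, hP⟩ : ∃ P, P = P2 * Pa := ⟨_, rfl⟩
  obtain ⟨S, hS⟩ := reg_alg x P
  have r3 : ∀ a ∈ Algebra.adjoin ℂ (T0 : Set K), algebraMap K F a ∈ S := fun a ha =>
    (hS _).2 ((r2 a ha).mono (hP ▸ dvd_mul_right _ _))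
  have ri : (algebraMap K F ks)⁻¹ ∈ S := (hS _).2 ⟨1, P2 ^ (j + 1), by
    rw [pow_one, hP, map_mul, ← hk, map_pow]
    field_simp
    ring⟩
  have rT : ∀ a ∈ T, algebraMap K F a ∈ S := fun a ha => by
    have := mul_mem (r3 _ (k3 a ha).1) ri
    rwa [map_mul, mul_inv_cancel_right₀ k2'] at this
  have mem : ∀ {y f}, A.ev P y ≠ 0 → f ∈ S → f ∈ (hF.pt y).S := fun hy hf =>
    hF.reg_mem ((hS _).1 hf) hy
  have nT : ∀ y, A.ev P y ≠ 0 → ∀ a ∈ T, a ≠ 0 → (hF.pt y).v (algebraMap K F a) ≠ 0 := by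
    intro y hy a ha h0 h1
    obtain ⟨b, hb, hb'⟩ := (k3 a ha).2 h0
    have h3 := (hF.pt y).v_mul (mem hy (r3 _ k1)) (mem hy ri)
    rw [mul_inv_cancel₀ k2', PH.v_one, ← hb', map_mul,
      (hF.pt y).v_mul (mem hy (rT a ha)) (mem hy (r3 b hb)), h1, zero_mul, zero_mul] at h3
    exact one_ne_zero h3
  have nsp : ∀ {σ : Type} {p : MvPolynomial σ K}, p ≠ 0 → (∀ μ, coeff μ p ∈ T) →
      ∀ y, A.ev P y ≠ 0 → ((hF.pt y).res K).sp p ≠ 0 := fun hp ht y hy => by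
    obtain ⟨μ, hμ⟩ := ne_zero_iff.1 hp
    exact ne_zero_iff.2 ⟨μ, by rw [PH.coeff_sp]; exact nT y hy _ (ht μ) hμ⟩
  have npow : ∀ y, A.ev P y ≠ 0 → ∀ a ∈ T, a ≠ 0 → ∀ m : ℕ,
      (hF.pt y).v (algebraMap K F (a ^ m)) ≠ 0 := fun y hy a ha h0 m => by
    rw [map_pow, PH.v_pow (mem hy (rT a ha))]
    exact pow_ne_zero _ (nT y hy a ha h0)
  obtain ⟨β, -⟩ := g.fam_ne hk₀ M
  obtain ⟨α, hα⟩ := support_nonempty.2 g.ne
  have nf : ∀ y, A.ev P y ≠ 0 → (hF.pt y).v (algebraMap K F (g.fam M β)) ≠ 0 := fun y hy =>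
    npow y hy _ (tH (.inl β.1) _ _) (mem_support_iff.1 β.2.2.2) _
  have hP0' : P0 ∣ P := by
    rw [hP, hP2, mul_assoc]
    exact dvd_mul_right _ _
  refine ⟨P, M, _, _, inferInstance, inferInstance, g.afam M, g.fam M, ⟨α, hα⟩, β, hP0',
    fun h => ?_, hM.1, fun i => (hS _).1 ?_, fun i => (hS _).1 ?_,
    fun y hy => ⟨npow y hy _ (tC _) (mem_support_iff.1 hα) _, nf y hy⟩, ?_, ?_⟩
  · have := (hF.ker _).2 h
    rw [hP, map_mul, ← hk] at this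
    exact mul_ne_zero h2 (mul_ne_zero k2' (pow_ne_zero _ h2)) this
  · rw [GP.afam, map_pow]
    exact pow_mem (rT _ (tC _)) _
  · rw [GP.fam, map_pow]
    exact pow_mem (rT _ (tH (.inl i.1) _ _)) _
  · obtain ⟨C₀, hC⟩ := g.up hF hA hM
    exact ⟨C₀, fun y hy => hC y ⟨fun μ => mem hy (rT _ (tC μ)),
      fun k i μ => mem hy (rT _ (tH (.inl k) i μ)), fun k => hF.reg_mem ((hr k).mono hP0') hy⟩⟩
  · refine g.lo hF hA hM hP hk.symm ((hS _).1 (r3 _ k1)) ![H0, H1, H2] e0 e1 e2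
      (fun μ => (hS _).1 (rT _ (tC μ))) (fun k i μ => (hS _).1 (rT _ (tH (.inl k) i μ)))
      (fun l i μ => (hS _).1 (rT _ (tH (.inr l) i μ))) (nsp g.ne tC) (fun y hy => ?_)
      fun l => nsp ?_ (tH (.inr l) 0)
    · refine (Finset.sum_pos' (fun _ _ => sq_nonneg _) ⟨β, Finset.mem_univ _, ?_⟩).ne'
      exact pow_pos (norm_pos_iff.2 (nf y hy)) 2
    · fin_cases l
      exacts [n0, n1, n2]

end Vale.Agent.P299.PC
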