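import Vale.Agent.P299.CA

/-! P299, part C: first integrals and the field `K`.
`exists_K`: carrier `{f | ∃ p q, aeval x q ≠ 0 ∧ f * aeval x q = aeval x p ∧ FlatQ m0 0 (ev p) (ev q)}`; independence of the
representation by `FlatQ.congr` and `hF.ker`; closure by `FlatQ.mul`, `add`, `symm` and `FlatQ m0 0 (c • q) q`.
On `B` one has `B.ev p y = A.ev p y.1` (`Sub.x`), use `hB.ev_mem`, `hB.gen`, `Sub.flatQ`, `FlatQ.congr hB`.
`fi_of_K`: the function is `B.ev p / B.ev P ^ j`. `K_of_fi`: `Rat` and `gen` give `B.ev q * F0 = B.ev p`; if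
`f * q' = p'` with `q' y ≠ 0` then `F0 * q' = p'` where `q ≠ 0`, everywhere by `hB.dense_ne` or `hB.mul_ne`. -/

open Set Filter Topology MvPolynomial

noncomputable section

namespace Vale.Agent.P299.PC

variable {n N : ℕ} {Y : Type} [TopologicalSpace Y] [T2Space Y] [SecondCountableTopology Y]
  [MeasurableSpace Y] [BorelSpace Y] {A : AD n N Y}
  {F : Type} [Field F] [Algebra ℂ F] {x : Fin (N + 1) → F}

open Vale.Agent.P271A

set_option linter.unusedSectionVars false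

theorem cq_hol (hA : A.Good) (p : MvPolynomial (Fin (N + 1)) ℂ) : A.D.Hol (A.ev p) :=
  (hA.ev_mem le_rfl).1

theorem cq_mul (p q : MvPolynomial (Fin (N + 1)) ℂ) : A.ev (p * q) = A.ev p * A.ev q :=
  funext fun _ => map_mul _ p q

theorem cq_add (p q : MvPolynomial (Fin (N + 1)) ℂ) : A.ev (p + q) = A.ev p + A.ev q :=
  funext fun _ => map_add _ p q

theorem cq_sub (p q : MvPolynomial (Fin (N + 1)) ℂ) : A.ev (p - q) = A.ev p - A.ev q :=
  funext fun _ => map_sub _ p q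

theorem cq_const (m0 : ℕ) (c : ℂ) : A.FlatQ m0 0 (fun _ => c) 1 := fun u _ y => by
  have h1 : ∀ j, A.D.dz j (fun _ => c) y = 0 := fun j => RD.dX_const c y
  have h2 : ∀ j, A.D.dz j 1 y = 0 := fun j => RD.dX_const 1 y
  simp [h1, h2, ctr]

theorem cq_one_ne (hA : A.Good) : (1 : Y → ℂ) ≠ 0 := by
  obtain ⟨y, -⟩ := hA.conn.nonempty
  exact fun h => one_ne_zero (congrFun h y)

theorem cq_ne (hF : FF A x) {q : MvPolynomial (Fin (N + 1)) ℂ} : aeval x q ≠ 0 ↔ A.ev q ≠ 0 :=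
  (hF.ker q).not

theorem cq_cross (hF : FF A x) {f : F} {p q p' q' : MvPolynomial (Fin (N + 1)) ℂ}
    (h : f * aeval x q = aeval x p) (h' : f * aeval x q' = aeval x p') :
    A.ev p * A.ev q' = A.ev p' * A.ev q := by
  have h1 := (hF.ker (p * q' - p' * q)).1 (by
    rw [map_sub, map_mul, map_mul, ← h, ← h']; ring)
  rwa [cq_sub, cq_mul, cq_mul, sub_eq_zero] at h1

theorem cq_res {P : Y → ℂ} {B : AD n N {y // P y ≠ 0}} (hS : A.Sub P B)
    (p : MvPolynomial (Fin (N + 1)) ℂ) : B.ev p = fun y => A.ev p y.1 := by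
  funext y
  simp only [AD.ev, hS.x]

theorem cq_S {l l' : ℕ} {f g : Y → ℂ} (hf : f ∈ A.S 0 l) (hg : g ∈ A.S 0 l') :
    f * g ∈ A.S 0 (l + l') := by
  have h := AD.S_mul hf hg
  rwa [add_zero] at h

theorem cq_F {m0 : ℕ} {s s' t t' : Y → ℂ} (h : A.FlatQ m0 0 s s') (h' : A.FlatQ m0 0 t t')
    (hs : A.D.Hol s) (hs' : A.D.Hol s') (ht : A.D.Hol t) (ht' : A.D.Hol t') :
    A.FlatQ m0 0 (s * t) (s' * t') := by
  have k := h.mul h' hs hs' ht ht'
  rwa [add_zero] at k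

theorem fi_one (hA : A.Good) (m0 : ℕ) : A.FI m0 1 :=
  ⟨RD.hol_const 1, ⟨0, 1, La_one A, cq_one_ne hA, by rw [mul_one]; exact La_one A⟩,
    cq_const m0 1⟩

theorem fi_mul (hA : A.Good) {m0 : ℕ} {a b : Y → ℂ} (ha : A.FI m0 a) (hb : A.FI m0 b) :
    A.FI m0 (a * b) := by
  obtain ⟨l, D, hD, h0, h1⟩ := ha.2.1
  obtain ⟨l', D', hD', h0', h1'⟩ := hb.2.1
  refine ⟨ha.1.mul hb.1, ⟨l + l', D * D', cq_S hD hD', hA.mul_ne hD.1 hD'.1 h0 h0', ?_⟩, ?_⟩
  · rw [mul_mul_mul_comm]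
    exact cq_S h1 h1'
  · have h := cq_F ha.2.2 hb.2.2 ha.1 (RD.hol_const 1) hb.1 (RD.hol_const 1)
    rwa [mul_one] at h

theorem fi_div (hA : A.Good) {m0 : ℕ} {a b : Y → ℂ} (ha : A.FI m0 a) (hb : A.FI m0 b)
    (h0 : ∀ y, b y ≠ 0) : A.FI m0 (a / b) := by
  obtain ⟨l, D, hD, hD0, h1⟩ := ha.2.1
  obtain ⟨l', D', hD', hD0', h1'⟩ := hb.2.1
  obtain ⟨y₀, -⟩ := hA.conn.nonempty
  have hb0 : b ≠ 0 := fun h => h0 y₀ (congrFun h y₀)
  have hh : A.D.Hol (a / b) := ha.1.mul (hb.1.inv h0)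
  refine ⟨hh, ⟨l + l', D * (D' * b), cq_S hD h1',
    hA.mul_ne hD.1 h1'.1 hD0 (hA.mul_ne hD'.1 hb.1 hD0' hb0), ?_⟩, ?_⟩
  · have e : D * (D' * b) * (a / b) = D * a * D' := funext fun y => by
      have := h0 y
      simp only [Pi.mul_apply, Pi.div_apply]
      field_simp
    rw [e]
    exact cq_S h1 hD'
  · have h := ha.2.2.div hb.2.2 ha.1 (RD.hol_const 1) hb.1 (RD.hol_const 1)
    rw [mul_one, one_mul] at h
    refine h.congr hA ha.1 hb.1 hh (RD.hol_const 1) hb0 (funext fun y => ?_)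
    have := h0 y
    simp only [Pi.mul_apply, Pi.div_apply, Pi.one_apply]
    field_simp

theorem exists_K (hF : FF A x) (hA : A.Good) (m0 : ℕ) : ∃ K, IsK A x m0 K := by
  let S : Subalgebra ℂ F :=
    { carrier := {f | ∃ p q : MvPolynomial (Fin (N + 1)) ℂ, aeval x q ≠ 0 ∧
        f * aeval x q = aeval x p ∧ A.FlatQ m0 0 (A.ev p) (A.ev q)}
      add_mem' := by
        rintro a b ⟨p, q, hq, h, hf⟩ ⟨p', q', hq', h', hf'⟩
        refine ⟨p * q' + p' * q, q * q', by rw [map_mul]; exact mul_ne_zero hq hq', by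
          rw [map_add, map_mul, map_mul, map_mul, ← h, ← h']; ring, ?_⟩
        rw [cq_add]
        refine AD.FlatQ.add (hf.congr hA (cq_hol hA _) (cq_hol hA _) (cq_hol hA _) (cq_hol hA _)
          ((cq_ne hF).1 hq) ?_) (hf'.congr hA (cq_hol hA _) (cq_hol hA _) (cq_hol hA _)
            (cq_hol hA _) ((cq_ne hF).1 hq') ?_) (cq_hol hA _) (cq_hol hA _)
        · rw [cq_mul, cq_mul]; ring
        · rw [cq_mul, cq_mul]; ring
      mul_mem' := by
        rintro a b ⟨p, q, hq, h, hf⟩ ⟨p', q', hq', h', hf'⟩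
        refine ⟨p * p', q * q', by rw [map_mul]; exact mul_ne_zero hq hq', by
          rw [map_mul, map_mul, ← h, ← h']; ring, ?_⟩
        rw [cq_mul, cq_mul]
        exact cq_F hf hf' (cq_hol hA _) (cq_hol hA _) (cq_hol hA _) (cq_hol hA _)
      algebraMap_mem' := fun c => by
        refine ⟨C c, 1, by simp, by simp, ?_⟩
        have e1 : A.ev (C c) = fun _ => c := funext fun _ => eval_C c
        have e2 : A.ev 1 = 1 := funext fun _ => map_one _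
        rw [e1, e2]
        exact cq_const m0 c }
  have hi : ∀ f ∈ S, f⁻¹ ∈ S := by
    intro f hf
    by_cases h0 : f = 0
    · rwa [h0, inv_zero, ← h0]
    · obtain ⟨p, q, hq, h, hf⟩ := hf
      exact ⟨q, p, h ▸ mul_ne_zero h0 hq, by rw [← h, inv_mul_cancel_left₀ h0], hf.symm⟩
  refine ⟨S.toIntermediateField hi, fun f p q hq h => ⟨?_, fun hf => ⟨p, q, hq, h, hf⟩⟩⟩
  rintro ⟨p', q', hq', h', hf⟩
  exact hf.congr hA (cq_hol hA _) (cq_hol hA _) (cq_hol hA _) (cq_hol hA _) ((cq_ne hF).1 hq')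
    (cq_cross hF h' h)

theorem fi_of_K (hF : FF A x) (hA : A.Good) {m0 : ℕ} {K : IntermediateField ℂ F}
    (hK : IsK A x m0 K) {P : MvPolynomial (Fin (N + 1)) ℂ} (hP : A.ev P ≠ 0)
    {B : AD n N {y // A.ev P y ≠ 0}} (hS : A.Sub (A.ev P) B) (hB : B.Good) {f : F} (hf : f ∈ K)
    (hr : Reg x P f) : B.FI m0 fun y => (hF.pt y.1).v f := by
  obtain ⟨j, p, h⟩ := hr
  rw [← map_pow] at h
  have hq : aeval x (P ^ j) ≠ 0 := by
    rw [map_pow]
    exact pow_ne_zero _ ((cq_ne hF).2 hP)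
  have hq' : ∀ y : {y // A.ev P y ≠ 0}, A.ev (P ^ j) y.1 ≠ 0 := fun y => by
    have e : A.ev (P ^ j) y.1 = A.ev P y.1 ^ j := map_pow _ P j
    rw [e]
    exact pow_ne_zero _ y.2
  have h1 := (hS.flatQ hA (hA.ev_mem le_rfl) hP (cq_hol hA p) (cq_hol hA (P ^ j))).2
    ((hK f p _ hq h).1 hf)
  rw [← cq_res hS, ← cq_res hS] at h1
  have h2 : ∀ y, B.ev (P ^ j) y ≠ 0 := fun y => by
    rw [cq_res hS]
    exact hq' y
  have e : (fun y : {y // A.ev P y ≠ 0} => (hF.pt y.1).v f) = B.ev p / B.ev (P ^ j) := by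
    funext y
    rw [hF.pt_v (hq' y) h, cq_res hS, cq_res hS]
    rfl
  have e2 : B.ev p / B.ev (P ^ j) * B.ev (P ^ j) = B.ev p :=
    funext fun y => div_mul_cancel₀ _ (h2 y)
  obtain ⟨y₀, -⟩ := hB.conn.nonempty
  have h3 : B.ev (P ^ j) ≠ 0 := fun k => h2 y₀ (congrFun k y₀)
  have hh : B.D.Hol (B.ev p / B.ev (P ^ j)) := (cq_hol hB p).mul ((cq_hol hB _).inv h2)
  rw [e]
  refine ⟨hh, ⟨max p.totalDegree (P ^ j).totalDegree, B.ev (P ^ j), hB.ev_mem (le_max_right _ _),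
    h3, ?_⟩, h1.congr hB (cq_hol hB _) (cq_hol hB _) hh (RD.hol_const 1) h3 ?_⟩
  · rw [mul_comm, e2]
    exact hB.ev_mem (le_max_left _ _)
  · rw [e2, mul_one]

theorem K_of_fi (hF : FF A x) (hA : A.Good) {m0 : ℕ} {K : IntermediateField ℂ F}
    (hK : IsK A x m0 K) {P : MvPolynomial (Fin (N + 1)) ℂ} (hP : A.ev P ≠ 0)
    {B : AD n N {y // A.ev P y ≠ 0}} (hS : A.Sub (A.ev P) B) (hB : B.Good)
    {F0 : {y // A.ev P y ≠ 0} → ℂ} (h : B.FI m0 F0) :
    ∃ f ∈ K, ∀ y : {y // A.ev P y ≠ 0}, f ∈ (hF.pt y.1).S → (hF.pt y.1).v f = F0 y := by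
  obtain ⟨l, D, hD, hD0, h1⟩ := h.2.1
  obtain ⟨q, -, rfl⟩ := hB.gen l D hD
  obtain ⟨p, -, hp⟩ := hB.gen l _ h1
  have hq : aeval x q ≠ 0 := (cq_ne hF).2 fun k => hD0 (by
    rw [cq_res hS, k]
    rfl)
  have hf : aeval x p / aeval x q * aeval x q = aeval x p := div_mul_cancel₀ _ hq
  refine ⟨aeval x p / aeval x q, (hK _ p q hq hf).2 ?_, fun y hy => ?_⟩
  · refine (hS.flatQ hA (hA.ev_mem le_rfl) hP (cq_hol hA p) (cq_hol hA q)).1 ?_
    rw [← cq_res hS, ← cq_res hS]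
    refine h.2.2.congr hB h.1 (RD.hol_const 1) (cq_hol hB p) (cq_hol hB q) (cq_one_ne hB) ?_
    rw [← hp, mul_one, mul_comm]
  · obtain ⟨p', q', hq', h'⟩ := hy
    have h2 : B.ev p * B.ev q' = B.ev p' * B.ev q := by
      simp only [cq_res hS]
      exact funext fun z => congrFun (cq_cross hF hf h') z.1
    have h3 : F0 * B.ev q' - B.ev p' = 0 := by
      by_contra k
      refine hB.mul_ne (cq_hol hB q) ((h.1.mul (cq_hol hB q')).sub (cq_hol hB p')) hD0 k ?_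
      show B.ev q * (F0 * B.ev q' - B.ev p') = 0
      rw [mul_sub, ← mul_assoc, hp, h2, mul_comm, sub_self]
    have h4 := congrFun (sub_eq_zero.1 h3) y
    simp only [cq_res hS, Pi.mul_apply] at h4
    rw [hF.pt_v hq' h', div_eq_iff hq', h4]

end Vale.Agent.P299.PC
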