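import Vale.Agent.P299.CQ

/-! P299, part C: normalisation of the base data.
`bd0`: `a' (i, j) = a i * f j` on `I × I'`, `f' (j, j') = f j * f j'` on `I' × I'`, transported to `Fin (α + 1)`, `Fin (β + 1)` by
equivalences sending `0` to `(i0, j0)`, `(j0, j0)` (`Fintype.equivFinOfCardEq` composed with `Equiv.swap`);
`∑ ‖a'‖ ^ 2 = (∑ ‖a‖ ^ 2) (∑ ‖f‖ ^ 2)`, `lg a' = lg a + lg f`, `lg f' = lg f + lg f`; `levi` is additive on smooth functions and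
`levi (lg a) ≥ 0` (`LMd_lg` and the relation of `levi` with `LMd` in `M1a`, or P271A `Levi`).
`bd1`: `τ' = τ ^ M * a i0 / f j0` of weight `k M` (`FlatQ.mul`, `FlatQ.congr`, `S_mul`, `S_pow`), `a / a i0`, `f / f j0`. For
`lo`: the set of `y` with a good `ς ∈ Q` is closed (projection along the compact `Q`, `isClosedMap_fst_of_compactSpace`, or
`IsCompact.tendsto_subseq`), so it contains `interior O`. -/

open Set Filter Topology MvPolynomial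

noncomputable section

namespace Vale.Agent.P299.PC

variable {n N : ℕ} {Y : Type} [TopologicalSpace Y] [T2Space Y] [SecondCountableTopology Y]
  [MeasurableSpace Y] [BorelSpace Y] {A : AD n N Y}

open Vale.Agent.P271A

theorem cr_equiv {κ : Type} [Fintype κ] (k0 : κ) : ∃ α, ∃ e : Fin (α + 1) ≃ κ, e 0 = k0 := by
  classical
  obtain ⟨α, hα⟩ := Nat.exists_eq_succ_of_ne_zero (@Fintype.card_ne_zero κ _ ⟨k0⟩)
  exact ⟨α, (Equiv.swap 0 (Fintype.equivFinOfCardEq hα k0)).trans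
    (Fintype.equivFinOfCardEq hα).symm, by simp⟩

theorem cr_sum {Z κ I I' : Type} [Fintype κ] [Fintype I] [Fintype I'] (e : κ ≃ I × I')
    (a : I → Z → ℂ) (f : I' → Z → ℂ) (y : Z) :
    ∑ i, ‖(a (e i).1 * f (e i).2) y‖ ^ 2 = (∑ i, ‖a i y‖ ^ 2) * ∑ j, ‖f j y‖ ^ 2 := by
  rw [e.sum_comp fun p => ‖(a p.1 * f p.2) y‖ ^ 2, Fintype.sum_prod_type, Finset.sum_mul_sum]
  simp only [Pi.mul_apply, norm_mul, mul_pow]

theorem cr_pos {Z I : Type} [Fintype I] {a : I → Z → ℂ} {i0 : I} (h : a i0 = 1) (y : Z) :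
    0 < ∑ i, ‖a i y‖ ^ 2 :=
  Finset.sum_pos' (fun _ _ => sq_nonneg _) ⟨i0, Finset.mem_univ _, by simp [h]⟩

theorem cr_div {Z I : Type} [Fintype I] (a : I → Z → ℂ) (b : Z → ℂ) (y : Z) :
    ∑ i, ‖(a i / b) y‖ ^ 2 = (∑ i, ‖a i y‖ ^ 2) / ‖b y‖ ^ 2 := by
  simp only [Pi.div_apply, norm_div, div_pow, Finset.sum_div]

theorem cr_closed {Z : Type} [TopologicalSpace Z] {Q : Set Z} (hQ : IsCompact Q)
    {T : Z → Z → Prop} (hT : IsClosed {p : Z × Z | T p.1 p.2}) :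
    IsClosed {y | ∃ ς ∈ Q, T ς y} := by
  have := isCompact_iff_compactSpace.1 hQ
  have h := isClosedMap_snd_of_compactSpace (X := Q) (Y := Z) _
    (hT.preimage (continuous_subtype_val.prodMap continuous_id))
  refine closure_subset_iff_isClosed.1 ((closure_minimal ?_ h).trans ?_)
  · rintro y ⟨ς, h1, h2⟩
    exact ⟨(⟨ς, h1⟩, y), h2, rfl⟩
  · rintro _ ⟨p, hp, rfl⟩
    exact ⟨p.1.1, p.1.2, hp⟩

theorem bd0 (hA : A.Good) {m0 k : ℕ} (hk : 0 < k) {τ : Y → ℂ} (h1 : A.D.Hol τ) (h2 : ∀ y, τ y ≠ 0)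
    (h3 : A.Rat k τ) (h4 : A.FlatQ m0 k τ 1) {I I' : Type} [Fintype I] [Fintype I']
    {a : I → Y → ℂ} {f : I' → Y → ℂ} (ha : ∀ i, A.FI m0 (a i)) (hf : ∀ j, A.FI m0 (f j))
    {i0 : I} {j0 : I'} (ha0 : a i0 = 1) (hf0 : f j0 = 1)
    (up : ∃ C₀ : ℝ, ∀ y, ‖τ y‖ ^ 2 * Real.exp (-(k * A.φ y)) * ∑ i, ‖a i y‖ ^ 2 ≤
      C₀ * ∑ j, ‖f j y‖ ^ 2)
    (lo : ∃ c : ℝ, 0 < c ∧ ∀ y₀, ∃ O ∈ 𝓝 y₀, ∃ Q, IsCompact Q ∧ ∀ F, A.FI m0 F → ∀ y ∈ O,
      ∃ ς ∈ Q, F ς = F y ∧ c * ∑ j, ‖f j y‖ ^ 2 ≤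
        ‖τ ς‖ ^ 2 * Real.exp (-(k * A.φ ς)) * ∑ i, ‖a i y‖ ^ 2) : Nonempty A.BD := by
  obtain ⟨α, e, he⟩ := cr_equiv (i0, j0)
  obtain ⟨β, e', he'⟩ := cr_equiv (j0, j0)
  have pa := cr_pos ha0
  have pf := cr_pos hf0
  have sa : A.D.SmR (lg a) := (RD.SmR.sum _ fun i _ => (ha i).1.sm.normSq).log fun y => (pa y).ne'
  have sf : A.D.SmR (lg f) := (RD.SmR.sum _ fun i _ => (hf i).1.sm.normSq).log fun y => (pf y).ne'
  have l1 : lg (fun i => a (e i).1 * f (e i).2) = fun y => lg a y + lg f y := funext fun y => by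
    rw [lg, cr_sum, Real.log_mul (pa y).ne' (pf y).ne']; rfl
  have l2 : lg (fun i => f (e' i).1 * f (e' i).2) = fun y => lg f y + lg f y := funext fun y => by
    rw [lg, cr_sum, Real.log_mul (pf y).ne' (pf y).ne']; rfl
  obtain ⟨C₀, up⟩ := up
  obtain ⟨c, hc, lo⟩ := lo
  refine ⟨⟨m0, k, τ, α, β, fun i => a (e i).1 * f (e i).2, fun i => f (e' i).1 * f (e' i).2, hk, h1,
    h2, h3, h4, by simp [he, ha0, hf0], by simp [he', hf0], fun i => fi_mul hA (ha _) (hf _),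
    fun j => ⟨e.symm (i0, (e' j).1), e.symm (i0, (e' j).2), by simp [ha0]⟩, fun y v => ?_,
    ⟨C₀, fun y => ?_⟩, c, hc, fun y₀ => ?_⟩⟩
  · have h5 : 0 ≤ A.D.levi (lg a) y v := by
      have := RD.levi_log_sum_nonneg (D := A.D) (y := y) (v := v) Finset.univ
        (fun i _ => (ha i).1) le_rfl (fun p => by simpa using pa p)
      simp only [add_zero] at this
      exact this
    rw [l1, l2, RD.levi_add sa sf, RD.levi_add sf sf]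
    linarith
  · rw [cr_sum, cr_sum, ← mul_assoc, ← mul_assoc]
    exact mul_le_mul_of_nonneg_right (up y) (pf y).le
  · obtain ⟨O, hO, Q, hQ, h5⟩ := lo y₀
    refine ⟨O, hO, Q, hQ, fun F hF y hy => ?_⟩
    obtain ⟨ς, h6, h7, h8⟩ := h5 F hF y hy
    refine ⟨ς, h6, h7, ?_⟩
    rw [cr_sum, cr_sum, ← mul_assoc, ← mul_assoc]
    exact mul_le_mul_of_nonneg_right h8 (pf y).le

theorem bd1 (hA : A.Good) {m0 k M : ℕ} (hk : 0 < k) (hM : 0 < M) {τ : Y → ℂ} (h1 : A.D.Hol τ)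
    (h2 : ∀ y, τ y ≠ 0) (h3 : A.Rat k τ) (h4 : A.FlatQ m0 k τ 1) {I I' : Type} [Fintype I]
    [Fintype I'] {a : I → Y → ℂ} {f : I' → Y → ℂ} (ha : ∀ i, A.FI m0 (a i))
    (hf : ∀ j, A.FI m0 (f j)) {i0 : I} {j0 : I'} (ha0 : ∀ y, a i0 y ≠ 0) (hf0 : ∀ y, f j0 y ≠ 0)
    (up : ∃ C₀ : ℝ, ∀ y, (‖τ y‖ ^ 2 * Real.exp (-(k * A.φ y))) ^ M * ∑ i, ‖a i y‖ ^ 2 ≤
      C₀ * ∑ j, ‖f j y‖ ^ 2)
    (lo : ∃ c : ℝ, 0 < c ∧ ∀ y₀, ∃ O ∈ 𝓝 y₀, ∃ Q, IsCompact Q ∧ ∀ F, A.FI m0 F →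
      ∃ G, Dense G ∧ ∀ y ∈ O, y ∈ G → ∃ ς ∈ Q, F ς = F y ∧ a i0 ς = a i0 y ∧ f j0 ς = f j0 y ∧
        c * ∑ j, ‖f j y‖ ^ 2 ≤
          (‖τ ς‖ ^ 2 * Real.exp (-(k * A.φ ς))) ^ M * ∑ i, ‖a i y‖ ^ 2) : Nonempty A.BD := by
  have hg := fi_div hA (ha i0) (hf j0) hf0
  have hp : ∀ M : ℕ, A.D.Hol (τ ^ M) := fun M => h1.pow M
  have h0 : A.D.Hol 1 := RD.hol_const 1
  have fl : ∀ M : ℕ, A.FlatQ m0 (M * k) (τ ^ M) 1 := fun M => by
    induction M with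
    | zero => simpa using (fi_one hA m0).2.2
    | succ M ih => simpa [add_mul, pow_succ] using ih.mul h4 (hp M) h0 h1 h0
  have key : ∀ ς y, a i0 ς = a i0 y → f j0 ς = f j0 y →
      ‖(τ ^ M * (a i0 / f j0)) ς‖ ^ 2 * Real.exp (-((M * k : ℕ) * A.φ ς)) *
        ∑ i, ‖(a i / a i0) y‖ ^ 2 =
      (‖τ ς‖ ^ 2 * Real.exp (-(k * A.φ ς))) ^ M * (∑ i, ‖a i y‖ ^ 2) / ‖f j0 y‖ ^ 2 :=
    fun ς y e1 e2 => by
      have n1 := norm_ne_zero_iff.2 (ha0 y)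
      have n2 := norm_ne_zero_iff.2 (hf0 y)
      rw [cr_div, mul_pow, ← Real.exp_nat_mul, Nat.cast_mul, mul_assoc (M : ℝ), ← mul_neg]
      simp only [Pi.mul_apply, Pi.div_apply, Pi.pow_apply, norm_mul, norm_div, norm_pow, e1, e2]
      field_simp
      ring
  obtain ⟨C₀, up⟩ := up
  obtain ⟨c, hc, lo⟩ := lo
  refine bd0 hA (k := M * k) (mul_pos hM hk) (τ := τ ^ M * (a i0 / f j0)) ((hp M).mul hg.1)
    (fun y => mul_ne_zero (pow_ne_zero M (h2 y)) (div_ne_zero (ha0 y) (hf0 y))) ?_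
    (by simpa using (fl M).mul hg.2.2 (hp M) h0 hg.1 h0)
    (fun i => fi_div hA (ha i) (ha i0) ha0) (fun j => fi_div hA (hf j) (hf j0) hf0)
    (i0 := i0) (j0 := j0) (funext fun y => div_self (ha0 y)) (funext fun y => div_self (hf0 y))
    ⟨C₀, fun y => ?_⟩ ⟨c, hc, fun y₀ => ?_⟩
  · obtain ⟨l, B, b1, b2, b3⟩ := h3
    obtain ⟨l', B', c1, c2, c3⟩ := hg.2.1
    obtain ⟨y, hy⟩ := Function.ne_iff.1 b2
    refine ⟨M * l + l', B ^ M * B', by simpa using AD.S_mul (AD.S_pow b1 M) c1,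
      hA.mul_ne (AD.S_pow b1 M).1 c1.1 (Function.ne_iff.2 ⟨y, pow_ne_zero M hy⟩) c2, ?_⟩
    have := AD.S_mul (AD.S_pow b3 M) c3
    rwa [add_zero, mul_pow, mul_mul_mul_comm, ← Nat.cast_mul] at this
  · rw [key y y rfl rfl, cr_div, ← mul_div_assoc]
    exact div_le_div_of_nonneg_right (up y) (sq_nonneg _)
  · obtain ⟨O, hO, Q, hQ, h5⟩ := lo y₀
    refine ⟨interior O, interior_mem_nhds.2 hO, Q, hQ, fun F hF y hy => ?_⟩
    obtain ⟨G, hG, h6⟩ := h5 F hF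
    have c1 := hF.1.sm.continuous
    have c2 := fun i => (ha i).1.sm.continuous
    have c3 := fun j => (hf j).1.sm.continuous
    have c4 := h1.sm.continuous
    have c5 := hA.hφ.continuous
    have h7 := cr_closed hQ (T := fun ς y => F ς = F y ∧ a i0 ς = a i0 y ∧ f j0 ς = f j0 y ∧
        c * ∑ j, ‖f j y‖ ^ 2 ≤ (‖τ ς‖ ^ 2 * Real.exp (-(k * A.φ ς))) ^ M * ∑ i, ‖a i y‖ ^ 2)
      ((isClosed_eq (by fun_prop) (by fun_prop)).and
        ((isClosed_eq (by fun_prop) (by fun_prop)).and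
          ((isClosed_eq (by fun_prop) (by fun_prop)).and
            (isClosed_le (by fun_prop) (by fun_prop)))))
    obtain ⟨ς, d1, d2, d3, d4, d5⟩ := closure_minimal
      (fun p hp => h6 p (interior_subset hp.1) hp.2) h7
      (hG.open_subset_closure_inter isOpen_interior hy)
    refine ⟨ς, d1, d2, ?_⟩
    rw [key ς y d3 d4, cr_div, ← mul_div_assoc]
    exact div_le_div_of_nonneg_right d5 (sq_nonneg _)

end Vale.Agent.P299.PC
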