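import Vale.Agent.P299.CJ
import Vale.Agent.P299.CL
import Vale.Agent.P299.CQ

/-! P299, part C: the two integrality hypotheses.
`intA`: take `e' ∈ S (-m₁) d'` nonzero (`exists_ne`); `σ e' = ev p₁` (`gen`, degree `l₁ = l₀ + d'`), and
`w e' e ^ j = ev p₂` of degree `l₁ + j d` (`S_mul`, `S_pow`). With `κ = F / B ∈ K` (`IsK`) the identity of functions gives
`aeval p₁ * z ^ j = κ * aeval p₂` in the field (multiply by `aeval q ^ j` and the denominator, `hF.ker`). So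
`(C (aeval p₁) * X ^ l₁) * (C z * X ^ d) ^ j ∈ HR` (`hom_mem`); `int_of_pow` (`HR` is of finite type over `K`).
`intB`: `c i = ev (p i)`, `κ i = c i / s' ∈ K`. Use `int_of_bdd` in `Polynomial F` with the family
`C (κ i * x m ^ d) * X ^ d`, `C (x m) * X`, the set `s = {C (x m), X, C z, C (κ i)}`, `b = C (aeval x (p0 * q))`. `ζ` is algebraic:
`ζ * (C (aeval q) * X ^ D) = C (aeval p) * X ^ (D + d)` with `hom_mem` for `K = ℂ`. A point `χ` restricts to `F` (`PH.res`),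
`exists_pt` gives `ς`; `‖z ς‖ ^ 2 ≤ C nx ^ d ∑ ‖κ i ς‖ ^ 2` and `nx ^ d ≤ C ∑ ‖x m‖ ^ (2 d)`. Finally
`adjoin ℂ (range g) ≤ HR K x` (for `d = 0` too), `IsIntegral.tower_top`-type transfer (`IsIntegral.map_of_comp_eq`). -/

open Set Filter Topology MvPolynomial

noncomputable section

namespace Vale.Agent.P299.PC

variable {n N : ℕ} {Y : Type} [TopologicalSpace Y] [T2Space Y] [SecondCountableTopology Y]
  [MeasurableSpace Y] [BorelSpace Y] {A : AD n N Y}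
  {F : Type} [Field F] [Algebra ℂ F] {x : Fin (N + 1) → F}

theorem cs_C {K : IntermediateField ℂ F} {f : F} (hf : f ∈ K) : Polynomial.C f ∈ HR K x :=
  (HR K x).algebraMap_mem (⟨f, hf⟩ : K)

theorem cs_noeth (K : IntermediateField ℂ F) (x : Fin (N + 1) → F) : IsNoetherianRing (HR K x) :=
  isNoetherianRing_of_fg (Subalgebra.fg_def.2 ⟨_, finite_range _, rfl⟩)

theorem cs_aeval {S : Subalgebra ℂ (Polynomial F)} (h : ∀ m, Polynomial.C (x m) ∈ S)
    (P : MvPolynomial (Fin (N + 1)) ℂ) : Polynomial.C (aeval x P) ∈ S := by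
  induction P using MvPolynomial.induction_on with
  | C c =>
    rw [aeval_C]
    exact S.algebraMap_mem c
  | add p q hp hq =>
    rw [map_add, map_add]
    exact add_mem hp hq
  | mul_X p i hp =>
    rw [map_mul, map_mul, aeval_X]
    exact mul_mem hp (h i)

theorem cs_alg {R : Type} [CommRing R] [Algebra ℂ R] {S : Subalgebra ℂ R} {a b ζ : R} (ha : a ∈ S)
    (hb : b ∈ S) (h0 : a ≠ 0) (h : a * ζ = b) : IsAlgebraic S ζ := by
  refine ⟨Polynomial.C (⟨a, ha⟩ : S) * Polynomial.X - Polynomial.C (⟨b, hb⟩ : S), fun h1 => ?_, ?_⟩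
  · have h2 := congrArg (fun P => Polynomial.coeff P 1) h1
    simp only [Polynomial.coeff_sub, Polynomial.coeff_C_mul, Polynomial.coeff_X_one, mul_one,
      Polynomial.coeff_C_succ, sub_zero, Polynomial.coeff_zero] at h2
    exact h0 (congrArg Subtype.val h2)
  · rw [map_sub, map_mul, Polynomial.aeval_C, Polynomial.aeval_C, Polynomial.aeval_X]
    exact sub_eq_zero.2 h

theorem cs_pow (a : Fin (N + 1) → ℝ) (ha : ∀ m, 0 ≤ a m) (d : ℕ) :
    (∑ m, a m) ^ d ≤ (N + 1 : ℝ) ^ d * ∑ m, a m ^ d := by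
  obtain ⟨m, hm⟩ := Finite.exists_max a
  have h1 : ∑ m, a m ≤ (N + 1 : ℝ) * a m := by
    have := Finset.sum_le_card_nsmul Finset.univ a (a m) fun i _ => hm i
    simpa using this
  have h2 : a m ^ d ≤ ∑ m, a m ^ d :=
    Finset.single_le_sum (f := fun m => a m ^ d) (fun i _ => pow_nonneg (ha i) d) (Finset.mem_univ m)
  calc (∑ m, a m) ^ d ≤ ((N + 1 : ℝ) * a m) ^ d :=
        pow_le_pow_left₀ (Finset.sum_nonneg fun i _ => ha i) h1 d
    _ = (N + 1 : ℝ) ^ d * a m ^ d := mul_pow _ _ _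
    _ ≤ _ := mul_le_mul_of_nonneg_left h2 (by positivity)

omit [T2Space Y] [SecondCountableTopology Y] [BorelSpace Y] in
theorem cs_K (hF : FF A x) {m0 : ℕ} {K : IntermediateField ℂ F} (hK : IsK A x m0 K)
    {p q : MvPolynomial (Fin (N + 1)) ℂ} (hq : A.ev q ≠ 0) (h : A.FlatQ m0 0 (A.ev p) (A.ev q)) :
    ∃ κ ∈ K, κ * aeval x q = aeval x p := by
  have hq0 : aeval x q ≠ 0 := fun h0 => hq ((hF.ker q).1 h0)
  have h1 : aeval x p / aeval x q * aeval x q = aeval x p := div_mul_cancel₀ _ hq0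
  exact ⟨_, (hK _ p q hq0 h1).2 h, h1⟩

theorem intA (hF : FF A x) (hA : A.Good) {m0 k d : ℕ} {K : IntermediateField ℂ F}
    (hK : IsK A x m0 K) {s e : Y → ℂ} {p q : MvPolynomial (Fin (N + 1)) ℂ}
    (h : A.IntA m0 k s (A.ev q)) (hq : A.ev q ≠ 0) (he : e ∈ A.S (-k) d) (hp : s * e = A.ev p)
    {z : F} (hz : z * aeval x q = aeval x p) : IntK K x d z := by
  obtain ⟨m₁, l₀, σ, hσ, hσ0, h⟩ := h
  obtain ⟨d', e', he', he0⟩ := hA.exists_ne (-m₁)
  have h1 : σ * e' ∈ A.S 0 (l₀ + d') := by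
    have := AD.S_mul hσ he'
    rwa [add_neg_cancel] at this
  obtain ⟨p₁, hp₁, hp₁'⟩ := hA.gen _ _ h1
  have h2 : aeval x p₁ ≠ 0 := fun h0 =>
    hA.mul_ne hσ.1 he'.1 hσ0 he0 (hp₁'.trans ((hF.ker p₁).1 h0))
  have hq0 : aeval x q ≠ 0 := fun h0 => hq ((hF.ker q).1 h0)
  have := cs_noeth K x
  refine int_of_pow (σ := Polynomial.C (aeval x p₁) * Polynomial.X ^ (l₀ + d'))
    (mul_ne_zero (Polynomial.C_ne_zero.2 h2) (pow_ne_zero _ Polynomial.X_ne_zero)) fun j₀ => ?_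
  obtain ⟨j, hj, w, hw, l', F0, hF0, B, hB, hB0, hfl, heq⟩ := h j₀
  refine ⟨j, hj, ?_⟩
  have h3 : w * e' * e ^ j ∈ A.S 0 (l₀ + d' + j * d) := by
    have := AD.S_mul (AD.S_mul hw he') (AD.S_pow he j)
    have e0 : m₁ + (j : ℤ) * (k : ℤ) + -m₁ + (j : ℤ) * -(k : ℤ) = 0 := by ring
    rwa [e0] at this
  obtain ⟨p₂, hp₂, hp₂'⟩ := hA.gen _ _ h3
  obtain ⟨pF, -, rfl⟩ := hA.gen _ _ hF0
  obtain ⟨pB, -, rfl⟩ := hA.gen _ _ hB
  obtain ⟨κ, hκ, hκ'⟩ := cs_K hF hK hB0 hfl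
  have hB1 : aeval x pB ≠ 0 := fun h0 => hB0 ((hF.ker pB).1 h0)
  have h4 : aeval x (p₁ * p ^ j * pB - pF * p₂ * q ^ j) = 0 := by
    refine (hF.ker _).2 (funext fun y => ?_)
    have a1 := congrFun heq y
    have a2 := congrFun hp₁' y
    have a3 := congrFun hp₂' y
    have a4 := congrFun hp y
    simp only [AD.ev, Pi.mul_apply, Pi.pow_apply, map_sub, map_mul, map_pow, Pi.zero_apply]
      at a1 a2 a3 a4 ⊢
    rw [← a2, ← a3, ← a4]
    linear_combination (e' y * e y ^ j) * a1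
  have h5 : aeval x p₁ * z ^ j = κ * aeval x p₂ := by
    simp only [map_sub, map_mul, map_pow] at h4
    rw [← hz, ← hκ'] at h4
    have h6 : (aeval x p₁ * z ^ j - κ * aeval x p₂) * (aeval x q ^ j * aeval x pB) = 0 := by
      linear_combination h4
    exact sub_eq_zero.1 ((mul_eq_zero.1 h6).resolve_right (mul_ne_zero (pow_ne_zero _ hq0) hB1))
  have h7 : Polynomial.C (aeval x p₁) * Polynomial.X ^ (l₀ + d') *
      (Polynomial.C z * Polynomial.X ^ d) ^ j = Polynomial.C κ *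
        (Polynomial.C (aeval x p₂) * Polynomial.X ^ (l₀ + d' + j * d) : Polynomial F) := by
    have h8 := congrArg (Polynomial.C : F → Polynomial F) h5
    simp only [map_mul, map_pow] at h8
    linear_combination (Polynomial.X : Polynomial F) ^ (l₀ + d' + j * d) * h8
  rw [h7]
  exact ⟨⟨_, mul_mem (cs_C hκ) (hom_mem K hF.gen.1 hp₂)⟩, rfl⟩

theorem intB (hF : FF A x) (hA : A.Good) {m0 k l d : ℕ} {K : IntermediateField ℂ F}
    (hK : IsK A x m0 K) {s e : Y → ℂ} {p q : MvPolynomial (Fin (N + 1)) ℂ}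
    (h : A.IntB m0 k l s (A.ev q)) (hq : A.ev q ≠ 0) (he : e ∈ A.S (-k) d) (hp : s * e = A.ev p)
    {z : F} (hz : z * aeval x q = aeval x p) : IntK K x d z := by
  obtain ⟨r, c, hc, hb⟩ := h
  have hq0 : aeval x q ≠ 0 := fun h0 => hq ((hF.ker q).1 h0)
  have hP0 : aeval x A.p0 ≠ 0 := fun h0 => by
    obtain ⟨y, -⟩ := hA.conn.nonempty
    exact hA.ne0 y (congrFun ((hF.ker _).1 h0) y)
  choose pc _ hpc using fun i => hA.gen _ _ (hc i).1
  choose κ hκ hκ' using fun i => cs_K hF hK hq (p := pc i) (hpc i ▸ (hc i).2)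
  obtain ⟨C₀, hC₀⟩ := he.2
  let g : (Fin r × Fin (N + 1)) ⊕ Fin (N + 1) → Polynomial F :=
    Sum.elim (fun a => Polynomial.C (κ a.1) * (Polynomial.C (x a.2) * Polynomial.X) ^ d)
      fun m => Polynomial.C (x m) * Polynomial.X
  have hle : HR ℂ x ≤ Algebra.adjoin ℂ (range g) :=
    Algebra.adjoin_mono (by rintro _ ⟨m, rfl⟩; exact ⟨Sum.inr m, rfl⟩)
  have halg : IsAlgebraic (Algebra.adjoin ℂ (range g))
      (Polynomial.C z * Polynomial.X ^ d : Polynomial F) := by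
    refine cs_alg (hle (hom_mem ℂ hF.gen.1 (p := q) (D := q.totalDegree + p.totalDegree) (by omega)))
      (hle (hom_mem ℂ hF.gen.1 (p := p) (D := q.totalDegree + p.totalDegree + d) (by omega)))
      (mul_ne_zero (Polynomial.C_ne_zero.2 hq0) (pow_ne_zero _ Polynomial.X_ne_zero)) ?_
    rw [← hz, map_mul]
    ring
  let S : Set (Polynomial F) := (range fun m => Polynomial.C (x m)) ∪
    (range fun i => Polynomial.C (κ i)) ∪ {Polynomial.X, Polynomial.C z}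
  have hS : S.Finite := ((finite_range _).union (finite_range _)).union (toFinite _)
  have hint := int_of_bdd g halg hS (b := Polynomial.C (aeval x (A.p0 * q)))
    (cs_aeval (fun m => Algebra.subset_adjoin (Or.inl (Or.inl ⟨m, rfl⟩))) _)
    (Polynomial.C_ne_zero.2 (by rw [map_mul]; exact mul_ne_zero hP0 hq0))
    (C₀ := |C₀| * (N + 1 : ℝ) ^ d) (by
      intro χ _ _ hs hb0
      let ψ : PH F := χ.comap Polynomial.CAlgHom
      have hx : ∀ m, Polynomial.C (x m) ∈ χ.S := fun m => hs _ (Or.inl (Or.inl ⟨m, rfl⟩))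
      have hk : ∀ i, Polynomial.C (κ i) ∈ χ.S := fun i => hs _ (Or.inl (Or.inr ⟨i, rfl⟩))
      have hX : Polynomial.X ∈ χ.S := hs _ (Or.inr (Or.inl rfl))
      have hZ : Polynomial.C z ∈ χ.S := hs _ (Or.inr (Or.inr rfl))
      have hx' : ∀ m, x m ∈ ψ.S := hx
      have hb1 : ψ.v (aeval x (A.p0 * q)) ≠ 0 := hb0
      rw [map_mul, ψ.v_mul (PH.v_aeval hx' _).1 (PH.v_aeval hx' _).1] at hb1
      obtain ⟨ς, hς, -⟩ := hF.exists_pt hA hx' (left_ne_zero_of_mul hb1)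
      have hev : ∀ P, ψ.v (aeval x P) = A.ev P ς := fun P => by
        rw [(PH.v_aeval hx' P).2, AD.ev]
        simp only [hς]
      have hq1 : A.ev q ς ≠ 0 := hev q ▸ right_ne_zero_of_mul hb1
      have e1 : ψ.v z * A.ev q ς = s ς * e ς := by
        have hZ' : z ∈ ψ.S := hZ
        rw [← hev q, ← ψ.v_mul hZ' (PH.v_aeval hx' _).1, hz, hev p, ← hp]
        rfl
      have e2 : ∀ i, ψ.v (κ i) * A.ev q ς = c i ς := fun i => by
        have hk' : κ i ∈ ψ.S := hk i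
        rw [← hev q, ← ψ.v_mul hk' (PH.v_aeval hx' _).1, hκ' i, hev (pc i), ← hpc i]
      have hn : 0 ≤ A.nx ς ^ d := pow_nonneg (zero_le_one.trans (hA.one_le_nx ς)) d
      have e3 : ‖ψ.v z‖ ^ 2 ≤ |C₀| * A.nx ς ^ d * ∑ i, ‖ψ.v (κ i)‖ ^ 2 := by
        have hQ : 0 < ‖A.ev q ς‖ ^ 2 := pow_pos (norm_pos_iff.2 hq1) 2
        refine le_of_mul_le_mul_right ?_ hQ
        have a1 : ‖ψ.v z‖ ^ 2 * ‖A.ev q ς‖ ^ 2 = ‖s ς‖ ^ 2 * ‖e ς‖ ^ 2 := by
          rw [← mul_pow, ← norm_mul, e1, norm_mul, mul_pow]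
        have a2 : (∑ i, ‖ψ.v (κ i)‖ ^ 2) * ‖A.ev q ς‖ ^ 2 = ∑ i, ‖c i ς‖ ^ 2 := by
          rw [Finset.sum_mul]
          exact Finset.sum_congr rfl fun i _ => by rw [← mul_pow, ← norm_mul, e2]
        have a3 : ‖e ς‖ ^ 2 ≤ |C₀| * (Real.exp (-(k * A.φ ς)) * A.nx ς ^ d) := by
          have a4 := hC₀ ς
          rw [Int.cast_neg, Int.cast_natCast, neg_mul] at a4
          exact a4.trans (mul_le_mul_of_nonneg_right (le_abs_self _)
            (mul_nonneg (Real.exp_pos _).le hn))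
        have a5 := mul_le_mul_of_nonneg_left a3 (sq_nonneg ‖s ς‖)
        have a6 := mul_le_mul_of_nonneg_left (hb ς) (mul_nonneg (abs_nonneg C₀) hn)
        rw [a1, mul_assoc, a2]
        linarith
      have e4 : A.nx ς ^ d ≤ (N + 1 : ℝ) ^ d * ∑ m, (‖A.x m ς‖ ^ 2) ^ d :=
        cs_pow (fun m => ‖A.x m ς‖ ^ 2) (fun m => sq_nonneg _) d
      have e5 : χ.v (Polynomial.C z * Polynomial.X ^ d) = ψ.v z * χ.v Polynomial.X ^ d := by
        rw [χ.v_mul hZ (pow_mem hX d), PH.v_pow hX]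
        rfl
      have e6 : ∀ a : Fin r × Fin (N + 1), ‖χ.v (g (Sum.inl a))‖ ^ 2 =
          ‖ψ.v (κ a.1)‖ ^ 2 * ((‖A.x a.2 ς‖ ^ 2) ^ d * (‖χ.v Polynomial.X‖ ^ d) ^ 2) := fun a => by
        have a1 : χ.v (g (Sum.inl a)) = ψ.v (κ a.1) * (A.x a.2 ς * χ.v Polynomial.X) ^ d := by
          show χ.v (Polynomial.C (κ a.1) * (Polynomial.C (x a.2) * Polynomial.X) ^ d) = _
          rw [χ.v_mul (hk _) (pow_mem (mul_mem (hx _) hX) d), PH.v_pow (mul_mem (hx _) hX),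
            χ.v_mul (hx _) hX, hς]
          rfl
        rw [a1, norm_mul, norm_pow, norm_mul]
        ring
      have e7 : (∑ i, ‖ψ.v (κ i)‖ ^ 2) * ((∑ m, (‖A.x m ς‖ ^ 2) ^ d) * (‖χ.v Polynomial.X‖ ^ d) ^ 2)
          ≤ ∑ i, ‖χ.v (g i)‖ ^ 2 := by
        rw [Fintype.sum_sum_type, Fintype.sum_prod_type, Finset.sum_mul, Finset.sum_mul]
        simp only [e6, Finset.mul_sum]
        exact le_add_of_nonneg_right (Finset.sum_nonneg fun i _ => sq_nonneg _)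
      have e8 : 0 ≤ ∑ i, ‖ψ.v (κ i)‖ ^ 2 := Finset.sum_nonneg fun i _ => sq_nonneg _
      have e9 := mul_le_mul_of_nonneg_left e7
        (mul_nonneg (abs_nonneg C₀) (by positivity : (0 : ℝ) ≤ (N + 1 : ℝ) ^ d))
      have e10 := mul_le_mul_of_nonneg_right e3 (sq_nonneg (‖χ.v Polynomial.X‖ ^ d))
      have e11 := mul_le_mul_of_nonneg_left e4
        (mul_nonneg (mul_nonneg (abs_nonneg C₀) e8) (sq_nonneg (‖χ.v Polynomial.X‖ ^ d)))
      rw [e5, norm_mul, norm_pow, mul_pow]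
      linarith)
  have hle2 : Algebra.adjoin ℂ (range g) ≤ (HR K x).restrictScalars ℂ := by
    have hm : ∀ m, Polynomial.C (x m) * Polynomial.X ∈ HR K x := fun m =>
      Algebra.subset_adjoin ⟨m, rfl⟩
    refine Algebra.adjoin_le ?_
    rintro _ ⟨a | m, rfl⟩
    · exact mul_mem (cs_C (hκ a.1)) (pow_mem (hm a.2) d)
    · exact hm m
  exact IsIntegral.map_of_comp_eq
    ((Algebra.adjoin ℂ (range g)).val.toRingHom.codRestrict (HR K x) fun a => hle2 a.2)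
    (RingHom.id _) (RingHom.ext fun _ => rfl) hint

end Vale.Agent.P299.PC
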