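import Vale.Agent.P299.PartL
import Vale.Agent.P272.APAlg
import Vale.Agent.P271A.Levi
import Vale.Agent.P271A.Part

/-! P299, part D: definitions. -/

open MeasureTheory Set Filter Topology Matrix
open scoped ContDiff ENNReal ComplexConjugate ComplexOrder

noncomputable section

namespace Vale.Agent.P299.PD

open Vale.Agent.P271A

section RD
variable {n : ℕ} {Y : Type} [TopologicalSpace Y] [MeasurableSpace Y] (D : RD n Y) {κ : Type}

/-- Smooth matrix valued functions. -/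
def SmM (H : Y → Matrix κ κ ℂ) : Prop := ∀ a b, D.Sm fun y => H y a b

/-- The derivative of a matrix valued function. -/
def mdX (ξ : E n × E n) (H : Y → Matrix κ κ ℂ) (y : Y) : Matrix κ κ ℂ :=
  Matrix.of fun a b => D.dX ξ (fun p => H p a b) y

/-- The derivative of a vector valued function. -/
def vdX (ξ : E n × E n) (s : Y → κ → ℂ) (y : Y) : κ → ℂ := fun a => D.dX ξ (fun p => s p a) y

/-- The holomorphic differential of a real function. -/
def dr (f : Y → ℝ) (y : Y) : Fin n → ℂ := dzv D (fun p => (f p : ℂ)) y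

/-- The squared length of a covector. -/
def gr (Ψ : Y → ℝ) (y : Y) (ξ : Fin n → ℂ) : ℝ := q2 (LMd D Ψ y)⁻¹ (star ξ)

/-- The properties of the norm of a bounded holomorphic section of a bundle whose curvature has
trace at most `τ`. -/
structure Sub (Ψ τ S : Y → ℝ) : Prop where
  sm : D.SmR S
  nn : ∀ y, 0 ≤ S y
  bdd : ∃ C, ∀ y, S y ≤ C
  lap0 : ∀ y, 0 ≤ lap D Ψ S y + τ y * S y
  grad : ∀ y, gr D Ψ y (dr D S y) ≤ S y * (lap D Ψ S y + τ y * S y)

variable [Fintype κ] [DecidableEq κ]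

/-- The connection matrices. -/
def con (H : Y → Matrix κ κ ℂ) (k : Fin n) (y : Y) : Matrix κ κ ℂ :=
  (H y)⁻¹ * mdX D (zv k) H y

/-- Minus the trace of the curvature. -/
def cT (Ψ : Y → ℝ) (H : Y → Matrix κ κ ℂ) (y : Y) : Matrix κ κ ℂ :=
  ∑ k, ∑ l, (LMd D Ψ y)⁻¹ k l • mdX D (bv l) (con D H k) y

/-- The covariant derivative. -/
def nab (H : Y → Matrix κ κ ℂ) (s : Y → κ → ℂ) (k : Fin n) (y : Y) : κ → ℂ :=
  (H y)⁻¹ *ᵥ vdX D (zv k) (fun p => H p *ᵥ s p) y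

end RD

/-- The squared length of a vector valued covector. -/
def nsq {n : ℕ} {κ : Type} [Fintype κ] (P : Matrix (Fin n) (Fin n) ℂ) (H : Matrix κ κ ℂ)
    (w : Fin n → κ → ℂ) : ℝ :=
  (∑ k, ∑ l, P k l * (star (w l) ⬝ᵥ H *ᵥ w k)).re

/-- The exterior product of a list of vectors. -/
def wl {ι : Type} [Fintype ι] [LinearOrder ι] : List (ι → ℂ) → W ι
  | [] => Pi.single ∅ 1
  | a :: l => wdg a *ᵥ wl l

/-- The coefficients of `det (θ + ε ϖ)`. -/
def cf {n : ℕ} (θ ϖ : Matrix (Fin n) (Fin n) ℂ) (i : ℕ) : ℝ :=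
  (∑ s ∈ Finset.univ.filter fun s : Finset (Fin n) => s.card = i,
    (Matrix.of (s.piecewise (fun j => ϖ j) fun j => θ j)).det).re

section AD
variable {n N : ℕ} {Y : Type} [TopologicalSpace Y] [MeasurableSpace Y] (A : AD n N Y)

/-- The covariant differential of `s / s'`. -/
def et (k : ℕ) (s s' : Y → ℂ) (y : Y) : Fin n → ℂ := fun j =>
  s' y * A.D.dz j s y - s y * A.D.dz j s' y - k * (s y * s' y * A.D.dz j (fun p => (A.φ p : ℂ)) y)

/-- The norm of the exterior product of a list of twisted fields. -/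
def wS {R : ℕ} (e : Fin R ≃ Finset (Fin n)) (Φ : Y → ℝ) (L : List (ℕ × (Y → W (Fin n)))) (y : Y) :
    ℝ :=
  q2 (Gm ((Gm (LMd A.D Φ y)).submatrix e e)) (wl (L.map fun x => x.2 y ∘ e)) *
    Real.exp (-(((L.map Prod.fst).sum : ℕ) * A.φ y))

/-- The quotient `s / s'` is the quotient of two bounded sections killed by the curvature. -/
def Pair (k : ℕ) (s s' : Y → ℂ) : Prop :=
  ∃ M : ℕ, ∀ Φ, A.YM Φ → ∃ S₁ S₂ : Y → ℝ, Sub A.D Φ (fun y => M * lap A.D Φ A.φ y) S₁ ∧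
    Sub A.D Φ (fun y => M * lap A.D Φ A.φ y) S₂ ∧ (∀ y, s' y ≠ 0 → 0 < S₁ y) ∧
    ∀ y, ‖s' y‖ ^ 2 * S₂ y = ‖s y‖ ^ 2 * Real.exp (-(k * A.φ y)) * S₁ y

/-- The volume of the class `φ + ε ρ`. -/
def vol (ε : ℝ) : ℝ := ∫ y, dV A.D (fun p => A.φ p + ε * A.ρ p) y ∂A.D.μ

end AD

end Vale.Agent.P299.PD
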