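import Vale.Agent.P299.FockB

/-! P299: positivity in the Fock space. -/

open MeasureTheory Set Filter Topology Matrix
open scoped ContDiff ENNReal ComplexConjugate ComplexOrder

noncomputable section

namespace Vale.Agent.P299

variable {ι : Type} [Fintype ι] [LinearOrder ι]

section Aux
variable {κ : Type} [Fintype κ]

open scoped MatrixOrder in
theorem Fock_sq {g : Matrix ι ι ℂ} (hg : g.PosSemidef) : ∃ b : Matrix ι ι ℂ, g = bᴴ * b :=
  CStarAlgebra.nonneg_iff_eq_star_mul_self.mp hg.nonneg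

theorem Fock_sq' {g : Matrix ι ι ℂ} (hg : g.PosDef) :
    ∃ b : Matrix ι ι ℂ, IsUnit b.det ∧ g = bᴴ * b := by
  obtain ⟨b, rfl⟩ := Fock_sq hg.posSemidef
  have h := (isUnit_iff_isUnit_det _).1 hg.isUnit
  rw [det_mul] at h
  exact ⟨b, isUnit_of_mul_isUnit_right h, rfl⟩

theorem Fock_rows {g : Matrix ι ι ℂ} (hg : g.PosSemidef) :
    ∃ η : ι → ι → ℂ, g = ∑ a, vecMulVec (star (η a)) (η a) := by
  obtain ⟨b, rfl⟩ := Fock_sq hg
  refine ⟨fun a => b a, ?_⟩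
  ext j k
  simp [Matrix.mul_apply, Matrix.sum_apply, vecMulVec_apply]

theorem Fock_q2_conj {κ' : Type} [Fintype κ'] (H : Matrix κ κ ℂ) (B : Matrix κ κ' ℂ) (v : κ' → ℂ) :
    q2 (Bᴴ * H * B) v = q2 H (B *ᵥ v) := by
  unfold q2
  rw [star_mulVec, ← dotProduct_mulVec, mulVec_mulVec, mulVec_mulVec]

theorem Fock_q2_sq [DecidableEq κ] (B : Matrix κ κ ℂ) (v : κ → ℂ) :
    q2 (Bᴴ * B) v = q2 1 (B *ᵥ v) := by
  rw [← Fock_q2_conj, Matrix.mul_one]

theorem Fock_q2_add (H H' : Matrix κ κ ℂ) (v : κ → ℂ) : q2 (H + H') v = q2 H v + q2 H' v := by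
  unfold q2
  rw [add_mulVec, dotProduct_add, Complex.add_re]

theorem Fock_q2_nonneg {H : Matrix κ κ ℂ} (h : H.PosSemidef) (v : κ → ℂ) : 0 ≤ q2 H v :=
  h.re_dotProduct_nonneg v

theorem Fock_q2_one [DecidableEq κ] (v : κ → ℂ) : q2 1 v = ∑ i, ‖v i‖ ^ 2 := by
  unfold q2
  rw [one_mulVec, dotProduct, Complex.re_sum]
  refine Finset.sum_congr rfl fun i _ => ?_
  rw [Pi.star_apply, Complex.star_def, Complex.conj_mul', ← Complex.ofReal_pow, Complex.ofReal_re]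

theorem Fock_dot_self [DecidableEq κ] (v : κ → ℂ) : star v ⬝ᵥ v = (q2 1 v : ℝ) := by
  rw [Fock_q2_one, dotProduct, Complex.ofReal_sum]
  refine Finset.sum_congr rfl fun i _ => ?_
  rw [Pi.star_apply, Complex.star_def, Complex.conj_mul', Complex.ofReal_pow]

theorem Fock_cs [DecidableEq κ] (x y : κ → ℂ) : ‖star x ⬝ᵥ y‖ ^ 2 ≤ q2 1 x * q2 1 y := by
  have h := norm_inner_le_norm (𝕜 := ℂ) (WithLp.toLp 2 x : EuclideanSpace ℂ κ) (WithLp.toLp 2 y)
  rw [EuclideanSpace.inner_toLp_toLp, dotProduct_comm] at h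
  rw [Fock_q2_one, Fock_q2_one]
  have h1 := EuclideanSpace.norm_sq_eq (WithLp.toLp 2 x : EuclideanSpace ℂ κ)
  have h2 := EuclideanSpace.norm_sq_eq (WithLp.toLp 2 y : EuclideanSpace ℂ κ)
  simp only [PiLp.toLp_apply] at h1 h2
  rw [← h1, ← h2, ← mul_pow]
  exact pow_le_pow_left₀ (norm_nonneg _) h 2

theorem Fock_ctr_star (ξ : ι → ℂ) : (ctr ξ)ᴴ = wdg (star ξ) := by
  simp [ctr, wdg, cr, conjTranspose_sum]

theorem Fock_wdg_star (ξ : ι → ℂ) : (wdg ξ)ᴴ = ctr (star ξ) := by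
  simp [ctr, wdg, cr, conjTranspose_sum]

theorem Fock_car (η ξ : ι → ℂ) : ctr η * wdg ξ + wdg ξ * ctr η = (η ⬝ᵥ ξ) • 1 := by
  unfold ctr wdg
  rw [Finset.sum_mul_sum, Finset.sum_mul_sum, Finset.sum_comm (f := fun i j => ξ i • cr i * η j • an j),
    ← Finset.sum_add_distrib, dotProduct, Finset.sum_smul]
  refine Finset.sum_congr rfl fun i _ => ?_
  rw [← Finset.sum_add_distrib]
  have e : ∀ j, η i • an i * ξ j • cr j + ξ j • cr j * η i • an i =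
      (η i * ξ j) • (if i = j then (1 : Matrix (Finset ι) (Finset ι) ℂ) else 0) := fun j => by
    rw [← an_cr, smul_mul_smul_comm, smul_mul_smul_comm, mul_comm (ξ j), smul_add]
  simp only [e, smul_ite, smul_zero, Finset.sum_ite_eq, Finset.mem_univ, if_true]

theorem Fock_wdg_wdg (η ξ : ι → ℂ) : wdg η * wdg ξ = -(wdg ξ * wdg η) := by
  unfold wdg
  rw [Finset.sum_mul_sum, Finset.sum_mul_sum, Finset.sum_comm, ← Finset.sum_neg_distrib]
  refine Finset.sum_congr rfl fun i _ => ?_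
  rw [← Finset.sum_neg_distrib]
  refine Finset.sum_congr rfl fun j _ => ?_
  rw [smul_mul_smul_comm, smul_mul_smul_comm, cr_cr, mul_comm, smul_neg]

theorem Fock_wdg_sq (ξ : ι → ℂ) : wdg ξ * wdg ξ = 0 := by
  have h := Fock_wdg_wdg ξ ξ
  have h2 : (2 : ℂ) • (wdg ξ * wdg ξ) = 0 := by
    rw [two_smul]
    exact add_eq_zero_iff_eq_neg.2 h
  exact (smul_eq_zero.1 h2).resolve_left two_ne_zero

theorem Fock_wdg_add (η ξ : ι → ℂ) (c : ℂ) : wdg (η + c • ξ) = wdg η + c • wdg ξ := by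
  simp [wdg, add_smul, Finset.sum_add_distrib, Finset.smul_sum, mul_smul]

/-- `Gm g` is determined by the vacuum column and the intertwining relation -/
theorem Fock_uniq {T : Matrix (Finset ι) (Finset ι) ℂ} {g : Matrix ι ι ℂ}
    (h0 : ∀ K, T K ∅ = (1 : Matrix (Finset ι) (Finset ι) ℂ) K ∅)
    (h : ∀ ξ, T * wdg ξ = wdg (g *ᵥ ξ) * T) : T = Gm g := by
  have key : ∀ l : List ι, T * (l.map fun j => wdg fun k => (1 : Matrix ι ι ℂ) k j).prod =
      (l.map fun j => wdg fun k => g k j).prod * T := by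
    intro l
    induction l with
    | nil => simp
    | cons j l ih =>
      have e : (g *ᵥ fun k => (1 : Matrix ι ι ℂ) k j) = fun k => g k j := by
        funext k
        show (g * (1 : Matrix ι ι ℂ)) k j = g k j
        rw [Matrix.mul_one]
      rw [List.map_cons, List.prod_cons, List.map_cons, List.prod_cons, ← Matrix.mul_assoc, h, e,
        Matrix.mul_assoc, ih, Matrix.mul_assoc]
  ext I J
  have h1 : T I J = (T * Gm (1 : Matrix ι ι ℂ)) I J := by rw [Gm_one, Matrix.mul_one]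
  have h2 : (T * Gm (1 : Matrix ι ι ℂ)) I J =
      (T * ((J.sort (· ≤ ·)).map fun j => wdg fun k => (1 : Matrix ι ι ℂ) k j).prod) I ∅ := rfl
  rw [h1, h2, key, Matrix.mul_apply]
  simp only [h0]
  rw [← Matrix.mul_apply, Matrix.mul_one]
  rfl

theorem Fock_rank (g : Matrix ι ι ℂ) (u w : ι → ℂ) :
    Gm (g + vecMulVec u w) = Gm g + wdg u * Gm g * ctr w := by
  symm
  refine Fock_uniq (fun K => ?_) fun ξ => ?_
  · have e : (wdg u * Gm g * ctr w) K ∅ = 0 := by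
      rw [Matrix.mul_apply]
      refine Finset.sum_eq_zero fun L _ => ?_
      have : ctr w L ∅ = 0 := by
        simp [ctr, an, Matrix.sum_apply, (Finset.insert_ne_empty _ _).symm]
      rw [this, mul_zero]
    rw [Matrix.add_apply, e, add_zero]
    simp [Gm]
  · have e1 : (g + vecMulVec u w) *ᵥ ξ = g *ᵥ ξ + (w ⬝ᵥ ξ) • u := by
      rw [add_mulVec, vecMulVec_mulVec, op_smul_eq_smul]
    have e2 : ctr w * wdg ξ = (w ⬝ᵥ ξ) • 1 - wdg ξ * ctr w := eq_sub_of_add_eq (Fock_car w ξ)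
    have e3 : wdg u * Gm g * (wdg ξ * ctr w) = -(wdg (g *ᵥ ξ) * (wdg u * Gm g * ctr w)) := by
      rw [Matrix.mul_assoc, ← Matrix.mul_assoc (Gm g), Gm_wdg, ← Matrix.mul_assoc,
        ← Matrix.mul_assoc, Fock_wdg_wdg]
      simp only [Matrix.neg_mul, Matrix.mul_assoc]
    have e4 : wdg u * (wdg u * Gm g * ctr w) = 0 := by
      rw [Matrix.mul_assoc, ← Matrix.mul_assoc, Fock_wdg_sq, Matrix.zero_mul]
    rw [e1, Fock_wdg_add, Matrix.add_mul, Matrix.mul_assoc _ (ctr w), e2, Matrix.mul_sub, e3,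
      Gm_wdg, Matrix.add_mul, Matrix.mul_add, Matrix.mul_add, Matrix.smul_mul, Matrix.smul_mul, e4,
      Matrix.mul_smul, Matrix.mul_one, smul_zero]
    abel

theorem Fock_sum (η : κ → ι → ℂ) (G : Matrix (Finset ι) (Finset ι) ℂ) (v : W ι) :
    ∑ j, ∑ k, (∑ a, vecMulVec (star (η a)) (η a)) j k * (star (an j *ᵥ v) ⬝ᵥ G *ᵥ an k *ᵥ v) =
      ∑ a, star (ctr (η a) *ᵥ v) ⬝ᵥ G *ᵥ ctr (η a) *ᵥ v := by
  have e : ∀ a, star (ctr (η a) *ᵥ v) ⬝ᵥ G *ᵥ ctr (η a) *ᵥ v =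
      ∑ j, ∑ k, star (η a j) * η a k * (star (an j *ᵥ v) ⬝ᵥ G *ᵥ an k *ᵥ v) := fun a => by
    unfold ctr
    rw [sum_mulVec, star_sum, sum_dotProduct]
    refine Finset.sum_congr rfl fun j _ => ?_
    rw [mulVec_sum, dotProduct_sum]
    refine Finset.sum_congr rfl fun k _ => ?_
    rw [smul_mulVec, smul_mulVec, star_smul, mulVec_smul, smul_dotProduct, dotProduct_smul,
      smul_eq_mul, smul_eq_mul, mul_assoc]
  simp only [e, Matrix.sum_apply, vecMulVec_apply, Finset.sum_mul, Pi.star_apply]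
  rw [Finset.sum_comm (f := fun a j => ∑ k, star (η a j) * η a k *
    (star (an j *ᵥ v) ⬝ᵥ G *ᵥ an k *ᵥ v))]
  exact Finset.sum_congr rfl fun j _ => Finset.sum_comm

theorem Fock_ctr_row (η : κ → ι → ℂ) (k : ι) :
    ctr ((∑ a, vecMulVec (star (η a)) (η a)) k) = ∑ a, star (η a k) • ctr (η a) := by
  unfold ctr
  simp only [Matrix.sum_apply, vecMulVec_apply, Finset.sum_smul, Finset.smul_sum, smul_smul,
    Pi.star_apply]
  exact Finset.sum_comm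

theorem Fock_split (a : ι → ℂ) (u : W ι) :
    q2 1 (wdg a *ᵥ u) + q2 1 (ctr (star a) *ᵥ u) = q2 1 a * q2 1 u := by
  rw [← Fock_q2_sq, ← Fock_q2_sq, ← Fock_q2_add, Fock_wdg_star, Fock_ctr_star, star_star, Fock_car,
    Fock_dot_self]
  unfold q2
  rw [smul_mulVec, dotProduct_smul, smul_eq_mul, Complex.re_ofReal_mul]

end Aux

theorem Gm_posDef {g : Matrix ι ι ℂ} (hg : g.PosDef) : (Gm g).PosDef := by
  obtain ⟨b, hb, rfl⟩ := Fock_sq' hg
  rw [Gm_mul, Gm_star]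
  refine (posSemidef_conjTranspose_mul_self _).posDef_iff_isUnit.2 ?_
  have h := (isUnit_iff_isUnit_det _).2 (Gm_inv hb).2
  exact h.star.mul h

theorem Gm_psd {g : Matrix ι ι ℂ} (hg : g.PosSemidef) : (Gm g).PosSemidef := by
  obtain ⟨b, rfl⟩ := Fock_sq hg
  rw [Gm_mul, Gm_star]
  exact posSemidef_conjTranspose_mul_self _

theorem Gm_mono {g h : Matrix ι ι ℂ} (hg : g.PosSemidef) (hh : (h - g).PosSemidef)
    (v : W ι) : q2 (Gm g) v ≤ q2 (Gm h) v := by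
  obtain ⟨η, hη⟩ := Fock_rows hh
  have key : ∀ s : Finset ι, q2 (Gm g) v ≤ q2 (Gm (g + ∑ a ∈ s, vecMulVec (star (η a)) (η a))) v := by
    intro s
    induction s using Finset.induction_on with
    | empty => simp
    | insert a s ha ih =>
      have hp : (g + ∑ a ∈ s, vecMulVec (star (η a)) (η a)).PosSemidef :=
        hg.add (posSemidef_sum _ fun a _ => posSemidef_vecMulVec_star_self _)
      rw [Finset.sum_insert ha, add_left_comm, add_comm, Fock_rank, Fock_q2_add, ← Fock_ctr_star,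
        Fock_q2_conj]
      exact ih.trans (le_add_of_nonneg_right (Fock_q2_nonneg (Gm_psd hp) _))
  have := key Finset.univ
  rwa [← hη, add_sub_cancel] at this

/-- The curvature term is nonnegative and vanishes exactly when `θ` kills `v`. -/
theorem curv_nonneg {g θ : Matrix ι ι ℂ} (hg : g.PosDef) (hθ : θ.PosSemidef) (v : W ι) :
    0 ≤ (∑ j, ∑ k, θ j k * (star (an j *ᵥ v) ⬝ᵥ Gm g *ᵥ an k *ᵥ v)).re ∧
      ((∑ j, ∑ k, θ j k * (star (an j *ᵥ v) ⬝ᵥ Gm g *ᵥ an k *ᵥ v)).re = 0 ↔ Kill θ v) := by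
  obtain ⟨η, rfl⟩ := Fock_rows hθ
  have hG := Gm_posDef hg
  have h0 : ∀ a ∈ (Finset.univ : Finset ι),
      0 ≤ (star (ctr (η a) *ᵥ v) ⬝ᵥ Gm g *ᵥ ctr (η a) *ᵥ v).re :=
    fun a _ => Fock_q2_nonneg hG.posSemidef _
  refine ⟨?_, fun h k => ?_, fun h => ?_⟩
  · rw [Fock_sum, Complex.re_sum]
    exact Finset.sum_nonneg h0
  · rw [Fock_sum, Complex.re_sum, Finset.sum_eq_zero_iff_of_nonneg h0] at h
    rw [Fock_ctr_row, sum_mulVec]
    refine Finset.sum_eq_zero fun a _ => ?_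
    have e : ctr (η a) *ᵥ v = 0 := by
      by_contra hne
      exact (hG.re_dotProduct_pos hne).ne' (h a (Finset.mem_univ _))
    rw [smul_mulVec, e, smul_zero]
  · generalize (∑ a, vecMulVec (star (η a)) (η a)) = θ at h
    have e : ∀ j, ∑ k, θ j k * (star (an j *ᵥ v) ⬝ᵥ Gm g *ᵥ an k *ᵥ v) =
        star (an j *ᵥ v) ⬝ᵥ Gm g *ᵥ ctr (θ j) *ᵥ v := fun j => by
      unfold ctr
      rw [sum_mulVec, mulVec_sum, dotProduct_sum]
      refine Finset.sum_congr rfl fun k _ => ?_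
      rw [smul_mulVec, mulVec_smul, dotProduct_smul, smul_eq_mul]
    simp only [e, h _, mulVec_zero, dotProduct_zero, Finset.sum_const_zero, Complex.zero_re]

theorem Kill.dG {θ : Matrix ι ι ℂ} {v : W ι} (h : Kill θ v) (g : Matrix ι ι ℂ) :
    dG (g * θ) *ᵥ v = 0 := by
  have e : P299.dG (g * θ) = ∑ j, ∑ l, g j l • (cr j * ctr (θ l)) := by
    unfold P299.dG ctr
    refine Finset.sum_congr rfl fun j _ => ?_
    simp only [Matrix.mul_apply, Finset.sum_smul, Finset.mul_sum, Finset.smul_sum, Matrix.mul_smul,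
      smul_smul]
    exact Finset.sum_comm
  rw [e, sum_mulVec]
  refine Finset.sum_eq_zero fun j _ => ?_
  rw [sum_mulVec]
  refine Finset.sum_eq_zero fun l _ => ?_
  rw [smul_mulVec, ← mulVec_mulVec, h l, mulVec_zero, smul_zero]

theorem kill_add {θ θ' : Matrix ι ι ℂ} (h : θ.PosSemidef) (h' : θ'.PosSemidef) {v : W ι}
    (hv : Kill (θ + θ') v) : Kill θ v ∧ Kill θ' v := by
  have h1 := curv_nonneg (PosDef.one (n := ι) (R := ℂ)) h v
  have h2 := curv_nonneg (PosDef.one (n := ι) (R := ℂ)) h' v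
  have h3 := (curv_nonneg (PosDef.one (n := ι) (R := ℂ)) (h.add h') v).2.2 hv
  simp only [Matrix.add_apply, add_mul, Finset.sum_add_distrib, Complex.add_re] at h3
  exact ⟨h1.2.1 (by linarith [h1.1, h2.1]), h2.2.1 (by linarith [h1.1, h2.1])⟩

/-- If `|ξ w|² ≤ C θ(w)` for all `w` and `θ` kills `v`, then `ξ` contracts `v` to zero. -/
theorem Kill.ctr {θ : Matrix ι ι ℂ} (h : θ.PosSemidef) {v : W ι} (hv : Kill θ v) {ξ : ι → ℂ}
    {C : ℝ} (hξ : ∀ w, ‖ξ ⬝ᵥ w‖ ^ 2 ≤ C * q2 θ w) : P299.ctr ξ *ᵥ v = 0 := by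
  funext I
  have e : ∀ η : ι → ℂ, (P299.ctr η *ᵥ v) I = η ⬝ᵥ fun k => (an k *ᵥ v) I := fun η => by
    unfold P299.ctr
    rw [sum_mulVec, Finset.sum_apply, dotProduct]
    refine Finset.sum_congr rfl fun k _ => ?_
    rw [smul_mulVec, Pi.smul_apply, smul_eq_mul]
  have h1 : (θ *ᵥ fun k => (an k *ᵥ v) I) = 0 := by
    funext j
    exact (e (θ j)).symm.trans (congrFun (hv j) I)
  have h2 := hξ fun k => (an k *ᵥ v) I
  unfold q2 at h2
  rw [h1, dotProduct_zero, Complex.zero_re, mul_zero] at h2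
  rw [e]
  exact norm_eq_zero.1 (pow_eq_zero_iff two_ne_zero |>.1 (le_antisymm h2 (sq_nonneg _)))

theorem q2_wdg_le {g : Matrix ι ι ℂ} (hg : g.PosDef) (ξ : ι → ℂ) (u : W ι) :
    q2 (Gm g) (wdg ξ *ᵥ u) ≤ q2 g ξ * q2 (Gm g) u := by
  obtain ⟨b, rfl⟩ := Fock_sq hg.posSemidef
  rw [Gm_mul, Gm_star, Fock_q2_sq, Fock_q2_sq, Fock_q2_sq, mulVec_mulVec, Gm_wdg, ← mulVec_mulVec,
    ← Fock_split]
  exact le_add_of_nonneg_right (Fock_q2_nonneg PosSemidef.one _)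

theorem q2_ctr_le {g : Matrix ι ι ℂ} (hg : g.PosDef) (ξ : ι → ℂ) (v : W ι) :
    q2 (Gm g) (ctr ξ *ᵥ v) ≤ q2 g⁻¹ (star ξ) * q2 (Gm g) v := by
  obtain ⟨b, hb, rfl⟩ := Fock_sq' hg
  have e : Gm b * ctr ξ = ctr (ξ ᵥ* b⁻¹) * Gm b := by
    rw [ctr_Gm, vecMul_vecMul, nonsing_inv_mul _ hb, vecMul_one]
  have e2 : (bᴴ * b)⁻¹ = (b⁻¹ᴴ)ᴴ * b⁻¹ᴴ := by
    rw [Matrix.mul_inv_rev, conjTranspose_conjTranspose, conjTranspose_nonsing_inv]
  have e3 : ξ ᵥ* b⁻¹ = star (b⁻¹ᴴ *ᵥ star ξ) := by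
    rw [star_mulVec, star_star, conjTranspose_conjTranspose]
  rw [e2, Gm_mul, Gm_star, Fock_q2_sq, Fock_q2_sq, Fock_q2_sq, mulVec_mulVec, e, ← mulVec_mulVec,
    ← Fock_split, e3]
  exact le_add_of_nonneg_left (Fock_q2_nonneg PosSemidef.one _)

/-- The dual norm. -/
theorem q2_inv_le {g : Matrix ι ι ℂ} (hg : g.PosDef) (ξ : ι → ℂ) {C : ℝ} :
    q2 g⁻¹ ξ ≤ C ↔ 0 ≤ C ∧ ∀ w, ‖star ξ ⬝ᵥ w‖ ^ 2 ≤ C * q2 g w := by
  have h0 := Fock_q2_nonneg hg.inv.posSemidef ξ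
  have hu := (isUnit_iff_isUnit_det _).1 hg.isUnit
  refine ⟨fun h => ⟨h0.trans h, fun w => ?_⟩, fun h => ?_⟩
  · refine le_trans ?_ (mul_le_mul_of_nonneg_right h (Fock_q2_nonneg hg.posSemidef w))
    obtain ⟨b, hb, rfl⟩ := Fock_sq' hg
    have e2 : (bᴴ * b)⁻¹ = (b⁻¹ᴴ)ᴴ * b⁻¹ᴴ := by
      rw [Matrix.mul_inv_rev, conjTranspose_conjTranspose, conjTranspose_nonsing_inv]
    have e3 : star ξ ⬝ᵥ w = star (b⁻¹ᴴ *ᵥ ξ) ⬝ᵥ b *ᵥ w := by
      rw [star_mulVec, conjTranspose_conjTranspose, ← dotProduct_mulVec, mulVec_mulVec,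
        nonsing_inv_mul _ hb, one_mulVec]
    rw [e2, Fock_q2_sq, Fock_q2_sq, e3]
    exact Fock_cs _ _
  · have h1 := h.2 (g⁻¹ *ᵥ ξ)
    have e1 : q2 g (g⁻¹ *ᵥ ξ) = q2 g⁻¹ ξ := by
      rw [← Fock_q2_conj, hg.inv.1.eq, nonsing_inv_mul _ hu, Matrix.one_mul]
    have e2 : q2 g⁻¹ ξ ≤ ‖star ξ ⬝ᵥ g⁻¹ *ᵥ ξ‖ := Complex.re_le_norm _
    rw [e1] at h1
    by_contra hc
    rw [not_le] at hc
    nlinarith [h.1, pow_le_pow_left₀ h0 e2 2]

/-- The norm for a metric that is a sum of squares of covectors. -/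
theorem q2_succ {κ : Type} [Fintype κ] (η : κ → ι → ℂ) {g : Matrix ι ι ℂ}
    (hg : g = ∑ a, vecMulVec (star (η a)) (η a)) {q : ℕ} {v : W ι} (hv : Dg q v) :
    q * q2 (Gm g) v = ∑ a, q2 (Gm g) (ctr (η a) *ᵥ v) := by
  have h1 := Gm_dG g 1 v
  rw [← mulVec_mulVec, hv.num, mulVec_smul, dotProduct_smul, smul_eq_mul, Matrix.mul_one] at h1
  have h2 := Fock_sum η (Gm g) v
  rw [← hg, ← h1] at h2
  have h3 := congrArg Complex.re h2
  rw [Complex.re_sum, ← Complex.ofReal_natCast, Complex.re_ofReal_mul] at h3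
  exact h3

end Vale.Agent.P299
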