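import Vale.Agent.P299.D0
import Vale.Agent.P272.Mat
import Vale.Agent.P299.Fock

/-!
P299, part D: inequalities for Hermitian matrices. Use P272/Mat (`Mat_simul`, `Mat_det`, `Mat_trace`, `Mat_comb`, `Mat_psd`,
`psd_trace_sub`, `trace_mul_nonneg`). `tr_det_le`: `∑ l ≤ ∏ (1 + l)`. `dot_le`: `q2_inv_le`. `det_cf`: `MultilinearMap.map_add_univ` and
`map_piecewise_smul` for `Matrix.detRowAlternating`, `Finset.sum_fiberwise_of_maps_to`. `cf_nonneg`: the real polynomials `∑ C (cf i) * X ^ i` and
`C ‖det‖² * ∏ (X + C (l i))` agree (`Polynomial.funext`), and products of polynomials with nonnegative coefficients have nonnegative coefficients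
(`Polynomial.coeff_mul`); for `n < i` the sum is empty.
-/

open MeasureTheory Set Filter Topology Matrix
open scoped ContDiff ENNReal ComplexConjugate ComplexOrder

noncomputable section

namespace Vale.Agent.P299.PD

open Vale.Agent.P271A

variable {n : ℕ} {G γ θ ϖ : Matrix (Fin n) (Fin n) ℂ}

theorem tr_nonneg (hG : G.PosDef) (hγ : γ.PosSemidef) : 0 ≤ (G⁻¹ * γ).trace.re :=
  P272.trace_mul_nonneg hG.inv.posSemidef hγ

theorem D1_sum_le (s : Finset (Fin n)) {l : Fin n → ℝ} (hl : ∀ i, 0 ≤ l i) :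
    1 + ∑ i ∈ s, l i ≤ ∏ i ∈ s, (1 + l i) := by
  induction s using Finset.induction_on with
  | empty => simp
  | insert a s ha ih =>
    rw [Finset.sum_insert ha, Finset.prod_insert ha]
    have h0 : 0 ≤ ∑ i ∈ s, l i := Finset.sum_nonneg fun i _ => hl i
    nlinarith [hl a, mul_nonneg (hl a) h0, mul_le_mul_of_nonneg_left ih (hl a)]

theorem tr_det_le (hG : G.PosDef) (hγ : γ.PosSemidef) :
    (G⁻¹ * γ).trace.re * G.det.re ≤ (G + γ).det.re := by
  obtain ⟨D, l, hD, rfl, rfl⟩ := P272.Mat_simul hG hγ.isHermitian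
  have hl := (P272.Mat_psd hD l).1 hγ
  have e := P272.Mat_comb D (fun _ => 1) l 1 1
  simp only [Complex.ofReal_one, one_smul, one_mul] at e
  rw [e, P272.Mat_trace hD (fun _ => one_pos), P272.Mat_det, P272.Mat_det]
  simp only [div_one, Finset.prod_const_one, mul_one]
  have h := D1_sum_le Finset.univ hl
  rw [mul_comm]
  exact mul_le_mul_of_nonneg_left (by linarith) (by positivity)

theorem q2_le_tr (hG : G.PosDef) (hγ : γ.PosSemidef) (X : Fin n → ℂ) :
    q2 γ X ≤ (G⁻¹ * γ).trace.re * q2 G X := by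
  have h := (P272.psd_trace_sub hG hγ).dotProduct_mulVec_nonneg X
  have h2 := (Complex.le_def.1 h).1
  rw [sub_mulVec, smul_mulVec, dotProduct_sub, dotProduct_smul, smul_eq_mul, Complex.sub_re,
    Complex.re_ofReal_mul, Complex.zero_re] at h2
  unfold q2
  linarith

theorem dot_le (hG : G.PosDef) (ξ X : Fin n → ℂ) :
    ‖ξ ⬝ᵥ X‖ ^ 2 ≤ q2 G⁻¹ (star ξ) * q2 G X := by
  have h := ((q2_inv_le hG (star ξ)).1 le_rfl).2 X
  rwa [star_star] at h

theorem D1_det (θ ϖ : Matrix (Fin n) (Fin n) ℂ) (c : ℂ) :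
    (θ + c • ϖ).det = ∑ s : Finset (Fin n),
      c ^ s.card * (Matrix.of (s.piecewise (fun j => ϖ j) fun j => θ j)).det := by
  have h := (detRowAlternating (n := Fin n) (R := ℂ)).toMultilinearMap.map_add_univ
    (fun j => c • ϖ j) fun j => θ j
  have e0 : (θ + c • ϖ).det = (detRowAlternating (n := Fin n) (R := ℂ)).toMultilinearMap
      ((fun j => c • ϖ j) + fun j => θ j) := by
    rw [add_comm θ]
    rfl
  rw [e0, h]
  refine Finset.sum_congr rfl fun s _ => ?_
  have h2 := (detRowAlternating (n := Fin n) (R := ℂ)).toMultilinearMap.map_piecewise_smul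
    (fun _ => c) (s.piecewise (fun j => ϖ j) fun j => θ j) s
  have e1 : s.piecewise (fun j => c • ϖ j) (fun j => θ j)
      = s.piecewise (fun i => c • s.piecewise (fun j => ϖ j) (fun j => θ j) i)
        (s.piecewise (fun j => ϖ j) fun j => θ j) := by
    funext i
    by_cases hi : i ∈ s <;> simp [Finset.piecewise, hi]
  rw [e1, h2, Finset.prod_const, smul_eq_mul]
  rfl

theorem det_cf (θ ϖ : Matrix (Fin n) (Fin n) ℂ) (ε : ℝ) :
    (θ + (ε : ℂ) • ϖ).det.re = ∑ i ∈ Finset.range (n + 1), cf θ ϖ i * ε ^ i := by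
  rw [D1_det, ← Finset.sum_fiberwise_of_maps_to (s := Finset.univ) (t := Finset.range (n + 1))
    (g := fun s : Finset (Fin n) => s.card)
    (fun s _ => Finset.mem_range.2 (Nat.lt_succ_of_le (by simpa using s.card_le_univ))),
    Complex.re_sum]
  refine Finset.sum_congr rfl fun i _ => ?_
  unfold cf
  rw [mul_comm, ← Complex.re_ofReal_mul, Finset.mul_sum]
  refine congrArg Complex.re (Finset.sum_congr rfl fun s hs => ?_)
  rw [(Finset.mem_filter.1 hs).2, Complex.ofReal_pow]

theorem D1_coeff (s : Finset (Fin n)) {l : Fin n → ℝ} (hl : ∀ i, 0 ≤ l i) (k : ℕ) :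
    0 ≤ (∏ i ∈ s, (Polynomial.X + Polynomial.C (l i))).coeff k := by
  induction s using Finset.induction_on generalizing k with
  | empty =>
    rw [Finset.prod_empty, Polynomial.coeff_one]
    split_ifs <;> norm_num
  | insert a s ha ih =>
    rw [Finset.prod_insert ha, Polynomial.coeff_mul]
    refine Finset.sum_nonneg fun p _ => mul_nonneg ?_ (ih _)
    rw [Polynomial.coeff_add, Polynomial.coeff_X, Polynomial.coeff_C]
    have := hl a
    split_ifs <;> linarith

theorem cf_nonneg (hθ : θ.PosSemidef) (hϖ : ϖ.PosDef) (i : ℕ) : 0 ≤ cf θ ϖ i := by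
  by_cases hi : i < n + 1
  · obtain ⟨D, l, hD, h1, h2⟩ := P272.Mat_simul hϖ hθ.isHermitian
    have hl := (P272.Mat_psd hD l).1 (h2 ▸ hθ)
    have e : ∑ j ∈ Finset.range (n + 1), Polynomial.monomial j (cf θ ϖ j)
        = Polynomial.C (‖D.det‖ ^ 2) * ∏ j, (Polynomial.X + Polynomial.C (l j)) := by
      apply Polynomial.funext
      intro ε
      have e1 := P272.Mat_comb D l (fun _ => 1) 1 ε
      rw [Complex.ofReal_one, one_smul, ← h1, ← h2] at e1
      have e2 := det_cf θ ϖ ε
      rw [e1, P272.Mat_det] at e2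
      simp only [Polynomial.eval_finsetSum, Polynomial.eval_monomial, Polynomial.eval_mul,
        Polynomial.eval_C, Polynomial.eval_prod, Polynomial.eval_add, Polynomial.eval_X]
      rw [← e2]
      refine congrArg _ (Finset.prod_congr rfl fun j _ => ?_)
      ring
    have e3 := congrArg (fun p => Polynomial.coeff p i) e
    simp only [Polynomial.finsetSum_coeff, Polynomial.coeff_monomial, Polynomial.coeff_C_mul,
      Finset.sum_ite_eq', Finset.mem_range, hi, if_true] at e3
    rw [e3]
    exact mul_nonneg (by positivity) (D1_coeff _ hl i)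
  · unfold cf
    rw [Finset.filter_eq_empty_iff.2, Finset.sum_empty, Complex.zero_re]
    intro s _ hs
    have : s.card ≤ n := by simpa using s.card_le_univ
    omega

theorem continuous_cf {X : Type} [TopologicalSpace X] {θ ϖ : X → Matrix (Fin n) (Fin n) ℂ}
    (hθ : ∀ j k, Continuous fun x => θ x j k) (hϖ : ∀ j k, Continuous fun x => ϖ x j k) (i : ℕ) :
    Continuous fun x => cf (θ x) (ϖ x) i := by
  unfold cf
  refine Complex.continuous_re.comp (continuous_finsetSum _ fun s _ => ?_)
  refine Continuous.matrix_det (continuous_matrix fun j k => ?_)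
  by_cases hj : j ∈ s
  · simpa [Finset.piecewise, hj] using hϖ j k
  · simpa [Finset.piecewise, hj] using hθ j k

end Vale.Agent.P299.PD
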