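import Vale.Agent.P299.D0

/-!
P299, part D: quadratic forms. For `nsq` write `P = yᴴ * y` (`P272.Mat_root`); then `nsq P H w = ∑ a, q2 H (∑ k, conj (y a k) • w k)` and
`q2 P (star x) = ∑ a, ‖∑ k, conj (y a k) * x k‖ ^ 2`; `y` is invertible if `P` is positive definite. `q2_cs`: expand `0 ≤ q2 H (a • u - b • v)`, or write
`H = yᴴ * y` (`CStarAlgebra.nonneg_iff_eq_star_mul_self`, open scoped MatrixOrder). `q2_par` is an identity between sesquilinear expansions.
`q2_add_le`: `q2_par` with `S₁ + δ / 2`, `S₂ + δ / 2`.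
-/

open MeasureTheory Set Filter Topology Matrix
open scoped ContDiff ENNReal ComplexConjugate ComplexOrder

noncomputable section

namespace Vale.Agent.P299.PD

open Vale.Agent.P271A

variable {n : ℕ} {κ : Type} [Fintype κ] {P : Matrix (Fin n) (Fin n) ℂ} {H : Matrix κ κ ℂ}

theorem q2_nonneg (hH : H.PosSemidef) (v : κ → ℂ) : 0 ≤ q2 H v :=
  (Complex.nonneg_iff.1 (hH.dotProduct_mulVec_nonneg v)).1

theorem q2_pos (hH : H.PosDef) {v : κ → ℂ} (hv : v ≠ 0) : 0 < q2 H v :=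
  (Complex.pos_iff.1 (hH.dotProduct_mulVec_pos hv)).1

theorem D2_conj (hH : H.IsHermitian) (u v : κ → ℂ) :
    conj (star u ⬝ᵥ H *ᵥ v) = star v ⬝ᵥ H *ᵥ u := by
  rw [← Complex.star_def, ← star_dotProduct_star, star_star, star_mulVec, hH.eq,
    dotProduct_mulVec]

theorem q2_coe (hH : H.IsHermitian) (v : κ → ℂ) : (q2 H v : ℂ) = star v ⬝ᵥ H *ᵥ v :=
  Complex.conj_eq_iff_re.1 (D2_conj hH v v)

theorem q2_smul (H : Matrix κ κ ℂ) (c : ℂ) (v : κ → ℂ) : q2 H (c • v) = ‖c‖ ^ 2 * q2 H v := by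
  unfold q2
  rw [star_smul, mulVec_smul, smul_dotProduct, dotProduct_smul, smul_smul, Complex.star_def,
    Complex.conj_mul', smul_eq_mul, ← Complex.ofReal_pow, Complex.re_ofReal_mul]

theorem q2_smul_left (H : Matrix κ κ ℂ) (c : ℝ) (v : κ → ℂ) : q2 ((c : ℂ) • H) v = c * q2 H v := by
  unfold q2
  rw [smul_mulVec, dotProduct_smul, smul_eq_mul, Complex.re_ofReal_mul]

theorem q2_add_left (H H' : Matrix κ κ ℂ) (v : κ → ℂ) : q2 (H + H') v = q2 H v + q2 H' v := by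
  unfold q2
  rw [add_mulVec, dotProduct_add, Complex.add_re]

theorem q2_sub_mat {κ' : Type} [Fintype κ'] (e : κ' ≃ κ) (H : Matrix κ κ ℂ) (v : κ → ℂ) :
    q2 (H.submatrix e e) (v ∘ e) = q2 H v := by
  unfold q2
  congr 1
  rw [submatrix_mulVec_equiv, Function.comp_assoc, Equiv.self_comp_symm, Function.comp_id]
  exact e.sum_comp fun i => star v i * (H *ᵥ v) i

theorem q2_cs (hH : H.PosSemidef) (u v : κ → ℂ) :
    ‖star u ⬝ᵥ H *ᵥ v‖ ^ 2 ≤ q2 H u * q2 H v := by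
  set β := star u ⬝ᵥ H *ᵥ v with hβ
  have h1 : star v ⬝ᵥ H *ᵥ u = conj β := (D2_conj hH.1 u v).symm
  have h2 : ∀ t : ℝ, 0 ≤ ‖β‖ ^ 2 * q2 H u * (t * t) + -2 * ‖β‖ ^ 2 * t + q2 H v := fun t => by
    have h := q2_nonneg hH (((t : ℂ) * β) • u - v)
    have e : (q2 H (((t : ℂ) * β) • u - v) : ℂ) =
        ((‖β‖ ^ 2 * q2 H u * (t * t) + -2 * ‖β‖ ^ 2 * t + q2 H v : ℝ) : ℂ) := by
      rw [q2_coe hH.1, star_sub, star_smul, mulVec_sub, mulVec_smul, sub_dotProduct,
        dotProduct_sub, dotProduct_sub, smul_dotProduct, smul_dotProduct, dotProduct_smul,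
        dotProduct_smul, ← hβ, h1, ← q2_coe hH.1, ← q2_coe hH.1]
      simp only [smul_eq_mul, Complex.star_def, map_mul, Complex.conj_ofReal]
      push_cast
      rw [← Complex.conj_mul']
      ring
    rwa [Complex.ofReal_injective e] at h
  have h3 := discrim_le_zero h2
  rw [discrim] at h3
  rcases (sq_nonneg ‖β‖).eq_or_lt with h | h
  · rw [← h]
    exact mul_nonneg (q2_nonneg hH u) (q2_nonneg hH v)
  · nlinarith

theorem q2_par (H : Matrix κ κ ℂ) (a b : ℝ) (u v : κ → ℂ) :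
    q2 H ((a : ℂ) • v - (b : ℂ) • u) + a * b * q2 H (u + v) =
      (a + b) * (a * q2 H v + b * q2 H u) := by
  unfold q2
  simp only [star_sub, star_add, star_smul, mulVec_sub, mulVec_add, mulVec_smul, sub_dotProduct,
    add_dotProduct, dotProduct_sub, dotProduct_add, smul_dotProduct, dotProduct_smul, smul_eq_mul,
    Complex.star_def, Complex.conj_ofReal, Complex.sub_re, Complex.add_re, Complex.re_ofReal_mul]
  ring

theorem q2_add_le (hH : H.PosSemidef) {S₁ S₂ N₁ N₂ δ : ℝ} (h₁ : 0 ≤ S₁) (h₂ : 0 ≤ S₂)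
    (h₃ : 0 ≤ N₁) (h₄ : 0 ≤ N₂) (hδ : 0 < δ) {u v : κ → ℂ} (hu : q2 H u ≤ S₁ * N₁)
    (hv : q2 H v ≤ S₂ * N₂) : q2 H (u + v) ≤ (S₁ + S₂ + δ) * (N₁ + N₂) := by
  have ha : 0 < S₁ + δ / 2 := by positivity
  have hb : 0 < S₂ + δ / 2 := by positivity
  have h := q2_par H (S₁ + δ / 2) (S₂ + δ / 2) u v
  have h0 := q2_nonneg hH (((S₁ + δ / 2 : ℝ) : ℂ) • v - ((S₂ + δ / 2 : ℝ) : ℂ) • u)
  have hu' : q2 H u ≤ (S₁ + δ / 2) * N₁ := hu.trans (by nlinarith)
  have hv' : q2 H v ≤ (S₂ + δ / 2) * N₂ := hv.trans (by nlinarith)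
  have h5 := mul_le_mul_of_nonneg_left (add_le_add (mul_le_mul_of_nonneg_left hv' ha.le)
    (mul_le_mul_of_nonneg_left hu' hb.le)) (add_pos ha hb).le
  refine le_of_mul_le_mul_left ?_ (mul_pos ha hb)
  nlinarith

theorem D2_nsq (y : Matrix (Fin n) (Fin n) ℂ) (H : Matrix κ κ ℂ) (w : Fin n → κ → ℂ) :
    nsq (yᴴ * y) H w = ∑ a, q2 H (∑ k, conj (y a k) • w k) := by
  unfold nsq q2
  rw [← Complex.re_sum]
  congr 1
  simp only [Matrix.mul_apply, conjTranspose_apply, Complex.star_def, Finset.sum_mul, star_sum,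
    star_smul, Complex.conj_conj, mulVec_sum, mulVec_smul, sum_dotProduct, dotProduct_sum,
    smul_dotProduct, dotProduct_smul, smul_eq_mul]
  rw [Finset.sum_congr rfl fun k _ => Finset.sum_comm, Finset.sum_comm]
  refine Finset.sum_congr rfl fun a _ => ?_
  refine Finset.sum_congr rfl fun k _ => ?_
  rw [Finset.mul_sum]
  exact Finset.sum_congr rfl fun l _ => mul_assoc _ _ _

theorem D2_q2 (y : Matrix (Fin n) (Fin n) ℂ) (x : Fin n → ℂ) :
    q2 (yᴴ * y) (star x) = ∑ a, ‖∑ k, conj (y a k) * x k‖ ^ 2 := by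
  unfold q2
  rw [← mulVec_mulVec, dotProduct_mulVec, ← star_mulVec, dotProduct, Complex.re_sum]
  refine Finset.sum_congr rfl fun a _ => ?_
  have e : (y *ᵥ star x) a = conj (∑ k, conj (y a k) * x k) := by
    simp [mulVec, dotProduct]
  rw [Pi.star_apply, Complex.star_def, Complex.conj_mul', e, Complex.norm_conj,
    ← Complex.ofReal_pow, Complex.ofReal_re]

theorem nsq_nonneg (hP : P.PosSemidef) (hH : H.PosSemidef) (w : Fin n → κ → ℂ) :
    0 ≤ nsq P H w := by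
  obtain ⟨y, rfl⟩ := P272.Mat_root hP
  rw [D2_nsq]
  exact Finset.sum_nonneg fun a _ => q2_nonneg hH _

theorem nsq_eq_zero (hP : P.PosDef) (hH : H.PosDef) {w : Fin n → κ → ℂ} (h : nsq P H w = 0) :
    w = 0 := by
  obtain ⟨y, rfl⟩ := P272.Mat_root hP.posSemidef
  rw [D2_nsq, Finset.sum_eq_zero_iff_of_nonneg fun a _ => q2_nonneg hH.posSemidef _] at h
  have hd : y.det ≠ 0 := by
    have := hP.det_pos.ne'
    rw [det_mul] at this
    exact right_ne_zero_of_mul this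
  funext k i
  have h1 : y *ᵥ (star fun k => w k i) = 0 := by
    funext a
    have h2 : ∑ k, conj (y a k) • w k = 0 := by
      by_contra hne
      exact (q2_pos hH hne).ne' (h a (Finset.mem_univ a))
    have h3 := congrArg conj (congrFun h2 i)
    simpa [mulVec, dotProduct, Finset.sum_apply] using h3
  have := congrFun (eq_zero_of_mulVec_eq_zero hd h1) k
  simpa using this

theorem nsq_cs (hP : P.PosSemidef) (hH : H.PosSemidef) (s : κ → ℂ) (w : Fin n → κ → ℂ) :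
    q2 P (star fun k => star s ⬝ᵥ H *ᵥ w k) ≤ q2 H s * nsq P H w := by
  obtain ⟨y, rfl⟩ := P272.Mat_root hP
  rw [D2_nsq, D2_q2, Finset.mul_sum]
  refine Finset.sum_le_sum fun a _ => ?_
  have := q2_cs hH s (∑ k, conj (y a k) • w k)
  simpa only [mulVec_sum, mulVec_smul, dotProduct_sum, dotProduct_smul, smul_eq_mul] using this

end Vale.Agent.P299.PD
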