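import Vale.Agent.P299.D2

/-!
P299, part D: matrix calculus and the Bochner formula. `boch`: `LMd S l k = db l (dz k S)` (`RD.dX_comm`), `dz k S = star (H s) ⬝ᵥ nab k`, `nab k = vdX (zv k) s + con k *ᵥ s`.
-/

open MeasureTheory Set Filter Topology Matrix
open scoped ContDiff ENNReal ComplexConjugate ComplexOrder

noncomputable section

namespace Vale.Agent.P299.PD

open Vale.Agent.P271A

variable {n N : ℕ} {Y : Type} [TopologicalSpace Y] [T2Space Y] [SecondCountableTopology Y]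
  [MeasurableSpace Y] [BorelSpace Y] {D : RD n Y}
  {κ : Type} [Fintype κ] [DecidableEq κ] {H H' : Y → Matrix κ κ ℂ} {s t : Y → κ → ℂ} {Ψ : Y → ℝ}

theorem SmM.mul (h : SmM D H) (h' : SmM D H') : SmM D fun y => H y * H' y := by
  intro a b
  simp only [Matrix.mul_apply]
  exact RD.Sm.sum _ fun c _ => (h a c).mul (h' c b)

theorem SmM.mdX (h : SmM D H) (ξ : E n × E n) : SmM D (mdX D ξ H) := by
  exact fun a b => (h a b).dX ξ

theorem SmM.con (h : SmM D H) (h0 : ∀ y, IsUnit (H y).det) (k : Fin n) : SmM D (con D H k) := by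
  exact SmM.mul (fun a b => sm_inv h h0 a b) (h.mdX _)

theorem SmM.mulVec (h : SmM D H) (hs : SmW D s) : SmW D fun y => H y *ᵥ s y := by
  exact fun a => RD.Sm.sum _ fun c _ => (h a c).mul (hs c)

theorem mdX_mul (h : SmM D H) (h' : SmM D H') (ξ : E n × E n) (y : Y) :
    mdX D ξ (fun p => H p * H' p) y = mdX D ξ H y * H' y + H y * mdX D ξ H' y := by
  ext a b
  simp only [mdX, of_apply, Matrix.mul_apply, Matrix.add_apply]
  rw [RD.dX_sum _ fun c _ => (h a c).mul (h' c b), ← Finset.sum_add_distrib]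
  exact Finset.sum_congr rfl fun c _ => RD.dX_mul (h a c) (h' c b) y

theorem vdX_mulVec (h : SmM D H) (hs : SmW D s) (ξ : E n × E n) (y : Y) :
    vdX D ξ (fun p => H p *ᵥ s p) y = mdX D ξ H y *ᵥ s y + H y *ᵥ vdX D ξ s y := by
  ext a
  simp only [vdX, mdX, of_apply, Matrix.mulVec, dotProduct, Pi.add_apply]
  rw [RD.dX_sum _ fun c _ => (h a c).mul (hs c), ← Finset.sum_add_distrib]
  exact Finset.sum_congr rfl fun c _ => RD.dX_mul (h a c) (hs c) y

theorem dX_dot (hs : SmW D s) (ht : SmW D t) (ξ : E n × E n) (y : Y) :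
    D.dX ξ (fun p => s p ⬝ᵥ t p) y = vdX D ξ s y ⬝ᵥ t y + s y ⬝ᵥ vdX D ξ t y := by
  simp only [vdX, dotProduct]
  rw [RD.dX_sum _ fun c _ => (hs c).mul (ht c), ← Finset.sum_add_distrib]
  exact Finset.sum_congr rfl fun c _ => RD.dX_mul (hs c) (ht c) y

omit [T2Space Y] [SecondCountableTopology Y] [BorelSpace Y] [Fintype κ] [DecidableEq κ] in
theorem D4_star (hs : SmW D s) : SmW D fun y => star (s y) := fun a => (hs a).conj

omit [T2Space Y] [SecondCountableTopology Y] [BorelSpace Y] [DecidableEq κ] in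
theorem D4_dot (hs : SmW D s) (ht : SmW D t) : D.Sm fun y => s y ⬝ᵥ t y :=
  RD.Sm.sum _ fun c _ => (hs c).mul (ht c)

theorem smR_q2 (h : SmM D H) (hs : SmW D s) : D.SmR fun y => q2 (H y) (s y) := by
  exact (D4_dot (D4_star hs) (h.mulVec hs)).re

theorem continuous_dV (hΨ : D.SmR Ψ) : Continuous (dV D Ψ) := by
  exact Complex.continuous_re.comp
    (Continuous.matrix_det (continuous_matrix fun j k => (sm_LMd hΨ j k).continuous))

theorem continuous_lap (hΨ : Kah D Ψ) {f : Y → ℝ} (hf : D.SmR f) : Continuous (lap D Ψ f) := by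
  refine Complex.continuous_re.comp (Continuous.matrix_trace (Continuous.matrix_mul
    (continuous_matrix fun j k => ?_) (continuous_matrix fun j k => (sm_LMd hf j k).continuous)))
  exact (sm_inv (sm_LMd hΨ.1)
    (fun y => (Matrix.isUnit_iff_isUnit_det _).1 (hΨ.2 y).isUnit) j k).continuous

omit [T2Space Y] [SecondCountableTopology Y] [BorelSpace Y] in
theorem D4_nab (hp : ∀ y, (H y).PosDef) (k : Fin n) (y : Y) :
    H y *ᵥ nab D H s k y = vdX D (zv k) (fun p => H p *ᵥ s p) y := by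
  rw [nab, mulVec_mulVec, mul_nonsing_inv _ ((Matrix.isUnit_iff_isUnit_det _).1 (hp y).isUnit),
    one_mulVec]

theorem D4_nab_eq (h : SmM D H) (hp : ∀ y, (H y).PosDef) (hs : SmW D s) (k : Fin n) (y : Y) :
    nab D H s k y = con D H k y *ᵥ s y + vdX D (zv k) s y := by
  rw [nab, vdX_mulVec h hs, mulVec_add, mulVec_mulVec, mulVec_mulVec,
    nonsing_inv_mul _ ((Matrix.isUnit_iff_isUnit_det _).1 (hp y).isUnit), one_mulVec, con]

theorem dr_q2 (h : SmM D H) (hp : ∀ y, (H y).PosDef) (hs : HolW D s) (y : Y) :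
    dr D (fun p => q2 (H p) (s p)) y = fun k => star (s y) ⬝ᵥ H y *ᵥ nab D H s k y := by
  have hs' : SmW D s := fun a => (hs a).sm
  have e : (fun p => ((q2 (H p) (s p) : ℝ) : ℂ)) = fun p => star (s p) ⬝ᵥ H p *ᵥ s p :=
    funext fun p => q2_coe (hp p).1 _
  funext k
  have h0 : vdX D (zv k) (fun p => star (s p)) y = 0 := funext fun a => (hs a).dz_conj k y
  rw [dr, e, dzv, RD.dz, dX_dot (D4_star hs') (h.mulVec hs'), h0, zero_dotProduct, zero_add,
    D4_nab hp]

theorem D4_LMd (h : SmM D H) (hp : ∀ y, (H y).PosDef) (hs : HolW D s) (y : Y) (k l : Fin n) :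
    LMd D (fun p => q2 (H p) (s p)) y l k =
      star (nab D H s l y) ⬝ᵥ H y *ᵥ nab D H s k y +
        star (s y) ⬝ᵥ H y *ᵥ mdX D (bv l) (con D H k) y *ᵥ s y := by
  have hs' : SmW D s := fun a => (hs a).sm
  have hu : ∀ y, IsUnit (H y).det := fun y => (Matrix.isUnit_iff_isUnit_det _).1 (hp y).isUnit
  have hst : ∀ p (u v : κ → ℂ), star u ⬝ᵥ H p *ᵥ v = star (H p *ᵥ u) ⬝ᵥ v := fun p u v => by
    rw [star_mulVec, (hp p).1.eq, dotProduct_mulVec]
  have e1 : D.dX (zv k) (fun p => ((q2 (H p) (s p) : ℝ) : ℂ)) =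
      fun p => star (H p *ᵥ s p) ⬝ᵥ nab D H s k p := funext fun p => by
    rw [← hst]
    exact congrFun (dr_q2 h hp hs p) k
  have e2 : nab D H s k = fun p => con D H k p *ᵥ s p + vdX D (zv k) s p :=
    funext (D4_nab_eq h hp hs' k)
  have hc := (h.con hu k).mulVec hs'
  have hd : SmW D (vdX D (zv k) s) := fun a => (hs' a).dX _
  have hn : SmW D (nab D H s k) := by
    rw [e2]
    exact fun a => (hc a).add (hd a)
  have e3 : vdX D (bv l) (nab D H s k) y = mdX D (bv l) (con D H k) y *ᵥ s y := by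
    have e4 : vdX D (bv l) s y = 0 := funext fun a => (hs a).db l y
    have e5 := vdX_mulVec (h.con hu k) hs' (bv l) y
    rw [e4, mulVec_zero, add_zero] at e5
    rw [← e5, e2]
    funext a
    refine (RD.dX_add (hc a) (hd a) y).trans ?_
    have e6 : D.dX (bv l) (fun p => vdX D (zv k) s p a) y = 0 := ((hs a).dz k).db l y
    rw [e6, add_zero]
    rfl
  have e7 : vdX D (bv l) (fun p => star (H p *ᵥ s p)) y = star (H y *ᵥ nab D H s l y) := by
    rw [D4_nab hp]
    exact funext fun a => (RD.conj_dz _ l y).symm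
  have e8 : LMd D (fun p => q2 (H p) (s p)) y l k =
      D.dX (bv l) (D.dX (zv k) fun p => ((q2 (H p) (s p) : ℝ) : ℂ)) y :=
    RD.dX_comm (smR_q2 h hs') y
  rw [e8, e1, dX_dot (D4_star (h.mulVec hs')) hn, e3, e7, ← hst, ← hst]

/-- The Bochner formula. -/
theorem boch (h : SmM D H) (hp : ∀ y, (H y).PosDef) (hs : HolW D s) (y : Y) :
    lap D Ψ (fun p => q2 (H p) (s p)) y = nsq (LMd D Ψ y)⁻¹ (H y) (fun k => nab D H s k y) +
      (star (s y) ⬝ᵥ H y *ᵥ cT D Ψ H y *ᵥ s y).re := by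
  rw [lap, nsq, ← Complex.add_re]
  congr 1
  simp only [Matrix.trace, diag_apply, Matrix.mul_apply, D4_LMd h hp hs, cT, Matrix.sum_mulVec,
    Matrix.smul_mulVec, Matrix.mulVec_sum, Matrix.mulVec_smul, dotProduct_sum, dotProduct_smul,
    smul_eq_mul, mul_add, Finset.sum_add_distrib]

theorem sub_of (hΨ : Kah D Ψ) (h : SmM D H) (hp : ∀ y, (H y).PosDef) (hs : HolW D s) {σ : Y → ℂ}
    {τ : Y → ℝ} (hc : ∀ y, cT D Ψ H y *ᵥ s y = -σ y • s y) (hσ : ∀ y, (σ y).re ≤ τ y)
    (hb : ∃ C, ∀ y, q2 (H y) (s y) ≤ C) : Sub D Ψ τ fun y => q2 (H y) (s y) := by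
  have hs' : SmW D s := fun a => (hs a).sm
  have h0 : ∀ y, 0 ≤ q2 (H y) (s y) := fun y => q2_nonneg (hp y).posSemidef _
  have h1 : ∀ y, nsq (LMd D Ψ y)⁻¹ (H y) (fun k => nab D H s k y) ≤
      lap D Ψ (fun p => q2 (H p) (s p)) y + τ y * q2 (H y) (s y) := fun y => by
    rw [boch h hp hs, hc, mulVec_smul, dotProduct_smul, ← q2_coe (hp y).1, smul_eq_mul,
      Complex.re_mul_ofReal, Complex.neg_re]
    nlinarith [mul_le_mul_of_nonneg_right (hσ y) (h0 y)]
  refine ⟨smR_q2 h hs', h0, hb, fun y => le_trans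
    (nsq_nonneg (hΨ.2 y).inv.posSemidef (hp y).posSemidef _) (h1 y), fun y => ?_⟩
  rw [gr, dr_q2 h hp hs]
  exact (nsq_cs (hΨ.2 y).inv.posSemidef (hp y).posSemidef _ _).trans
    (mul_le_mul_of_nonneg_left (h1 y) (h0 y))

end Vale.Agent.P299.PD
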