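import Vale.Agent.P299.D2

/-!
P299, part D: the logarithm of a sum of two norms. `lap_log`: entrywise `RD.dX_comp`, `RD.dX_mul` (see the proof of `RD.levi_log` in P271A/Levi),
`RD.conj_dz_real`; `trace (P * vecMulVec (star d) d) = star (star d) ⬝ᵥ P *ᵥ star d`. `logsum`: with `N i = lap (S i) + τ * S i` one has
`(S + δ) ^ 2 * (lap + τ) = (N₁ + N₂ + τ δ) (S + δ) - gr (d₁ + d₂)`; use `q2_add_le` and `q2_par`. `eta_rel`: differentiate `he` (as complex functions,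
`‖s‖ ^ 2 = s * conj s`, `RD.Hol.dz_conj`, `RD.dX_exp_neg`), multiply by `s * S₁` and cancel `conj (s' y)`, `s' y`. `grad_le`: with `a = ‖s' y‖ ^ 2`,
`b = ‖s y‖ ^ 2 * exp (-kφ)`: `a S₂ = b S₁`, `‖s s'‖ ^ 2 = a b exp (kφ)`, `a (S₁ + S₂ + δ) ≤ (2 a + b) S₁`.
-/

open MeasureTheory Set Filter Topology Matrix
open scoped ContDiff ENNReal ComplexConjugate ComplexOrder

noncomputable section

namespace Vale.Agent.P299.PD

open Vale.Agent.P271A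

variable {n N : ℕ} {Y : Type} [TopologicalSpace Y] [T2Space Y] [SecondCountableTopology Y]
  [MeasurableSpace Y] [BorelSpace Y] {D : RD n Y} {A : AD n N Y} {Ψ τ S₁ S₂ f g : Y → ℝ}

omit [T2Space Y] [SecondCountableTopology Y] [BorelSpace Y] in
theorem d6_add (hf : D.SmR f) (hg : D.SmR g) (δ : ℝ) (ξ : E n × E n) :
    D.dX ξ (fun p => ((f p + g p + δ : ℝ) : ℂ)) =
      fun y => D.dX ξ (fun p => (f p : ℂ)) y + D.dX ξ (fun p => (g p : ℂ)) y := by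
  funext y
  simp only [Complex.ofReal_add]
  rw [RD.dX_add (RD.Sm.add hf hg) (RD.sm_const _), RD.dX_add hf hg, RD.dX_const, add_zero]

omit [T2Space Y] [SecondCountableTopology Y] [BorelSpace Y] in
theorem d6_gr (y : Y) (c : ℂ) (ξ : Fin n → ℂ) : gr D Ψ y (c • ξ) = ‖c‖ ^ 2 * gr D Ψ y ξ := by
  rw [gr, gr, star_smul, q2_smul, norm_star]

theorem lap_add (hf : D.SmR f) (hg : D.SmR g) (δ : ℝ) (y : Y) :
    lap D Ψ (fun p => f p + g p + δ) y = lap D Ψ f y + lap D Ψ g y := by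
  have h : LMd D (fun p => f p + g p + δ) y = LMd D f y + LMd D g y := by
    ext j k
    simp only [LMd, Matrix.of_apply, Matrix.add_apply, RD.dz, RD.db]
    rw [d6_add hf hg, RD.dX_add (RD.Sm.dX hf _) (RD.Sm.dX hg _)]
  rw [lap, h, Matrix.mul_add, trace_add, Complex.add_re, lap, lap]

theorem dr_add (hf : D.SmR f) (hg : D.SmR g) (δ : ℝ) (y : Y) :
    dr D (fun p => f p + g p + δ) y = dr D f y + dr D g y := funext fun j => congrFun (d6_add hf hg δ (zv j)) y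

theorem lap_log (hf : D.SmR f) (h0 : ∀ y, 0 < f y) (y : Y) :
    lap D Ψ (fun p => Real.log (f p)) y = lap D Ψ f y / f y - gr D Ψ y (dr D f y) / f y ^ 2 := by
  have hi : D.SmR fun p => (f p)⁻¹ :=
    hf.comp (χ := fun s => s⁻¹) fun p => contDiffAt_inv ℝ (h0 p).ne'
  have h1 : ∀ j, D.db j (fun p => (Real.log (f p) : ℂ)) =
      fun p => (((f p)⁻¹ : ℝ) : ℂ) * D.db j (fun p => (f p : ℂ)) p := fun j => funext fun p =>
    RD.dX_comp hf (Real.hasDerivAt_log (h0 p).ne')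
  have h : LMd D (fun p => Real.log (f p)) y = (((f y)⁻¹ : ℝ) : ℂ) • LMd D f y -
      (((f y ^ 2)⁻¹ : ℝ) : ℂ) • vecMulVec (star (dr D f y)) (dr D f y) := by
    ext j k
    have h2 := RD.dX_comp (ξ := zv k) hf (hasDerivAt_inv (h0 y).ne')
    have h3 : star (dr D f y) j = D.db j (fun p => (f p : ℂ)) y := RD.conj_dz_real f j y
    simp only [LMd, Matrix.of_apply, Matrix.sub_apply, Matrix.smul_apply, vecMulVec_apply,
      smul_eq_mul, h1, h3]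
    rw [RD.dz, RD.dX_mul hi (RD.Sm.db hf j), h2]
    simp only [dr, dzv, RD.dz, Complex.ofReal_neg]
    ring
  rw [lap, h, Matrix.mul_sub, Matrix.mul_smul, Matrix.mul_smul, trace_sub, trace_smul, trace_smul,
    mul_vecMulVec, trace_vecMulVec, smul_eq_mul, smul_eq_mul, Complex.sub_re,
    Complex.re_ofReal_mul, Complex.re_ofReal_mul, lap, gr, q2, star_star, dotProduct_comm]
  ring

theorem logsum (hΨ : Kah D Ψ) (h₁ : Sub D Ψ τ S₁) (h₂ : Sub D Ψ τ S₂) (hτ : ∀ y, 0 ≤ τ y) {δ : ℝ}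
    (hδ : 0 < δ) (y : Y) : 0 ≤ lap D Ψ (fun p => Real.log (S₁ p + S₂ p + δ)) y + τ y ∧
      gr D Ψ y ((S₁ y : ℂ) • dr D S₂ y - (S₂ y : ℂ) • dr D S₁ y) ≤ S₁ y * S₂ y *
        (S₁ y + S₂ y + δ) ^ 2 * (lap D Ψ (fun p => Real.log (S₁ p + S₂ p + δ)) y + τ y) := by
  have hT : ∀ p, 0 < S₁ p + S₂ p + δ := fun p => by linarith [h₁.nn p, h₂.nn p]
  have hP := (hΨ.2 y).inv.posSemidef
  have e : (S₁ y + S₂ y + δ) ^ 2 * (lap D Ψ (fun p => Real.log (S₁ p + S₂ p + δ)) y + τ y) =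
      (lap D Ψ S₁ y + τ y * S₁ y + (lap D Ψ S₂ y + τ y * S₂ y) + τ y * δ) * (S₁ y + S₂ y + δ) -
        q2 (LMd D Ψ y)⁻¹ (star (dr D S₁ y) + star (dr D S₂ y)) := by
    rw [lap_log ((h₁.sm.add h₂.sm).add (RD.smR_const δ)) hT, lap_add h₁.sm h₂.sm,
      dr_add h₁.sm h₂.sm, gr, star_add]
    have := (hT y).ne'
    field_simp
    ring
  have h3 := q2_add_le hP (h₁.nn y) (h₂.nn y) (h₁.lap0 y) (h₂.lap0 y) hδ (h₁.grad y) (h₂.grad y)
  have h4 : 0 ≤ τ y * δ * (S₁ y + S₂ y + δ) := mul_nonneg (mul_nonneg (hτ y) hδ.le) (hT y).le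
  refine ⟨nonneg_of_mul_nonneg_right (a := (S₁ y + S₂ y + δ) ^ 2) ?_ (pow_pos (hT y) 2), ?_⟩
  · rw [e]
    linarith
  · have h5 := q2_par (LMd D Ψ y)⁻¹ (S₁ y) (S₂ y) (star (dr D S₁ y)) (star (dr D S₂ y))
    have g1 := h₁.grad y
    have g2 := h₂.grad y
    have n1 := h₁.lap0 y
    have n2 := h₂.lap0 y
    have s1 := h₁.nn y
    have s2 := h₂.nn y
    rw [mul_assoc (S₁ y * S₂ y), e]
    unfold gr at g1 g2 ⊢
    rw [star_sub, star_smul, star_smul, Complex.star_def, Complex.conj_ofReal, Complex.conj_ofReal,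
      eq_sub_of_add_eq h5]
    generalize lap D Ψ S₁ y + τ y * S₁ y = N₁ at *
    generalize lap D Ψ S₂ y + τ y * S₂ y = N₂ at *
    have h6 : (S₁ y + S₂ y) * (S₁ y * q2 (LMd D Ψ y)⁻¹ (star (dr D S₂ y)) +
        S₂ y * q2 (LMd D Ψ y)⁻¹ (star (dr D S₁ y))) ≤
        (S₁ y + S₂ y) * (S₁ y * (S₂ y * N₂) + S₂ y * (S₁ y * N₁)) := by gcongr
    have h7 : 0 ≤ S₁ y * S₂ y * (τ y * δ * (S₁ y + S₂ y + δ) + (N₁ + N₂) * δ) := by positivity
    linarith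

theorem eta_rel (hφ : A.D.SmR A.φ) {k : ℕ} {s s' : Y → ℂ} (hs : A.D.Hol s) (hs' : A.D.Hol s')
    (h₁ : A.D.SmR S₁) (h₂ : A.D.SmR S₂)
    (he : ∀ y, ‖s' y‖ ^ 2 * S₂ y = ‖s y‖ ^ 2 * Real.exp (-(k * A.φ y)) * S₁ y) {y : Y}
    (hy : s' y ≠ 0) : (s y * s' y) • ((S₁ y : ℂ) • dr A.D S₂ y - (S₂ y : ℂ) • dr A.D S₁ y) =
      ((S₁ y * S₂ y : ℝ) : ℂ) • et A k s s' y := by
  have hE : A.D.SmR fun p => Real.exp (-(k * A.φ p)) := ((RD.smR_const k).mul hφ).neg.exp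
  have e : (fun p => s' p * conj (s' p) * (S₂ p : ℂ)) =
      fun p => s p * conj (s p) * (Real.exp (-(k * A.φ p)) : ℝ) * (S₁ p : ℂ) := funext fun p => by
    rw [Complex.mul_conj', Complex.mul_conj', ← Complex.ofReal_pow, ← Complex.ofReal_pow,
      ← Complex.ofReal_mul, ← Complex.ofReal_mul, ← Complex.ofReal_mul, he]
  funext j
  have h0 := congrFun e y
  have h1 : HasDerivAt (fun u : ℝ => Real.exp (-(k * u)))
      (Real.exp (-(k * A.φ y)) * -(k * 1)) (A.φ y) :=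
    ((hasDerivAt_id' (A.φ y)).const_mul (k : ℝ)).fun_neg.exp
  have h2 := RD.dX_comp (ξ := zv j) hφ h1
  have h3 : A.D.dX (zv j) (fun p => conj (s p)) y = 0 := hs.dz_conj j y
  have h4 : A.D.dX (zv j) (fun p => conj (s' p)) y = 0 := hs'.dz_conj j y
  have hd := congrArg (fun F => A.D.dX (zv j) F y) e
  rw [RD.dX_mul (hs'.sm.mul hs'.sm.conj) h₂, RD.dX_mul hs'.sm hs'.sm.conj,
    RD.dX_mul ((hs.sm.mul hs.sm.conj).mul hE) h₁, RD.dX_mul (hs.sm.mul hs.sm.conj) hE,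
    RD.dX_mul hs.sm hs.sm.conj, h2, h3, h4] at hd
  simp only [Complex.ofReal_mul, Complex.ofReal_neg, Complex.ofReal_natCast,
    Complex.ofReal_one] at hd
  refine mul_left_cancel₀ (mul_ne_zero hy ((map_ne_zero (starRingEnd ℂ)).2 hy)) ?_
  simp only [Pi.smul_apply, Pi.sub_apply, smul_eq_mul, dr, dzv, et, RD.dz, Complex.ofReal_mul]
  linear_combination (s' y * s y * S₁ y) * hd -
    (s' y * S₁ y * A.D.dX (zv j) s y -
      k * s' y * s y * S₁ y * A.D.dX (zv j) (fun p => (A.φ p : ℂ)) y +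
      s' y * s y * A.D.dX (zv j) (fun p => (S₁ p : ℂ)) y) * h0

theorem grad_le (hφ : A.D.SmR A.φ) (hΨ : Kah A.D Ψ) {k : ℕ} {s s' : Y → ℂ} (hs : A.D.Hol s)
    (hs' : A.D.Hol s') (h₁ : Sub A.D Ψ τ S₁) (h₂ : Sub A.D Ψ τ S₂) (hτ : ∀ y, 0 ≤ τ y)
    (he : ∀ y, ‖s' y‖ ^ 2 * S₂ y = ‖s y‖ ^ 2 * Real.exp (-(k * A.φ y)) * S₁ y) {δ : ℝ}
    (hδ : 0 < δ) {y : Y} (hy : s y ≠ 0) (hy' : s' y ≠ 0) (hle : δ ≤ S₁ y) :
    gr A.D Ψ y (et A k s s' y) ≤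
      (2 * ‖s' y‖ ^ 2 + ‖s y‖ ^ 2 * Real.exp (-(k * A.φ y))) ^ 2 * Real.exp (k * A.φ y) *
        (lap A.D Ψ (fun p => Real.log (S₁ p + S₂ p + δ)) y + τ y) := by
  obtain ⟨hX, h3⟩ := logsum hΨ h₁ h₂ hτ hδ y
  have h4 := congrArg (gr A.D Ψ y) (eta_rel hφ hs hs' h₁.sm h₂.sm he hy')
  rw [d6_gr, d6_gr, norm_mul, mul_pow, Complex.norm_real, Real.norm_eq_abs, sq_abs] at h4
  have h5 := he y
  have hF : Real.exp (-(k * A.φ y)) * Real.exp (k * A.φ y) = 1 := by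
    rw [← Real.exp_add, neg_add_cancel, Real.exp_zero]
  have ha : 0 < ‖s' y‖ ^ 2 := by positivity
  have hb : 0 < ‖s y‖ ^ 2 * Real.exp (-(k * A.φ y)) := by positivity
  have hc : ‖s y‖ ^ 2 = ‖s y‖ ^ 2 * Real.exp (-(k * A.φ y)) * Real.exp (k * A.φ y) := by
    rw [mul_assoc, hF, mul_one]
  have hF0 := Real.exp_pos (k * A.φ y)
  have h6 := mul_le_mul_of_nonneg_left h3 (mul_nonneg (sq_nonneg ‖s y‖) ha.le)
  rw [h4, hc] at h6
  have s1 : 0 < S₁ y := hδ.trans_le hle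
  generalize lap A.D Ψ (fun p => Real.log (S₁ p + S₂ p + δ)) y + τ y = X at *
  generalize ‖s y‖ ^ 2 * Real.exp (-(k * A.φ y)) = b at *
  generalize ‖s' y‖ ^ 2 = a at *
  generalize Real.exp (k * A.φ y) = F at *
  have s2 : 0 < S₂ y := (mul_pos_iff_of_pos_left ha).1 (h5 ▸ mul_pos hb s1)
  have h7 : a * (S₁ y + S₂ y + δ) ≤ (2 * a + b) * S₁ y := by nlinarith
  refine le_of_mul_le_mul_left (h6.trans ?_) (by positivity : 0 < (S₁ y * S₂ y) ^ 2)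
  calc b * F * a * (S₁ y * S₂ y * (S₁ y + S₂ y + δ) ^ 2 * X)
      = (b * S₁ y) * (F * a * S₂ y * (S₁ y + S₂ y + δ) ^ 2 * X) := by ring
    _ = (a * (S₁ y + S₂ y + δ)) ^ 2 * (S₂ y ^ 2 * F * X) := by rw [← h5]; ring
    _ ≤ ((2 * a + b) * S₁ y) ^ 2 * (S₂ y ^ 2 * F * X) := by gcongr
    _ = _ := by ring

end Vale.Agent.P299.PD
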