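import Vale.Agent.P299.D1
import Vale.Agent.P299.D4

/-!
P299, part D: volumes. `yau_int`: `∫ dV Φ = c ∫ exp (-φ) > 0` (`integral_pos_iff_support_of_nonneg`, `hA.fin`, `hA.conn`), then `Integrable.of_integral_ne_zero`.
`vol_lb`: `dV (φ + ε ρ) y = ∑ cf i * ε ^ i` (`LMd_add`, `det_cf`); let `i₀` be least with `cf (LMd φ y₀) (LMd ρ y₀) i₀ ≠ 0` for some `y₀` (`Nat.find`; the sum at `ε = 1` is positive).
Then `cf i₀ * ε ^ i₀ ≤ dV (φ + ε ρ) ≤ ε ^ i₀ * dV (φ + 1 ρ)`, so `vol ε ≤ ε ^ i₀ * vol 1`; take a compact neighbourhood (`RD.locallyCompact`,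
`exists_compact_subset`) of a point of `O ∩ {0 < cf i₀}`. `mass_abs`: `2 √(c / ε) V ≤ p + g` on `K`, integrate, let `ε` be small.
-/

open MeasureTheory Set Filter Topology Matrix
open scoped ContDiff ENNReal ComplexConjugate ComplexOrder

noncomputable section

namespace Vale.Agent.P299.PD

open Vale.Agent.P271A

variable {n N : ℕ} {Y : Type} [TopologicalSpace Y] [T2Space Y] [SecondCountableTopology Y]
  [MeasurableSpace Y] [BorelSpace Y] {A : AD n N Y}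

theorem d7_LM (hA : A.Good) (ε : ℝ) (y : Y) : LMd A.D (fun p => A.φ p + ε * A.ρ p) y =
    LMd A.D A.φ y + (ε : ℂ) • LMd A.D A.ρ y := by
  have h := LMd_add hA.hφ hA.pos.1 1 ε y
  simpa only [one_mul, Complex.ofReal_one, one_smul] using h

theorem d7_pd (hA : A.Good) {ε : ℝ} (hε : 0 < ε) (y : Y) :
    (LMd A.D (fun p => A.φ p + ε * A.ρ p) y).PosDef := by
  rw [d7_LM hA]
  exact Matrix.PosDef.posSemidef_add ((LMd_psd hA.hφ).2 (hA.psh y))
    ((hA.pos.2 y).smul (Complex.zero_lt_real.2 hε))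

theorem yau_int (hA : A.Good) (hY : A.Yau) {ε : ℝ} (hε : 0 < ε) : 0 < vol A ε ∧
    Integrable (dV A.D fun p => A.φ p + ε * A.ρ p) A.D.μ ∧ ∃ Φ, A.YM Φ ∧
      (∀ y, dV A.D Φ y * ∫ p, Real.exp (-A.φ p) ∂A.D.μ = vol A ε * Real.exp (-A.φ y)) ∧
      ∫⁻ y, ENNReal.ofReal (dV A.D (fun p => Φ p + (A.φ p + ε * A.ρ p)) y) ∂A.D.μ =
        ENNReal.ofReal (2 ^ n * vol A ε) := by
  obtain ⟨Φ, hΦ, h1, h2⟩ := hY ε hε
  obtain ⟨c, hc, hd⟩ := hΦ.det
  have : Nonempty Y := ⟨hA.conn.nonempty.some⟩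
  have hI : 0 < ∫ p, Real.exp (-A.φ p) ∂A.D.μ := integral_exp_pos hA.fin
  have e : vol A ε = c * ∫ p, Real.exp (-A.φ p) ∂A.D.μ := by
    rw [vol, ← h1, ← integral_const_mul]
    exact integral_congr_ae (Eventually.of_forall hd)
  have hv : 0 < vol A ε := e ▸ mul_pos hc hI
  refine ⟨hv, Integrable.of_integral_ne_zero hv.ne', Φ, hΦ, fun y => ?_, ?_⟩
  · rw [hd, e]
    ring
  · have h3 : ∫ y, dV A.D (fun p => Φ p + (A.φ p + ε * A.ρ p)) y ∂A.D.μ = 2 ^ n * vol A ε := h2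
    rw [← h3]
    refine (ofReal_integral_eq_lintegral_ofReal
      (Integrable.of_integral_ne_zero (h3.trans_ne (by positivity)))
      (Eventually.of_forall fun y => ?_)).symm
    have h4 := LMd_add hΦ.kah.1 (hA.hφ.add ((RD.smR_const ε).mul hA.pos.1)) 1 1 y
    simp only [one_mul, Complex.ofReal_one, one_smul] at h4
    change 0 ≤ (LMd A.D (fun p => Φ p + (A.φ p + ε * A.ρ p)) y).det.re
    rw [h4]
    exact (P272.det_re_pos ((hΦ.kah.2 y).add (d7_pd hA hε y))).le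

theorem vol_lb (hA : A.Good) (hY : A.Yau) {O : Set Y} (hO : IsOpen O) (hd : Dense O) :
    ∃ K, IsCompact K ∧ K ⊆ O ∧ 0 < A.D.μ K ∧ ∃ c : ℝ, 0 < c ∧ ∀ ε : ℝ, 0 < ε → ε ≤ 1 → ∀ y ∈ K,
      c * vol A ε ≤ dV A.D (fun p => A.φ p + ε * A.ρ p) y := by
  have hnn : ∀ i y, 0 ≤ cf (LMd A.D A.φ y) (LMd A.D A.ρ y) i := fun i y =>
    cf_nonneg ((LMd_psd hA.hφ).2 (hA.psh y)) (hA.pos.2 y) i
  have hdV : ∀ (ε : ℝ) y, dV A.D (fun p => A.φ p + ε * A.ρ p) y =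
      ∑ i ∈ Finset.range (n + 1), cf (LMd A.D A.φ y) (LMd A.D A.ρ y) i * ε ^ i := fun ε y => by
    rw [dV, d7_LM hA, det_cf]
  have hex : ∃ i, i < n + 1 ∧ ∃ y, cf (LMd A.D A.φ y) (LMd A.D A.ρ y) i ≠ 0 := by
    obtain ⟨y, -⟩ := hA.conn.nonempty
    have h1 : 0 < dV A.D (fun p => A.φ p + 1 * A.ρ p) y := P272.det_re_pos (d7_pd hA one_pos y)
    rw [hdV] at h1
    obtain ⟨i, hi, h2⟩ := Finset.exists_ne_zero_of_sum_ne_zero h1.ne'
    exact ⟨i, Finset.mem_range.1 hi, y, left_ne_zero_of_mul h2⟩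
  classical
  obtain ⟨hi, y₀, hy₀⟩ := Nat.find_spec hex
  have hmin : ∀ i < Nat.find hex, ∀ y, cf (LMd A.D A.φ y) (LMd A.D A.ρ y) i = 0 := fun i h y =>
    not_not.1 fun h' => Nat.find_min hex h ⟨h.trans hi, y, h'⟩
  generalize Nat.find hex = i₀ at hi hy₀ hmin
  have ha : 0 < cf (LMd A.D A.φ y₀) (LMd A.D A.ρ y₀) i₀ := (hnn i₀ y₀).lt_of_ne' hy₀
  have hcont : Continuous fun y => cf (LMd A.D A.φ y) (LMd A.D A.ρ y) i₀ :=
    continuous_cf (fun j k => (sm_LMd hA.hφ j k).continuous)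
      (fun j k => (sm_LMd hA.pos.1 j k).continuous) i₀
  have hU : IsOpen {y | cf (LMd A.D A.φ y₀) (LMd A.D A.ρ y₀) i₀ / 2 <
      cf (LMd A.D A.φ y) (LMd A.D A.ρ y) i₀} := isOpen_lt continuous_const hcont
  obtain ⟨y₁, hy₁⟩ := hd.inter_open_nonempty _ hU ⟨y₀, half_lt_self ha⟩
  have := A.D.locallyCompact
  obtain ⟨K, k1, k2, k3⟩ := exists_compact_subset (hU.inter hO) hy₁
  obtain ⟨v1, i1, -⟩ := yau_int hA hY one_pos
  refine ⟨K, k1, fun y hy => (k3 hy).2, Measure.measure_pos_of_nonempty_interior _ ⟨y₁, k2⟩,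
    cf (LMd A.D A.φ y₀) (LMd A.D A.ρ y₀) i₀ / 2 / vol A 1, by positivity,
    fun ε hε hε1 y hy => ?_⟩
  have h1 : vol A ε ≤ ε ^ i₀ * vol A 1 := by
    rw [vol, vol, ← integral_const_mul]
    refine integral_mono (yau_int hA hY hε).2.1 (i1.const_mul _) fun p => ?_
    simp only
    rw [hdV, hdV, Finset.mul_sum]
    refine Finset.sum_le_sum fun i _ => ?_
    rcases lt_or_ge i i₀ with h | h
    · rw [hmin i h p, zero_mul, zero_mul, mul_zero]
    · rw [one_pow, mul_one, mul_comm]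
      exact mul_le_mul_of_nonneg_right (pow_le_pow_of_le_one hε.le hε1 h) (hnn i p)
  have h2 : cf (LMd A.D A.φ y) (LMd A.D A.ρ y) i₀ * ε ^ i₀ ≤
      dV A.D (fun p => A.φ p + ε * A.ρ p) y := by
    rw [hdV]
    exact Finset.single_le_sum
      (f := fun i => cf (LMd A.D A.φ y) (LMd A.D A.ρ y) i * ε ^ i)
      (fun i _ => mul_nonneg (hnn i y) (pow_pos hε i).le) (Finset.mem_range.2 hi)
  refine le_trans ?_ ((mul_le_mul_of_nonneg_right (k3 hy).1.le (pow_pos hε i₀).le).trans h2)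
  refine (mul_le_mul_of_nonneg_left h1 (by positivity)).trans_eq ?_
  field_simp

omit [TopologicalSpace Y] [T2Space Y] [SecondCountableTopology Y] [BorelSpace Y] in
theorem mass_abs {μ : Measure Y} {K : Set Y} (hK : MeasurableSet K) (h0 : 0 < μ K) (h1 : μ K < ⊤)
    {c C : ℝ} (hc : 0 < c) (H : ∀ ε : ℝ, 0 < ε → ε ≤ 1 → ∃ (V : ℝ) (p g : Y → ℝ), 0 < V ∧
      Measurable p ∧ ∫⁻ y, ENNReal.ofReal (p y) ∂μ ≤ ENNReal.ofReal (C * V) ∧
      ∫⁻ y, ENNReal.ofReal (g y) ∂μ ≤ ENNReal.ofReal (C * V) ∧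
      ∀ y ∈ K, 0 ≤ p y ∧ 0 ≤ g y ∧ c * V ^ 2 ≤ ε * (p y * g y)) : False := by
  have hm : 0 < (μ K).toReal := ENNReal.toReal_pos h0.ne' h1.ne
  obtain ⟨T, hT, hT'⟩ : ∃ T : ℝ, 0 < T ∧ T * (μ K).toReal = |C| + 1 :=
    ⟨(|C| + 1) / (μ K).toReal, by positivity, div_mul_cancel₀ _ hm.ne'⟩
  obtain ⟨V, p, g, hV, hp, i1, i2, hb⟩ := H (min 1 (c / T ^ 2)) (lt_min one_pos (by positivity))
    (min_le_left _ _)
  have k1 : ∀ y ∈ K, ENNReal.ofReal (2 * T * V) ≤ ENNReal.ofReal (p y) + ENNReal.ofReal (g y) :=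
    fun y hy => by
      obtain ⟨b1, b2, b3⟩ := hb y hy
      have b4 := b3.trans (mul_le_mul_of_nonneg_right (min_le_right _ _) (mul_nonneg b1 b2))
      rw [div_mul_eq_mul_div, le_div_iff₀ (by positivity), mul_assoc] at b4
      have b5 := le_of_mul_le_mul_left b4 hc
      rw [← ENNReal.ofReal_add b1 b2]
      refine ENNReal.ofReal_le_ofReal (abs_le_of_sq_le_sq' ?_ (add_nonneg b1 b2)).2
      nlinarith [sq_nonneg (p y - g y)]
  have k2 := (setLIntegral_mono' hK k1 (μ := μ)).trans (setLIntegral_le_lintegral _ _)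
  have k3 : ENNReal.ofReal (C * V) ≤ ENNReal.ofReal (|C| * V) :=
    ENNReal.ofReal_le_ofReal (mul_le_mul_of_nonneg_right (le_abs_self C) hV.le)
  have k4 : 0 ≤ |C| * V := by positivity
  rw [setLIntegral_const, lintegral_add_left hp.ennreal_ofReal, ← ENNReal.ofReal_toReal h1.ne,
    ← ENNReal.ofReal_mul (by positivity)] at k2
  have k5 := k2.trans (add_le_add (i1.trans k3) (i2.trans k3))
  rw [← ENNReal.ofReal_add k4 k4, ENNReal.ofReal_le_ofReal_iff (add_nonneg k4 k4)] at k5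
  have k6 : 2 * T * V * (μ K).toReal = 2 * V * (|C| + 1) := by
    rw [← hT']
    ring
  nlinarith

end Vale.Agent.P299.PD
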