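import Vale.Agent.P299.D6
import Vale.Agent.P299.D7

/-!
P299, part D: mass concentration gives flatness. `hol_et`: `RD.hol_of_db`; `db l` of the component is `-k s s' (ctr (LMd φ y l) *ᵥ u y) I = 0` (`RD.dX_comm`, `RD.Hol.dz`).
`est`: `δ = min S₁` on `K`, `f = log (S₁ + S₂ + δ)`, `a = lap f + M * lap φ`; `logsum`, `grad_le`, `liou`, `continuous_lap`, `tr_nonneg`.
`flat`: if a component `h = (ctr et *ᵥ u) J` is not zero, `O = {h * s * s' ≠ 0}` (`mul_ne`, `dense_ne`), `K` from `vol_lb`, `X y j = (an j *ᵥ u y) J`, `h = et ⬝ᵥ X`, `LMd φ *ᵥ X = 0`.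
With `G = LMd Φ`, `γ = LMd φ + ε • LMd ρ`, `T = re tr (γ⁻¹ G)`: `‖h‖² ≤ gr et * q2 G X ≤ C a * (T * (ε * q2 (LMd ρ) X))` (`dot_le`, `q2_le_tr`); `mass_abs` with `p = a * dV Φ`,
`g = re det (G + γ)`: `lap φ * dV Φ ≤ g` and `T * re det γ ≤ g` (`tr_det_le`), `yau_int`.
-/

open MeasureTheory Set Filter Topology Matrix
open scoped ContDiff ENNReal ComplexConjugate ComplexOrder

noncomputable section

namespace Vale.Agent.P299.PD

open Vale.Agent.P271A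

variable {n N : ℕ} {Y : Type} [TopologicalSpace Y] [T2Space Y] [SecondCountableTopology Y]
  [MeasurableSpace Y] [BorelSpace Y] {A : AD n N Y} {k : ℕ} {s s' : Y → ℂ}

theorem D8_ctr (ξ : Fin n → ℂ) (v : W (Fin n)) (I : Finset (Fin n)) :
    (ctr ξ *ᵥ v) I = ξ ⬝ᵥ fun j => (an j *ᵥ v) I := by
  simp only [ctr, Matrix.sum_mulVec, Matrix.smul_mulVec, Finset.sum_apply, Pi.smul_apply,
    smul_eq_mul, dotProduct]

omit [T2Space Y] [SecondCountableTopology Y] [BorelSpace Y] in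
theorem D8_hol {D : RD n Y} {u : Y → W (Fin n)} (hu : HolW D u) (j : Fin n) (I : Finset (Fin n)) :
    D.Hol fun y => (an j *ᵥ u y) I :=
  RD.Hol.sum Finset.univ fun J _ => (RD.hol_const (an j I J)).mul (hu J)

omit [MeasurableSpace Y] [T2Space Y] [SecondCountableTopology Y] [BorelSpace Y] in
theorem D8_ub {K : Set Y} (hK : IsCompact K) {f : Y → ℝ} (hf : Continuous f) :
    ∃ C, 0 < C ∧ ∀ y ∈ K, f y ≤ C := by
  obtain ⟨C, hC⟩ := hK.bddAbove_image hf.continuousOn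
  exact ⟨|C| + 1, by positivity, fun y hy =>
    (hC ⟨y, hy, rfl⟩).trans ((le_abs_self C).trans (by linarith))⟩

theorem hol_et (hA : A.Good) (hs : A.D.Hol s) (hs' : A.D.Hol s') {u : Y → W (Fin n)}
    (hu : HolW A.D u) (hk : ∀ y, Kill (LMd A.D A.φ y) (u y)) :
    HolW A.D fun y => ctr (et A k s s' y) *ᵥ u y := by
  intro I
  have hX := fun j => D8_hol hu j I
  have hφ : ∀ j, A.D.Sm (A.D.dz j fun p => (A.φ p : ℂ)) := fun j => RD.Sm.dz hA.hφ j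
  have hP : A.D.Hol fun y => ∑ j, A.D.dz j (fun p => (A.φ p : ℂ)) y * (an j *ᵥ u y) I := by
    refine RD.hol_of_db (RD.Sm.sum _ fun j _ => (hφ j).mul (hX j).sm) fun l y => ?_
    have h1 := congrFun (hk y l) I
    rw [D8_ctr] at h1
    rw [RD.db, RD.dX_sum _ fun j _ => (hφ j).mul (hX j).sm]
    refine (Finset.sum_congr rfl fun j _ => ?_).trans h1
    have h2 : A.D.dX (bv l) (fun p => (an j *ᵥ u p) I) y = 0 := (hX j).db l y
    rw [RD.dX_mul (hφ j) (hX j).sm, h2, mul_zero, add_zero]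
    congr 1
    exact RD.dX_comm hA.hφ y
  have e : (fun y => (ctr (et A k s s' y) *ᵥ u y) I) = fun y =>
      (∑ j, (s' y * A.D.dz j s y - s y * A.D.dz j s' y) * (an j *ᵥ u y) I) -
        (k : ℂ) * (s y * s' y) * ∑ j, A.D.dz j (fun p => (A.φ p : ℂ)) y * (an j *ᵥ u y) I := by
    funext y
    rw [D8_ctr, dotProduct, Finset.mul_sum, ← Finset.sum_sub_distrib]
    refine Finset.sum_congr rfl fun j _ => ?_
    simp only [et]
    ring
  rw [e]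
  exact (RD.Hol.sum _ fun j _ => ((hs'.mul (hs.dz j)).sub (hs.mul (hs'.dz j))).mul (hX j)).sub
    (((RD.hol_const _).mul (hs.mul hs')).mul hP)

theorem est (hA : A.Good) (hs : A.D.Hol s) (hs' : A.D.Hol s') (h : Pair A k s s') {K : Set Y}
    (hK : IsCompact K) (h0 : ∀ y ∈ K, s y ≠ 0 ∧ s' y ≠ 0) : ∃ (M : ℕ) (C : ℝ), 0 < C ∧
      ∀ Φ, A.YM Φ → ∃ a : Y → ℝ, Continuous a ∧ (∀ y, 0 ≤ a y) ∧
        (∀ y ∈ K, gr A.D Φ y (et A k s s' y) ≤ C * a y) ∧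
        ∫⁻ y, ENNReal.ofReal (a y * dV A.D Φ y) ∂A.D.μ ≤
          ∫⁻ y, ENNReal.ofReal (M * lap A.D Φ A.φ y * dV A.D Φ y) ∂A.D.μ := by
  obtain ⟨M, hM⟩ := h
  have hc1 := hs.sm.continuous
  have hc2 := hs'.sm.continuous
  have hc3 := hA.hφ.continuous
  obtain ⟨C, hC0, hC⟩ := D8_ub hK (f := fun y =>
    (2 * ‖s' y‖ ^ 2 + ‖s y‖ ^ 2 * Real.exp (-(k * A.φ y))) ^ 2 * Real.exp (k * A.φ y)) (by fun_prop)
  refine ⟨M, C, hC0, fun Φ hΦ => ?_⟩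
  obtain ⟨S₁, S₂, h₁, h₂, hp, he⟩ := hM Φ hΦ
  obtain ⟨δ, hδ, hle⟩ := hK.exists_forall_le' h₁.sm.continuous.continuousOn
    fun y hy => hp y (h0 y hy).2
  have hτ : ∀ y, 0 ≤ M * lap A.D Φ A.φ y := fun y => mul_nonneg (Nat.cast_nonneg _)
    (tr_nonneg (hΦ.kah.2 y) ((LMd_psd hA.hφ).2 (hA.psh y)))
  have hpos : ∀ y, δ ≤ S₁ y + S₂ y + δ := fun y => by linarith [h₁.nn y, h₂.nn y]
  have hf : A.D.SmR fun y => Real.log (S₁ y + S₂ y + δ) :=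
    ((h₁.sm.add h₂.sm).add (RD.smR_const δ)).log fun y => (hδ.trans_le (hpos y)).ne'
  have hb : Continuous fun y => M * lap A.D Φ A.φ y :=
    continuous_const.mul (continuous_lap hΦ.kah hA.hφ)
  have ha : Continuous fun y => lap A.D Φ (fun p => Real.log (S₁ p + S₂ p + δ)) y +
      M * lap A.D Φ A.φ y := (continuous_lap hΦ.kah hf).add hb
  have ha0 := fun y => (logsum hΦ.kah h₁ h₂ hτ hδ y).1
  refine ⟨_, ha, ha0, fun y hy => (grad_le hA.hφ hΦ.kah hs hs' h₁ h₂ hτ he hδ (h0 y hy).1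
    (h0 y hy).2 (hle y hy)).trans (mul_le_mul_of_nonneg_right (hC y hy) (ha0 y)), ?_⟩
  obtain ⟨C₁, hC₁⟩ := h₁.bdd
  obtain ⟨C₂, hC₂⟩ := h₂.bdd
  refine liou hA hΦ hf ⟨|Real.log δ| + |Real.log (C₁ + C₂ + δ)|, fun y => ?_⟩ ha hb ha0 hτ
    fun y => by simp
  have h3 := Real.log_le_log hδ (hpos y)
  have h4 : Real.log (S₁ y + S₂ y + δ) ≤ Real.log (C₁ + C₂ + δ) :=
    Real.log_le_log (hδ.trans_le (hpos y)) (by linarith [hC₁ y, hC₂ y])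
  rw [abs_le]
  constructor
  · linarith [neg_abs_le (Real.log δ), abs_nonneg (Real.log (C₁ + C₂ + δ))]
  · linarith [le_abs_self (Real.log (C₁ + C₂ + δ)), abs_nonneg (Real.log δ)]

theorem D8_gam (hA : A.Good) (ε : ℝ) (y : Y) : LMd A.D (fun p => A.φ p + ε * A.ρ p) y =
    LMd A.D A.φ y + (ε : ℂ) • LMd A.D A.ρ y := by
  have h := LMd_add hA.hφ hA.pos.1 1 ε y
  simpa using h

theorem D8_sum (hA : A.Good) {Φ : Y → ℝ} (hΦ : A.D.SmR Φ) (ε : ℝ) (y : Y) :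
    LMd A.D (fun p => Φ p + (A.φ p + ε * A.ρ p)) y =
      LMd A.D Φ y + (LMd A.D A.φ y + (ε : ℂ) • LMd A.D A.ρ y) := by
  have h := LMd_add hΦ (hA.hφ.add ((RD.smR_const ε).mul hA.pos.1)) 1 1 y
  rw [D8_gam hA] at h
  simpa using h

/-- The pointwise inequalities. -/
theorem D8_pt {G θ ϖ : Matrix (Fin n) (Fin n) ℂ} (hG : G.PosDef) (hθ : θ.PosSemidef)
    (hϖ : ϖ.PosDef) {ε : ℝ} (hε : 0 < ε) :
    (G⁻¹ * θ).trace.re * G.det.re ≤ (G + (θ + (ε : ℂ) • ϖ)).det.re ∧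
      ∀ ξ X : Fin n → ℂ, θ *ᵥ X = 0 → ‖ξ ⬝ᵥ X‖ ^ 2 * (θ + (ε : ℂ) • ϖ).det.re ≤
        ε * (q2 G⁻¹ (star ξ) * q2 ϖ X * (G + (θ + (ε : ℂ) • ϖ)).det.re) := by
  have h1 : ((ε : ℂ) • ϖ).PosDef := hϖ.smul (by exact_mod_cast hε)
  have hγ : (θ + (ε : ℂ) • ϖ).PosDef := Matrix.PosDef.posSemidef_add hθ h1
  constructor
  · refine le_trans (mul_le_mul_of_nonneg_right ?_ (P272.det_re_pos hG).le)
      (tr_det_le hG hγ.posSemidef)
    rw [mul_add, trace_add, Complex.add_re]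
    linarith [tr_nonneg hG h1.posSemidef]
  · intro ξ X hX
    have h2 := dot_le hG ξ X
    have h3 := q2_le_tr hγ hG.posSemidef X
    have h4 := tr_det_le hγ hG.posSemidef
    have h5 : q2 θ X = 0 := by simp [q2, hX]
    rw [q2_add_left, q2_smul_left, h5, zero_add] at h3
    rw [add_comm _ G] at h4
    have h6 := q2_nonneg hG.inv.posSemidef (star ξ)
    have h7 := q2_nonneg hϖ.posSemidef X
    have h8 := (P272.det_re_pos hγ).le
    calc _ ≤ q2 G⁻¹ (star ξ) * (((θ + (ε : ℂ) • ϖ)⁻¹ * G).trace.re * (ε * q2 ϖ X)) *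
          (θ + (ε : ℂ) • ϖ).det.re :=
          mul_le_mul_of_nonneg_right (h2.trans (mul_le_mul_of_nonneg_left h3 h6)) h8
      _ = ε * (q2 G⁻¹ (star ξ) * q2 ϖ X *
          (((θ + (ε : ℂ) • ϖ)⁻¹ * G).trace.re * (θ + (ε : ℂ) • ϖ).det.re)) := by ring
      _ ≤ _ := by gcongr

theorem D8_real {c₀ c₁ c C C₁ V ε h g₁ q a dG dγ g : ℝ} (hc₀ : 0 < c₀) (hc₁ : 0 < c₁) (hc : 0 < c)
    (hC : 0 < C) (hC₁ : 0 < C₁) (hV : 0 < V) (hε : 0 < ε) (ha : 0 ≤ a) (hg : 0 ≤ g) (hq : 0 ≤ q)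
    (h1 : c₀ ≤ h) (h2 : c * V ≤ dγ) (h3 : c₁ * V ≤ dG) (h4 : g₁ ≤ C * a) (h5 : q ≤ C₁)
    (h6 : h * dγ ≤ ε * (g₁ * q * g)) : c₀ * c * c₁ / (C * C₁) * V ^ 2 ≤ ε * (a * dG * g) := by
  have h7 : c₀ * (c * V) ≤ ε * (C * a * C₁ * g) :=
    calc c₀ * (c * V) ≤ h * dγ := mul_le_mul h1 h2 (by positivity) (hc₀.le.trans h1)
      _ ≤ ε * (g₁ * q * g) := h6
      _ ≤ ε * (C * a * q * g) := by gcongr
      _ ≤ _ := by gcongr
  rw [div_mul_eq_mul_div, div_le_iff₀ (by positivity)]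
  calc c₀ * c * c₁ * V ^ 2 = c₀ * (c * V) * (c₁ * V) := by ring
    _ ≤ ε * (C * a * C₁ * g) * dG := mul_le_mul h7 h3 (by positivity) (by positivity)
    _ = _ := by ring

theorem flat (hA : A.Good) (hY : A.Yau) (hs : A.D.Hol s) (hs' : A.D.Hol s') (h0 : s ≠ 0)
    (h0' : s' ≠ 0) (h : Pair A k s s') (m0 : ℕ) : A.FlatQ m0 k s s' := by
  rintro u ⟨q, m, -, hu⟩ y₀
  by_contra hne
  obtain ⟨J, hJ⟩ := Function.ne_iff.1 hne
  have hh := hol_et (k := k) hA hs hs' hu.hol hu.kill J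
  have hd := hA.dense_ne (hh.mul (hs.mul hs')) (hA.mul_ne hh (hs.mul hs')
    (Function.ne_iff.2 ⟨y₀, hJ⟩) (hA.mul_ne hs hs' h0 h0'))
  obtain ⟨K, hK, hKO, hK0, c, hc, hv⟩ := vol_lb hA hY
    (isOpen_ne_fun (hh.mul (hs.mul hs')).sm.continuous continuous_const) hd
  have hO : ∀ y ∈ K, (ctr (et A k s s' y) *ᵥ u y) J ≠ 0 ∧ s y ≠ 0 ∧ s' y ≠ 0 := fun y hy => by
    simpa using hKO hy
  obtain ⟨M, C, hC, hE⟩ := est hA hs hs' h hK fun y hy => (hO y hy).2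
  obtain ⟨c₀, hc₀, h1⟩ := hK.exists_forall_le' (a := 0) (hh.sm.continuous.norm.pow 2).continuousOn
    fun y hy => pow_pos (norm_pos_iff.2 (hO y hy).1) 2
  obtain ⟨C₁, hC₁, h2⟩ := D8_ub hK (smR_q2 (D := A.D) (H := LMd A.D A.ρ)
    (s := fun y j => (an j *ᵥ u y) J) (sm_LMd hA.pos.1) fun j => (D8_hol hu.hol j J).sm).continuous
  obtain ⟨c₂, hc₂, h3⟩ := hK.exists_forall_le' (a := 0)
    (Real.continuous_exp.comp hA.hφ.continuous.neg).continuousOn fun y _ => Real.exp_pos _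
  have hZ : 0 < ∫ p, Real.exp (-A.φ p) ∂A.D.μ := by
    obtain ⟨hV, -, Φ, hΦ, h4, -⟩ := yau_int hA hY one_pos
    have h5 := h4 y₀
    have h6 : 0 < dV A.D Φ y₀ := P272.det_re_pos (hΦ.kah.2 y₀)
    by_contra h7
    have h8 := mul_nonpos_of_nonneg_of_nonpos h6.le (not_lt.1 h7)
    linarith [mul_pos hV (Real.exp_pos (-A.φ y₀))]
  refine mass_abs hK.measurableSet hK0 hK.measure_lt_top
    (c := c₀ * c * (c₂ / ∫ p, Real.exp (-A.φ p) ∂A.D.μ) / (C * C₁)) (C := (M + 1) * 2 ^ n)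
    (by positivity) fun ε hε hε1 => ?_
  obtain ⟨hV, -, Φ, hΦ, h4, h5⟩ := yau_int hA hY hε
  obtain ⟨a, ha, ha0, h6, h7⟩ := hE Φ hΦ
  have hp := fun y => D8_pt (hΦ.kah.2 y) ((LMd_psd hA.hφ).2 (hA.psh y)) (hA.pos.2 y) hε
  have hdV : ∀ y, 0 < dV A.D Φ y := fun y => P272.det_re_pos (hΦ.kah.2 y)
  have hg : ∀ y, dV A.D (fun p => Φ p + (A.φ p + ε * A.ρ p)) y =
      (LMd A.D Φ y + (LMd A.D A.φ y + (ε : ℂ) • LMd A.D A.ρ y)).det.re := fun y => by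
    rw [dV, D8_sum hA hΦ.kah.1]
  have hg0 : ∀ y, 0 ≤ dV A.D (fun p => Φ p + (A.φ p + ε * A.ρ p)) y := fun y => by
    rw [hg]
    exact le_trans (mul_nonneg (tr_nonneg (hΦ.kah.2 y) ((LMd_psd hA.hφ).2 (hA.psh y)))
      (hdV y).le) (hp y).1
  refine ⟨vol A ε, fun y => a y * dV A.D Φ y, dV A.D fun p => Φ p + (A.φ p + ε * A.ρ p), hV,
    (ha.mul (continuous_dV hΦ.kah.1)).measurable, h7.trans ?_, ?_, fun y hy =>
      ⟨mul_nonneg (ha0 y) (hdV y).le, hg0 y, ?_⟩⟩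
  · calc _ ≤ ∫⁻ y, ENNReal.ofReal M *
          ENNReal.ofReal (dV A.D (fun p => Φ p + (A.φ p + ε * A.ρ p)) y) ∂A.D.μ := by
          refine lintegral_mono fun y => ?_
          rw [← ENNReal.ofReal_mul (Nat.cast_nonneg _), mul_assoc, hg]
          exact ENNReal.ofReal_le_ofReal (mul_le_mul_of_nonneg_left (hp y).1 (Nat.cast_nonneg _))
      _ = ENNReal.ofReal (M * (2 ^ n * vol A ε)) := by
          rw [lintegral_const_mul' _ _ ENNReal.ofReal_ne_top, h5,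
            ENNReal.ofReal_mul (Nat.cast_nonneg _)]
      _ ≤ _ := ENNReal.ofReal_le_ofReal (by
          have : 0 < 2 ^ n * vol A ε := by positivity
          nlinarith)
  · rw [h5]
    refine ENNReal.ofReal_le_ofReal ?_
    have : 0 < 2 ^ n * vol A ε := by positivity
    have h8 : (0 : ℝ) ≤ M := Nat.cast_nonneg _
    nlinarith
  · have hX : LMd A.D A.φ y *ᵥ (fun j => (an j *ᵥ u y) J) = 0 := funext fun l => by
      have h8 := congrFun (hu.kill y l) J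
      rwa [D8_ctr] at h8
    have h9 := (hp y).2 (et A k s s' y) _ hX
    rw [← D8_ctr, ← hg, ← D8_gam hA] at h9
    refine D8_real hc₀ (div_pos hc₂ hZ) hc hC hC₁ hV hε (ha0 y) (hg0 y)
      (q2_nonneg (hA.pos.2 y).posSemidef _) (h1 y hy) (hv ε hε hε1 y hy) ?_ (h6 y hy) (h2 y hy) h9
    rw [div_mul_eq_mul_div, div_le_iff₀ hZ, h4, mul_comm]
    exact mul_le_mul_of_nonneg_left (h3 y hy) hV.le

end Vale.Agent.P299.PD
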