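import Vale.Agent.P272.APRing

/-! P299, part D: the Bochner formula for Gram matrices in a ring with derivations. -/

open Matrix
open scoped ComplexOrder ComplexConjugate

noncomputable section

namespace Vale.Agent.P299

open Vale.Agent.P272 Vale.Agent.P272.AP

variable {n r : ℕ} {R : Type} [CommRing R] {κ : Type} [Fintype κ]

theorem DB_mul {δ : R →+ R} (h : IsDer δ) {l o : Type} (A : Matrix l κ R) (B : Matrix κ o R) :
    (A * B).map δ = A.map δ * B + A * B.map δ := by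
  ext i j
  simp only [map_apply, mul_apply, Matrix.add_apply, map_sum, h _ _, Finset.sum_add_distrib]

theorem DB_prod {δ : R →+ R} (h : IsDer δ) (s : Finset (Fin r)) (F : Fin r → R) :
    δ (∏ i ∈ s, F i) = ∑ i ∈ s, δ (F i) * ∏ j ∈ s.erase i, F j := by
  induction s using Finset.induction_on with
  | empty => simp [h.one]
  | insert a s ha ih =>
    rw [Finset.prod_insert ha, h, ih, Finset.sum_insert ha, Finset.erase_insert ha, Finset.mul_sum]
    refine congrArg _ (Finset.sum_congr rfl fun i hi => ?_)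
    rw [Finset.erase_insert_of_ne (ne_of_mem_of_not_mem hi ha).symm,
      Finset.prod_insert fun e => ha (Finset.mem_of_mem_erase e), mul_left_comm]

theorem DB_det {δ : R →+ R} (h : IsDer δ) (M : MR r R) :
    δ M.det = (M.adjugate * M.map δ).trace := by
  have h1 : ∀ i, (M.adjugate * M.map δ) i i = ∑ σ : Equiv.Perm (Fin r), Equiv.Perm.sign σ •
      (δ (M (σ i) i) * ∏ j ∈ Finset.univ.erase i, M (σ j) j) := fun i => by
    refine (congrFun (cramer_eq_adjugate_mulVec M fun k => δ (M k i)) i).symm.trans ?_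
    rw [cramer_apply, det_apply]
    refine Finset.sum_congr rfl fun σ _ => congrArg _ ?_
    rw [← Finset.mul_prod_erase _ _ (Finset.mem_univ i), updateCol_self]
    exact congrArg _ (Finset.prod_congr rfl fun j hj => updateCol_ne (Finset.ne_of_mem_erase hj))
  simp only [trace, diag_apply, h1, det_apply, map_sum, Units.smul_def, map_zsmul, DB_prod h,
    Finset.smul_sum]
  exact Finset.sum_comm

theorem DB_det2 {δ δ' : R →+ R} (h : IsDer δ) (h' : IsDer δ') (M : MR r R) :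
    M.det * δ' (δ M.det) - δ M.det * δ' M.det = M.det * (M.adjugate * (M.map δ).map δ').trace -
      (M.adjugate * M.map δ' * M.adjugate * M.map δ).trace := by
  have h1 := congrArg (· * M.adjugate) (h'.mmul M.adjugate M)
  simp only [adjugate_mul, h'.smul, h'.mone, smul_zero, add_zero, add_mul, Matrix.smul_mul, one_mul,
    mul_assoc, mul_adjugate, Matrix.mul_smul, mul_one] at h1
  have h2 := congrArg (fun B => (B * M.map δ).trace) h1
  simp only [add_mul, Matrix.smul_mul, trace_add, trace_smul, smul_eq_mul, ← DB_det h] at h2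
  conv_lhs => rw [DB_det h, map_tr, h'.mmul, trace_add, ← DB_det h]
  simp only [mul_assoc] at h2 ⊢
  linear_combination -h2

variable [StarRing R] {D : DR n R}

/-- The numerator of the Laplacian of the logarithm. -/
def bN (D : DR n R) (P : MR n R) (u : R) : R :=
  u * D.lap P u - ∑ a, ∑ c, P a c * (D.d a u * D.b c u)

theorem bN_mul (P : MR n R) (u v : R) : bN D P (u * v) = v * v * bN D P u + u * u * bN D P v := by
  simp only [bN, DR.lap_mul, D.der _ _ _, D.derb _ _ _, mul_sub, mul_add, Finset.mul_sum]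
  have h : ∑ a, ∑ c, (P a c * ((D.d a u * v + u * D.d a v) * (D.b c u * v)) +
      P a c * ((D.d a u * v + u * D.d a v) * (u * D.b c v))) =
      ∑ a, ∑ c, v * v * (P a c * (D.d a u * D.b c u)) +
      ∑ a, ∑ c, u * u * (P a c * (D.d a v * D.b c v)) +
      ∑ a, ∑ c, u * v * (P a c * (D.d a u * D.b c v)) +
      ∑ a, ∑ c, u * v * (P a c * (D.d a v * D.b c u)) := by
    simp only [← Finset.sum_add_distrib]
    exact Finset.sum_congr rfl fun a _ => Finset.sum_congr rfl fun c _ => by ring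
  rw [h]
  ring

section Gram
variable [DecidableEq κ] {H Hi : Matrix κ κ R} {V : Matrix κ (Fin r) R} {Ω : Fin n → Matrix κ κ R}

omit [Fintype κ] [DecidableEq κ] in
theorem DB_ct_d {l : Type} (a : Fin n) (A : Matrix κ l R) : (A.map (D.d a))ᴴ = Aᴴ.map (D.b a) := by
  ext i j
  simp [D.star_d]

omit [Fintype κ] [DecidableEq κ] in
theorem DB_ct_b {l : Type} (a : Fin n) (A : Matrix κ l R) : (A.map (D.b a))ᴴ = Aᴴ.map (D.d a) := by
  ext i j
  simp [D.star_b]

omit [DecidableEq κ] in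
theorem DB_d (hV : ∀ c, V.map (D.b c) = 0) (a : Fin n) :
    (Vᴴ * H * V).map (D.d a) = Vᴴ * (H * V).map (D.d a) := by
  rw [Matrix.mul_assoc, DB_mul (D.der a), ← DB_ct_b, hV, conjTranspose_zero, Matrix.zero_mul,
    zero_add]

omit [DecidableEq κ] in
theorem DB_b (hH : Hᴴ = H) (hV : ∀ c, V.map (D.b c) = 0) (c : Fin n) :
    (Vᴴ * H * V).map (D.b c) = ((H * V).map (D.d c))ᴴ * V := by
  rw [DB_mul (D.derb c), hV, Matrix.mul_zero, add_zero, DB_ct_d, conjTranspose_mul, hH]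

theorem DB_bd (hH : Hᴴ = H) (hi : Hi * H = 1) (hV : ∀ c, V.map (D.b c) = 0)
    (hΩ : ∀ a, H.map (D.d a) = H * Ω a) (a c : Fin n) :
    ((Vᴴ * H * V).map (D.d a)).map (D.b c) =
      ((H * V).map (D.d c))ᴴ * Hi * (H * V).map (D.d a) + Vᴴ * H * ((Ω a).map (D.b c) * V) := by
  have h1 : (H * V).map (D.d a) = H * (Ω a * V + V.map (D.d a)) := by
    rw [DB_mul (D.der a), hΩ, Matrix.mul_add, Matrix.mul_assoc]
  have h2 : (V.map (D.d a)).map (D.b c) = 0 := by
    ext i j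
    have h3 := congrFun (congrFun (hV c) i) j
    rw [map_apply] at h3
    rw [map_apply, map_apply, ← D.db, h3]
    exact map_zero _
  have h3 : (Ω a * V + V.map (D.d a)).map (D.b c) = (Ω a).map (D.b c) * V := by
    rw [Matrix.map_add _ (map_add _), h2, add_zero, DB_mul (D.derb c), hV, Matrix.mul_zero, add_zero]
  rw [DB_d hV, h1, ← Matrix.mul_assoc, DB_mul (D.derb c), h3, DB_ct_d, conjTranspose_mul, hH,
    Matrix.mul_assoc _ Hi, ← Matrix.mul_assoc Hi, hi, Matrix.one_mul]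

theorem DB_lap (P : MR n R) (hH : Hᴴ = H) (hi : Hi * H = 1) (hV : ∀ c, V.map (D.b c) = 0)
    (hΩ : ∀ a, H.map (D.d a) = H * Ω a) (hc : (∑ a, ∑ c, P a c • (Ω a).map (D.b c)) * V = 0) :
    ∑ a, ∑ c, P a c • ((Vᴴ * H * V).map (D.d a)).map (D.b c) =
      ∑ a, ∑ c, P a c • (((H * V).map (D.d c))ᴴ * Hi * (H * V).map (D.d a)) := by
  have h := congrArg (Vᴴ * H * ·) hc
  simp only [Matrix.sum_mul, Matrix.mul_sum, Matrix.smul_mul, Matrix.mul_smul,
    Matrix.mul_zero] at h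
  simp only [DB_bd hH hi hV hΩ, smul_add, Finset.sum_add_distrib, h, add_zero]

theorem DB_gram (P : MR n R) (hH : Hᴴ = H) (hi : Hi * H = 1) (hV : ∀ c, V.map (D.b c) = 0)
    (hΩ : ∀ a, H.map (D.d a) = H * Ω a) (hc : (∑ a, ∑ c, P a c • (Ω a).map (D.b c)) * V = 0) :
    bN D P (Vᴴ * H * V).det = ∑ a, ∑ c, P a c * ((Vᴴ * H * V).det * ((Vᴴ * H * V).adjugate *
        (((H * V).map (D.d c))ᴴ * Hi * (H * V).map (D.d a))).trace -
      ((Vᴴ * H * V).adjugate * (((H * V).map (D.d c))ᴴ * V) * (Vᴴ * H * V).adjugate *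
        (Vᴴ * (H * V).map (D.d a))).trace) := by
  have h := congrArg (fun B => (Vᴴ * H * V).det * ((Vᴴ * H * V).adjugate * B).trace)
    (DB_lap P hH hi hV hΩ hc)
  simp only [Finset.mul_sum, Matrix.mul_smul, trace_sum, trace_smul, smul_eq_mul,
    mul_left_comm (Vᴴ * H * V).det] at h
  simp only [mul_sub, Finset.sum_sub_distrib, ← h, ← DB_d hV, ← DB_b hH hV]
  simp only [bN, DR.lap, Finset.mul_sum, mul_left_comm (Vᴴ * H * V).det,
    ← Finset.sum_sub_distrib, ← mul_sub, DB_det2 (D.der _) (D.derb _)]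

end Gram

variable [DecidableEq κ]

theorem DB_pos {P : Mx n} {G : Matrix κ κ ℂ} (hP : P.PosDef) (hG : G.PosDef) (X : Fin n → κ → ℂ) :
    0 ≤ (∑ a, ∑ c, P a c * (star (X c) ⬝ᵥ G *ᵥ X a)).re ∧
      ((∑ a, ∑ c, P a c * (star (X c) ⬝ᵥ G *ᵥ X a)).re = 0 → ∀ a, X a = 0) := by
  have hM := hG.posSemidef.conjTranspose_mul_mul_same (Matrix.of X)ᵀ
  have e : ∀ a c, star (X c) ⬝ᵥ G *ᵥ X a = (((Matrix.of X)ᵀ)ᴴ * G * (Matrix.of X)ᵀ) c a :=
    fun a c => by
      rw [dotProduct_mulVec]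
      rfl
  have e2 : ∑ a, ∑ c, P a c * (star (X c) ⬝ᵥ G *ᵥ X a) =
      (P * (((Matrix.of X)ᵀ)ᴴ * G * (Matrix.of X)ᵀ)).trace := by
    simp only [e, trace, diag_apply, mul_apply (M := P)]
  rw [e2]
  refine ⟨trace_mul_nonneg hP.posSemidef hM, fun h a => ?_⟩
  obtain ⟨y, hy⟩ := Mat_root hP.posSemidef
  have hu : IsUnit y := by
    have h1 := hP.isUnit
    rw [hy, isUnit_iff_isUnit_det, det_mul] at h1
    exact (isUnit_iff_isUnit_det y).2 (isUnit_of_mul_isUnit_right h1)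
  have h2 := hM.mul_mul_conjTranspose_same y
  have h3 : (y * (((Matrix.of X)ᵀ)ᴴ * G * (Matrix.of X)ᵀ) * yᴴ).trace = 0 := by
    have h7 := (Complex.nonneg_iff.1 h2.trace_nonneg).2.symm
    rw [trace_mul_cycle, ← hy] at h7 ⊢
    exact Complex.ext h h7
  have h4 := h2.trace_eq_zero_iff.1 h3
  have hu' : IsUnit yᴴ := by simpa [star_eq_conjTranspose] using hu.star
  rw [hu'.mul_left_eq_zero, hu.mul_right_eq_zero] at h4
  by_contra h5
  have h6 := hG.dotProduct_mulVec_pos h5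
  rw [e, h4] at h6
  exact lt_irrefl _ h6

theorem DB_gpos {P : Mx n} {H : Matrix κ κ ℂ} (hP : P.PosSemidef) (hH : H.PosDef)
    {V : Matrix κ (Fin r) ℂ} (hd : (Vᴴ * H * V).det ≠ 0) (X : Fin n → Matrix κ (Fin r) ℂ) :
    0 ≤ (∑ a, ∑ c, P a c * ((Vᴴ * H * V).det * ((Vᴴ * H * V).adjugate *
        ((X c)ᴴ * H⁻¹ * X a)).trace -
      ((Vᴴ * H * V).adjugate * ((X c)ᴴ * V) * (Vᴴ * H * V).adjugate * (Vᴴ * X a)).trace)).re := by
  have hA := hH.posSemidef.conjTranspose_mul_mul_same V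
  have hu := (isUnit_iff_isUnit_det H).1 hH.isUnit
  have h1 := nonsing_inv_mul _ hd.isUnit
  have h2 : (Vᴴ * H * V).adjugate = (Vᴴ * H * V).det • (Vᴴ * H * V)⁻¹ := by
    rw [inv_def, Ring.inverse_eq_inv', smul_smul, mul_inv_cancel₀ hd, one_smul]
  have hN : (H⁻¹ - V * (Vᴴ * H * V)⁻¹ * Vᴴ).PosSemidef := by
    have h3 := hH.posSemidef.conjTranspose_mul_mul_same (H⁻¹ - V * (Vᴴ * H * V)⁻¹ * Vᴴ)
    have h4 : V * (Vᴴ * H * V)⁻¹ * Vᴴ * H * (V * (Vᴴ * H * V)⁻¹ * Vᴴ) =
        V * ((Vᴴ * H * V)⁻¹ * (Vᴴ * H * V)) * (Vᴴ * H * V)⁻¹ * Vᴴ := by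
      simp only [Matrix.mul_assoc]
    rwa [conjTranspose_sub, hH.inv.1.eq, conjTranspose_mul, conjTranspose_mul, hA.inv.1.eq,
      conjTranspose_conjTranspose, ← Matrix.mul_assoc V, Matrix.sub_mul, nonsing_inv_mul H hu,
      Matrix.sub_mul, Matrix.one_mul, Matrix.mul_sub _ H⁻¹, h4, h1, Matrix.mul_one,
      Matrix.mul_assoc _ H H⁻¹, mul_nonsing_inv H hu, Matrix.mul_one, sub_self, sub_zero] at h3
  have h5 := det_eq_re hA.1
  have hI := hA.inv
  generalize (Vᴴ * H * V)⁻¹ = B at h2 hN hI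
  rw [h2, h5]
  generalize (Vᴴ * H * V).det.re = s
  refine gram hP fun w => ?_
  have h6 := trace_mul_nonneg hI (hN.conjTranspose_mul_mul_same (∑ a, w a • X a))
  refine (mul_nonneg (mul_self_nonneg s) h6).trans_eq ?_
  rw [← Complex.re_ofReal_mul]
  refine congrArg _ ?_
  simp only [conjTranspose_sum, conjTranspose_smul, Matrix.sum_mul, Matrix.mul_sum, Matrix.smul_mul,
    Matrix.mul_smul, trace_sum, trace_smul, smul_eq_mul, Finset.mul_sum, Matrix.mul_sub,
    Matrix.sub_mul, trace_sub, Matrix.mul_assoc, Complex.star_def, Finset.smul_sum,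
    ← Finset.sum_sub_distrib]
  refine Finset.sum_congr rfl fun a _ => Finset.sum_congr rfl fun c _ => ?_
  push_cast
  ring

end Vale.Agent.P299
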