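import Vale.Agent.P271A.XDefs
import Vale.Agent.P272.Defs

/-! P299: Fock space, forms on Riemann domains, the affine model and the data passed between the
parts of the proof. -/

open MeasureTheory Set Filter Topology Matrix
open scoped ContDiff ENNReal ComplexConjugate ComplexOrder

noncomputable section

namespace Vale.Agent.P299

open Vale.Agent.P271A

/-- The exterior algebra in its standard basis. -/
abbrev W (ι : Type) : Type := Finset ι → ℂ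

section Fock
variable {ι : Type} [Fintype ι] [LinearOrder ι]

/-- The sign of inserting `j` into `I`. -/
def sg (j : ι) (I : Finset ι) : ℂ := (-1) ^ (I.filter (· < j)).card

/-- The annihilation operator. -/
def an (j : ι) : Matrix (Finset ι) (Finset ι) ℂ :=
  Matrix.of fun I J => if j ∉ I ∧ J = insert j I then sg j I else 0

/-- The creation operator. -/
def cr (j : ι) : Matrix (Finset ι) (Finset ι) ℂ := (an j)ᴴ

/-- Contraction with the covector `ξ`. -/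
def ctr (ξ : ι → ℂ) : Matrix (Finset ι) (Finset ι) ℂ := ∑ j, ξ j • an j

/-- Exterior multiplication by `ξ`. -/
def wdg (ξ : ι → ℂ) : Matrix (Finset ι) (Finset ι) ℂ := ∑ j, ξ j • cr j

/-- The action of a matrix on the exterior algebra. -/
def Gm (g : Matrix ι ι ℂ) : Matrix (Finset ι) (Finset ι) ℂ :=
  Matrix.of fun I J => ((J.sort (· ≤ ·)).map fun j => wdg fun k => g k j).prod I ∅

/-- Homogeneous elements. -/
def Dg (q : ℕ) (v : W ι) : Prop := ∀ I : Finset ι, I.card ≠ q → v I = 0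

/-- All rows of `θ` contract `v` to zero. -/
def Kill (θ : Matrix ι ι ℂ) (v : W ι) : Prop := ∀ k, ctr (θ k) *ᵥ v = 0

end Fock

/-- The quadratic form of a matrix. -/
def q2 {κ : Type} [Fintype κ] (H : Matrix κ κ ℂ) (v : κ → ℂ) : ℝ := (star v ⬝ᵥ H *ᵥ v).re

section RD
variable {n : ℕ} {Y : Type} [TopologicalSpace Y] [MeasurableSpace Y] (D : RD n Y)

/-- The Levi matrix. -/
def LMd (φ : Y → ℝ) (y : Y) : Matrix (Fin n) (Fin n) ℂ :=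
  Matrix.of fun j k => D.dz k (D.db j fun p => (φ p : ℂ)) y

/-- The holomorphic differential. -/
def dzv (f : Y → ℂ) (y : Y) : Fin n → ℂ := fun j => D.dz j f y

/-- The antiholomorphic differential. -/
def dbv (f : Y → ℂ) (y : Y) : Fin n → ℂ := fun j => D.db j f y

/-- Smooth vector valued functions. -/
def SmW {κ : Type} (u : Y → κ → ℂ) : Prop := ∀ I, D.Sm fun y => u y I

/-- Holomorphic vector valued functions. -/
def HolW {κ : Type} (u : Y → κ → ℂ) : Prop := ∀ I, D.Hol fun y => u y I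

/-- The Cauchy-Riemann operator on forms of type `(0, *)`. -/
def dbar (u : Y → W (Fin n)) (y : Y) : W (Fin n) :=
  ∑ j, cr j *ᵥ fun I => D.db j (fun p => u p I) y

/-- The weighted divergence of a polyvector field. -/
def dvg (Φ : Y → ℝ) (v : Y → W (Fin n)) (y : Y) : W (Fin n) :=
  ∑ j, an j *ᵥ fun I => D.dz j (fun p => v p I) y - D.dz j (fun p => (Φ p : ℂ)) y * v y I

/-- The form of a polyvector field. -/
def low (Ψ : Y → ℝ) (v : Y → W (Fin n)) (y : Y) : W (Fin n) := Gm (LMd D Ψ y) *ᵥ v y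

/-- The squared norm of a polyvector field. -/
def nV (Ψ Φ : Y → ℝ) (v : Y → W (Fin n)) : ℝ≥0∞ :=
  ∫⁻ y, ENNReal.ofReal (q2 (Gm (LMd D Ψ y)) (v y) * Real.exp (-Φ y)) ∂D.μ

/-- The squared norm of a form. -/
def nF (Ψ Φ : Y → ℝ) (u : Y → W (Fin n)) : ℝ≥0∞ :=
  ∫⁻ y, ENNReal.ofReal (q2 (Gm (LMd D Ψ y)⁻¹) (u y) * Real.exp (-Φ y)) ∂D.μ

/-- The squared norm of a function. -/
def nO (Φ : Y → ℝ) (F : Y → ℂ) : ℝ≥0∞ :=
  ∫⁻ y, ENNReal.ofReal (‖F y‖ ^ 2 * Real.exp (-Φ y)) ∂D.μ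

/-- Kaehler potentials. -/
def Kah (Ψ : Y → ℝ) : Prop := D.SmR Ψ ∧ ∀ y, (LMd D Ψ y).PosDef

/-- Cutoff functions equal to one on `K`. -/
def Cut (K : Set Y) (χ : Y → ℝ) : Prop :=
  (D.Test fun y => (χ y : ℂ)) ∧ (∀ y, 0 ≤ χ y ∧ χ y ≤ 1) ∧ ∀ y ∈ K, χ y = 1

/-- The metric of `Ψ` is complete. -/
def Cplt (Ψ : Y → ℝ) : Prop :=
  ∀ K, IsCompact K → ∀ ε > (0 : ℝ), ∃ χ, Cut D K χ ∧
    ∀ y v, ‖D.del χ y v‖ ^ 2 ≤ ε * D.levi Ψ y v

/-- The Laplacian. -/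
def lap (Ψ f : Y → ℝ) (y : Y) : ℝ := ((LMd D Ψ y)⁻¹ * LMd D f y).trace.re

/-- The volume density. -/
def dV (Ψ : Y → ℝ) (y : Y) : ℝ := (LMd D Ψ y).det.re

end RD

instance secondCountable_ne {Y : Type} [TopologicalSpace Y] [SecondCountableTopology Y]
    (P : Y → ℂ) : SecondCountableTopology {y // P y ≠ 0} :=
  TopologicalSpace.Subtype.secondCountableTopology {y | P y ≠ 0}

/-- The logarithm of the squared norm of a finite family. -/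
def lg {Y κ : Type} [Fintype κ] (a : κ → Y → ℂ) (y : Y) : ℝ := Real.log (∑ i, ‖a i y‖ ^ 2)

/-- The data of an affine model: a Riemann domain, affine coordinates `x`, the weight `φ` of the
anticanonical bundle and the equation `p0` of the boundary. -/
structure AD (n N : ℕ) (Y : Type) [TopologicalSpace Y] [MeasurableSpace Y] where
  D : RD n Y
  x : Fin (N + 1) → Y → ℂ
  φ : Y → ℝ
  l0 : ℕ
  p0 : MvPolynomial (Fin (N + 1)) ℂ

namespace AD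
variable {n N : ℕ} {Y : Type} [TopologicalSpace Y] [MeasurableSpace Y] (A : AD n N Y)

/-- The squared norm of the coordinates. -/
def nx (y : Y) : ℝ := ∑ i, ‖A.x i y‖ ^ 2

/-- The Fubini-Study potential. -/
def ρ : Y → ℝ := lg A.x

/-- A polynomial in the coordinates. -/
def ev (p : MvPolynomial (Fin (N + 1)) ℂ) (y : Y) : ℂ := MvPolynomial.eval (fun i => A.x i y) p

/-- Sections of `m L + l H`. -/
def S (m : ℤ) (l : ℕ) : Submodule ℂ (Y → ℂ) where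
  carrier := {f | A.D.Hol f ∧ ∃ C : ℝ, ∀ y, ‖f y‖ ^ 2 ≤ C * (Real.exp (m * A.φ y) * A.nx y ^ l)}
  add_mem' := by
    rintro f g ⟨hf, C, h⟩ ⟨hg, C', h'⟩
    refine ⟨fun y => (hf y).add (hg y), 2 * C + 2 * C', fun y => ?_⟩
    have h1 := norm_add_le (f y) (g y)
    have h2 : ‖f y + g y‖ ^ 2 ≤ (‖f y‖ + ‖g y‖) ^ 2 := by gcongr
    have h3 := sq_nonneg (‖f y‖ - ‖g y‖)
    have h4 := h y
    have h5 := h' y
    rw [Pi.add_apply]
    nlinarith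
  zero_mem' := ⟨fun _ => differentiableAt_const _, 0, fun y => by simp⟩
  smul_mem' := by
    rintro c f ⟨hf, C, h⟩
    refine ⟨fun y => (hf y).const_smul c, ‖c‖ ^ 2 * C, fun y => ?_⟩
    rw [Pi.smul_apply, norm_smul, mul_pow, mul_assoc]
    exact mul_le_mul_of_nonneg_left (h y) (sq_nonneg _)

/-- Holomorphic polyvector fields of degree `q` with values in `m L` that are killed by the
curvature. -/
structure IsV (q m : ℕ) (v : Y → W (Fin n)) : Prop where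
  hol : HolW A.D v
  deg : ∀ y, Dg q (v y)
  bdd : ∃ C : ℝ, ∀ y, q2 (Gm (LMd A.D A.ρ y)) (v y) ≤ C * Real.exp (m * A.φ y)
  kill : ∀ y, Kill (LMd A.D A.φ y) (v y)

/-- The fields that define the foliation. -/
def U (m0 : ℕ) (v : Y → W (Fin n)) : Prop := ∃ q m, (m = 0 ∨ m0 ≤ m) ∧ A.IsV q m v

/-- The quotient `s / s'` is a section of `k L` that is flat along the foliation. -/
def FlatQ (m0 : ℕ) (k : ℕ) (s s' : Y → ℂ) : Prop :=
  ∀ u, A.U m0 u → ∀ y, ctr (fun j => s' y * A.D.dz j s y - s y * A.D.dz j s' y -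
    k * (s y * s' y * A.D.dz j (fun p => (A.φ p : ℂ)) y)) *ᵥ u y = 0

/-- `τ` is a rational section of `k L`. -/
def Rat (k : ℤ) (τ : Y → ℂ) : Prop := ∃ l, ∃ B ∈ A.S 0 l, B ≠ 0 ∧ B * τ ∈ A.S k l

/-- Holomorphic rational first integrals. -/
def FI (m0 : ℕ) (c : Y → ℂ) : Prop := A.D.Hol c ∧ A.Rat 0 c ∧ A.FlatQ m0 0 c 1

/-- The properties of an affine model. -/
structure Good : Prop where
  conn : IsConnected (univ : Set Y)
  x0 : A.x 0 = 1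
  hx : ∀ i, A.D.Hol (A.x i)
  hφ : A.D.SmR A.φ
  psh : ∀ y v, 0 ≤ A.D.levi A.φ y v
  pos : Kah A.D A.ρ
  vol : ∃ c : ℝ, 0 < c ∧ ∀ y, c * Real.exp (-A.φ y) ≤ dV A.D A.ρ y ∧
    dV A.D A.ρ y ≤ c⁻¹ * Real.exp (-A.φ y)
  th : ∃ C : ℝ, ∀ y v, A.D.levi A.φ y v ≤ C * A.D.levi A.ρ y v
  fin : Integrable (fun y => Real.exp (-A.φ y)) A.D.μ
  fd : ∀ m l, FiniteDimensional ℂ (A.S m l)
  ext : ∀ (m : ℤ) (l : ℕ) (F : Y → ℂ), A.D.Hol F →
    nO A.D (fun y => (m + 1) * A.φ y + l * A.ρ y) F < ⊤ → F ∈ A.S m l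
  bpf : ∀ m : ℤ, ∃ (d r : ℕ) (e : Fin r → Y → ℂ) (c : ℝ), 0 < c ∧ (∀ i, e i ∈ A.S m d) ∧
    ∀ y, c * (Real.exp (m * A.φ y) * A.nx y ^ d) ≤ ∑ i, ‖e i y‖ ^ 2
  gen : ∀ l, ∀ f ∈ A.S 0 l, ∃ p : MvPolynomial (Fin (N + 1)) ℂ, p.totalDegree ≤ l ∧ f = A.ev p
  deg0 : A.p0.totalDegree ≤ A.l0
  ne0 : ∀ y, A.ev A.p0 y ≠ 0
  cpt : ∀ δ > (0 : ℝ), IsCompact {y | δ * A.nx y ^ A.l0 ≤ ‖A.ev A.p0 y‖ ^ 2}
  pts : ∀ z : Fin (N + 1) → ℂ, (∀ p, A.ev p = 0 → MvPolynomial.eval z p = 0) →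
    MvPolynomial.eval z A.p0 ≠ 0 → ∃ y, ∀ i, A.x i y = z i

/-- `Φ` is the potential of a Kaehler metric comparable with the Fubini-Study metric whose Ricci
form is the curvature of `φ`. -/
structure YM (Φ : Y → ℝ) : Prop where
  kah : Kah A.D Φ
  cmp : ∃ C : ℝ, ∀ y v, A.D.levi A.ρ y v ≤ C * A.D.levi Φ y v ∧
    A.D.levi Φ y v ≤ C * A.D.levi A.ρ y v
  det : ∃ c : ℝ, 0 < c ∧ ∀ y, dV A.D Φ y = c * Real.exp (-A.φ y)

/-- The solutions of the Calabi problem in the classes `φ + ε ρ`. -/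
def Yau : Prop := ∀ ε > (0 : ℝ), ∃ Φ, A.YM Φ ∧
  ∫ y, dV A.D Φ y ∂A.D.μ = ∫ y, dV A.D (fun p => A.φ p + ε * A.ρ p) y ∂A.D.μ ∧
  ∫ y, dV A.D (fun p => Φ p + (A.φ p + ε * A.ρ p)) y ∂A.D.μ =
    2 ^ n * ∫ y, dV A.D (fun p => A.φ p + ε * A.ρ p) y ∂A.D.μ

/-- `B` is the part of `A` where `P` does not vanish. -/
structure Sub (P : Y → ℂ) (B : AD n N {y // P y ≠ 0}) : Prop where
  pr : ∀ y, B.D.pr y = A.D.pr y.1
  x : ∀ i y, B.x i y = A.x i y.1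
  φ : ∀ y, B.φ y = A.φ y.1

/-- Infinitely many powers of `s / s'` have poles bounded by a fixed divisor, up to first
integrals. -/
def IntA (m0 k : ℕ) (s s' : Y → ℂ) : Prop :=
  ∃ (m₁ : ℤ) (l₀ : ℕ), ∃ σ ∈ A.S m₁ l₀, σ ≠ 0 ∧ ∀ j₀ : ℕ, ∃ j ≥ j₀,
    ∃ w ∈ A.S (m₁ + j * k) l₀, ∃ l', ∃ F ∈ A.S 0 l', ∃ B ∈ A.S 0 l', B ≠ 0 ∧ A.FlatQ m0 0 F B ∧
      σ * s ^ j * B = F * w * s' ^ j

/-- The norm of `s / s'` is bounded by first integrals. -/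
def IntB (m0 k l : ℕ) (s s' : Y → ℂ) : Prop :=
  ∃ (r : ℕ) (c : Fin r → Y → ℂ), (∀ i, c i ∈ A.S 0 l ∧ A.FlatQ m0 0 (c i) s') ∧
    ∀ y, ‖s y‖ ^ 2 * Real.exp (-(k * A.φ y)) ≤ ∑ i, ‖c i y‖ ^ 2

/-- A flat rational section without horizontal poles. -/
def Tau : Prop :=
  ∃ (m0 k l : ℕ) (s s' : Y → ℂ), 0 < k ∧ s ∈ A.S k l ∧ s' ∈ A.S 0 l ∧ s ≠ 0 ∧ s' ≠ 0 ∧
    A.FlatQ m0 k s s' ∧ (A.IntA m0 k s s' ∨ A.IntB m0 k l s s')

/-- The data on the base of the foliation. -/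
structure BD where
  m0 : ℕ
  k : ℕ
  τ : Y → ℂ
  α : ℕ
  β : ℕ
  a : Fin (α + 1) → Y → ℂ
  f : Fin (β + 1) → Y → ℂ
  k_pos : 0 < k
  τ_hol : A.D.Hol τ
  τ_ne : ∀ y, τ y ≠ 0
  τ_rat : A.Rat k τ
  τ_flat : A.FlatQ m0 k τ 1
  a0 : a 0 = 1
  f0 : f 0 = 1
  a_fi : ∀ i, A.FI m0 (a i)
  f_a : ∀ j, ∃ i i', f j = a i * a i'
  gef : ∀ y v, A.D.levi (lg f) y v ≤ 2 * A.D.levi (lg a) y v
  up : ∃ C : ℝ, ∀ y, ‖τ y‖ ^ 2 * Real.exp (-(k * A.φ y)) * ∑ i, ‖a i y‖ ^ 2 ≤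
    C * ∑ j, ‖f j y‖ ^ 2
  lo : ∃ c : ℝ, 0 < c ∧ ∀ y₀, ∃ O ∈ 𝓝 y₀, ∃ Q, IsCompact Q ∧ ∀ F, A.FI m0 F → ∀ y ∈ O,
    ∃ ς ∈ Q, F ς = F y ∧ c * ∑ j, ‖f j y‖ ^ 2 ≤
      ‖τ ς‖ ^ 2 * Real.exp (-(k * A.φ ς)) * ∑ i, ‖a i y‖ ^ 2

variable {A}

/-- The weight whose holomorphic square integrable functions are first integrals. -/
def BD.wt (b : A.BD) (p t : ℕ) (y : Y) : ℝ :=
  A.φ y + p * (b.k * A.φ y - Real.log (‖b.τ y‖ ^ 2)) + t * lg b.a y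

/-- A complete metric and semipositive approximations of the weight on the base. -/
structure BD.Gam (b : A.BD) (Ψ : Y → ℝ) : Prop where
  kah : Kah A.D Ψ
  cplt : Cplt A.D Ψ
  geρ : ∀ y v, A.D.levi A.ρ y v ≤ A.D.levi Ψ y v
  gea : ∀ y v, A.D.levi (lg b.a) y v ≤ A.D.levi Ψ y v
  pot : ∃ C₀ B : ℝ, 0 < C₀ ∧ ∀ y, |Ψ y - (C₀ * A.ρ y + lg b.a y)| ≤ B
  apx : ∃ B : ℝ, ∀ ε > (0 : ℝ), ∃ γ, A.D.SmR γ ∧ (∀ y, |γ y - (lg b.a y - lg b.f y)| ≤ B) ∧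
    ∀ y v, -(ε * A.D.levi Ψ y v) ≤ A.D.levi γ y v

end AD

section Real
open Vale.Agent.P271

variable {n N : ℕ} {X : Type} [TopologicalSpace X] [MeasurableSpace X] {M : Model n X}
  {P : Pol M.toAtl}

/-- The affine model `A` comes from the polarised manifold. -/
structure Real (C : Cov M P) (A : AD n N C.Y) : Prop where
  k0 : P.k0 = 1
  hD : A.D = C.D
  hx : ∃ e : Fin (N + 1) ≃ Fin P.N, ∀ i q, A.x i q = P.s (e i) (C.π q) / C.t q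
  hφ : ∀ q, A.φ q = Real.log (‖C.Ω (C.π q)‖ ^ 2)

end Real

end Vale.Agent.P299
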