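import Vale.Agent.P299.ELG
import Vale.Agent.P271.Sieg

/-! P299, part E: from point gauges to finite atlases. -/

open MeasureTheory Set Filter Topology Matrix
open scoped ContDiff ComplexConjugate ComplexOrder

noncomputable section

namespace Vale.Agent.P299

open Vale.Agent.P271 Vale.Agent.P272

variable {d : ℕ} {Y : Type} [TopologicalSpace Y] {c : CA d Y} {g g' : Y → Y → ℂ} {f f' : Y → ℂ}
  {p : Y}

/-- The gauge is good on the neighbourhoods `O p`. -/
def Fine (c : CA d Y) (g : Y → Y → ℂ) (O : Y → Set Y) : Prop :=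
  ∀ p, ∀ x ∈ O p, x ∈ (c.c p).source ∧ (∀ᶠ y in 𝓝 x, g p y ≠ 0 ∧ g x y ≠ 0) ∧
    AnalyticAt ℂ (c.lo x fun y => g p y / g x y) (c.c x x) ∧
      ContDiffAt ℝ ∞ (c.lo p fun y => ‖g p y‖ ^ 2) (c.c p x)

/-- A finite atlas made of restricted charts. -/
def Sub (c : CA d Y) (O : Y → Set Y) (A : Atl d Y) (t : A.ι → Y) : Prop :=
  ∀ a, (A.e a).source ⊆ O (t a) ∧ (A.e a).source ⊆ (c.c (t a)).source ∧
    (∀ x, A.e a x = c.c (t a) x) ∧ ∀ w, (A.e a).symm w = (c.c (t a)).symm w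

theorem to_atl [CompactSpace Y] (c : CA d Y) {O : Y → Set Y} (hO : ∀ p, O p ∈ 𝓝 p) :
    ∃ (A : Atl d Y) (t : A.ι → Y), Sub c O A t := by
  obtain ⟨s, hs⟩ := CompactSpace.elim_nhds_subcover (fun p => (c.c p).source ∩ interior (O p))
    fun p => inter_mem ((c.c p).open_source.mem_nhds (c.mem p)) (interior_mem_nhds.2 (hO p))
  refine ⟨⟨s, fun a => (c.c a).restrOpen (interior (O a)) isOpen_interior, fun p => ?_,
    fun a b z hz => ?_⟩, fun a => a.1, fun a => ⟨fun x hx => interior_subset hx.2,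
      fun x hx => hx.1, fun _ => rfl, fun _ => rfl⟩⟩
  · have hp : p ∈ ⋃ x ∈ s, (c.c x).source ∩ interior (O x) := by rw [hs]; trivial
    obtain ⟨x, hx, h⟩ := mem_iUnion₂.1 hp
    exact ⟨⟨x, hx⟩, h⟩
  · have h1 : z ∈ (c.c a).target := hz.1.1
    have h2 := c.hol a b _ ((c.c a).map_target h1) hz.2.1
    rw [(c.c a).right_inv h1] at h2
    exact h2

theorem LG.fine (h : LG c g) : ∃ O : Y → Set Y, (∀ p, O p ∈ 𝓝 p) ∧ Fine c g O := by
  refine ⟨fun p => {x | x ∈ (c.c p).source ∧ (∀ᶠ y in 𝓝 x, g p y ≠ 0 ∧ g x y ≠ 0) ∧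
    AnalyticAt ℂ (c.lo x fun y => g p y / g x y) (c.c x x) ∧
      ContDiffAt ℝ ∞ (c.lo p fun y => ‖g p y‖ ^ 2) (c.c p x)}, fun p => ?_, fun p x hx => hx⟩
  filter_upwards [(c.c p).open_source.mem_nhds (c.mem p), (h.ne p).eventually_nhds, h.hol p,
    ((c.c p).continuousAt (c.mem p)).eventually (h.sm p)] with x h1 h2 h3 h4
  exact ⟨h1, h2.and (h.ne x), h3, h4⟩

theorem eatl_congr {x : Y} (hx : x ∈ (c.c p).source) (e : ∀ᶠ y in 𝓝 x, f y = f' y)
    (h : AnalyticAt ℂ (c.lo p f) (c.c p x)) : AnalyticAt ℂ (c.lo p f') (c.c p x) :=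
  h.congr ((c.ev_iff hx (q := fun y => f y = f' y)).2 e)

theorem eatl_iff {O : Y → Set Y} (h : Fine c g O) {x : Y} (hx : x ∈ O p) :
    AnalyticAt ℂ (c.lo p fun y => g p y * f y) (c.c p x) ↔ HA c g f x := by
  obtain ⟨h1, h2, h3, -⟩ := h p x hx
  rw [c.an_iff h1 (c.mem x)]
  have h0 : c.lo x (fun y => g p y / g x y) (c.c x x) ≠ 0 := by
    rw [c.lo_ce x _ (c.mem x)]
    exact div_ne_zero h2.self_of_nhds.1 h2.self_of_nhds.2
  constructor
  · intro h4
    refine eatl_congr (f := fun y => g p y * f y / (g p y / g x y)) (c.mem x) ?_ (h4.div h3 h0)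
    filter_upwards [h2] with y hy
    field_simp [hy.1, hy.2]
  · intro h4
    refine eatl_congr (f := fun y => g p y / g x y * (g x y * f y)) (c.mem x) ?_ (h3.mul h4)
    filter_upwards [h2] with y hy
    field_simp [hy.1, hy.2]

theorem fine_gauge (hg : LG c g) {O : Y → Set Y} (h : Fine c g O) {A : Atl d Y} {t : A.ι → Y}
    (hA : Sub c O A t) : A.IsGauge (fun a => g (t a)) ∧ A.H0 (fun a => g (t a)) = HS c g := by
  have _ := hg
  have hl : ∀ {F : Type} (a : A.ι) (u : Y → F), A.loc a u = c.lo (t a) u := fun a u => by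
    funext w
    simp only [Atl.loc, CA.lo, (hA a).2.2.2]
  have hz : ∀ a, ∀ z ∈ (A.e a).target, z = c.c (t a) ((A.e a).symm z) := fun a z hz => by
    rw [← (hA a).2.2.1, (A.e a).right_inv hz]
  refine ⟨⟨fun a x hx => (h _ x ((hA a).1 hx)).2.1.self_of_nhds.1, fun a b z hz' => ?_,
    fun a z hz' => ?_⟩, ?_⟩
  · have ha := (A.e a).map_target hz'.1
    obtain ⟨a1, a2, a3, -⟩ := h _ _ ((hA a).1 ha)
    obtain ⟨-, b2, b3, -⟩ := h _ _ ((hA b).1 hz'.2)
    rw [hl, hz a z hz'.1, c.an_iff a1 (c.mem _)]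
    generalize (A.e a).symm z = x at *
    have h0 : c.lo x (fun y => g (t b) y / g x y) (c.c x x) ≠ 0 := by
      rw [c.lo_ce x _ (c.mem x)]
      exact div_ne_zero b2.self_of_nhds.1 b2.self_of_nhds.2
    refine eatl_congr (f := fun y => g (t a) y / g x y / (g (t b) y / g x y)) (c.mem x) ?_
      (a3.div b3 h0)
    filter_upwards [b2] with y hy
    field_simp [hy.1, hy.2]
  · have h1 := (h _ _ ((hA a).1 ((A.e a).map_target hz'))).2.2.2
    rw [← hz a z hz', ← hl] at h1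
    exact h1.contDiffWithinAt
  · ext s
    constructor
    · intro hs x
      obtain ⟨a, ha⟩ := A.cover x
      have h1 := hs a _ ((A.e a).map_source ha)
      rw [hl, (hA a).2.2.1] at h1
      exact (eatl_iff h ((hA a).1 ha)).1 h1
    · intro hs a z hz'
      rw [hl, hz a z hz']
      exact (eatl_iff h ((hA a).1 ((A.e a).map_target hz'))).2 (hs _)

theorem eatl_ex [CompactSpace Y] (hg : LG c g) : ∃ (A : Atl d Y) (u : A.ι → Y → ℂ),
    A.IsGauge u ∧ A.H0 u = HS c g := by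
  obtain ⟨O, hO, h⟩ := hg.fine
  obtain ⟨A, t, hA⟩ := to_atl c hO
  exact ⟨A, _, fine_gauge hg h hA⟩

theorem finDim_HS [T2Space Y] [CompactSpace Y] (hg : LG c g) : FiniteDimensional ℂ (HS c g) := by
  obtain ⟨A, u, hu, e⟩ := eatl_ex hg
  rw [← e]
  exact finDim A hu

theorem dense_HS [CompactSpace Y] [PreconnectedSpace Y] (hg : LG c g) (h : f ∈ HS c g)
    (h0 : f ≠ 0) : Dense {x | f x ≠ 0} := by
  obtain ⟨A, u, hu, e⟩ := eatl_ex hg
  rw [← e] at h
  exact Atl.dense_ne_zero hu h h0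

theorem bound_HS [CompactSpace Y] (hg : LG c g) (h : f ∈ HS c g) :
    ∃ C : ℝ, 0 < C ∧ ∀ x, ‖f x‖ ≤ C := by
  obtain ⟨A, u, hu, e⟩ := eatl_ex hg
  rw [← e] at h
  obtain ⟨C, h0, hC⟩ := Atl.exists_bound hu (Atl.H0_le_Sec h)
  exact ⟨C + 1, by linarith, fun x => (hC x).trans (by linarith)⟩

theorem prod_ne_HS [CompactSpace Y] [ConnectedSpace Y] (hg : LG c g) {ι : Type} (s : Finset ι)
    {e : ι → Y → ℂ} (h : ∀ i ∈ s, e i ∈ HS c g) (h0 : ∀ i ∈ s, e i ≠ 0) :
    ∏ i ∈ s, e i ≠ 0 := by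
  classical
  have key : Dense {x | (∏ i ∈ s, e i) x ≠ 0} := by
    induction s using Finset.induction_on with
    | empty => simp
    | insert j s hj ih =>
      have h1 := dense_HS hg (h j (Finset.mem_insert_self _ _)) (h0 j (Finset.mem_insert_self _ _))
      have h2 := ih (fun i hi => h i (Finset.mem_insert_of_mem hi))
        fun i hi => h0 i (Finset.mem_insert_of_mem hi)
      have h3 : IsOpen {x | e j x ≠ 0} := by
        simpa using isOpen_ne_fun (cont_HS hg (h j (Finset.mem_insert_self _ _)))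
          (continuous_const (y := (0 : ℝ)))
      refine (h1.inter_of_isOpen_left h2 h3).mono fun x hx => ?_
      rw [Finset.prod_insert hj]
      exact mul_ne_zero hx.1 hx.2
  intro h1
  obtain ⟨x, hx⟩ := key.nonempty
  exact hx (by rw [h1]; rfl)

theorem xg_LG {A : Atl d Y} {F : A.ι → Y → ℂ} (hF : A.IsGauge F) : LG (xc A) (xg A F) := by
  refine ⟨fun p => ?_, fun p => ?_, fun p => ?_⟩
  · filter_upwards [(A.e (ch A p)).open_source.mem_nhds (ch_mem A p)] with x hx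
    exact hF.ne _ x hx
  · filter_upwards [(A.e (ch A p)).open_source.mem_nhds (ch_mem A p)] with x hx
    exact ((xc A).an_iff (p := p) hx (ch_mem A x)).1 (hF.hol _ _ _ (ApiA_ov hx))
  · filter_upwards [(A.e (ch A p)).open_target.mem_nhds (ApiA_ch A p)] with w hw
    exact (hF.sm _).contDiffAt ((A.e (ch A p)).open_target.mem_nhds hw)

theorem eatl_chg {A : Atl d Y} {F : A.ι → Y → ℂ} (hF : A.IsGauge F) {a b : A.ι}
    (ha : p ∈ (A.e a).source) (hb : p ∈ (A.e b).source)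
    (h : AnalyticAt ℂ (A.loc b fun x => F b x * f x) (A.e b p)) :
    AnalyticAt ℂ (A.loc a fun x => F a x * f x) (A.e a p) := by
  have hz : A.e a p ∈ A.ov a b := ⟨(A.e a).map_source ha, by
    rw [mem_preimage, (A.e a).left_inv ha]; exact hb⟩
  have e : A.tr a b (A.e a p) = A.e b p := by simp only [Atl.tr, (A.e a).left_inv ha]
  refine AnalyticAt.congr ?_ (Atl.api_change hF f hz).symm
  exact (hF.hol a b _ hz).mul (AnalyticAt.comp (by rw [e]; exact h) (A.analyticOnNhd_tr a b _ hz))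

theorem xg_HA {A : Atl d Y} {F : A.ι → Y → ℂ} (hF : A.IsGauge F) {a : A.ι}
    (hp : p ∈ (A.e a).source) :
    HA (xc A) (xg A F) f p ↔ AnalyticAt ℂ (A.loc a fun x => F a x * f x) (A.e a p) :=
  ⟨fun h => eatl_chg hF hp (ch_mem A p) h, fun h => eatl_chg hF (ch_mem A p) hp h⟩

theorem xg_HS {A : Atl d Y} {F : A.ι → Y → ℂ} (hF : A.IsGauge F) :
    HS (xc A) (xg A F) = A.H0 F := by
  ext s
  exact ⟨fun hs => Atl.mem_H0_of_local hF fun p => ⟨_, ch_mem A p, hs p⟩,
    fun hs p => hs _ _ (ApiA_ch A p)⟩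

end Vale.Agent.P299
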