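import Vale.Agent.P299.EHV
import Vale.Agent.P299.EP

/-! P299, part E: products over cosets and descent.

Hints. `Q = Γ ⧸ H` is finite, `N = card Q > 0`. For an `H`-invariant `f` put `f q m = f (q.out⁻¹ • m)`; then
`f q (γ • m) = f (γ⁻¹ • q) m`. `τ' = ∏ q, τ q`, `β = ∏ q, b q`, `σ j = ∏ q, ∑ i, t j i * c i q` with the
vectors `t j` of `prod_le_sum` (`EP.lean`). `Γ` permutes the factors (`Equiv.prod_comp`), so `τ'`, `σ j`,
`β` are invariant and descend along `Function.surjInv`. The family `c` consists of constant multiples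
of the `σ j`. `xg (k⁻¹ ^ N) = xg k⁻¹ ^ N` holds by `rfl`, and `1 ^ N = 1`. -/

open MeasureTheory Set Filter Topology Matrix
open scoped ContDiff ComplexConjugate ComplexOrder

noncomputable section

namespace Vale.Agent.P299

open Vale.Agent.P271 Vale.Agent.P272

variable {n : ℕ} {X : Type} [TopologicalSpace X] [MeasurableSpace X] {M : Model n X}
  {η : Frm M.toAtl} {B : EF M.toAtl}

theorem ecos_inv {Γ W R : Type} [Group Γ] [MulAction Γ W] [CommMonoid R] (H : Subgroup Γ)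
    [Fintype (Γ ⧸ H)] {f : W → R} (hf : ∀ γ ∈ H, ∀ m, f (γ • m) = f m) (γ : Γ) (m : W) :
    ∏ q : Γ ⧸ H, f (q.out⁻¹ • γ • m) = ∏ q : Γ ⧸ H, f (q.out⁻¹ • m) := by
  rw [← Equiv.prod_comp (MulAction.toPerm γ⁻¹) fun q : Γ ⧸ H => f (q.out⁻¹ • m)]
  refine Finset.prod_congr rfl fun q _ => ?_
  obtain ⟨h, e⟩ := QuotientGroup.mk_out_eq_mul H (γ⁻¹ * q.out)
  have e' : (MulAction.toPerm γ⁻¹ q : Γ ⧸ H) = QuotientGroup.mk (γ⁻¹ * q.out) :=
    (MulAction.Quotient.mk_smul_out H γ⁻¹ q).symm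
  rw [e', e, _root_.mul_inv_rev, _root_.mul_inv_rev, inv_inv, mul_smul, mul_smul,
    hf _ (H.inv_mem h.2)]

theorem ecos_desc {Γ V R : Type} [Group Γ] [TopologicalSpace V] [MulAction Γ V] {π : V → X}
    (h : IsQuotientCoveringMap π Γ) {f : V → R} (hf : ∀ (γ : Γ) m, f (γ • m) = f m) :
    ∃ f' : X → R, ∀ m, f' (π m) = f m := by
  refine ⟨fun p => f (Function.surjInv h.surjective p), fun m => ?_⟩
  obtain ⟨γ, e⟩ := h.apply_eq_iff_mem_orbit.1 (Function.surjInv_eq h.surjective (π m))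
  rw [← hf γ m]
  exact congrArg f e.symm

theorem ecos_lin {r : ℕ} (t c : Fin r → ℂ) {b C : ℝ} (hb : 0 ≤ b) (h : ∀ i, ‖c i‖ ^ 2 * b ≤ C) :
    ‖∑ i, t i * c i‖ ^ 2 * b ≤ (∑ i, ‖t i‖ ^ 2) * ∑ _i : Fin r, C := by
  have h1 : ‖∑ i, t i * c i‖ ^ 2 ≤ (∑ i, ‖t i‖ ^ 2) * ∑ i, ‖c i‖ ^ 2 :=
    (pow_le_pow_left₀ (norm_nonneg _) (norm_sum_le_of_le _ fun i _ => norm_mul_le _ _) 2).trans
      (Finset.sum_mul_sq_le_sq_mul_sq _ _ _)
  refine (mul_le_mul_of_nonneg_right h1 hb).trans ?_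
  rw [mul_assoc, Finset.sum_mul _ _ b]
  exact mul_le_mul_of_nonneg_left (Finset.sum_le_sum fun i _ => h i)
    (Finset.sum_nonneg fun _ _ => sq_nonneg _)

theorem ecos_prod {Q : Type} [Fintype Q] {f : Q → ℂ} {b : Q → ℝ} {C : ℝ} (hb : ∀ q, 0 ≤ b q)
    (h : ∀ q, ‖f q‖ ^ 2 * b q ≤ C) : ‖∏ q, f q‖ ^ 2 * ∏ q, b q ≤ ∏ _q : Q, C := by
  rw [norm_prod, ← Finset.prod_pow, ← Finset.prod_mul_distrib]
  exact Finset.prod_le_prod (fun q _ => mul_nonneg (sq_nonneg _) (hb q)) fun q _ => h q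

theorem ecos_le {Q J : Type} [Fintype Q] [Fintype J] {f : Q → ℂ} {s : Q → ℝ} {σ : J → ℂ}
    {C C' : ℝ} (hs : ∀ q, 0 ≤ s q) (h : ∀ q, ‖f q‖ ^ 2 ≤ C * s q)
    (h' : ∏ q, s q ≤ C' * ∑ j, ‖σ j‖ ^ 2) :
    ‖∏ q, f q‖ ^ 2 ≤ ∑ j, ‖(√((∏ _q : Q, |C|) * |C'|) : ℝ) * σ j‖ ^ 2 := by
  have h0 : 0 ≤ ∏ _q : Q, |C| := Finset.prod_nonneg fun _ _ => abs_nonneg C
  simp only [norm_mul, mul_pow, Complex.norm_real, Real.norm_eq_abs, sq_abs]
  rw [← Finset.mul_sum, Real.sq_sqrt (mul_nonneg h0 (abs_nonneg _)), norm_prod, ← Finset.prod_pow,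
    mul_assoc]
  refine (Finset.prod_le_prod (fun q _ => sq_nonneg _) fun q _ => (h q).trans
    (mul_le_mul_of_nonneg_right (le_abs_self C) (hs q))).trans ?_
  rw [Finset.prod_mul_distrib]
  exact mul_le_mul_of_nonneg_left (h'.trans (mul_le_mul_of_nonneg_right (le_abs_self _)
    (Finset.sum_nonneg fun _ _ => sq_nonneg _))) h0

theorem cosets {S : Spl M η B} (D : Mid S) : Nonempty (Dat S) := by
  classical
  have := D.fi
  have : Fintype (S.Γ ⧸ D.H) := Fintype.ofFinite _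
  have hq := S.tp.cov
  have := hq.toContinuousConstSMul
  obtain ⟨r, t, C₁, h₁⟩ := prod_le_sum (S.Γ ⧸ D.H) (Fin D.r)
  obtain ⟨C₂, h₂⟩ := D.le
  obtain ⟨C₃, h₃⟩ := D.bd
  obtain ⟨G, hG⟩ := D.nz
  obtain ⟨O, hO, hd, hO'⟩ := D.den
  obtain ⟨a, ha⟩ : ∃ a : ℂ, a = (√((∏ _q : S.Γ ⧸ D.H, |C₂|) * |C₁|) : ℝ) := ⟨_, rfl⟩
  obtain ⟨β, hβ⟩ := ecos_desc hq (f := fun m => ∏ q : S.Γ ⧸ D.H, D.b (q.out⁻¹ • m))
    (ecos_inv D.H D.ib)
  obtain ⟨τ, hτ⟩ := ecos_desc hq (f := fun m => ∏ q : S.Γ ⧸ D.H, D.τ (q.out⁻¹ • m))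
    (ecos_inv D.H D.iτ)
  have hc := fun j : Fin r => ecos_desc hq
    (f := fun m : S.V => a * ∏ q : S.Γ ⧸ D.H, ∑ i, t j i * D.c i (q.out⁻¹ • m).2.2) fun γ m =>
      congrArg (a * ·) (ecos_inv D.H (f := fun m : S.V => ∑ i, t j i * D.c i m.2.2)
        (fun γ hγ m => Finset.sum_congr rfl fun i _ => congrArg (t j i * ·) (D.ic γ hγ i _)) γ m)
  choose c hc using hc
  have hb : ∀ m, β (S.π m) ≠ 0 → ∀ q : S.Γ ⧸ D.H, D.b (q.out⁻¹ • m) ≠ 0 := fun m h q =>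
    Finset.prod_ne_zero_iff.1 (hβ m ▸ h) q (Finset.mem_univ q)
  refine ⟨{ k := Fintype.card (S.Γ ⧸ D.H), k_pos := Fintype.card_pos, r := r, β := β, τ := τ, c := c
            q := ?_, den := ?_, hτ := ?_, hc := ?_, bd := ?_, le := ?_, zτ := ?_, zc := ?_ }⟩
  · intro p
    obtain ⟨m, rfl⟩ := hq.surjective p
    refine QV.desc S.lh ?_
    rw [funext hβ]
    exact QV.prod _ fun q _ => QV.comp (continuous_const_smul _) (fun _ => hq.map_smul _) (D.q _)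
  · refine ⟨S.π '' ⋂ q : S.Γ ⧸ D.H, (q.out⁻¹ • ·) ⁻¹' O, hq.surjective.denseRange.dense_image
      hq.continuous (dense_fin (fun q => hO.preimage (continuous_const_smul _)) fun q =>
        hd.preimage (isOpenMap_smul _)), ?_⟩
    rintro _ ⟨m, hm, rfl⟩
    rw [hβ, hτ]
    exact ⟨Finset.prod_ne_zero_iff.2 fun q _ => (hO' _ (mem_iInter.1 hm q)).1,
      Finset.prod_ne_zero_iff.2 fun q _ => (hO' _ (mem_iInter.1 hm q)).2⟩
  · intro p hp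
    obtain ⟨m, rfl⟩ := hq.surjective p
    refine HV.desc S.lh ?_
    rw [funext hτ]
    exact HV.prod (g := xg M.toAtl M.k⁻¹) Finset.univ fun q _ =>
      HV.comp (continuous_const_smul _) (fun _ => hq.map_smul _) (D.hτ _ (hb m hp q))
  · intro j p hp
    obtain ⟨m, rfl⟩ := hq.surjective p
    refine HV.desc S.lh ?_
    rw [funext (hc j)]
    have h := HV.prod (g := 1) Finset.univ fun (q : S.Γ ⧸ D.H) _ =>
      HV.comp (continuous_const_smul q.out⁻¹) (fun _ => hq.map_smul _)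
        (HV.sum Finset.univ fun i _ => (D.hc i _ (hb m hp q)).const_mul (t j i))
    rw [one_pow] at h
    exact h.const_mul a
  · obtain ⟨K, hK⟩ := (Set.finite_range fun j : Fin r => ‖a‖ ^ 2 * ∏ _q : S.Γ ⧸ D.H,
      (∑ i, ‖t j i‖ ^ 2) * ∑ _i : Fin D.r, C₃).bddAbove
    refine ⟨max K (∏ _q : S.Γ ⧸ D.H, C₃), fun p => ?_⟩
    obtain ⟨m, rfl⟩ := hq.surjective p
    rw [hβ, hτ]
    refine ⟨le_max_of_le_right (ecos_prod (fun q => (h₃ _).1) fun q => (h₃ _).2.2.1), fun j =>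
      le_max_of_le_left (le_trans ?_ (hK (mem_range_self j)))⟩
    rw [hc, norm_mul, mul_pow, mul_assoc]
    exact mul_le_mul_of_nonneg_left (ecos_prod (fun q => (h₃ _).1) fun q =>
      ecos_lin _ _ (h₃ _).1 (h₃ _).2.2.2) (sq_nonneg _)
  · intro p hp
    obtain ⟨m, rfl⟩ := hq.surjective p
    simp only [hτ, hc, ha]
    exact ecos_le (fun q => Finset.sum_nonneg fun _ _ => sq_nonneg _) (fun q => h₂ _ (hb m hp q))
      (h₁ fun q i => D.c i (q.out⁻¹ • m).2.2)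
  · refine ⟨fun z => ∏ q : S.Γ ⧸ D.H, G (q.out⁻¹ • z), fun m => ?_⟩
    rw [hτ, norm_prod, ← Finset.prod_pow]
    exact Finset.prod_congr rfl fun q _ => hG _
  · exact fun j => ⟨fun z => a * ∏ q : S.Γ ⧸ D.H, ∑ i, t j i * D.c i (q.out⁻¹ • z), hc j⟩

end Vale.Agent.P299
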