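import Vale.Agent.P188.GAShD

/-! P299 ED: projective representations by isometries of groups of polynomial growth are virtually
diagonalisable. -/

open Set

noncomputable section

namespace Vale.Agent.P299

theorem ED_conj {R : Type} [Ring R] [Algebra ℂ R] {a b : Rˣ} {c : ℂ} (h : (a : R) = c • (b : R))
    (A : R) : a * A * ↑a⁻¹ = b * A * ↑b⁻¹ := by
  rw [Units.mul_inv_eq_iff_eq_mul, h, smul_mul_assoc, mul_smul_comm, Units.inv_mul_cancel_right]

theorem ED_fix {G R : Type} [Group G] [AddCommGroup R] [Module ℂ R] [FiniteDimensional ℂ R]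
    (ρ : G →* Module.End ℂ R) (S : Set R) (h : ∀ v ∈ S, (range fun g => ρ g v).Finite) :
    ∃ H : Subgroup G, H.FiniteIndex ∧ ∀ γ ∈ H, ∀ v ∈ S, ρ γ v = v := by
  let _ : MulAction G R := MulAction.compHom R ρ
  obtain ⟨s, hs, hsp, hli⟩ := exists_linearIndependent ℂ S
  have hfin : s.Finite := hli.setFinite
  have : Finite s := hfin
  have hst : ∀ v : s, (MulAction.stabilizer G (v : R)).FiniteIndex := by
    rintro ⟨v, hv⟩
    refine ⟨?_⟩
    rw [MulAction.index_stabilizer]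
    have hf : (MulAction.orbit G v).Finite := h v (hs hv)
    exact ((Set.ncard_pos hf).2 ⟨_, MulAction.mem_orbit_self _⟩).ne'
  refine ⟨⨅ v : s, MulAction.stabilizer G (v : R), Subgroup.finiteIndex_iInf hst, ?_⟩
  intro γ hγ v hv
  have hm : v ∈ Submodule.span ℂ s := by
    rw [hsp]
    exact Submodule.subset_span hv
  have key : Set.EqOn (ρ γ) (LinearMap.id : R →ₗ[ℂ] R) s := fun v hv =>
    (Subgroup.mem_iInf.1 hγ ⟨v, hv⟩ : γ ∈ MulAction.stabilizer G v)
  exact LinearMap.eqOn_span key hm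

variable {V : Type} [NormedAddCommGroup V] [NormedSpace ℂ V]

theorem ED_two {T : Module.End ℂ V} (iso : ∀ v, ‖T v‖ = ‖v‖) {μ : ℂ} {v w : V}
    (h1 : T v = μ • v + w) (h2 : T w = μ • w) : w = 0 := by
  by_contra hw
  have h3 : ‖μ‖ = 1 := by
    have h4 := iso w
    rw [h2, norm_smul] at h4
    exact mul_right_cancel₀ (norm_ne_zero_iff.2 hw) (h4.trans (one_mul _).symm)
  have h4 : ∀ k : ℕ, (T ^ (k + 1)) v = μ ^ (k + 1) • v + ((k + 1 : ℂ) * μ ^ k) • w := by
    intro k
    induction k with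
    | zero => simpa using h1
    | succ k ih =>
      rw [pow_succ', Module.End.mul_apply, ih, map_add, map_smul, map_smul, h1, h2]
      push_cast
      module
  have h5 : ∀ k : ℕ, ‖(T ^ k) v‖ = ‖v‖ := by
    intro k
    induction k with
    | zero => simp
    | succ k ih => rw [pow_succ', Module.End.mul_apply, iso, ih]
  obtain ⟨k, hk⟩ := exists_nat_gt (2 * ‖v‖ / ‖w‖)
  rw [div_lt_iff₀ (norm_pos_iff.2 hw)] at hk
  have h6 := norm_sub_le ((T ^ (k + 1)) v) (μ ^ (k + 1) • v)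
  rw [h5, h4, add_sub_cancel_left, norm_smul, norm_smul, norm_mul, norm_pow, norm_pow, h3,
    one_pow, one_pow, ← Nat.cast_succ, Complex.norm_natCast, Nat.cast_succ] at h6
  nlinarith [norm_nonneg w]

theorem ED_eig {T : Module.End ℂ V} (iso : ∀ v, ‖T v‖ = ‖v‖) {μ : ℂ} {v : V}
    (h : v ∈ T.maxGenEigenspace μ) : T v = μ • v := by
  obtain ⟨k, hk⟩ := (Module.End.mem_maxGenEigenspace T μ v).1 h
  have h0 : ∀ x, (T - μ • (1 : Module.End ℂ V)) x = T x - μ • x := fun x => rfl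
  have key : ∀ k : ℕ, ((T - μ • (1 : Module.End ℂ V)) ^ (k + 1)) v = 0 →
      (T - μ • (1 : Module.End ℂ V)) v = 0 := by
    intro k
    induction k with
    | zero => exact fun h => by rwa [zero_add, pow_one] at h
    | succ k ih =>
      intro h
      refine ih (ED_two iso (μ := μ) (v := ((T - μ • (1 : Module.End ℂ V)) ^ k) v) ?_ ?_)
      · rw [pow_succ', Module.End.mul_apply, h0, add_sub_cancel]
      · rwa [pow_succ', Module.End.mul_apply, h0, sub_eq_zero] at h
  refine sub_eq_zero.1 ((h0 v).symm.trans (key k ?_))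
  rw [pow_succ', Module.End.mul_apply, hk, map_zero]

variable [FiniteDimensional ℂ V]

theorem ED_basis {ι : Type} (f : ι → Module.End ℂ V) (iso : ∀ i v, ‖f i v‖ = ‖v‖)
    (h : ∀ i j, Commute (f i) (f j)) :
    ∃ (r : ℕ) (b : Module.Basis (Fin r) ℂ V), ∀ j i, ∃ c : ℂ, f j (b i) = c • b i := by
  have h1 :=
    Module.End.iSup_iInf_maxGenEigenspace_eq_top_of_iSup_maxGenEigenspace_eq_top_of_commute f
      (fun i j _ => h i j) fun i => Module.End.iSup_maxGenEigenspace_eq_top (f i)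
  obtain ⟨s, hs, hsp, hli⟩ := exists_linearIndependent ℂ {v : V | ∀ j, ∃ c : ℂ, f j v = c • v}
  have h2 : ⊤ ≤ Submodule.span ℂ (range (Subtype.val : s → V)) := by
    rw [Subtype.range_coe, hsp, ← h1]
    exact iSup_le fun χ v hv => Submodule.subset_span fun j =>
      ⟨χ j, ED_eig (iso j) ((Submodule.mem_iInf _).1 hv j)⟩
  have : Finite s := hli.setFinite
  have := Fintype.ofFinite s
  refine ⟨_, (Module.Basis.mk hli h2).reindex (Fintype.equivFin s), fun j i => ?_⟩
  rw [Module.Basis.reindex_apply, Module.Basis.mk_apply]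
  exact hs ((Fintype.equivFin s).symm i).2 j

theorem proj_eigen {G : Type} [Group G] (fg : Group.FG G) (pg : ∃ d, P188.PG G d)
    (T : G → V →ₗ[ℂ] V) (iso : ∀ g v, ‖T g v‖ = ‖v‖)
    (mul : ∀ g h, ∃ c : ℂ, ∀ v, T (g * h) v = c • T g (T h v)) :
    ∃ H : Subgroup G, H.FiniteIndex ∧ ∃ (r : ℕ) (b : Module.Basis (Fin r) ℂ V),
      ∀ h ∈ H, ∀ i, ∃ c : ℂ, T h (b i) = c • b i := by
  obtain ⟨d, hd⟩ := pg
  have hu : ∀ g, IsUnit (T g : Module.End ℂ V) := fun g => by
    have h1 : Function.Injective (T g) := (LinearIsometry.mk (T g) (iso g)).injective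
    exact (Module.End.isUnit_iff _).2 ⟨h1, LinearMap.injective_iff_surjective.1 h1⟩
  choose U hU using hu
  have hm : ∀ g h, ∃ c : ℂ, (U (g * h) : Module.End ℂ V) = c • ((U g * U h : _ˣ) : _) :=
    fun g h => (mul g h).imp fun c hc => by
      rw [Units.val_mul, hU, hU, hU]
      exact LinearMap.ext hc
  let ρ : G →* Module.End ℂ (Module.End ℂ V) :=
    { toFun := fun g => LinearMap.mulRight ℂ ↑(U g)⁻¹ * LinearMap.mulLeft ℂ ↑(U g)
      map_one' := LinearMap.ext fun A => by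
        obtain ⟨c, hc⟩ := hm 1 1
        have h1 : ((1 : (Module.End ℂ V)ˣ) : Module.End ℂ V) = c • (U 1 : Module.End ℂ V) := by
          rw [one_mul, Units.val_mul, ← smul_mul_assoc] at hc
          exact (Units.mul_left_inj (U 1)).1 ((one_mul _).trans hc)
        exact (ED_conj h1 A).symm.trans (by simp)
      map_mul' := fun g h => LinearMap.ext fun A => by
        obtain ⟨c, hc⟩ := hm g h
        exact (ED_conj hc A).trans (by simp [mul_assoc]) }
  have hρ : ∀ g A, ρ g A = U g * A * ↑(U g)⁻¹ := fun _ _ => rfl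
  have hb : P188.Bdd ρ := fun A φ => by
    let ψ := LinearMap.toContinuousLinearMap (φ ∘ₗ
      (LinearMap.toContinuousLinearMap : (V →ₗ[ℂ] V) ≃ₗ[ℂ] V →L[ℂ] V).symm.toLinearMap)
    refine ⟨‖ψ‖ * ‖LinearMap.toContinuousLinearMap A‖, fun g => ?_⟩
    refine (ψ.le_opNorm (LinearMap.toContinuousLinearMap (ρ g A))).trans
      (mul_le_mul_of_nonneg_left (ContinuousLinearMap.opNorm_le_bound _ (norm_nonneg _)
        fun v => ?_) (norm_nonneg _))
    have h1 : T g (((U g)⁻¹ : _ˣ).1 v) = v := by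
      rw [← hU, ← Module.End.mul_apply, Units.mul_inv, Module.End.one_apply]
    have h2 : LinearMap.toContinuousLinearMap (ρ g A) v = T g (A (((U g)⁻¹ : _ˣ).1 v)) := by
      rw [← hU]
      rfl
    rw [h2, iso, ← congrArg norm h1, iso]
    exact (LinearMap.toContinuousLinearMap A).le_opNorm _
  obtain ⟨H, hH, hc⟩ := P188.shalom hd ρ hb
  have hβ : ∀ x ∈ H, ∀ y ∈ H, ∃ β : ℂ, ρ x (U y) = β • (U y : Module.End ℂ V) := by
    intro x hx y hy
    have h1 : (((U y * U x)⁻¹ * (U x * U y) : _ˣ) : Module.End ℂ V) ∈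
        Subalgebra.center ℂ (Module.End ℂ V) := by
      refine Subalgebra.mem_center_iff.2 fun A => ?_
      have h2 := LinearMap.congr_fun (hc x hx y hy) A
      simp only [Module.End.mul_apply, hρ] at h2
      have h3 := congrArg (fun B => ((U y * U x)⁻¹ : _ˣ).1 * B * (U x * U y : _ˣ).1) h2
      simpa [mul_assoc] using h3.symm
    obtain ⟨β, h2⟩ := (Algebra.IsCentral.mem_center_iff ℂ).1 h1
    refine ⟨β, ?_⟩
    have h3 := congrArg (fun B => (U y * U x : _ˣ).1 * B * ((U x)⁻¹ : _ˣ).1) h2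
    simpa [mul_assoc, hρ, Algebra.algebraMap_eq_smul_one] using h3
  obtain ⟨K, hK, hf⟩ := ED_fix (ρ.comp H.subtype) {A | ∃ y ∈ H, A = U y} (by
    rintro _ ⟨y, hy, rfl⟩
    rcases Nat.eq_zero_or_pos (Module.finrank ℂ V) with h0 | h0
    · have := Module.finrank_zero_iff.1 h0
      exact Set.toFinite _
    refine ((Polynomial.nthRoots (Module.finrank ℂ V) (1 : ℂ)).finite_toSet.image
      fun β => β • (U y : Module.End ℂ V)).subset ?_
    rintro _ ⟨x, rfl⟩
    obtain ⟨β, h1⟩ := hβ x x.2 y hy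
    refine ⟨β, (Polynomial.mem_nthRoots h0).2 ?_, h1.symm⟩
    have h2 := congrArg LinearMap.det h1
    rw [hρ, LinearMap.det_smul, map_mul, map_mul, mul_right_comm, ← map_mul, Units.mul_inv,
      map_one] at h2
    exact (mul_right_cancel₀ ((U y).isUnit.map LinearMap.det).ne_zero h2).symm)
  obtain ⟨r, b, hb⟩ := ED_basis (fun x : K => T x.1.1) (fun x => iso _) fun x y => by
    have h1 := hf x.1 x.2 _ ⟨y.1.1, y.1.2, rfl⟩
    rw [← hU, ← hU]
    exact (Units.mul_inv_eq_iff_eq_mul _).1 h1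
  refine ⟨K.map H.subtype, ⟨?_⟩, r, b, ?_⟩
  · rw [Subgroup.index_map_subtype]
    exact mul_ne_zero hK.1 hH.1
  · rintro _ ⟨x, hx, rfl⟩ i
    exact hb ⟨x, hx⟩ i

end Vale.Agent.P299
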