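import Vale.Agent.P299.Defs2

/-! P299, part E: line bundles given by a frame at every point, and the data passed between the
steps of part E. -/

open MeasureTheory Set Filter Topology Matrix
open scoped ContDiff ComplexConjugate ComplexOrder

noncomputable section

namespace Vale.Agent.P299

open Vale.Agent.P271 Vale.Agent.P272

section LG
variable {d : ℕ} {Y : Type} [TopologicalSpace Y]

/-- The expression of a function in the chart at `p`. -/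
def CA.lo (c : CA d Y) {F : Type} (p : Y) (f : Y → F) : Cn d → F := fun w => f ((c.c p).symm w)

/-- The expression of a map in the charts at `p` and `p'`. -/
def CA.mp (c : CA d Y) (T : Y → Y) (p p' : Y) : Cn d → Cn d :=
  fun w => c.c p' (T ((c.c p).symm w))

/-- The local weight of a family of frames. -/
def CA.cv (c : CA d Y) (g : Y → Y → ℂ) (p : Y) : Cn d → ℝ :=
  c.lo p fun x => Real.log (‖g p x‖ ^ 2)

/-- A line bundle in a gauge: near `p` a section `f` has the local expression `g p * f`. -/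
structure LG (c : CA d Y) (g : Y → Y → ℂ) : Prop where
  ne : ∀ p, ∀ᶠ x in 𝓝 p, g p x ≠ 0
  hol : ∀ p, ∀ᶠ x in 𝓝 p, AnalyticAt ℂ (c.lo x fun y => g p y / g x y) (c.c x x)
  sm : ∀ p, ∀ᶠ w in 𝓝 (c.c p p), ContDiffAt ℝ ∞ (c.lo p fun x => ‖g p x‖ ^ 2) w

/-- Holomorphic at `p`, as a section. -/
def HA (c : CA d Y) (g : Y → Y → ℂ) (f : Y → ℂ) (p : Y) : Prop :=
  AnalyticAt ℂ (c.lo p fun x => g p x * f x) (c.c p p)

/-- Holomorphic sections. -/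
def HS (c : CA d Y) (g : Y → Y → ℂ) : Submodule ℂ (Y → ℂ) where
  carrier := {f | ∀ p, HA c g f p}
  add_mem' := by
    intro s t hs ht p
    have e : c.lo p (fun x => g p x * (s + t) x) =
        c.lo p (fun x => g p x * s x) + c.lo p (fun x => g p x * t x) := by
      funext z; simp [CA.lo, mul_add]
    unfold HA; rw [e]; exact (hs p).add (ht p)
  zero_mem' := by
    intro p
    have e : c.lo p (fun x => g p x * (0 : Y → ℂ) x) = fun _ => 0 := by funext z; simp [CA.lo]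
    unfold HA; rw [e]; exact analyticAt_const
  smul_mem' := by
    intro a s hs p
    have e : c.lo p (fun x => g p x * (a • s) x) =
        fun z => a * c.lo p (fun x => g p x * s x) z := by
      funext z; simp [CA.lo]; ring
    unfold HA; rw [e]; exact analyticAt_const.mul (hs p)

/-- Holomorphic self maps. -/
def HolM (c : CA d Y) (T : Y → Y) : Prop :=
  Continuous T ∧ ∀ p, AnalyticAt ℂ (c.mp T p (T p)) (c.c p p)

/-- The pull back of a gauge. -/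
def pb (T : Y → Y) (g : Y → Y → ℂ) : Y → Y → ℂ := fun p x => g (T p) (T x)

/-- The Jacobian determinant of a self map. -/
def jc (c : CA d Y) (T : Y → Y) (p : Y) : ℂ := (DM (c.mp T p (T p)) (c.c p p)).det

/-- The sections `e i` have no common zero and give an immersion. -/
structure ImF (c : CA d Y) (g : Y → Y → ℂ) {ι : Type} (e : ι → Y → ℂ) : Prop where
  mem : ∀ i, e i ∈ HS c g
  bpf : ∀ p, ∃ i, e i p ≠ 0
  imm : ∀ p, ∀ ξ : Cn d, ξ ≠ 0 → ∃ i j,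
    c.lo p (fun x => g p x * e i x) (c.c p p) *
        fderiv ℂ (c.lo p fun x => g p x * e j x) (c.c p p) ξ ≠
      c.lo p (fun x => g p x * e j x) (c.c p p) *
        fderiv ℂ (c.lo p fun x => g p x * e i x) (c.c p p) ξ

/-- Gauges of the canonical bundle. -/
def Can (c : CA d Y) (κ : Y → Y → ℂ) : Prop :=
  LG c κ ∧ ∀ p, ∀ᶠ x in 𝓝 p, κ p x = κ x x * (DM (c.mp id p x) (c.c p x)).det

/-- Locally the squared norm of a holomorphic section. -/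
def QA (c : CA d Y) (β : Y → ℝ) (p : Y) : Prop :=
  ∃ (B : Y → ℂ) (h : Y → ℝ), (∀ᶠ x in 𝓝 p, β x = ‖B x‖ ^ 2 * h x) ∧
    AnalyticAt ℂ (c.lo p B) (c.c p p) ∧ 0 < h p ∧
      ∀ᶠ w in 𝓝 (c.c p p), ContDiffAt ℝ ∞ (c.lo p h) w

/-- The same notions on a covering space. -/
def HV (c : CA d Y) {V : Type} [TopologicalSpace V] (π : V → Y) (g : Y → Y → ℂ) (f : V → ℂ)
    (m : V) : Prop :=
  ∃ f' : Y → ℂ, (∀ᶠ x in 𝓝 m, f x = f' (π x)) ∧ HA c g f' (π m)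

/-- The same notions on a covering space. -/
def QV (c : CA d Y) {V : Type} [TopologicalSpace V] (π : V → Y) (b : V → ℝ) (m : V) : Prop :=
  ∃ β : Y → ℝ, (∀ᶠ x in 𝓝 m, b x = β (π x)) ∧ QA c β (π m)

/-- Joint eigen-sections. -/
def Eig {G : Type} [Group G] [MulAction G Y] (H : Subgroup G) {ι : Type} (e : ι → Y → ℂ) : Prop :=
  ∀ γ ∈ H, ∃ (χ : ι → ℂ) (t : Y → ℂ), (∀ i, ‖χ i‖ = 1) ∧ (∀ p, ‖t p‖ = 1) ∧
    ∀ i p, e i (γ • p) = χ i * t p * e i p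

/-- Twisted top forms `A i` and a common denominator `D`; the forms `A i / D` are invariant. -/
structure EZO (c : CA d Y) (κ g : Y → Y → ℂ) {G : Type} [Group G] [MulAction G Y] (H : Subgroup G)
    {r : ℕ} (D : Y → ℂ) (A : Fin r → Y → ℂ) : Prop where
  lg : LG c g
  hD : D ∈ HS c g
  hA : ∀ i, A i ∈ HS c (κ * g)
  ne : D ≠ 0
  le : ∀ p, ‖D p‖ ^ 2 ≤ ∑ i, ‖A i p‖ ^ 2
  act : ∀ γ ∈ H, ∀ p, ∃ l : ℂ, ‖l‖ = 1 ∧ D (γ • p) = l * D p ∧
    ∀ i, κ (γ • p) (γ • p) * A i (γ • p) * jc c (fun x => γ • x) p = l * (κ p p * A i p)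

end LG

/-- The Wronskian determinants of a family of functions. -/
def WW {d : ℕ} {ι : Type} (E : ι → Cn d → ℂ) (I : Fin d → ι × ι) (w : Cn d) : ℂ :=
  (Matrix.of fun k l => E (I k).1 w * fderiv ℂ (E (I k).2) w (Pi.single l 1) -
    E (I k).2 w * fderiv ℂ (E (I k).1) w (Pi.single l 1)).det

variable {n : ℕ} {X : Type} [TopologicalSpace X]

/-- A finite atlas gives a chart at every point. -/
def xc (A : Atl n X) : CA n X where
  c p := A.e (ch A p)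
  mem := ch_mem A
  hol y y' p h h' := A.hol _ _ _ ⟨(A.e _).map_source h, by
    rw [mem_preimage, (A.e _).left_inv h]; exact h'⟩

/-- A gauge on a finite atlas gives a frame at every point. -/
def xg (A : Atl n X) (F : A.ι → X → ℂ) : X → X → ℂ := fun p => F (ch A p)

/-- The gauge with curvature `fsF P + ddc u`. -/
def uG {A : Atl n X} (P : Pol A) (u : X → ℝ) : A.ι → X → ℂ :=
  fun a p => P.u a p * (Real.exp (u p / 2) : ℝ)

variable [MeasurableSpace X] {M : Model n X} {η : Frm M.toAtl} {B : EF M.toAtl}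

/-- The universal cover. -/
abbrev Spl.V (S : Spl M η B) : Type := Cn S.q × S.Y × S.Z

/-- The product coordinates of a point. -/
def Spl.co (S : Spl M η B) (y : S.Y) (z : S.Z) (m : S.V) : Cn S.q × Cn S.d₁ × Cn S.d₂ :=
  (m.1, S.cY.c y m.2.1, S.cZ.c z m.2.2)

/-- The covering map in coordinates. -/
def Spl.Φ (S : Spl M η B) (a : M.ι) (y : S.Y) (z : S.Z) (w : Cn S.q × Cn S.d₁ × Cn S.d₂) : Cn n :=
  M.e a (S.π (pt S.cY S.cZ y z w))

/-- The restriction of a gauge to a slice. -/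
def Spl.sl (S : Spl M η B) (F : M.ι → X → ℂ) (x : Cn S.q) (y : S.Y) : S.Z → S.Z → ℂ :=
  fun z z' => F (ch M.toAtl (S.π (x, y, z))) (S.π (x, y, z'))

/-- The canonical bundle of the cover in product coordinates. -/
structure KG (S : Spl M η B) (κ : S.Y → S.Z → S.V → ℂ) : Prop where
  ne : ∀ y z (m : S.V), m.2.1 ∈ (S.cY.c y).source → m.2.2 ∈ (S.cZ.c z).source → κ y z m ≠ 0
  an : ∀ a y z (m : S.V), m.2.1 ∈ (S.cY.c y).source → m.2.2 ∈ (S.cZ.c z).source →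
    S.π m ∈ (M.e a).source → AnalyticAt ℂ
      (fun w => κ y z (pt S.cY S.cZ y z w) / M.k a (S.π (pt S.cY S.cZ y z w))) (S.co y z m)
  tr : ∀ y z (m : S.V), m.2.1 ∈ (S.cY.c y).source → m.2.2 ∈ (S.cZ.c z).source →
    κ y z m = κ m.2.1 m.2.2 m * (DM (S.cY.mp id y m.2.1) (S.cY.c y m.2.1)).det *
      (DM (S.cZ.mp id z m.2.2) (S.cZ.c z m.2.2)).det
  act : ∀ γ : S.Γ, (∃ b, ∀ x : Cn S.q, γ • x = x + b) → (∀ y : S.Y, γ • y = y) → ∀ m : S.V,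
    κ m.2.1 m.2.2 m = κ m.2.1 (γ • m.2.2) (γ • m) * jc S.cZ (fun x => γ • x) m.2.2
  nrm : ∃ (nY : S.Y → ℝ) (nZ : S.Z → ℝ), ∀ m : S.V, ‖κ m.2.1 m.2.2 m‖ ^ 2 = nY m.2.1 * nZ m.2.2

/-- The data that are invariant under a subgroup of finite index. -/
structure Mid (S : Spl M η B) where
  H : Subgroup S.Γ
  fi : H.FiniteIndex
  r : ℕ
  b : S.V → ℝ
  τ : S.V → ℂ
  c : Fin r → S.Z → ℂ
  ib : ∀ γ ∈ H, ∀ m, b (γ • m) = b m
  iτ : ∀ γ ∈ H, ∀ m, τ (γ • m) = τ m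
  ic : ∀ γ ∈ H, ∀ i z, c i (γ • z) = c i z
  q : ∀ m, QV (xc M.toAtl) S.π b m
  den : ∃ O : Set S.V, IsOpen O ∧ Dense O ∧ ∀ m ∈ O, b m ≠ 0 ∧ τ m ≠ 0
  hτ : ∀ m, b m ≠ 0 → HV (xc M.toAtl) S.π (xg M.toAtl M.k⁻¹) τ m
  hc : ∀ i m, b m ≠ 0 → HV (xc M.toAtl) S.π 1 (fun x => c i x.2.2) m
  bd : ∃ C : ℝ, ∀ m, 0 ≤ b m ∧ b m ≤ C ∧ ‖τ m‖ ^ 2 * b m ≤ C ∧ ∀ i, ‖c i m.2.2‖ ^ 2 * b m ≤ C
  le : ∃ C : ℝ, ∀ m, b m ≠ 0 → ‖τ m‖ ^ 2 ≤ C * ∑ i, ‖c i m.2.2‖ ^ 2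
  nz : ∃ G : S.Z → ℝ, ∀ m, ‖τ m‖ ^ 2 = G m.2.2

/-- The data on `X`. -/
structure Dat (S : Spl M η B) where
  k : ℕ
  k_pos : 0 < k
  r : ℕ
  β : X → ℝ
  τ : X → ℂ
  c : Fin r → X → ℂ
  q : ∀ p, QA (xc M.toAtl) β p
  den : ∃ O : Set X, Dense O ∧ ∀ p ∈ O, β p ≠ 0 ∧ τ p ≠ 0
  hτ : ∀ p, β p ≠ 0 → HA (xc M.toAtl) (xg M.toAtl (M.k⁻¹ ^ k)) τ p
  hc : ∀ i p, β p ≠ 0 → HA (xc M.toAtl) 1 (c i) p
  bd : ∃ C : ℝ, ∀ p, ‖τ p‖ ^ 2 * β p ≤ C ∧ ∀ i, ‖c i p‖ ^ 2 * β p ≤ C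
  le : ∀ p, β p ≠ 0 → ‖τ p‖ ^ 2 ≤ ∑ i, ‖c i p‖ ^ 2
  zτ : ∃ G : S.Z → ℝ, ∀ m, ‖τ (S.π m)‖ ^ 2 = G m.2.2
  zc : ∀ i, ∃ G : S.Z → ℂ, ∀ m, c i (S.π m) = G m.2.2

end Vale.Agent.P299
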