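import Vale.Agent.P299.ELG

/-! P299, part E: local inverses of the product coordinates.

Hints. `inv_Φ`: `ContinuousLinearEquiv.ofBijective` (or `LinearEquiv.ofBijective` and finite dimension),
`ContDiffAt.toOpenPartialHomeomorph`, `ContDiffAt.to_localInverse` with order `ω`, or
`HasStrictFDerivAt.localInverse` and `OpenPartialHomeomorph.analyticAt_symm`.
`hol_act`: `π (γ • m) = π m` (`S.tp.cov.map_smul`), so `Φ a (γ • y) (γ • z) (co (γ • pt w)) = Φ a y z w`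
near `co m`; apply the inverse. Continuity on `Z` from `ContinuousConstSMul` on the product.
`push_H`: the representative is `fun p => f (pt (ψ (M.e a p)))`.
`dz_zero`: no inverse is needed: write `B v = DΦ v'`; `prj.img` and `blk` with `i = 2` give
`v'.2.2 = 0`; `loc f ∘ Φ` is constant along the real lines `w + t v'` and `w + t I v'`; if `loc f` is not
differentiable then `fderiv = 0`. -/

open MeasureTheory Set Filter Topology Matrix
open scoped ContDiff ComplexConjugate ComplexOrder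

noncomputable section

namespace Vale.Agent.P299

open Vale.Agent.P271 Vale.Agent.P272

variable {n : ℕ} {X : Type} [TopologicalSpace X] [MeasurableSpace X] {M : Model n X}
  {η : Frm M.toAtl} {B : EF M.toAtl}

theorem Spl.pt_co (S : Spl M η B) {y : S.Y} {z : S.Z} {m : S.V} (hy : m.2.1 ∈ (S.cY.c y).source)
    (hz : m.2.2 ∈ (S.cZ.c z).source) : pt S.cY S.cZ y z (S.co y z m) = m := by
  show (m.1, (S.cY.c y).symm (S.cY.c y m.2.1), (S.cZ.c z).symm (S.cZ.c z m.2.2)) = m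
  rw [(S.cY.c y).left_inv hy, (S.cZ.c z).left_inv hz]

theorem einv_co (S : Spl M η B) {y : S.Y} {z : S.Z} {m : S.V} (hy : m.2.1 ∈ (S.cY.c y).source)
    (hz : m.2.2 ∈ (S.cZ.c z).source) : ContinuousAt (S.co y z) m :=
  continuousAt_fst.prodMk
    ((ContinuousAt.comp (f := fun x : S.V => x.2.1) ((S.cY.c y).continuousAt hy)
      continuous_snd.fst.continuousAt).prodMk
    (ContinuousAt.comp (f := fun x : S.V => x.2.2) ((S.cZ.c z).continuousAt hz)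
      continuous_snd.snd.continuousAt))

theorem einv_pt (S : Spl M η B) {y : S.Y} {z : S.Z} {m : S.V} (hy : m.2.1 ∈ (S.cY.c y).source)
    (hz : m.2.2 ∈ (S.cZ.c z).source) : Tendsto (pt S.cY S.cZ y z) (𝓝 (S.co y z m)) (𝓝 m) := by
  have h : ContinuousAt (pt S.cY S.cZ y z) (S.co y z m) :=
    continuousAt_fst.prodMk
      ((ContinuousAt.comp (f := fun w : Cn S.q × Cn S.d₁ × Cn S.d₂ => w.2.1)
        ((S.cY.c y).continuousAt_symm ((S.cY.c y).map_source hy))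
        continuous_snd.fst.continuousAt).prodMk
      (ContinuousAt.comp (f := fun w : Cn S.q × Cn S.d₁ × Cn S.d₂ => w.2.2)
        ((S.cZ.c z).continuousAt_symm ((S.cZ.c z).map_source hz))
        continuous_snd.snd.continuousAt))
  have h' := h.tendsto
  rwa [S.pt_co hy hz] at h'

theorem einv_left (S : Spl M η B) {y : S.Y} {z : S.Z} {m : S.V} (hy : m.2.1 ∈ (S.cY.c y).source)
    (hz : m.2.2 ∈ (S.cZ.c z).source) : ∀ᶠ x in 𝓝 m, pt S.cY S.cZ y z (S.co y z x) = x := by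
  filter_upwards [(continuous_snd.fst.continuousAt (x := m)).eventually
    ((S.cY.c y).open_source.mem_nhds hy), (continuous_snd.snd.continuousAt (x := m)).eventually
    ((S.cZ.c z).open_source.mem_nhds hz)] with x h1 h2
  exact S.pt_co h1 h2

theorem Spl.ev_iff (S : Spl M η B) {y : S.Y} {z : S.Z} {m : S.V} (hy : m.2.1 ∈ (S.cY.c y).source)
    (hz : m.2.2 ∈ (S.cZ.c z).source) {q : S.V → Prop} :
    (∀ᶠ w in 𝓝 (S.co y z m), q (pt S.cY S.cZ y z w)) ↔ ∀ᶠ x in 𝓝 m, q x := by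
  refine ⟨fun h => ?_, fun h => (einv_pt S hy hz).eventually h⟩
  filter_upwards [(einv_co S hy hz).eventually h, einv_left S hy hz] with x h1 h2
  rwa [h2] at h1

theorem Spl.an_Φ (S : Spl M η B) {a : M.ι} {y : S.Y} {z : S.Z} {m : S.V}
    (hy : m.2.1 ∈ (S.cY.c y).source) (hz : m.2.2 ∈ (S.cZ.c z).source)
    (ha : S.π m ∈ (M.e a).source) : AnalyticAt ℂ (S.Φ a y z) (S.co y z m) ∧
      Function.Bijective (fderiv ℂ (S.Φ a y z) (S.co y z m)) ∧
        S.Φ a y z (S.co y z m) = M.e a (S.π m) := by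
  have h := S.an a y z (S.co y z m) ((S.cY.c y).map_source hy) ((S.cZ.c z).map_source hz)
    (by rwa [S.pt_co hy hz])
  exact ⟨h.1, h.2, by rw [Spl.Φ, S.pt_co hy hz]⟩

theorem Spl.inv_Φ (S : Spl M η B) {a : M.ι} {y : S.Y} {z : S.Z} {m : S.V}
    (hy : m.2.1 ∈ (S.cY.c y).source) (hz : m.2.2 ∈ (S.cZ.c z).source)
    (ha : S.π m ∈ (M.e a).source) : ∃ ψ : Cn n → Cn S.q × Cn S.d₁ × Cn S.d₂,
      AnalyticAt ℂ ψ (M.e a (S.π m)) ∧ ψ (M.e a (S.π m)) = S.co y z m ∧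
        (∀ᶠ w in 𝓝 (S.co y z m), ψ (S.Φ a y z w) = w) ∧
          ∀ᶠ ζ in 𝓝 (M.e a (S.π m)), S.Φ a y z (ψ ζ) = ζ := by
  obtain ⟨h1, h2, h3⟩ := S.an_Φ hy hz ha
  let e : (Cn S.q × Cn S.d₁ × Cn S.d₂) ≃L[ℂ] Cn n := (LinearEquiv.ofBijective
    (fderiv ℂ (S.Φ a y z) (S.co y z m) : (Cn S.q × Cn S.d₁ × Cn S.d₂) →ₗ[ℂ] Cn n)
      h2).toContinuousLinearEquiv
  have he : HasFDerivAt (S.Φ a y z) (e : (Cn S.q × Cn S.d₁ × Cn S.d₂) →L[ℂ] Cn n)
      (S.co y z m) := by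
    have : (e : (Cn S.q × Cn S.d₁ × Cn S.d₂) →L[ℂ] Cn n) = fderiv ℂ (S.Φ a y z) (S.co y z m) :=
      ContinuousLinearMap.ext fun _ => rfl
    rw [this]
    exact h1.differentiableAt.hasFDerivAt
  have hc : ContDiffAt ℂ ω (S.Φ a y z) (S.co y z m) := h1.contDiffAt
  have hn : (ω : WithTop ℕ∞) ≠ 0 := by simp
  rw [← h3]
  exact ⟨hc.localInverse he hn, (hc.to_localInverse he hn).analyticAt,
    hc.localInverse_apply_image he hn, (hc.hasStrictFDerivAt' he hn).eventually_left_inverse,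
    (hc.hasStrictFDerivAt' he hn).eventually_right_inverse⟩

theorem einv_sec (S : Spl M η B) {a : M.ι} {y : S.Y} {z : S.Z} {m : S.V}
    (hy : m.2.1 ∈ (S.cY.c y).source) (hz : m.2.2 ∈ (S.cZ.c z).source)
    (ha : S.π m ∈ (M.e a).source) : ∃ ψ : Cn n → Cn S.q × Cn S.d₁ × Cn S.d₂,
      AnalyticAt ℂ ψ (M.e a (S.π m)) ∧ ψ (M.e a (S.π m)) = S.co y z m ∧
        (∀ᶠ x in 𝓝 m, ψ (M.e a (S.π x)) = S.co y z x) ∧
          ∀ᶠ ζ in 𝓝 (M.e a (S.π m)), S.π (pt S.cY S.cZ y z (ψ ζ)) = (M.e a).symm ζ := by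
  obtain ⟨ψ, h1, h2, h3, h4⟩ := S.inv_Φ hy hz ha
  refine ⟨ψ, h1, h2, ?_, ?_⟩
  · filter_upwards [(einv_co S hy hz).eventually h3, einv_left S hy hz] with x k1 k2
    rwa [Spl.Φ, k2] at k1
  · have k1 : Tendsto ψ (𝓝 (M.e a (S.π m))) (𝓝 (S.co y z m)) := h2 ▸ h1.continuousAt.tendsto
    have k2 := (S.lh.continuous.tendsto m).comp ((einv_pt S hy hz).comp k1)
    filter_upwards [h4, k2.eventually ((M.e a).open_source.mem_nhds ha)] with ζ k3 k4
    exact ((M.e a).left_inv k4).symm.trans (congrArg (M.e a).symm k3)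

theorem Spl.hol_act (S : Spl M η B) (γ : S.Γ) : HolM S.cZ fun x => γ • x := by
  obtain ⟨y⟩ : Nonempty S.Y := inferInstance
  have hc : Continuous fun m : S.V => γ • m := S.tp.cov.continuous_const_smul γ
  refine ⟨(hc.comp ((continuous_const (y := (0 : Cn S.q))).prodMk
    ((continuous_const (y := y)).prodMk continuous_id))).snd.snd, fun p => ?_⟩
  obtain ⟨a, ha⟩ := M.cover (S.π (0, y, p))
  have e : ∀ m : S.V, S.π (γ • m) = S.π m := fun m => S.tp.cov.map_smul γ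
  obtain ⟨ψ, h1, -, h3, -⟩ := einv_sec S (m := γ • ((0, y, p) : S.V)) (a := a) (S.cY.mem (γ • y))
    (S.cZ.mem (γ • p)) (by rwa [e])
  obtain ⟨k1, -, k3⟩ := S.an_Φ (m := (0, y, p)) (S.cY.mem y) (S.cZ.mem p) ha
  rw [e, ← k3] at h1
  have hι : AnalyticAt ℂ (fun w : Cn S.d₂ => ((0 : Cn S.q), S.cY.c y y, w)) (S.cZ.c p p) :=
    analyticAt_const.prod (analyticAt_const.prod analyticAt_id)
  have h4 := AnalyticAt.comp (f := fun w : Cn S.d₂ => ((0 : Cn S.q), S.cY.c y y, w))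
    (h1.comp k1) hι
  refine (analyticAt_snd.comp (analyticAt_snd.comp h4)).congr ?_
  have k4 := (hc.tendsto _).comp ((einv_pt S (m := (0, y, p)) (S.cY.mem y) (S.cZ.mem p)).comp
    hι.continuousAt.tendsto)
  filter_upwards [k4.eventually h3] with w hw
  rw [Function.comp_apply, e] at hw
  exact congrArg (fun t => t.2.2) hw

theorem Spl.push_H (S : Spl M η B) (F : M.ι → X → ℂ) {f : S.V → ℂ} {m : S.V}
    (h : AnalyticAt ℂ (fun w => F (ch M.toAtl (S.π m)) (S.π (pt S.cY S.cZ m.2.1 m.2.2 w)) *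
      f (pt S.cY S.cZ m.2.1 m.2.2 w)) (S.co m.2.1 m.2.2 m)) :
    HV (xc M.toAtl) S.π (xg M.toAtl F) f m := by
  have ha : S.π m ∈ (M.e (ch M.toAtl (S.π m))).source := ch_mem M.toAtl _
  obtain ⟨ψ, h1, h2, h3, h4⟩ := einv_sec S (S.cY.mem m.2.1) (S.cZ.mem m.2.2) ha
  refine ⟨fun p => f (pt S.cY S.cZ m.2.1 m.2.2 (ψ (M.e (ch M.toAtl (S.π m)) p))), ?_, ?_⟩
  · filter_upwards [h3, einv_left S (S.cY.mem m.2.1) (S.cZ.mem m.2.2)] with x k1 k2
    rw [k1, k2]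
  · rw [← h2] at h
    refine (h.comp h1).congr ?_
    filter_upwards [h4, (M.e _).open_target.mem_nhds ((M.e _).map_source ha)] with ζ k1 k2
    show F _ (S.π (pt S.cY S.cZ m.2.1 m.2.2 (ψ ζ))) * f (pt S.cY S.cZ m.2.1 m.2.2 (ψ ζ)) =
      F _ ((M.e _).symm ζ) * f (pt S.cY S.cZ m.2.1 m.2.2 (ψ (M.e _ ((M.e _).symm ζ))))
    rw [k1, (M.e _).right_inv k2]

theorem Spl.push_Z (S : Spl M η B) {f : S.Z → ℂ} {m : S.V} (h : HA S.cZ 1 f m.2.2) :
    HV (xc M.toAtl) S.π 1 (fun x => f x.2.2) m :=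
  S.push_H 1 (AnalyticAt.comp (f := fun w : Cn S.q × Cn S.d₁ × Cn S.d₂ => w.2.2)
    (g := S.cZ.lo m.2.2 fun x => (1 : S.Z → S.Z → ℂ) m.2.2 x * f x) (x := S.co m.2.1 m.2.2 m) h
    (analyticAt_snd.comp analyticAt_snd))

theorem Spl.push_Q (S : Spl M η B) {β : S.Z → ℝ} {m : S.V} (h : QA S.cZ β m.2.2) :
    QV (xc M.toAtl) S.π (fun x => β x.2.2) m := by
  have ha : S.π m ∈ (M.e (ch M.toAtl (S.π m))).source := ch_mem M.toAtl _
  obtain ⟨ψ, h1, h2, h3, -⟩ := einv_sec S (S.cY.mem m.2.1) (S.cZ.mem m.2.2) ha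
  obtain ⟨E, g, k1, k2, k3, k4⟩ := h
  have ht := (M.e _).open_target.mem_nhds ((M.e _).map_source ha)
  have h5 : AnalyticAt ℂ (fun ζ => (ψ ζ).2.2) (M.e (ch M.toAtl (S.π m)) (S.π m)) :=
    analyticAt_snd.comp (analyticAt_snd.comp h1)
  have h6 : (ψ (M.e (ch M.toAtl (S.π m)) (S.π m))).2.2 = S.cZ.c m.2.2 m.2.2 :=
    congrArg (fun t => t.2.2) h2
  have h7 : Tendsto (fun ζ => (ψ ζ).2.2) (𝓝 (M.e (ch M.toAtl (S.π m)) (S.π m)))
      (𝓝 (S.cZ.c m.2.2 m.2.2)) := h6 ▸ h5.continuousAt.tendsto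
  refine ⟨fun p => S.cZ.lo m.2.2 β (ψ (M.e (ch M.toAtl (S.π m)) p)).2.2, ?_,
    fun p => S.cZ.lo m.2.2 E (ψ (M.e (ch M.toAtl (S.π m)) p)).2.2,
    fun p => S.cZ.lo m.2.2 g (ψ (M.e (ch M.toAtl (S.π m)) p)).2.2, ?_, ?_, ?_, ?_⟩
  · filter_upwards [h3, einv_left S (S.cY.mem m.2.1) (S.cZ.mem m.2.2)] with x e1 e2
    rw [e1]
    exact (congrArg (fun t => β t.2.2) e2).symm
  · exact (((S.cZ.c m.2.2).tendsto_symm (S.cZ.mem m.2.2)).comp
      (h7.comp ((M.e _).continuousAt ha).tendsto)).eventually k1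
  · rw [← h6] at k2
    refine (AnalyticAt.comp (f := fun ζ => (ψ ζ).2.2) k2 h5).congr ?_
    filter_upwards [ht] with ζ e1
    show S.cZ.lo m.2.2 E (ψ ζ).2.2 = S.cZ.lo m.2.2 E (ψ (M.e _ ((M.e _).symm ζ))).2.2
    rw [(M.e _).right_inv e1]
  · show 0 < g ((S.cZ.c m.2.2).symm (ψ (M.e (ch M.toAtl (S.π m)) (S.π m))).2.2)
    rwa [h6, (S.cZ.c m.2.2).left_inv (S.cZ.mem m.2.2)]
  · filter_upwards [h7.eventually k4, h5.eventually_analyticAt, ht] with ζ e1 e2 e3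
    refine (ContDiffAt.comp (f := fun ζ => (ψ ζ).2.2) ζ e1
      ((e2.contDiffAt (n := ∞)).restrict_scalars ℝ)).congr_of_eventuallyEq ?_
    filter_upwards [(M.e _).open_target.mem_nhds e3] with ζ' e4
    show S.cZ.lo m.2.2 g (ψ (M.e _ ((M.e _).symm ζ'))).2.2 = S.cZ.lo m.2.2 g (ψ ζ').2.2
    rw [(M.e _).right_inv e4]

theorem Spl.dz_zero (S : Spl M η B) {f : X → ℂ} {G : S.Z → ℂ} {O : Set X} (hO : IsOpen O)
    (h : ∀ m, S.π m ∈ O → f (S.π m) = G m.2.2) {a : M.ι} {ζ : Cn n} (hζ : ζ ∈ (M.e a).target)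
    (hζ' : (M.e a).symm ζ ∈ O) (v : Cn n) : dz (B a ζ *ᵥ v) (M.loc a f) ζ = 0 := by
  obtain ⟨m, hm⟩ := S.tp.cov.surjective ((M.e a).symm ζ)
  have ha : S.π m ∈ (M.e a).source := by
    rw [hm]
    exact (M.e a).map_target hζ
  have hy := S.cY.mem m.2.1
  have hz := S.cZ.mem m.2.2
  obtain ⟨h1, h2, h3⟩ := S.an_Φ hy hz ha
  rw [hm, (M.e a).right_inv hζ] at h3
  obtain ⟨u, hu⟩ := h2.2 (B a ζ *ᵥ v)
  have h4 : S.Q 2 a (S.Φ a m.2.1 m.2.2 (S.co m.2.1 m.2.2 m)) *ᵥ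
      fderiv ℂ (S.Φ a m.2.1 m.2.2) (S.co m.2.1 m.2.2 m) u =
      fderiv ℂ (S.Φ a m.2.1 m.2.2) (S.co m.2.1 m.2.2 m) (0, 0, u.2.2) :=
    S.blk a m.2.1 m.2.2 (S.co m.2.1 m.2.2 m) ((S.cY.c _).map_source hy)
      ((S.cZ.c _).map_source hz) (by rwa [S.pt_co hy hz]) 2 u
  rw [hu, h3, Matrix.mulVec_mulVec, S.prj.img a ζ hζ, Matrix.zero_mulVec] at h4
  have h5 : u.2.2 = 0 := congrArg (fun t => t.2.2) (h2.1 (h4.symm.trans (map_zero _).symm))
  have hev : ∀ᶠ w in 𝓝 (S.co m.2.1 m.2.2 m),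
      M.loc a f (S.Φ a m.2.1 m.2.2 w) = G ((S.cZ.c m.2.2).symm w.2.2) := by
    have k := (S.lh.continuous.tendsto m).comp (einv_pt S hy hz)
    filter_upwards [k.eventually ((M.e a).open_source.mem_nhds ha),
      k.eventually (hO.mem_nhds (by rwa [hm]))] with w k1 k2
    exact (congrArg f ((M.e a).left_inv k1)).trans (h _ k2)
  have key : ∀ u' : Cn S.q × Cn S.d₁ × Cn S.d₂, u'.2.2 = 0 →
      fderiv ℝ (M.loc a f) ζ (fderiv ℂ (S.Φ a m.2.1 m.2.2) (S.co m.2.1 m.2.2 m) u') = 0 := by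
    intro u' hu'
    by_cases hd : DifferentiableAt ℝ (M.loc a f) ζ
    · have l1 : HasDerivAt (fun t : ℝ => S.co m.2.1 m.2.2 m + t • u') u' 0 := by
        simpa using ((hasDerivAt_id (0 : ℝ)).smul_const u').const_add (S.co m.2.1 m.2.2 m)
      have l0 : S.co m.2.1 m.2.2 m = S.co m.2.1 m.2.2 m + (0 : ℝ) • u' := by simp
      have l2 := (h1.differentiableAt.hasFDerivAt.restrictScalars ℝ).comp_hasDerivAt_of_eq 0 l1 l0
      have l3 := hd.hasFDerivAt.comp_hasDerivAt_of_eq 0 l2 (by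
        rw [Function.comp_apply, ← l0, h3])
      have l4 : Tendsto (fun t : ℝ => S.co m.2.1 m.2.2 m + t • u') (𝓝 0)
          (𝓝 (S.co m.2.1 m.2.2 m)) := by
        have := l1.continuousAt.tendsto
        rwa [← l0] at this
      refine l3.unique ((hasDerivAt_const (0 : ℝ)
        (G ((S.cZ.c m.2.2).symm (S.co m.2.1 m.2.2 m).2.2))).congr_of_eventuallyEq ?_)
      filter_upwards [l4.eventually hev] with t ht
      refine ht.trans ?_
      simp [hu']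
    · rw [fderiv_zero_of_not_differentiableAt hd]
      rfl
  have k1 := key u h5
  have k2 := key (Complex.I • u) (by simp [h5])
  rw [map_smul, hu] at k2
  rw [hu] at k1
  rw [dz, k1, k2]
  simp

end Vale.Agent.P299
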