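import Vale.Agent.P299.EV
import Vale.Agent.P299.EAtl
import Vale.Agent.P271A.Ext
import Vale.Agent.P299.EInv

/-! P299, part E: a section that vanishes along the poles, and the conclusion.

Hints. `van_qa`: `QA` gives `M.Sm β` (`Atl.sm_of_local`) and `LocB` with `ψ = -log h`; apply `van`.
`out_of_dat`: `s' = s`; `P271A.extendX` with
`Z = s` for the bounded functions `τ * s`, `c i * s` (`xg_HA`, `HA.mul`); the inequality holds on the dense
set `s ≠ 0` and everywhere by continuity of norms; `dz_zero` with `O = {p | s p ≠ 0}`. -/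

open MeasureTheory Set Filter Topology Matrix
open scoped ContDiff ComplexConjugate ComplexOrder

noncomputable section

namespace Vale.Agent.P299

open Vale.Agent.P271 Vale.Agent.P272

variable {n : ℕ} {X : Type} [TopologicalSpace X] [T2Space X] [CompactSpace X] [ConnectedSpace X]
  [MeasurableSpace X] [BorelSpace X] {M : Model n X} {η : Frm M.toAtl} {B : EF M.toAtl}
  {P : Pol M.toAtl}

omit [T2Space X] [CompactSpace X] [ConnectedSpace X] [MeasurableSpace X] [BorelSpace X] in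
theorem efin_loc {A : Atl n X} {β : X → ℝ} (h : ∀ p, QA (xc A) β p) : LocB A β := fun p => by
  obtain ⟨E, g, h1, h2, h3, h4⟩ := h p
  have h5 := ((xc A).ev_iff ((xc A).mem p) (q := fun x => β x = ‖E x‖ ^ 2 * g x)).2 h1
  have h6 : ∀ᶠ w in 𝓝 ((xc A).c p p), 0 < (xc A).lo p g w :=
    h4.self_of_nhds.continuousAt.eventually
      (lt_mem_nhds (by rwa [(xc A).lo_ce p g ((xc A).mem p)]))
  refine ⟨ch A p, ch_mem A p, _, h5.and (h2.eventually_analyticAt.and (h6.and h4)), (xc A).lo p E,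
    fun w => -Real.log ((xc A).lo p g w), fun w hw => hw.2.1,
    fun w hw => (hw.2.2.2.log hw.2.2.1.ne').neg.contDiffWithinAt, fun w hw => ?_⟩
  rw [neg_neg, Real.exp_log hw.2.2.1]
  exact hw.1

omit [T2Space X] [CompactSpace X] [ConnectedSpace X] [MeasurableSpace X] [BorelSpace X] in
theorem efin_sm {A : Atl n X} {β : X → ℝ} (h : LocB A β) : A.Sm β := by
  refine A.sm_of_local fun p => ?_
  obtain ⟨a, ha, O, hO, E, ψ, h1, h2, h3⟩ := h p
  have h4 : ContDiffAt ℝ ∞ E (A.e a p) :=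
    ((h1 _ (mem_of_mem_nhds hO)).contDiffAt (n := ∞)).restrict_scalars ℝ
  refine ⟨a, ha, ((h4.norm_sq ℂ).mul (h2.contDiffAt hO).neg.exp).congr_of_eventuallyEq ?_⟩
  filter_upwards [hO] with z hz
  exact h3 z hz

theorem van_qa (hk : P.k0 = 1) {β : X → ℝ} (h : ∀ p, QA (xc M.toAtl) β p) (hne : β ≠ 0) :
    ∃ l : ℕ, ∃ s ∈ M.H0 (P.u ^ l), s ≠ 0 ∧ ∃ C : ℝ, 0 ≤ C ∧ ∀ p, 0 ≤ β p ∧ ‖s p‖ ^ 2 ≤ C * β p := by
  have hl := efin_loc h
  obtain ⟨l, s, hs, h0, C, hC⟩ := van hk (efin_sm hl) hne hl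
  exact ⟨l, s, hs, h0, max C 0, le_max_right _ _, fun p => ⟨hl.nonneg p,
    (hC p).trans (mul_le_mul_of_nonneg_right (le_max_left _ _) (hl.nonneg p))⟩⟩

theorem efin_ext {F G : M.ι → X → ℂ} (hF : M.IsGauge F) (hG : M.IsGauge G) {s f : X → ℂ}
    (hs : s ∈ M.H0 G) (h0 : s ≠ 0) {β : X → ℝ} {C C' : ℝ} (hC : 0 ≤ C)
    (hb : ∀ p, ‖s p‖ ^ 2 ≤ C * β p) (hf : ∀ p, β p ≠ 0 → HA (xc M.toAtl) (xg M.toAtl F) f p)
    (hf' : ∀ p, ‖f p‖ ^ 2 * β p ≤ C') : ∃ H ∈ M.H0 (F * G), ∀ p, s p ≠ 0 → H p = f p * s p := by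
  refine P271A.extendX M hG (hF.mul hG) hs h0 (h := fun p => f p * s p) (fun a p hp hsp => ?_)
    (fun p hp => by rw [hp, mul_zero]) ?_
  · have h1 : β p ≠ 0 := fun h => by
      have h2 := hb p
      rw [h, mul_zero] at h2
      exact absurd h2 (not_le.2 (pow_pos (norm_pos_iff.2 hsp) 2))
    have h3 : HA (xc M.toAtl) (xg M.toAtl G) s p := (xg_HS hG).ge hs p
    exact (xg_HA (hF.mul hG) hp).1 ((hf p h1).mul h3)
  · refine lt_of_le_of_lt (lintegral_mono (g := fun _ => ENNReal.ofReal (C * C')) fun p => ?_) ?_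
    · refine ENNReal.ofReal_le_ofReal ?_
      calc ‖f p * s p‖ ^ 2 = ‖f p‖ ^ 2 * ‖s p‖ ^ 2 := by rw [norm_mul, mul_pow]
        _ ≤ ‖f p‖ ^ 2 * (C * β p) := mul_le_mul_of_nonneg_left (hb p) (sq_nonneg _)
        _ = C * (‖f p‖ ^ 2 * β p) := by ring
        _ ≤ C * C' := mul_le_mul_of_nonneg_left (hf' p) hC
    · rw [lintegral_const]
      exact ENNReal.mul_lt_top ENNReal.ofReal_lt_top (measure_lt_top _ _)

theorem out_of_dat (hk : P.k0 = 1) {S : Spl M η B} (D : Dat S) : Out M P B := by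
  obtain ⟨O, hO, hO'⟩ := D.den
  have hne : D.β ≠ 0 := by
    obtain ⟨p, hp⟩ := hO.nonempty
    exact fun h => (hO' p hp).1 (congrFun h p)
  obtain ⟨l, s, hs, h0, C, hC, hb⟩ := van_qa (P := P) hk D.q hne
  obtain ⟨C', hC'⟩ := D.bd
  have hG := P.gauge.pow l
  have hK := M.k_gauge.inv.pow D.k
  have hop := Atl.isOpen_ne_zero hG (Atl.H0_le_Sec hs)
  have hd := Atl.dense_ne_zero hG hs h0
  have hβ : ∀ p, s p ≠ 0 → D.β p ≠ 0 := fun p hp h => by
    have h2 := (hb p).2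
    rw [h, mul_zero] at h2
    exact absurd h2 (not_le.2 (pow_pos (norm_pos_iff.2 hp) 2))
  obtain ⟨t, ht, et⟩ := efin_ext hK hG hs h0 hC (fun p => (hb p).2) D.hτ fun p => (hC' p).1
  choose c hc ec using fun i => efin_ext M.isGauge_one hG hs h0 hC (fun p => (hb p).2) (D.hc i)
    fun p => (hC' p).2 i
  simp only [one_mul] at hc
  refine ⟨D.k, l, D.r, t, s, c, D.k_pos, ht, hs, hc, fun h => ?_, h0, fun p => ?_,
    fun a z hz hz' v => ⟨?_, fun i => ?_⟩⟩
  · obtain ⟨p, hp, hp'⟩ := hO.exists_mem_open hop hd.nonempty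
    exact mul_ne_zero (hO' p hp).2 hp' ((et p hp').symm.trans (congrFun h p))
  · refine (isClosed_le ((Atl.continuous_norm_of_mem (hK.mul hG) (Atl.H0_le_Sec ht)).pow 2)
      (continuous_finsetSum _ fun i _ => (Atl.continuous_norm_of_mem hG
        (Atl.H0_le_Sec (hc i))).pow 2)).closure_subset_iff.2 (fun q hq => ?_) (hd p)
    show ‖t q‖ ^ 2 ≤ ∑ i, ‖c i q‖ ^ 2
    simp only [et q hq, ec _ q hq, norm_mul, mul_pow, ← Finset.sum_mul]
    exact mul_le_mul_of_nonneg_right (D.le q (hβ q hq)) (sq_nonneg _)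
  · obtain ⟨G, hG'⟩ := D.zτ
    refine S.dz_zero (G := fun z => (G z : ℂ)) hop (fun m hm => ?_) hz hz' v
    rw [et _ hm, norm_mul, mul_pow, mul_div_cancel_right₀ _ (pow_ne_zero 2 (norm_ne_zero_iff.2 hm)),
      hG']
  · obtain ⟨G, hG'⟩ := D.zc i
    refine S.dz_zero (G := G) hop (fun m hm => ?_) hz hz' v
    rw [ec i _ hm, mul_div_cancel_right₀ _ hm, hG']

end Vale.Agent.P299
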