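import Vale.Agent.P299.ESl

/-! P299, part E: the canonical bundles of the factors. -/

open MeasureTheory Set Filter Topology Matrix
open scoped ContDiff ComplexConjugate ComplexOrder

noncomputable section

namespace Vale.Agent.P299

open Vale.Agent.P271 Vale.Agent.P272

variable {n : ℕ} {X : Type} [TopologicalSpace X] [MeasurableSpace X] {M : Model n X}
  {η : Frm M.toAtl} {B : EF M.toAtl}

section gen
variable {d : ℕ} {W : Type} [TopologicalSpace W] {c : CA d W} {g : W → W → ℂ} {f : W → X}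

theorem efly_det (c : CA d W) (p : W) : (DM (c.mp id p p) (c.c p p)).det = 1 := by
  have e : c.mp id p p =ᶠ[𝓝 (c.c p p)] id := by
    filter_upwards [(c.c p).open_target.mem_nhds ((c.c p).map_source (c.mem p))] with w hw
    exact (c.c p).right_inv hw
  rw [DM_det, e.fderiv_eq, fderiv_id]
  exact LinearMap.det_id

/-- A family of frames of the pull back of the canonical bundle. -/
structure eflyD (M : Model n X) (c : CA d W) (g : W → W → ℂ) (f : W → X) : Prop where
  cont : Continuous f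
  ne : ∀ p, ∀ x ∈ (c.c p).source, g p x ≠ 0
  an : ∀ a p, ∀ x ∈ (c.c p).source, f x ∈ (M.e a).source →
    AnalyticAt ℂ (c.lo p fun y => g p y / M.k a (f y)) (c.c p x)
  mp : ∀ a p, ∀ x ∈ (c.c p).source, f x ∈ (M.e a).source →
    AnalyticAt ℂ (c.lo p fun y => M.e a (f y)) (c.c p x)

theorem eflyD.ev (h : eflyD M c g f) {a : M.ι} {x : W} (ha : f x ∈ (M.e a).source) :
    ∀ᶠ y in 𝓝 x, f y ∈ (M.e a).source :=
  h.cont.continuousAt.eventually ((M.e a).open_source.mem_nhds ha)

theorem eflyD.lg (h : eflyD M c g f) : LG c g := by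
  refine ⟨fun p => ?_, fun p => ?_, fun p => ?_⟩
  · filter_upwards [(c.c p).open_source.mem_nhds (c.mem p)] with x hx using h.ne p x hx
  · filter_upwards [(c.c p).open_source.mem_nhds (c.mem p)] with x hx
    obtain ⟨a, ha⟩ := M.cover (f x)
    have h1 := (c.an_iff hx (c.mem x)).1 (h.an a p x hx ha)
    have h2 := h.an a x x (c.mem x) ha
    refine (h1.div h2 ?_).congr ?_
    · rw [c.lo_ce _ _ (c.mem x)]
      exact div_ne_zero (h.ne x x (c.mem x)) (M.k_gauge.ne a _ ha)
    · filter_upwards [(c.ev_iff (c.mem x)).2 (h.ev ha)] with w hw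
      exact div_div_div_cancel_right₀ (M.k_gauge.ne a _ hw) _ _
  · filter_upwards [(c.c p).open_target.mem_nhds ((c.c p).map_source (c.mem p))] with w hw
    have hx := (c.c p).map_target hw
    rw [← (c.c p).right_inv hw]
    generalize (c.c p).symm w = x at hx
    obtain ⟨a, ha⟩ := M.cover (f x)
    have h1 := (((h.an a p x hx ha).contDiffAt (n := ∞)).restrict_scalars ℝ).norm_sq ℂ
    have h2 : ContDiffAt ℝ ∞ (M.loc a fun p => ‖M.k a p‖ ^ 2)
        (c.lo p (fun y => M.e a (f y)) (c.c p x)) := by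
      rw [c.lo_ce _ _ hx]
      exact (M.k_gauge.sm a).contDiffAt ((M.e a).open_target.mem_nhds ((M.e a).map_source ha))
    refine (h1.mul (h2.comp _ (((h.mp a p x hx ha).contDiffAt (n := ∞)).restrict_scalars
      ℝ))).congr_of_eventuallyEq ?_
    filter_upwards [(c.ev_iff hx).2 (h.ev ha)] with w hw
    have h3 := norm_ne_zero_iff.2 (M.k_gauge.ne a _ hw)
    simp only [CA.lo, Atl.loc, Function.comp, (M.e a).left_inv hw, norm_div]
    field_simp

theorem eflyD.lm (h : eflyD M c g f) {a : M.ι} {p x : W} (hx : x ∈ (c.c p).source)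
    (ha : f x ∈ (M.e a).source) (h0 : ∀ ξ, LM (th M a) (M.e a (f x)) *ᵥ
      fderiv ℂ (c.lo p fun y => M.e a (f y)) (c.c p x) ξ = 0) : LM (c.cv g p) (c.c p x) = 0 := by
  have h1 := h.an a p x hx ha
  have h2 := h.mp a p x hx ha
  have n1 : c.lo p (fun y => g p y / M.k a (f y)) (c.c p x) ≠ 0 := by
    rw [c.lo_ce _ _ hx]
    exact div_ne_zero (h.ne p x hx) (M.k_gauge.ne a _ ha)
  have h3 : ContDiffAt ℝ ∞ (th M a) (c.lo p (fun y => M.e a (f y)) (c.c p x)) := by
    rw [c.lo_ce _ _ hx]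
    refine ((M.k_gauge.sm a).contDiffAt
      ((M.e a).open_target.mem_nhds ((M.e a).map_source ha))).log ?_
    simp only [Atl.loc, (M.e a).left_inv ha]
    exact pow_ne_zero _ (norm_ne_zero_iff.2 (M.k_gauge.ne a _ ha))
  have h4 := h3.comp _ ((h2.contDiffAt (n := ∞)).restrict_scalars ℝ)
  have e : c.cv g p =ᶠ[𝓝 (c.c p x)]
      (fun w => Real.log (‖c.lo p (fun y => g p y / M.k a (f y)) w‖ ^ 2)) +
        th M a ∘ c.lo p fun y => M.e a (f y) := by
    filter_upwards [(c.ev_iff hx).2 ((h.ev ha).and ((c.c p).open_source.mem_nhds hx))] with w hw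
    have k1 := norm_ne_zero_iff.2 (M.k_gauge.ne a _ hw.1)
    have k2 := norm_ne_zero_iff.2 (h.ne p _ hw.2)
    simp only [CA.cv, CA.lo, th, Atl.loc, Function.comp, Pi.add_apply, (M.e a).left_inv hw.1,
      norm_div]
    rw [← Real.log_mul (by positivity) (by positivity)]
    congr 1
    field_simp
  rw [LM_congr e, LM_add ((((h1.contDiffAt (n := ∞)).restrict_scalars ℝ).norm_sq ℂ).log
    (pow_ne_zero _ (norm_ne_zero_iff.2 n1))) h4, LM_log_normSq h1 n1, zero_add]
  refine Loc_ext (LM_herm h4) isHermitian_zero fun ξ => ?_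
  rw [← Lev_eq_LM h4, Lev_comp' h3 h2, Lev_eq_LM h3, c.lo_ce _ _ hx, h0]
  simp

end gen

variable {S : Spl M η B} {κ : S.Y → S.Z → S.V → ℂ}

theorem efly_Z (h : KG S κ) (y : S.Y) :
    eflyD M S.cZ (fun z z' => κ y z (0, y, z')) fun z => S.π (0, y, z) := by
  have hy := S.cY.mem y
  have hi : ∀ w, AnalyticAt ℂ (fun w : Cn S.d₂ => ((0 : Cn S.q), S.cY.c y y, w)) w := fun w =>
    analyticAt_const.prod (analyticAt_const.prod analyticAt_id)
  refine ⟨S.lh.continuous.comp (by fun_prop), fun p x hx => h.ne y p _ hy hx,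
    fun a p x hx ha => ?_, fun a p x hx ha => ?_⟩
  · refine ((h.an a y p (0, y, x) hy hx ha).comp_of_eq (hi _) rfl).congr
      (Eventually.of_forall fun w => ?_)
    simp only [Function.comp, pt, CA.lo, (S.cY.c y).left_inv hy]
  · refine ((S.an_Φ (m := (0, y, x)) hy hx ha).1.comp_of_eq (hi _) rfl).congr
      (Eventually.of_forall fun w => ?_)
    simp only [Function.comp, Spl.Φ, pt, CA.lo, (S.cY.c y).left_inv hy]

theorem efly_Y (h : KG S κ) (z : S.Z) :
    eflyD M S.cY (fun y y' => κ y z (0, y', z)) fun y => S.π (0, y, z) := by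
  have hz := S.cZ.mem z
  have hi : ∀ w, AnalyticAt ℂ (fun w : Cn S.d₁ => ((0 : Cn S.q), w, S.cZ.c z z)) w := fun w =>
    analyticAt_const.prod (analyticAt_id.prod analyticAt_const)
  refine ⟨S.lh.continuous.comp (by fun_prop), fun p x hx => h.ne p z _ hx hz,
    fun a p x hx ha => ?_, fun a p x hx ha => ?_⟩
  · refine ((h.an a p z (0, x, z) hx hz ha).comp_of_eq (hi _) rfl).congr
      (Eventually.of_forall fun w => ?_)
    simp only [Function.comp, pt, CA.lo, (S.cZ.c z).left_inv hz]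
  · refine ((S.an_Φ (m := (0, x, z)) hx hz ha).1.comp_of_eq (hi _) rfl).congr
      (Eventually.of_forall fun w => ?_)
    simp only [Function.comp, Spl.Φ, pt, CA.lo, (S.cZ.c z).left_inv hz]

theorem KG.canZ {S : Spl M η B} {κ : S.Y → S.Z → S.V → ℂ} (h : KG S κ) (y : S.Y) :
    Can S.cZ fun z z' => κ y z (0, y, z') := by
  refine ⟨(efly_Z h y).lg, fun p => ?_⟩
  filter_upwards [(S.cZ.c p).open_source.mem_nhds (S.cZ.mem p)] with x hx
  have := h.tr y p (0, y, x) (S.cY.mem y) hx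
  rwa [efly_det, mul_one] at this

theorem KG.canY {S : Spl M η B} {κ : S.Y → S.Z → S.V → ℂ} (h : KG S κ) (z : S.Z) :
    Can S.cY fun y y' => κ y z (0, y', z) := by
  refine ⟨(efly_Y h z).lg, fun p => ?_⟩
  filter_upwards [(S.cY.c p).open_source.mem_nhds (S.cY.mem p)] with x hx
  have := h.tr p z (0, x, z) hx (S.cZ.mem z)
  rwa [efly_det, mul_one] at this

theorem KG.flatY {S : Spl M η B} {κ : S.Y → S.Z → S.V → ℂ} (h : KG S κ) (z : S.Z) :
    ∃ t ∈ HS S.cY fun y y' => κ y z (0, y', z), ∀ y, ‖t y‖ = 1 := by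
  refine flat (efly_Y h z).lg fun p => ?_
  filter_upwards [(S.cY.c p).open_target.mem_nhds ((S.cY.c p).map_source (S.cY.mem p))] with w hw
  have hx := (S.cY.c p).map_target hw
  rw [← (S.cY.c p).right_inv hw]
  generalize (S.cY.c p).symm w = x at hx
  obtain ⟨a, ha⟩ := M.cover (S.π (0, x, z))
  have hz := S.cZ.mem z
  refine (efly_Y h z).lm hx ha fun ξ => ?_
  have e : (S.cY.lo p fun y => M.e a (S.π (0, y, z))) =
      S.Φ a p z ∘ fun w : Cn S.d₁ => ((0 : Cn S.q), w, S.cZ.c z z) := by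
    funext w
    simp only [Function.comp, Spl.Φ, pt, CA.lo, (S.cZ.c z).left_inv hz]
  have hd : HasFDerivAt (fun w : Cn S.d₁ => ((0 : Cn S.q), w, S.cZ.c z z))
      ((0 : Cn S.d₁ →L[ℂ] Cn S.q).prod ((ContinuousLinearMap.id ℂ _).prod 0)) (S.cY.c p x) :=
    (hasFDerivAt_const _ _).prodMk ((hasFDerivAt_id _).prodMk (hasFDerivAt_const _ _))
  have hΦ := (S.an_Φ (m := (0, x, z)) hx hz ha).1.differentiableAt.hasFDerivAt
  have hp := S.pt_co (m := (0, x, z)) hx hz
  have hb := S.blk a p z (S.co p z (0, x, z)) ((S.cY.c p).map_source hx) ((S.cZ.c z).map_source hz)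
    (by rw [hp]; exact ha) 1 (0, ξ, 0)
  rw [hp] at hb
  rw [e, (hΦ.comp (S.cY.c p x) hd).fderiv]
  change LM (th M a) _ *ᵥ fderiv ℂ (S.Φ a p z) (S.co p z (0, x, z)) (0, ξ, 0) = 0
  have hb' : S.Q 1 a (M.e a (S.π (0, x, z))) *ᵥ fderiv ℂ (S.Φ a p z) (S.co p z (0, x, z)) (0, ξ, 0) =
      fderiv ℂ (S.Φ a p z) (S.co p z (0, x, z)) (0, ξ, 0) := hb
  rw [← hb', mulVec_mulVec, S.prj.ric 1 (by decide) a _ ((M.e a).map_source ha), zero_mulVec]

end Vale.Agent.P299
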