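import Vale.Agent.P299.ELG
import Vale.Agent.P299.Bc
import Vale.Agent.P278.Mono

/-! P299, part E: flat bundles on simply connected manifolds.

Hints. `P278.monodromy` with `G x s := (∀ᶠ y in 𝓝 x, ‖s y‖ = 1) ∧ HA c g s x`. Local path
connectedness: build a `ChartedSpace (Cn d) Y` from `c`. Near `x₀` take the preimage `U` of a small ball on
which `g x₀` is nonzero, smooth, flat and compatible with `g x`; `plh_ball` gives `F` with
`‖F‖ = ‖g x₀‖`, `t₀ = F ∘ chart / g x₀` satisfies `G y t₀` on `U`; every germ is `l * t₀` by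
`unit_loc`; two solutions on `U` have a locally constant quotient, `U` is preconnected. -/

open MeasureTheory Set Filter Topology Matrix
open scoped ContDiff ComplexConjugate ComplexOrder

noncomputable section

namespace Vale.Agent.P299

open Vale.Agent.P271 Vale.Agent.P272

variable {d : ℕ} {Y : Type} [TopologicalSpace Y] {c : CA d Y} {g g' : Y → Y → ℂ} {f f' : Y → ℂ}
  {p : Y}

theorem CA.lpc (c : CA d Y) : LocallyPathConnectedSpace Y := by
  let _ : ChartedSpace (Cn d) Y :=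
    { atlas := range c.c, chartAt := c.c, mem_chart_source := c.mem,
      chart_mem_atlas := fun p => ⟨p, rfl⟩ }
  exact ChartedSpace.locallyPathConnectedSpace (Cn d) Y

theorem eflat_sm (hg : LG c g) (p : Y) : ∀ᶠ w in 𝓝 (c.c p p),
    g p ((c.c p).symm w) ≠ 0 ∧ ContDiffAt ℝ ∞ (c.cv g p) w := by
  filter_upwards [(c.ev_iff (c.mem p) (q := fun x => g p x ≠ 0)).2 (hg.ne p), hg.sm p] with w h1 h2
  exact ⟨h1, h2.log (pow_ne_zero 2 (norm_ne_zero_iff.2 h1))⟩

theorem eflat_loc (hg : LG c g) (h : ∀ᶠ w in 𝓝 (c.c p p), LM (c.cv g p) w = 0) :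
    ∃ t : Y → ℂ, ∀ᶠ y in 𝓝 p, ‖t y‖ = 1 ∧ HA c g t y := by
  obtain ⟨r, hr, hb⟩ := Metric.eventually_nhds_iff_ball.1 (((eflat_sm hg p).and h).and
    ((c.c p).open_target.mem_nhds ((c.c p).map_source (c.mem p))))
  obtain ⟨F, hF, hF'⟩ := plh_ball (c := c.c p p) (r := r) (ψ := c.cv g p)
    (fun w hw => (hb w hw).1.1.2.contDiffWithinAt) fun w hw => (hb w hw).1.2
  have hB := Metric.ball_mem_nhds (c.c p p) hr
  refine ⟨fun y => F (c.c p y) / g p y, Eventually.and ?_ (HA.near hg ?_)⟩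
  · refine (c.ev_iff (c.mem p) (q := fun y => ‖F (c.c p y) / g p y‖ = 1)).1 ?_
    filter_upwards [hB] with w hw
    have h0 := norm_pos_iff.2 (hb w hw).1.1.1
    have h1 := norm_pos_iff.2 (hF' w hw).1
    have h2 : ‖g p ((c.c p).symm w)‖ ^ 2 = ‖F w‖ ^ 2 :=
      Real.log_injOn_pos (mem_Ioi.2 (pow_pos h0 2)) (mem_Ioi.2 (pow_pos h1 2)) (hF' w hw).2
    rw [(c.c p).right_inv (hb w hw).2, norm_div, div_eq_one_iff_eq h0.ne']
    exact ((pow_left_inj₀ h0.le h1.le two_ne_zero).1 h2).symm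
  · refine (hF _ (Metric.mem_ball_self hr)).congr ?_
    filter_upwards [hB] with w hw
    simp only [CA.lo]
    rw [(c.c p).right_inv (hb w hw).2, mul_div_cancel₀ _ (hb w hw).1.1.1]

theorem eflat_mul (h : HA c g f p) (l : ℂ) : HA c g (fun y => l * f y) p := by
  have e : c.lo p (fun x => g p x * (l * f x)) = fun w => l * c.lo p (fun x => g p x * f x) w := by
    funext w
    simp only [CA.lo]
    ring
  unfold HA
  rw [e]
  exact analyticAt_const.mul h

theorem flat [SimplyConnectedSpace Y] (hg : LG c g)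
    (h : ∀ p, ∀ᶠ w in 𝓝 (c.c p p), LM (c.cv g p) w = 0) : ∃ t ∈ HS c g, ∀ p, ‖t p‖ = 1 := by
  have := c.lpc
  obtain ⟨x₀⟩ : Nonempty Y := inferInstance
  obtain ⟨s₀, hs₀⟩ := eflat_loc hg (h x₀)
  obtain ⟨S, -, hS⟩ := P278.monodromy (fun x s => (∀ᶠ y in 𝓝 x, ‖s y‖ = 1) ∧ HA c g s x)
    (fun x s s' hs e => ⟨by
        filter_upwards [hs.1, e] with y h1 h2
        rw [h2, h1], hs.2.congr (e.mono fun y hy => by rw [hy])⟩)
    (fun x₁ => by
      obtain ⟨t, ht⟩ := eflat_loc hg (h x₁)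
      obtain ⟨U, ⟨hU, hx, hc⟩, hs⟩ := (LocallyConnectedSpace.open_connected_basis x₁).mem_iff.1 ht
      have ht1 : ∀ y ∈ U, ∀ᶠ z in 𝓝 y, ‖t z‖ = 1 := fun y hy => by
        filter_upwards [hU.mem_nhds hy] with z hz
        exact (hs hz).1
      refine ⟨U, hU, hx, fun x hx s hG => ⟨fun y => s x / t x * t y, ?_, fun y hy => ⟨?_, ?_⟩⟩,
        fun s s' h1 h2 x hx e y hy => ?_⟩
      · exact (unit_loc hg hG.2 (hs hx).2 hG.1 (ht1 x hx)).mono fun y hy => hy.symm
      · filter_upwards [ht1 y hy] with z hz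
        rw [norm_mul, norm_div, hG.1.self_of_nhds, (hs hx).1, hz, div_one, one_mul]
      · exact eflat_mul (hs hy).2 _
      · have h3 : ∀ z ∈ U, ∀ᶠ w in 𝓝 z, s w = s z / s' z * s' w := fun z hz =>
          unit_loc hg (h1 z hz).2 (h2 z hz).2 (h1 z hz).1 (h2 z hz).1
        have h4 : ∀ z ∈ U, s' z ≠ 0 := fun z hz =>
          norm_ne_zero_iff.1 (by rw [(h2 z hz).1.self_of_nhds]; exact one_ne_zero)
        have h5 : s x / s' x = s y / s' y := by
          refine hc.isPreconnected.induction₂ (fun a b => s a / s' a = s b / s' b)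
            (fun z hz => ?_) (fun _ _ _ _ _ _ => Eq.trans) (fun _ _ _ _ => Eq.symm) hx hy
          filter_upwards [nhdsWithin_le_nhds (h3 z hz), self_mem_nhdsWithin] with w h6 h7
          rw [h6, mul_div_cancel_right₀ _ (h4 w h7)]
        filter_upwards [h3 y hy] with w hw
        rw [hw, ← h5, e.self_of_nhds, div_self (h4 x hx), one_mul])
    (x₀ := x₀) (s₀ := s₀) ⟨hs₀.mono fun y hy => hy.1, hs₀.self_of_nhds.2⟩
  exact ⟨S, fun p => (hS p).2, fun p => (hS p).1.self_of_nhds⟩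

theorem flat_div [SimplyConnectedSpace Y] (hg : LG c g) (hg' : LG c g')
    (h : ∀ p, ∀ᶠ w in 𝓝 (c.c p p), ∀ ξ, Lev (c.cv g p) w ξ = Lev (c.cv g' p) w ξ) :
    ∃ t ∈ HS c (g / g'), ∀ p, ‖t p‖ = 1 := by
  refine flat (hg.div hg') fun p => ?_
  filter_upwards [h p, (eflat_sm hg p).eventually_nhds, (eflat_sm hg' p).eventually_nhds]
    with w h1 h2 h3
  have e : c.cv (g / g') p =ᶠ[𝓝 w] c.cv g p - c.cv g' p := by
    filter_upwards [h2, h3] with z h4 h5
    simp only [CA.cv, CA.lo, Pi.div_apply, Pi.sub_apply]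
    rw [norm_div, div_pow, Real.log_div (pow_ne_zero 2 (norm_ne_zero_iff.2 h4.1))
      (pow_ne_zero 2 (norm_ne_zero_iff.2 h5.1))]
  have h4 := h2.self_of_nhds.2
  have h5 := h3.self_of_nhds.2
  rw [LM_congr e, LM_sub h4 h5, sub_eq_zero]
  refine Loc_ext (LM_herm h4) (LM_herm h5) fun ξ => ?_
  rw [← Lev_eq_LM h4, ← Lev_eq_LM h5, h1]

end Vale.Agent.P299
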