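import Vale.Agent.P299.ELG

/-! P299, part E: holomorphic germs on a covering space.

Hints. Descent: `IsLocalHomeomorph.map_nhds_eq` or `IsOpenMap.map_nhds_eq`. -/

open MeasureTheory Set Filter Topology Matrix
open scoped ContDiff ComplexConjugate ComplexOrder

noncomputable section

namespace Vale.Agent.P299

open Vale.Agent.P271 Vale.Agent.P272

variable {d : ℕ} {Y : Type} [TopologicalSpace Y] {c : CA d Y} {g g' : Y → Y → ℂ} {f f' : Y → ℂ}
  {p : Y}
variable {V : Type} [TopologicalSpace V] {π : V → Y} {m : V}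

theorem QA.congr {β β' : Y → ℝ} (h : QA c β p) (e : β' =ᶠ[𝓝 p] β) : QA c β' p := by
  obtain ⟨B, k, h1, h2, h3, h4⟩ := h
  refine ⟨B, k, ?_, h2, h3, h4⟩
  filter_upwards [e, h1] with x hx hx'
  rw [hx, hx']

theorem QA.mul {β β' : Y → ℝ} (h : QA c β p) (h' : QA c β' p) : QA c (β * β') p := by
  obtain ⟨B, k, h1, h2, h3, h4⟩ := h
  obtain ⟨B', k', h1', h2', h3', h4'⟩ := h'
  refine ⟨fun x => B x * B' x, fun x => k x * k' x, ?_, h2.mul h2', mul_pos h3 h3', ?_⟩
  · filter_upwards [h1, h1'] with x hx hx'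
    rw [Pi.mul_apply, hx, hx', norm_mul]; ring
  · filter_upwards [h4, h4'] with w hw hw'
    exact hw.mul hw'

theorem QV.prod {ι : Type} (s : Finset ι) {b : ι → V → ℝ}
    (h : ∀ i ∈ s, QV c π (b i) m) : QV c π (fun x => ∏ i ∈ s, b i x) m := by
  classical
  induction s using Finset.induction_on with
  | empty =>
    refine ⟨fun _ => 1, Eventually.of_forall fun x => by simp, fun _ => 1, fun _ => 1,
      Eventually.of_forall fun x => by simp, analyticAt_const, one_pos,
      Eventually.of_forall fun w => contDiffAt_const⟩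
  | insert i s hi ih =>
    obtain ⟨β, e, hβ⟩ := h i (Finset.mem_insert_self _ _)
    obtain ⟨β', e', hβ'⟩ := ih fun j hj => h j (Finset.mem_insert_of_mem hj)
    refine ⟨β * β', ?_, hβ.mul hβ'⟩
    filter_upwards [e, e'] with x hx hx'
    rw [Finset.prod_insert hi, hx, hx', Pi.mul_apply]

theorem QV.pow {b : V → ℝ} (h : QV c π b m) (k : ℕ) :
    QV c π (fun x => b x ^ k) m := by
  have := QV.prod (c := c) (π := π) (m := m) (Finset.range k) (b := fun _ => b) fun _ _ => h
  simpa only [Finset.prod_const, Finset.card_range] using this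

theorem QV.comp {b : V → ℝ} {T : V → V} (hT : Continuous T) (e : ∀ x, π (T x) = π x)
    (h : QV c π b (T m)) : QV c π (fun x => b (T x)) m := by
  obtain ⟨β, h1, h2⟩ := h
  refine ⟨β, ?_, by rw [← e m]; exact h2⟩
  filter_upwards [hT.continuousAt.eventually h1] with x hx
  rw [hx, e]

theorem QV.desc (hπ : IsLocalHomeomorph π) {β : Y → ℝ} (h : QV c π (fun x => β (π x)) m) :
    QA c β (π m) := by
  obtain ⟨β', h1, h2⟩ := h
  refine h2.congr ?_
  rw [← hπ.map_nhds_eq m]
  exact h1

theorem HV.prod {ι : Type} (s : Finset ι) {F : ι → V → ℂ} (h : ∀ i ∈ s, HV c π g (F i) m) :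
    HV c π (g ^ s.card) (fun x => ∏ i ∈ s, F i x) m := by
  classical
  induction s using Finset.induction_on with
  | empty =>
    refine ⟨fun _ => 1, Eventually.of_forall fun x => by simp, ?_⟩
    have e : c.lo (π m) (fun x => (g ^ (∅ : Finset ι).card) (π m) x * (1 : ℂ)) = fun _ => 1 := by
      funext w; simp [CA.lo]
    unfold HA; rw [e]; exact analyticAt_const
  | insert i s hi ih =>
    obtain ⟨φ, e, hφ⟩ := h i (Finset.mem_insert_self _ _)
    obtain ⟨φ', e', hφ'⟩ := ih fun j hj => h j (Finset.mem_insert_of_mem hj)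
    refine ⟨fun x => φ x * φ' x, ?_, ?_⟩
    · filter_upwards [e, e'] with x hx hx'
      rw [Finset.prod_insert hi, hx, hx']
    · have e2 : c.lo (π m) (fun x => (g ^ (insert i s).card) (π m) x * (φ x * φ' x)) =
          fun w => c.lo (π m) (fun x => g (π m) x * φ x) w *
            c.lo (π m) (fun x => (g ^ s.card) (π m) x * φ' x) w := by
        funext w
        simp only [CA.lo, Finset.card_insert_of_notMem hi, Pi.pow_apply]
        ring
      unfold HA; rw [e2]; exact AnalyticAt.mul hφ hφ'

theorem HV.const_mul {F : V → ℂ} (h : HV c π g F m) (a : ℂ) : HV c π g (fun x => a * F x) m :=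
  by
  obtain ⟨φ, e, hφ⟩ := h
  refine ⟨fun x => a * φ x, ?_, ?_⟩
  · filter_upwards [e] with x hx
    rw [hx]
  · have e2 : c.lo (π m) (fun x => g (π m) x * (a * φ x)) =
        fun w => a * c.lo (π m) (fun x => g (π m) x * φ x) w := by
      funext w; simp only [CA.lo]; ring
    unfold HA; rw [e2]; exact analyticAt_const.mul hφ

theorem HV.comp {F : V → ℂ} {T : V → V} (hT : Continuous T) (e : ∀ x, π (T x) = π x)
    (h : HV c π g F (T m)) : HV c π g (fun x => F (T x)) m := by
  obtain ⟨φ, h1, h2⟩ := h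
  refine ⟨φ, ?_, by rw [← e m]; exact h2⟩
  filter_upwards [hT.continuousAt.eventually h1] with x hx
  rw [hx, e]

theorem HV.desc (hπ : IsLocalHomeomorph π) (h : HV c π g (fun x => f (π x)) m) :
    HA c g f (π m) := by
  obtain ⟨φ, h1, h2⟩ := h
  have h3 : ∀ᶠ y in 𝓝 (π m), f y = φ y := by
    rw [← hπ.map_nhds_eq m]
    exact h1
  have h4 : ContinuousAt (c.c (π m)).symm (c.c (π m) (π m)) :=
    (c.c (π m)).continuousAt_symm ((c.c (π m)).map_source (c.mem _))
  have h5 : Tendsto (c.c (π m)).symm (𝓝 (c.c (π m) (π m))) (𝓝 (π m)) := by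
    have := h4.tendsto
    rwa [(c.c (π m)).left_inv (c.mem _)] at this
  refine AnalyticAt.congr h2 ?_
  filter_upwards [h5.eventually h3] with w hw
  simp only [CA.lo, hw]

theorem HV.sum {ι : Type} (s : Finset ι) {F : ι → V → ℂ} (h : ∀ i ∈ s, HV c π g (F i) m) :
    HV c π g (fun x => ∑ i ∈ s, F i x) m := by
  classical
  induction s using Finset.induction_on with
  | empty =>
    exact ⟨0, Eventually.of_forall fun x => by simp, (HS c g).zero_mem _⟩
  | insert i s hi ih =>
    obtain ⟨φ, e, hφ⟩ := h i (Finset.mem_insert_self _ _)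
    obtain ⟨φ', e', hφ'⟩ := ih fun j hj => h j (Finset.mem_insert_of_mem hj)
    refine ⟨fun x => φ x + φ' x, ?_, ?_⟩
    · filter_upwards [e, e'] with x hx hx'
      rw [Finset.sum_insert hi, hx, hx']
    · have e2 : c.lo (π m) (fun x => g (π m) x * (φ x + φ' x)) =
          fun w => c.lo (π m) (fun x => g (π m) x * φ x) w +
            c.lo (π m) (fun x => g (π m) x * φ' x) w := by
        funext w; simp only [CA.lo]; ring
      unfold HA; rw [e2]; exact AnalyticAt.add hφ hφ'

theorem dense_fin {ι : Type} [Finite ι] {O : ι → Set V} (ho : ∀ i, IsOpen (O i))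
    (hd : ∀ i, Dense (O i)) : Dense (⋂ i, O i) := by
  classical
  have := Fintype.ofFinite ι
  have key : ∀ s : Finset ι, Dense (⋂ i ∈ s, O i) := by
    intro s
    induction s using Finset.induction_on with
    | empty => simp
    | insert i s hi ih =>
      rw [Finset.set_biInter_insert]
      exact (hd i).inter_of_isOpen_left ih (ho i)
  simpa using key Finset.univ

end Vale.Agent.P299
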