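import Vale.Agent.P299.EInv

/-! P299, part E: the canonical bundle of the cover.

Hints. `n = q + (d₁ + d₂)` from `an_Φ` at some point (finrank), so there is
`σ : Fin n ≃ Fin q ⊕ Fin d₁ ⊕ Fin d₂`. Put `κ y z m = M.k a (π m) * (JM σ (Φ a y z) (co y z m)).det` with
`a = ch (π m)`. `JM_comp` gives independence of `a` (with `M.k_tr`, `DM_det`), `JM_blk` gives `tr` and
`act`, `JM_met` with `det_conj`, `dt_eq`, `det_fromBlocks_zero₁₂`, `det_submatrix_equiv_self` gives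
`‖κ y z m‖ ^ 2 * c = det gY * det gZ` with `c > 0` (`dt_pos`); take real parts:
`nY y = ‖det gY‖ / c`, `nZ z = ‖det gZ‖`. -/

open MeasureTheory Set Filter Topology Matrix
open scoped ContDiff ComplexConjugate ComplexOrder

noncomputable section

namespace Vale.Agent.P299

open Vale.Agent.P271 Vale.Agent.P272

variable {n : ℕ} {X : Type} [TopologicalSpace X] [MeasurableSpace X] {M : Model n X}
  {η : Frm M.toAtl} {B : EF M.toAtl}

/-- The standard basis of the product. -/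
def bv3 {q d₁ d₂ : ℕ} : Fin q ⊕ Fin d₁ ⊕ Fin d₂ → Cn q × Cn d₁ × Cn d₂ :=
  Sum.elim (fun i => (Pi.single i 1, 0, 0))
    (Sum.elim (fun i => (0, Pi.single i 1, 0)) fun i => (0, 0, Pi.single i 1))

/-- The Jacobian matrix of a map from the product. -/
def JM {q d₁ d₂ : ℕ} (σ : Fin n ≃ Fin q ⊕ Fin d₁ ⊕ Fin d₂) (Φ : Cn q × Cn d₁ × Cn d₂ → Cn n)
    (w : Cn q × Cn d₁ × Cn d₂) : Mx n := Matrix.of fun j k => fderiv ℂ Φ w (bv3 (σ k)) j

section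
variable {q d₁ d₂ : ℕ} (σ : Fin n ≃ Fin q ⊕ Fin d₁ ⊕ Fin d₂) {Φ Φ' : Cn q × Cn d₁ × Cn d₂ → Cn n}
  {w : Cn q × Cn d₁ × Cn d₂}

theorem ejac_sum (x : Fin q ⊕ Fin d₁ ⊕ Fin d₂ → ℂ) : ∑ s, x s • bv3 s =
    (fun i => x (.inl i), fun i => x (.inr (.inl i)), fun i => x (.inr (.inr i))) := by
  refine Prod.ext ?_ (Prod.ext ?_ ?_) <;> funext i <;>
    simp [bv3, Fintype.sum_sum_type, Prod.fst_sum, Prod.snd_sum, Finset.sum_apply, Pi.single_apply]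

theorem ejac_mv (x : Fin q ⊕ Fin d₁ ⊕ Fin d₂ → ℂ) : JM σ Φ w *ᵥ (fun k => x (σ k)) =
    fderiv ℂ Φ w (fun i => x (.inl i), fun i => x (.inr (.inl i)), fun i => x (.inr (.inr i))) := by
  rw [← ejac_sum, map_sum, ← σ.sum_comp]
  funext j
  simp only [JM, mulVec, dotProduct, of_apply, map_smul, Finset.sum_apply, Pi.smul_apply,
    smul_eq_mul, mul_comm]

theorem ejac_det (A : Mx d₁) (A' : Mx d₂) :
    ((fromBlocks (1 : Mx q) 0 0 (fromBlocks A 0 0 A')).submatrix σ σ).det = A.det * A'.det := by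
  rw [det_submatrix_equiv_self, det_fromBlocks_zero₁₂, det_fromBlocks_zero₁₂, det_one, one_mul]

theorem JM_an (h : AnalyticAt ℂ Φ w) : AnalyticAt ℂ (fun v => (JM σ Φ v).det) w := by
  simp only [det_apply']
  refine Finset.analyticAt_fun_sum _ fun τ _ => analyticAt_const.mul
    (Finset.analyticAt_fun_prod _ fun k _ => ?_)
  exact (((ContinuousLinearMap.proj (τ k) : Cn n →L[ℂ] ℂ).comp
    (ContinuousLinearMap.apply ℂ (Cn n) (bv3 (σ k)))).analyticAt _).comp h.fderiv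

theorem JM_ne (h : Function.Injective (fderiv ℂ Φ w)) : (JM σ Φ w).det ≠ 0 := by
  intro h0
  obtain ⟨ξ, h1, h2⟩ := exists_mulVec_eq_zero_iff.2 h0
  have h3 := ejac_mv (Φ := Φ) (w := w) σ fun s => ξ (σ.symm s)
  simp only [Equiv.symm_apply_apply] at h3
  have h4 := h (h3.symm.trans (h2.trans (map_zero _).symm))
  refine h1 (funext fun k => ?_)
  rw [← σ.symm_apply_apply k]
  rcases σ k with i | i | i
  · exact congrFun (congrArg Prod.fst h4) i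
  · exact congrFun (congrArg (fun v => v.2.1) h4) i
  · exact congrFun (congrArg (fun v => v.2.2) h4) i

theorem JM_comp {T : Cn n → Cn n} (h : AnalyticAt ℂ Φ w) (hT : AnalyticAt ℂ T (Φ w))
    (e : Φ' =ᶠ[𝓝 w] T ∘ Φ) : JM σ Φ' w = DM T (Φ w) * JM σ Φ w := by
  ext j k
  have h1 := congrFun (DM_mulVec T (Φ w) (fderiv ℂ Φ w (bv3 (σ k)))) j
  rw [JM, of_apply, e.fderiv_eq, fderiv_comp w hT.differentiableAt h.differentiableAt]
  exact h1.symm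

theorem JM_blk {b : Cn q} {T₁ : Cn d₁ → Cn d₁} {T₂ : Cn d₂ → Cn d₂} (h₁ : AnalyticAt ℂ T₁ w.2.1)
    (h₂ : AnalyticAt ℂ T₂ w.2.2) (h : AnalyticAt ℂ Φ (w.1 + b, T₁ w.2.1, T₂ w.2.2))
    (e : ∀ᶠ v in 𝓝 w, Φ' v = Φ (v.1 + b, T₁ v.2.1, T₂ v.2.2)) :
    (JM σ Φ' w).det = (JM σ Φ (w.1 + b, T₁ w.2.1, T₂ w.2.2)).det * (DM T₁ w.2.1).det *
      (DM T₂ w.2.2).det := by
  have a0 : HasFDerivAt (fun v : Cn q × Cn d₁ × Cn d₂ => v.1) (.fst ℂ _ _) w := hasFDerivAt_fst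
  have a1 : HasFDerivAt (fun v : Cn q × Cn d₁ × Cn d₂ => v.2.1)
      ((ContinuousLinearMap.fst ℂ _ _).comp (.snd ℂ _ _)) w := HasFDerivAt.fst hasFDerivAt_snd
  have a2 : HasFDerivAt (fun v : Cn q × Cn d₁ × Cn d₂ => v.2.2)
      ((ContinuousLinearMap.snd ℂ _ _).comp (.snd ℂ _ _)) w := HasFDerivAt.snd hasFDerivAt_snd
  have h1 := (a0.add_const b).prodMk ((h₁.differentiableAt.hasFDerivAt.comp w a1).prodMk
    (h₂.differentiableAt.hasFDerivAt.comp w a2))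
  have h2 := ((h.differentiableAt.hasFDerivAt.comp w h1).congr_of_eventuallyEq e).fderiv
  rw [mul_assoc, ← ejac_det σ, ← det_mul]
  congr 1
  ext j k
  have h3 := congrFun (ejac_mv (Φ := Φ) (w := (w.1 + b, T₁ w.2.1, T₂ w.2.2)) σ fun s =>
    fromBlocks (1 : Mx q) 0 0 (fromBlocks (DM T₁ w.2.1) 0 0 (DM T₂ w.2.2)) s (σ k)) j
  refine Eq.trans ?_ h3.symm
  rw [JM, of_apply, h2, ContinuousLinearMap.comp_apply]
  refine congrFun (congrArg _ ?_) j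
  rcases σ k with i | i | i <;> refine Prod.ext ?_ (Prod.ext ?_ ?_) <;> funext l <;>
    simp [bv3, DM, one_apply, Pi.single_apply]

theorem JM_met {G : Mx n} {G₁ : Mx d₁} {G₂ : Mx d₂}
    (h : ∀ v v', star (fderiv ℂ Φ w v) ⬝ᵥ G *ᵥ fderiv ℂ Φ w v' =
      star v.1 ⬝ᵥ v'.1 + star v.2.1 ⬝ᵥ G₁ *ᵥ v'.2.1 + star v.2.2 ⬝ᵥ G₂ *ᵥ v'.2.2) :
    (‖(JM σ Φ w).det‖ ^ 2 : ℝ) * G.det = G₁.det * G₂.det := by
  rw [← det_conj, ← ejac_det σ]
  congr 1
  ext j k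
  have h1 : ((JM σ Φ w)ᴴ * G * JM σ Φ w) j k =
      star (fderiv ℂ Φ w (bv3 (σ j))) ⬝ᵥ G *ᵥ fderiv ℂ Φ w (bv3 (σ k)) := by
    rw [Matrix.mul_assoc]
    rfl
  rw [h1, h, submatrix_apply]
  rcases σ j with i | i | i <;> rcases σ k with l | l | l <;>
    simp [bv3, one_apply, Pi.single_apply, eq_comm]

end

end Vale.Agent.P299
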