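import Vale.Agent.P299.EJac

/-! P299, part E: existence of the canonical gauge on the cover. See the hints in `EJac`. -/

open MeasureTheory Set Filter Topology Matrix
open scoped ContDiff ComplexConjugate ComplexOrder

noncomputable section

namespace Vale.Agent.P299

open Vale.Agent.P271 Vale.Agent.P272

variable {n : ℕ} {X : Type} [TopologicalSpace X] [MeasurableSpace X] {M : Model n X}
  {η : Frm M.toAtl} {B : EF M.toAtl}

/-- The canonical gauge. -/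
def ekgK (S : Spl M η B) (σ : Fin n ≃ Fin S.q ⊕ Fin S.d₁ ⊕ Fin S.d₂) (y : S.Y) (z : S.Z)
    (m : S.V) : ℂ :=
  M.k (ch M.toAtl (S.π m)) (S.π m) * (JM σ (S.Φ (ch M.toAtl (S.π m)) y z) (S.co y z m)).det

theorem ekg_near (S : Spl M η B) {a : M.ι} {m : S.V} (ha : S.π m ∈ (M.e a).source) :
    ∀ᶠ x in 𝓝 m, S.π x ∈ (M.e a).source :=
  S.lh.continuous.continuousAt.eventually ((M.e a).open_source.mem_nhds ha)

theorem ekg_nearY (S : Spl M η B) {y : S.Y} {m : S.V} (hy : m.2.1 ∈ (S.cY.c y).source) :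
    ∀ᶠ x : S.V in 𝓝 m, x.2.1 ∈ (S.cY.c y).source :=
  continuous_snd.fst.continuousAt.eventually ((S.cY.c y).open_source.mem_nhds hy)

theorem ekg_nearZ (S : Spl M η B) {T : S.Z → S.Z} (hT : Continuous T) {z : S.Z} {m : S.V}
    (hz : T m.2.2 ∈ (S.cZ.c z).source) : ∀ᶠ x : S.V in 𝓝 m, T x.2.2 ∈ (S.cZ.c z).source :=
  (hT.comp continuous_snd.snd).continuousAt.eventually ((S.cZ.c z).open_source.mem_nhds hz)

theorem ekg_eq (S : Spl M η B) (σ : Fin n ≃ Fin S.q ⊕ Fin S.d₁ ⊕ Fin S.d₂) {a : M.ι} {y : S.Y}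
    {z : S.Z} {m : S.V} (hy : m.2.1 ∈ (S.cY.c y).source) (hz : m.2.2 ∈ (S.cZ.c z).source)
    (ha : S.π m ∈ (M.e a).source) :
    ekgK S σ y z m = M.k a (S.π m) * (JM σ (S.Φ a y z) (S.co y z m)).det := by
  obtain ⟨h1, -, h3⟩ := S.an_Φ hy hz ha
  have hov := ApiA_ov ha
  have e : S.Φ (ch M.toAtl (S.π m)) y z =ᶠ[𝓝 (S.co y z m)]
      M.tr a (ch M.toAtl (S.π m)) ∘ S.Φ a y z := by
    filter_upwards [(S.ev_iff hy hz).2 (ekg_near S ha)] with w hw
    simp only [Function.comp_apply, Atl.tr, Spl.Φ]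
    rw [(M.e a).left_inv hw]
  have h4 := JM_comp σ h1 (by rw [h3]; exact M.analyticOnNhd_tr _ _ _ hov) e
  have h5 := M.k_tr _ _ _ hov
  rw [(M.e a).left_inv ha, ← DM_det] at h5
  rw [ekgK, h4, h5, Matrix.det_mul, h3]
  ring

theorem exists_KG (S : Spl M η B) (hη : KY M η) : ∃ κ, KG S κ := by
  have hs : ∀ m : S.V, m.2.1 ∈ (S.cY.c m.2.1).source ∧ m.2.2 ∈ (S.cZ.c m.2.2).source ∧
      S.π m ∈ (M.e (ch M.toAtl (S.π m))).source := fun m => ⟨S.cY.mem _, S.cZ.mem _, ch_mem _ _⟩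
  obtain ⟨σ⟩ : Nonempty (Fin n ≃ Fin S.q ⊕ Fin S.d₁ ⊕ Fin S.d₂) := by
    obtain ⟨m⟩ : Nonempty S.V := inferInstance
    obtain ⟨-, h2, -⟩ := S.an_Φ (hs m).1 (hs m).2.1 (hs m).2.2
    have h3 := (LinearEquiv.ofBijective (fderiv ℂ (S.Φ (ch M.toAtl (S.π m)) m.2.1 m.2.2)
      (S.co m.2.1 m.2.2 m)).toLinearMap h2).finrank_eq
    refine ⟨Fintype.equivOfCardEq ?_⟩
    simpa [Module.finrank_prod] using h3.symm
  refine ⟨ekgK S σ, fun y z m hy hz => ?_, fun a y z m hy hz ha => ?_, fun y z m hy hz => ?_,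
    fun γ ⟨b, hb⟩ hY m => ?_, ?_⟩
  · exact mul_ne_zero (M.k_gauge.ne _ _ (hs m).2.2) (JM_ne σ (S.an_Φ hy hz (hs m).2.2).2.1.1)
  · refine (JM_an σ (S.an_Φ hy hz ha).1).congr ?_
    have t1 : ∀ᶠ w in 𝓝 (S.co y z m), w.2.1 ∈ (S.cY.c y).target :=
      continuous_snd.fst.continuousAt.eventually
        ((S.cY.c y).open_target.mem_nhds ((S.cY.c y).map_source hy))
    have t2 : ∀ᶠ w in 𝓝 (S.co y z m), w.2.2 ∈ (S.cZ.c z).target :=
      continuous_snd.snd.continuousAt.eventually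
        ((S.cZ.c z).open_target.mem_nhds ((S.cZ.c z).map_source hz))
    filter_upwards [t1, t2, (S.ev_iff hy hz).2 (ekg_near S ha)] with w w1 w2 w3
    have e : S.co y z (pt S.cY S.cZ y z w) = w := by
      simp only [Spl.co, pt, (S.cY.c y).right_inv w1, (S.cZ.c z).right_inv w2]
    rw [ekg_eq S σ ((S.cY.c y).map_target w1) ((S.cZ.c z).map_target w2) w3, e,
      mul_div_cancel_left₀ _ (M.k_gauge.ne _ _ w3)]
  · have e : ((S.co y z m).1 + 0, S.cY.mp id y m.2.1 (S.co y z m).2.1,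
        S.cZ.mp id z m.2.2 (S.co y z m).2.2) = S.co m.2.1 m.2.2 m := by
      simp only [Spl.co, CA.mp, id, add_zero, (S.cY.c y).left_inv hy, (S.cZ.c z).left_inv hz]
    have h1 := JM_blk σ (Φ := S.Φ (ch M.toAtl (S.π m)) m.2.1 m.2.2)
      (Φ' := S.Φ (ch M.toAtl (S.π m)) y z) (w := S.co y z m) (b := 0)
      (T₁ := S.cY.mp id y m.2.1) (T₂ := S.cZ.mp id z m.2.2) (S.cY.hol _ _ _ hy (hs m).1)
      (S.cZ.hol _ _ _ hz (hs m).2.1) (by
        rw [e]
        exact (S.an_Φ (hs m).1 (hs m).2.1 (hs m).2.2).1) (by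
        filter_upwards [(S.ev_iff hy hz).2 (ekg_nearY S (hs m).1),
          (S.ev_iff hy hz).2 (ekg_nearZ S continuous_id (hs m).2.1)] with v v1 v2
        simp only [pt, id] at v1 v2
        simp only [Spl.Φ, pt, CA.mp, id, add_zero, (S.cY.c _).left_inv v1, (S.cZ.c _).left_inv v2])
    rw [e] at h1
    rw [ekgK, ekgK, h1, mul_assoc, mul_assoc, mul_assoc]
    rfl
  · have hπ : S.π (γ • m) = S.π m := S.tp.cov.map_smul γ
    have hact := S.hol_act γ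
    have y1 : (γ • m).2.1 ∈ (S.cY.c m.2.1).source := by
      show γ • m.2.1 ∈ _
      rw [hY]
      exact (hs m).1
    have z1 : (γ • m).2.2 ∈ (S.cZ.c (γ • m.2.2)).source := S.cZ.mem _
    have e : ((S.co m.2.1 m.2.2 m).1 + b, id (S.co m.2.1 m.2.2 m).2.1,
        S.cZ.mp (fun x => γ • x) m.2.2 (γ • m.2.2) (S.co m.2.1 m.2.2 m).2.2) =
          S.co m.2.1 (γ • m.2.2) (γ • m) := by
      simp only [Spl.co, CA.mp, id, (S.cZ.c _).left_inv (hs m).2.1, Prod.smul_fst, Prod.smul_snd,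
        hb, hY]
    have h1 := JM_blk σ (Φ := S.Φ (ch M.toAtl (S.π m)) m.2.1 (γ • m.2.2))
      (Φ' := S.Φ (ch M.toAtl (S.π m)) m.2.1 m.2.2) (w := S.co m.2.1 m.2.2 m) (b := b)
      (T₁ := id) (T₂ := S.cZ.mp (fun x => γ • x) m.2.2 (γ • m.2.2)) analyticAt_id
      (hact.2 _) (by
        rw [e]
        exact (S.an_Φ y1 z1 (hπ ▸ (hs m).2.2)).1) (by
        filter_upwards [(S.ev_iff (hs m).1 (hs m).2.1).2 (ekg_nearZ S hact.1 z1)] with v v2
        simp only [pt] at v2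
        simp only [Spl.Φ, pt, CA.mp, id, (S.cZ.c _).left_inv v2]
        have h3 := S.tp.cov.map_smul γ
          (e := (v.1, (S.cY.c m.2.1).symm v.2.1, (S.cZ.c m.2.2).symm v.2.2))
        simp only [Prod.smul_mk, hb, hY] at h3
        rw [h3])
    have h2 : (DM (id : Cn S.d₁ → Cn S.d₁) (S.co m.2.1 m.2.2 m).2.1).det = 1 := by
      rw [DM_det, fderiv_id]
      exact LinearMap.det_id
    rw [e, h2, mul_one] at h1
    rw [ekgK, ekgK, hπ, h1, mul_assoc]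
    rfl
  · obtain ⟨c, hc⟩ := hη.det
    refine ⟨fun y => ‖(S.gY y (S.cY.c y y)).det‖ / c, fun z => ‖(S.gZ z (S.cZ.c z z)).det‖,
      fun m => ?_⟩
    obtain ⟨m1, m2, m3⟩ := hs m
    have hp := S.pt_co m1 m2
    have h1 := S.met (ch M.toAtl (S.π m)) m.2.1 m.2.2 (S.co m.2.1 m.2.2 m)
      ((S.cY.c _).map_source m1) ((S.cZ.c _).map_source m2) (by rw [hp]; exact m3)
    rw [hp] at h1
    have h2 := congrArg norm (JM_met σ (Φ := S.Φ (ch M.toAtl (S.π m)) m.2.1 m.2.2) h1)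
    have h3 := dt_eq hη.kae.1 m3
    have h4 := dt_pos hη.kae (S.π m)
    have h5 := Api_k_pos M m3
    have h6 := (hη.kae.2 _ _ ((M.e _).map_source m3)).det_pos
    have h7 : ‖(LM (η (ch M.toAtl (S.π m))) (M.e (ch M.toAtl (S.π m)) (S.π m))).det‖ =
        (LM (η (ch M.toAtl (S.π m))) (M.e (ch M.toAtl (S.π m)) (S.π m))).det.re :=
      congrArg Complex.re (Complex.norm_of_nonneg' h6.le)
    rw [hc] at h3 h4
    rw [norm_mul, norm_mul, Complex.norm_real, Real.norm_of_nonneg (sq_nonneg _), h7,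
      (eq_div_iff h5.ne').1 h3 |>.symm] at h2
    rw [ekgK, norm_mul, mul_pow, div_mul_eq_mul_div, eq_div_iff h4.ne']
    simp only [Spl.co] at h2 ⊢
    linarith

end Vale.Agent.P299
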