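import Vale.Agent.P299.EDefs

/-! P299, part E: basic facts on point gauges.

Hints. Work with `c.hol`, continuousAt_symm, map_nhds_eq (transport of eventually
statements between `𝓝 p` and `𝓝 (c.c p p)`), `AnalyticAt.eventually_analyticAt`.
`HA.near`: `g x * f = (g p * f) / (g p / g x)` near `x`, compose with the transition map.
`unit_loc`: `f / f'` is analytic of modulus one, `Complex.eventually_eq_of_isLocalMax_norm`. -/

open MeasureTheory Set Filter Topology Matrix
open scoped ContDiff ComplexConjugate ComplexOrder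

noncomputable section

namespace Vale.Agent.P299

open Vale.Agent.P271 Vale.Agent.P272

variable {d : ℕ} {Y : Type} [TopologicalSpace Y] {c : CA d Y} {g g' : Y → Y → ℂ} {f f' : Y → ℂ}
  {p : Y}

theorem CA.lo_ce {F : Type} (c : CA d Y) (p : Y) (f : Y → F) {x : Y} (hx : x ∈ (c.c p).source) :
    c.lo p f (c.c p x) = f x := by
  simp only [CA.lo, (c.c p).left_inv hx]

theorem CA.ev_iff (c : CA d Y) {x : Y} (hx : x ∈ (c.c p).source) {q : Y → Prop} :
    (∀ᶠ w in 𝓝 (c.c p x), q ((c.c p).symm w)) ↔ ∀ᶠ y in 𝓝 x, q y :=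
  (c.c p).eventually_nhds' q hx

theorem elg_tr {F : Type} (c : CA d Y) {x p' : Y} (hx : x ∈ (c.c p).source)
    (hx' : x ∈ (c.c p').source) (f : Y → F) :
    c.lo p' f ∘ (fun w => c.c p' ((c.c p).symm w)) =ᶠ[𝓝 (c.c p x)] c.lo p f :=
  (c.ev_iff hx (q := fun y => c.lo p' f (c.c p' y) = f y)).2 (by
    filter_upwards [(c.c p').open_source.mem_nhds hx'] with y hy
    exact c.lo_ce p' f hy)

theorem elg_an {F : Type} [NormedAddCommGroup F] [NormedSpace ℂ F] {x p' : Y}
    (hx : x ∈ (c.c p).source) (hx' : x ∈ (c.c p').source) {f : Y → F}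
    (h : AnalyticAt ℂ (c.lo p' f) (c.c p' x)) : AnalyticAt ℂ (c.lo p f) (c.c p x) :=
  (h.comp_of_eq (c.hol p p' x hx hx') (by rw [(c.c p).left_inv hx])).congr (elg_tr c hx hx' f)

theorem elg_sm {x p' : Y} (hx : x ∈ (c.c p).source) (hx' : x ∈ (c.c p').source) {f : Y → ℝ}
    (h : ContDiffAt ℝ ∞ (c.lo p' f) (c.c p' x)) : ContDiffAt ℝ ∞ (c.lo p f) (c.c p x) := by
  have h1 : ContDiffAt ℝ ∞ (fun w => c.c p' ((c.c p).symm w)) (c.c p x) :=
    (c.hol p p' x hx hx').contDiffAt.restrict_scalars ℝ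
  refine (ContDiffAt.comp _ ?_ h1).congr_of_eventuallyEq (elg_tr c hx hx' f).symm
  rw [(c.c p).left_inv hx]
  exact h

theorem elg_cont {F : Type} [TopologicalSpace F] {f : Y → F}
    (h : ContinuousAt (c.lo p f) (c.c p p)) : ContinuousAt f p := by
  refine (h.comp ((c.c p).continuousAt (c.mem p))).congr ?_
  filter_upwards [(c.c p).open_source.mem_nhds (c.mem p)] with y hy
  exact c.lo_ce p f hy

theorem elg_cg {F : Type} {f f' : Y → F} (e : ∀ᶠ x in 𝓝 p, f x = f' x) :
    c.lo p f =ᶠ[𝓝 (c.c p p)] c.lo p f' :=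
  (c.ev_iff (c.mem p) (q := fun y => f y = f' y)).2 e

/-- Analyticity does not depend on the chart. -/
theorem CA.an_iff (c : CA d Y) {x p' : Y} (hx : x ∈ (c.c p).source) (hx' : x ∈ (c.c p').source) :
    AnalyticAt ℂ (c.lo p f) (c.c p x) ↔ AnalyticAt ℂ (c.lo p' f) (c.c p' x) :=
  ⟨elg_an hx' hx, elg_an hx hx'⟩

/-- Smoothness does not depend on the chart. -/
theorem CA.sm_iff (c : CA d Y) {x p' : Y} (hx : x ∈ (c.c p).source) (hx' : x ∈ (c.c p').source)
    {h : Y → ℝ} : ContDiffAt ℝ ∞ (c.lo p h) (c.c p x) ↔ ContDiffAt ℝ ∞ (c.lo p' h) (c.c p' x) :=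
  ⟨elg_sm hx' hx, elg_sm hx hx'⟩

theorem LG.one (c : CA d Y) : LG c 1 :=
  ⟨fun _ => Eventually.of_forall fun _ => one_ne_zero,
    fun _ => Eventually.of_forall fun _ => analyticAt_const (v := (1 / 1 : ℂ)),
    fun _ => Eventually.of_forall fun _ => contDiffAt_const (c := ‖(1 : ℂ)‖ ^ 2)⟩

theorem LG.mul (h : LG c g) (h' : LG c g') : LG c (g * g') := by
  refine ⟨fun p => ?_, fun p => ?_, fun p => ?_⟩
  · filter_upwards [h.ne p, h'.ne p] with x a b
    exact mul_ne_zero a b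
  · filter_upwards [h.hol p, h'.hol p] with x a b
    refine (a.mul b).congr (Eventually.of_forall fun w => ?_)
    simp only [CA.lo, Pi.mul_apply, mul_div_mul_comm]
  · filter_upwards [h.sm p, h'.sm p] with x a b
    refine (a.mul b).congr_of_eventuallyEq (Eventually.of_forall fun w => ?_)
    simp only [CA.lo, Pi.mul_apply, norm_mul, mul_pow]

theorem LG.inv (h : LG c g) : LG c g⁻¹ := by
  refine ⟨fun p => ?_, fun p => ?_, fun p => ?_⟩
  · filter_upwards [h.ne p] with x a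
    exact inv_ne_zero a
  · filter_upwards [h.hol p, h.ne p] with x a b
    refine (a.inv ?_).congr (Eventually.of_forall fun w => ?_)
    · rw [c.lo_ce x _ (c.mem x)]
      exact div_ne_zero b (h.ne x).self_of_nhds
    · simp only [CA.lo, Pi.inv_apply, inv_div, inv_div_inv]
  · filter_upwards [h.sm p, (c.ev_iff (c.mem p) (q := fun y => g p y ≠ 0)).2 (h.ne p)] with x a b
    refine (a.inv (pow_ne_zero 2 (norm_ne_zero_iff.2 b))).congr_of_eventuallyEq
      (Eventually.of_forall fun w => ?_)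
    simp only [CA.lo, Pi.inv_apply, norm_inv, inv_pow]

theorem LG.pow (h : LG c g) (m : ℕ) : LG c (g ^ m) := by
  induction m with
  | zero => rw [pow_zero]; exact LG.one c
  | succ m ih => rw [pow_succ]; exact ih.mul h

theorem LG.div (h : LG c g) (h' : LG c g') : LG c (g / g') := by
  rw [div_eq_mul_inv]
  exact h.mul h'.inv

theorem HA.congr (h : HA c g f p) (e : ∀ᶠ x in 𝓝 p, g' p x * f' x = g p x * f x) :
    HA c g' f' p :=
  AnalyticAt.congr h (elg_cg e).symm

theorem HA.mul (h : HA c g f p) (h' : HA c g' f' p) : HA c (g * g') (f * f') p :=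
  (AnalyticAt.mul h h').congr (Eventually.of_forall fun w => by
    simp only [CA.lo, Pi.mul_apply, mul_mul_mul_comm])

theorem HA.near (hg : LG c g) (h : HA c g f p) : ∀ᶠ x in 𝓝 p, HA c g f x := by
  filter_upwards [(c.c p).open_source.mem_nhds (c.mem p), hg.hol p, (hg.ne p).eventually_nhds,
    ((c.c p).continuousAt (c.mem p)).eventually (AnalyticAt.eventually_analyticAt h)]
    with x h1 h2 h3 h4
  refine ((elg_an (c.mem x) h1 h4).div h2 ?_).congr ?_
  · rw [c.lo_ce x _ (c.mem x)]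
    exact div_ne_zero h3.self_of_nhds (hg.ne x).self_of_nhds
  · refine elg_cg (f := fun y => g p y * f y / (g p y / g x y)) ?_
    filter_upwards [h3] with y hy
    rw [div_div_eq_mul_div]
    field_simp

theorem HA.contAt (hg : LG c g) (h : HA c g f p) : ContinuousAt (fun x => ‖f x‖) p := by
  have h1 := (elg_cont (AnalyticAt.continuousAt h)).norm
  have h2 := (elg_cont (hg.sm p).self_of_nhds.continuousAt).sqrt
  refine (h1.div h2 ?_).congr ?_
  · rw [Real.sqrt_sq (norm_nonneg _)]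
    exact norm_ne_zero_iff.2 (hg.ne p).self_of_nhds
  · filter_upwards [hg.ne p] with y hy
    rw [Pi.div_apply, Real.sqrt_sq (norm_nonneg _), norm_mul,
      mul_div_cancel_left₀ _ (norm_ne_zero_iff.2 hy)]

theorem HA.div (hg : LG c g) (h : HA c g f p) (h' : HA c g f' p) (h0 : f' p ≠ 0) :
    HA c 1 (fun x => f x / f' x) p := by
  refine (AnalyticAt.div h h' ?_).congr ?_
  · rw [c.lo_ce p _ (c.mem p)]
    exact mul_ne_zero (hg.ne p).self_of_nhds h0
  · refine elg_cg (f := fun y => g p y * f y / (g p y * f' y)) ?_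
    filter_upwards [hg.ne p] with y hy
    rw [mul_div_mul_left _ _ hy, Pi.one_apply, Pi.one_apply, one_mul]

theorem HA.qa (hg : LG c g) (h : HA c g f p) : QA c (fun x => ‖f x‖ ^ 2) p := by
  refine ⟨fun x => g p x * f x, fun x => ‖g⁻¹ p x‖ ^ 2, ?_, h,
    pow_pos (norm_pos_iff.2 (hg.inv.ne p).self_of_nhds) 2, hg.inv.sm p⟩
  filter_upwards [hg.ne p] with y hy
  rw [← mul_pow, ← norm_mul, Pi.inv_apply, Pi.inv_apply, mul_comm (g p y),
    mul_inv_cancel_right₀ hy]

theorem mul_HS (h : f ∈ HS c g) (h' : f' ∈ HS c g') : f * f' ∈ HS c (g * g') :=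
  fun p => (h p).mul (h' p)

theorem elg_one (c : CA d Y) : (1 : Y → ℂ) ∈ HS c 1 :=
  fun _ => analyticAt_const (v := (1 * 1 : ℂ))

theorem pow_HS (h : f ∈ HS c g) (m : ℕ) : f ^ m ∈ HS c (g ^ m) := by
  induction m with
  | zero => rw [pow_zero, pow_zero]; exact elg_one c
  | succ m ih => rw [pow_succ, pow_succ]; exact mul_HS ih h

theorem prod_HS {ι : Type} (s : Finset ι) {e : ι → Y → ℂ} (h : ∀ i ∈ s, e i ∈ HS c g) :
    ∏ i ∈ s, e i ∈ HS c (g ^ s.card) := by
  classical
  induction s using Finset.induction_on with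
  | empty => rw [Finset.prod_empty, Finset.card_empty, pow_zero]; exact elg_one c
  | insert a s ha ih =>
    rw [Finset.prod_insert ha, Finset.card_insert_of_notMem ha, pow_succ']
    exact mul_HS (h a (Finset.mem_insert_self a s))
      (ih fun i hi => h i (Finset.mem_insert_of_mem hi))

theorem cont_HS (hg : LG c g) (h : f ∈ HS c g) : Continuous fun x => ‖f x‖ :=
  continuous_iff_continuousAt.2 fun p => (h p).contAt hg

theorem unit_loc (hg : LG c g) (h : HA c g f p) (h' : HA c g f' p) (e : ∀ᶠ x in 𝓝 p, ‖f x‖ = 1)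
    (e' : ∀ᶠ x in 𝓝 p, ‖f' x‖ = 1) : ∀ᶠ x in 𝓝 p, f x = f p / f' p * f' x := by
  have h0 : ∀ x, ‖f' x‖ = 1 → f' x ≠ 0 := fun x hx => norm_ne_zero_iff.1 (hx ▸ one_ne_zero)
  have h1 : AnalyticAt ℂ (c.lo p fun x => 1 * (f x / f' x)) (c.c p p) :=
    h.div hg h' (h0 p e'.self_of_nhds)
  have h2 : ∀ᶠ x in 𝓝 p, ‖1 * (f x / f' x)‖ = 1 := by
    filter_upwards [e, e'] with x a b
    rw [one_mul, norm_div, a, b, div_one]
  have h3 := (c.ev_iff (c.mem p) (q := fun x => ‖1 * (f x / f' x)‖ = 1)).2 h2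
  have h4 := Complex.eventually_eq_of_isLocalMax_norm
    (h1.eventually_analyticAt.mono fun _ a => a.differentiableAt)
    (h3.mono fun _ a => le_of_eq (a.trans h3.self_of_nhds.symm))
  rw [c.lo_ce p _ (c.mem p)] at h4
  filter_upwards [(c.ev_iff (c.mem p) (q := fun x => 1 * (f x / f' x) = 1 * (f p / f' p))).1 h4,
    e'] with x a b
  rw [one_mul, one_mul] at a
  rw [← a, div_mul_cancel₀ _ (h0 x b)]

theorem unit_ratio [PreconnectedSpace Y] (hg : LG c g) (h : f ∈ HS c g) (h' : f' ∈ HS c g)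
    (e : ∀ x, ‖f x‖ = 1) (e' : ∀ x, ‖f' x‖ = 1) : ∃ l : ℂ, ‖l‖ = 1 ∧ ∀ x, f x = l * f' x := by
  have h0 : ∀ x, f' x ≠ 0 := fun x => norm_ne_zero_iff.1 (e' x ▸ one_ne_zero)
  have h1 : IsLocallyConstant fun x => f x / f' x := by
    refine (IsLocallyConstant.iff_eventually_eq _).2 fun p => ?_
    filter_upwards [unit_loc hg (h p) (h' p) (Eventually.of_forall e) (Eventually.of_forall e')]
      with x a
    rw [a, mul_div_cancel_right₀ _ (h0 x)]
  rcases isEmpty_or_nonempty Y with hY | ⟨⟨p⟩⟩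
  · exact ⟨1, norm_one, fun x => hY.elim x⟩
  · refine ⟨f p / f' p, by rw [norm_div, e, e', div_one], fun x => ?_⟩
    rw [← h1.apply_eq_of_preconnectedSpace x p, div_mul_cancel₀ _ (h0 x)]

theorem elg_ev {F : Type} {T : Y → Y} (hT : HolM c T) (p : Y) (f : Y → F) :
    c.lo (T p) f ∘ c.mp T p (T p) =ᶠ[𝓝 (c.c p p)] c.lo p fun x => f (T x) :=
  (c.ev_iff (c.mem p) (q := fun y => c.lo (T p) f (c.c (T p) (T y)) = f (T y))).2 (by
    filter_upwards [(hT.1.tendsto p).eventually ((c.c (T p)).open_source.mem_nhds (c.mem _))]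
      with y hy
    exact c.lo_ce _ f hy)

theorem elg_pt (T : Y → Y) (p : Y) : c.mp T p (T p) (c.c p p) = c.c (T p) (T p) := by
  rw [CA.mp, (c.c p).left_inv (c.mem p)]

theorem elg_comp {F : Type} [NormedAddCommGroup F] [NormedSpace ℂ F] {T : Y → Y} (hT : HolM c T)
    {f : Y → F} (h : AnalyticAt ℂ (c.lo (T p) f) (c.c (T p) (T p))) :
    AnalyticAt ℂ (c.lo p fun x => f (T x)) (c.c p p) :=
  (h.comp_of_eq (hT.2 p) (elg_pt T p)).congr (elg_ev hT p f)

theorem HolM.near {T : Y → Y} (hT : HolM c T) {x p' : Y} (hx : x ∈ (c.c p).source)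
    (hx' : T x ∈ (c.c p').source) : AnalyticAt ℂ (c.mp T p p') (c.c p x) :=
  elg_an (f := fun y => c.c p' (T y)) hx (c.mem x)
    (elg_comp hT (f := c.c p') (c.hol (T x) p' (T x) (c.mem _) hx'))

theorem LG.pb {T : Y → Y} (hT : HolM c T) (h : LG c g) : LG c (pb T g) := by
  refine ⟨fun p => (hT.1.tendsto p).eventually (h.ne (T p)), fun p => ?_, fun p => ?_⟩
  · filter_upwards [(hT.1.tendsto p).eventually (h.hol (T p))] with x a
    exact elg_comp hT a
  · have h1 := h.sm (T p)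
    rw [← elg_pt T p] at h1
    filter_upwards [(hT.2 p).eventually_analyticAt, (hT.2 p).continuousAt.eventually h1,
      (elg_ev hT p fun y => ‖g (T p) y‖ ^ 2).eventually_nhds] with w a b e
    exact (b.comp w (a.contDiffAt.restrict_scalars ℝ)).congr_of_eventuallyEq
      (EventuallyEq.symm e)

theorem HA.pb {T : Y → Y} (hT : HolM c T) (h : HA c g f (T p)) : HA c (pb T g) (f ∘ T) p :=
  elg_comp hT (f := fun x => g (T p) x * f x) h

end Vale.Agent.P299
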