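import Vale.Agent.P299.EFlY
import Vale.Agent.P299.EAtl

/-! P299, part E: the invariant section of the anticanonical bundle on the cover.

Hints. Some `A i₀ ≠ 0`. `b m = ‖A i₀ z‖ ^ 2`, `c i = A i / A i₀`,
`τ (x, y, z) = κ y z m * D z / (κY y y * t y * (κZ z z * A i₀ z))`, `H = H₂ ⊓ H₀`.
`‖τ‖ ^ 2 = ‖D‖ ^ 2 / (nY y₀ * nZ z₀ * ‖A i₀‖ ^ 2)` by `KG.nrm`. `KG.act` at `(0, y₀, z)` and `nrm` give
`‖κZ (γ z) (γ z) * jc‖ = ‖κZ z z‖`, so `jc ≠ 0` and `‖A i‖` is invariant. For `hτ` use `push_H`: for `m'`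
near `m`, `KG.tr` and `Can` give `τ m' = κ y z m' * (g z z' * D z') / (κY y y' * t y' * ((κZ * g) z z' * A i₀ z'))`.
`O = {m | A i₀ z ≠ 0 ∧ D z ≠ 0}` (`dense_HS`, preimage under the open map `m ↦ m.2.2`). -/

open MeasureTheory Set Filter Topology Matrix
open scoped ContDiff ComplexConjugate ComplexOrder

noncomputable section

namespace Vale.Agent.P299

open Vale.Agent.P271 Vale.Agent.P272

variable {n : ℕ} {X : Type} [TopologicalSpace X] [MeasurableSpace X] {M : Model n X}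
  {η : Frm M.toAtl} {B : EF M.toAtl}

section
variable {S : Spl M η B} {κ : S.Y → S.Z → S.V → ℂ} {y₀ : S.Y} {H₂ : Subgroup S.Γ}
  {g : S.Z → S.Z → ℂ} {r : ℕ} {D : S.Z → ℂ} {A : Fin r → S.Z → ℂ}

theorem emid_ne (hκ : KG S κ) (x : Cn S.q) (y : S.Y) (z : S.Z) : κ y z (x, y, z) ≠ 0 :=
  hκ.ne y z (x, y, z) (S.cY.mem y) (S.cZ.mem z)

theorem emid_act (hκ : KG S κ) (h : EZO S.cZ (fun z z' => κ y₀ z (0, y₀, z')) g H₂ D A) {γ : S.Γ}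
    (hγ : γ ∈ H₂) (h1 : ∃ b, ∀ x : Cn S.q, γ • x = x + b) (h2 : ∀ y : S.Y, γ • y = y) (z : S.Z) :
    ∃ μ l : ℂ, ‖μ‖ = 1 ∧ l ≠ 0 ∧ jc S.cZ (fun x => γ • x) z ≠ 0 ∧ (∀ i, A i (γ • z) = μ * A i z) ∧
      D (γ • z) = l * D z ∧ κ y₀ (γ • z) (0, y₀, γ • z) * μ * jc S.cZ (fun x => γ • x) z =
        l * κ y₀ z (0, y₀, z) := by
  obtain ⟨nY, nZ, hn⟩ := hκ.nrm
  obtain ⟨l, hl, hD, hA⟩ := h.act γ hγ z
  have e1 : κ y₀ z (0, y₀, z) = κ y₀ (γ • z) (γ • (0 : Cn S.q), y₀, γ • z) *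
      jc S.cZ (fun x => γ • x) z := by
    have := hκ.act γ h1 h2 (0, y₀, z)
    rwa [Prod.smul_mk, Prod.smul_mk, h2] at this
  have e2 : ‖κ y₀ (γ • z) (γ • (0 : Cn S.q), y₀, γ • z)‖ = ‖κ y₀ (γ • z) (0, y₀, γ • z)‖ :=
    (pow_left_inj₀ (norm_nonneg _) (norm_nonneg _) two_ne_zero).1
      ((hn (γ • (0 : Cn S.q), y₀, γ • z)).trans (hn (0, y₀, γ • z)).symm)
  have k0 := emid_ne hκ 0 y₀ z
  have k1 := emid_ne hκ 0 y₀ (γ • z)
  have hj : jc S.cZ (fun x => γ • x) z ≠ 0 := fun e => k0 (by rw [e1, e, mul_zero])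
  refine ⟨l * κ y₀ z (0, y₀, z) / (κ y₀ (γ • z) (0, y₀, γ • z) * jc S.cZ (fun x => γ • x) z), l,
    ?_, fun e => by simp [e] at hl, hj, fun i => ?_, hD, by field_simp⟩
  · rw [norm_div, norm_mul, hl, one_mul, norm_mul, ← e2, ← norm_mul, ← e1]
    exact div_self (norm_ne_zero_iff.2 k0)
  · have := hA i
    field_simp
    linear_combination this

theorem emid_hol (hκ : KG S κ) (h : EZO S.cZ (fun z z' => κ y₀ z (0, y₀, z')) g H₂ D A) {z₀ : S.Z}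
    {t : S.Y → ℂ} (ht : t ∈ HS S.cY fun y y' => κ y z₀ (0, y', z₀)) (ht1 : ∀ y, ‖t y‖ = 1)
    {i : Fin r} {m : S.V} (hm : A i m.2.2 ≠ 0) :
    HV (xc M.toAtl) S.π (xg M.toAtl M.k⁻¹) (fun m => κ m.2.1 m.2.2 m * D m.2.2 /
      (κ m.2.1 z₀ (0, m.2.1, z₀) * t m.2.1 * (κ y₀ m.2.2 (0, y₀, m.2.2) * A i m.2.2))) m := by
  obtain ⟨x, y, z⟩ := m
  have hy := S.cY.mem y
  have hz := S.cZ.mem z
  have t0 : ∀ y, t y ≠ 0 := fun y e => by simpa [e] using ht1 y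
  have p1 : AnalyticAt ℂ (fun w : Cn S.q × Cn S.d₁ × Cn S.d₂ => w.2.1) (S.co y z (x, y, z)) :=
    analyticAt_fst.comp analyticAt_snd
  have p2 : AnalyticAt ℂ (fun w : Cn S.q × Cn S.d₁ × Cn S.d₂ => w.2.2) (S.co y z (x, y, z)) :=
    analyticAt_snd.comp analyticAt_snd
  have a1 := hκ.an _ y z (x, y, z) hy hz (ch_mem M.toAtl _)
  have a2 := AnalyticAt.comp_of_eq (h.hD z) p2 rfl
  have a3 := AnalyticAt.comp_of_eq (ht y) p1 rfl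
  have a4 := AnalyticAt.comp_of_eq (h.hA i z) p2 rfl
  have g0 := h.lg.ne z
  have a5 := (a1.mul a2).div (a3.mul a4) (by
    refine mul_ne_zero ?_ ?_
    · exact (S.cY.lo_ce y _ hy).trans_ne (mul_ne_zero (emid_ne hκ 0 y z₀) (t0 y))
    · exact (S.cZ.lo_ce z _ hz).trans_ne
        (mul_ne_zero (mul_ne_zero (emid_ne hκ 0 y₀ z) g0.self_of_nhds) hm))
  refine S.push_H M.k⁻¹ (a5.congr ?_)
  have c1 : Tendsto (fun m : S.V => m.2.1) (𝓝 (x, y, z)) (𝓝 y) :=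
    (continuous_fst.comp continuous_snd).continuousAt
  have c2 : Tendsto (fun m : S.V => m.2.2) (𝓝 (x, y, z)) (𝓝 z) :=
    (continuous_snd.comp continuous_snd).continuousAt
  have key : ∀ᶠ m : S.V in 𝓝 (x, y, z), κ y z m * (g z m.2.2 * D m.2.2) /
      (κ y z₀ (0, m.2.1, z₀) * t m.2.1 * (κ y₀ z (0, y₀, m.2.2) * g z m.2.2 * A i m.2.2)) =
      κ m.2.1 m.2.2 m * D m.2.2 / (κ m.2.1 z₀ (0, m.2.1, z₀) * t m.2.1 *
        (κ y₀ m.2.2 (0, y₀, m.2.2) * A i m.2.2)) := by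
    filter_upwards [c1.eventually ((S.cY.c y).open_source.mem_nhds hy),
      c2.eventually ((S.cZ.c z).open_source.mem_nhds hz), c1.eventually ((hκ.canY z₀).2 y),
      c2.eventually ((hκ.canZ y₀).2 z), c2.eventually g0] with m m1 m2 m3 m4 m5
    have e := hκ.tr y z m m1 m2
    have e0 := hκ.ne y z m m1 m2
    rw [e] at e0
    have d1 := right_ne_zero_of_mul (left_ne_zero_of_mul e0)
    have d2 := right_ne_zero_of_mul e0
    have k1 := emid_ne hκ 0 m.2.1 z₀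
    have k2 := emid_ne hκ 0 y₀ m.2.2
    have k3 := t0 m.2.1
    rw [e, m3, m4]
    by_cases h0 : A i m.2.2 = 0
    · simp [h0]
    · field_simp
  filter_upwards [(S.ev_iff (m := (x, y, z)) hy hz).2 key] with w hw
  refine Eq.trans ?_ (congrArg (fun v => (M.k (ch M.toAtl (S.π (x, y, z)))
    (S.π (pt S.cY S.cZ y z w)))⁻¹ * v) hw)
  simp only [Pi.div_apply, Pi.mul_apply, Function.comp_apply, CA.lo, pt]
  ring

end

theorem mid (S : Spl M η B) [CompactSpace S.Z] {κ : S.Y → S.Z → S.V → ℂ} (hκ : KG S κ) (y₀ : S.Y)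
    {H₀ H₂ : Subgroup S.Γ} (f₀ : H₀.FiniteIndex) (f₂ : H₂.FiniteIndex)
    (h1 : ∀ γ ∈ H₀, ∃ b, ∀ x : Cn S.q, γ • x = x + b) (h2 : ∀ γ ∈ H₀, ∀ y : S.Y, γ • y = y)
    {g : S.Z → S.Z → ℂ} {r : ℕ} {D : S.Z → ℂ} {A : Fin r → S.Z → ℂ}
    (h : EZO S.cZ (fun z z' => κ y₀ z (0, y₀, z')) g H₂ D A) : Nonempty (Mid S) := by
  obtain ⟨z₀⟩ : Nonempty S.Z := inferInstance
  obtain ⟨t, ht, ht1⟩ := hκ.flatY z₀
  obtain ⟨nY, nZ, hn⟩ := hκ.nrm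
  have lg := (hκ.canZ y₀).1.mul h.lg
  obtain ⟨i₀, hi₀⟩ : ∃ i, A i ≠ 0 := by
    by_contra hc
    push Not at hc
    refine h.ne (funext fun p => ?_)
    simpa [hc] using h.le p
  have t0 : ∀ y, t y ≠ 0 := fun y e => by simpa [e] using ht1 y
  have hn' : ∀ x y z, ‖κ y z (x, y, z)‖ ^ 2 = nY y * nZ z := fun x y z => hn (x, y, z)
  have hpos : ∀ y z, 0 < nY y * nZ z := fun y z =>
    hn' 0 y z ▸ pow_pos (norm_pos_iff.2 (emid_ne hκ 0 y z)) 2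
  have c0 := hpos y₀ z₀
  have act := fun γ (hγ : γ ∈ H₂ ⊓ H₀) => emid_act hκ h hγ.1 (h1 γ hγ.2) (h2 γ hγ.2)
  let τ : S.V → ℂ := fun m => κ m.2.1 m.2.2 m * D m.2.2 /
    (κ m.2.1 z₀ (0, m.2.1, z₀) * t m.2.1 * (κ y₀ m.2.2 (0, y₀, m.2.2) * A i₀ m.2.2))
  have nτ : ∀ m : S.V, ‖τ m‖ ^ 2 = ‖D m.2.2‖ ^ 2 / (nY y₀ * nZ z₀ * ‖A i₀ m.2.2‖ ^ 2) := by
    rintro ⟨x, y, z⟩
    have k1 := left_ne_zero_of_mul (hpos y z).ne'
    have k2 := right_ne_zero_of_mul (hpos y z).ne'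
    have k3 := left_ne_zero_of_mul c0.ne'
    have k4 := right_ne_zero_of_mul c0.ne'
    simp only [τ, norm_div, norm_mul, div_pow, mul_pow, hn', ht1]
    by_cases h0 : A i₀ z = 0
    · simp [h0]
    · have k5 := norm_ne_zero_iff.2 h0
      field_simp
  have bne : ∀ z, ‖A i₀ z‖ ^ 2 ≠ 0 → A i₀ z ≠ 0 := fun z hz e => hz (by simp [e])
  choose K K0 hK using fun i => bound_HS lg (h.hA i)
  obtain ⟨L, L0, hL⟩ := bound_HS h.lg h.hD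
  have hK2 : ∀ i z, ‖A i z‖ ^ 2 ≤ ∑ i, K i ^ 2 + L ^ 2 / (nY y₀ * nZ z₀) := fun i z =>
    le_add_of_le_of_nonneg ((pow_le_pow_left₀ (norm_nonneg _) (hK i z) 2).trans
      (Finset.single_le_sum (f := fun i => K i ^ 2) (fun _ _ => sq_nonneg _) (Finset.mem_univ i)))
      (by positivity)
  have o1 : IsOpen {z | A i₀ z ≠ 0} := by
    simpa using isOpen_ne_fun (cont_HS lg (h.hA i₀)) (continuous_const (y := (0 : ℝ)))
  have o2 : IsOpen {z | D z ≠ 0} := by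
    simpa using isOpen_ne_fun (cont_HS h.lg h.hD) (continuous_const (y := (0 : ℝ)))
  refine ⟨⟨H₂ ⊓ H₀, inferInstance, r, fun m => ‖A i₀ m.2.2‖ ^ 2, τ, fun i z => A i z / A i₀ z,
    fun γ hγ m => ?_, fun γ hγ m => ?_, fun γ hγ i z => ?_,
    fun m => S.push_Q (β := fun z => ‖A i₀ z‖ ^ 2) ((h.hA i₀ _).qa lg),
    ⟨(fun m : S.V => m.2.2) ⁻¹' ({z | A i₀ z ≠ 0} ∩ {z | D z ≠ 0}),
      (o1.inter o2).preimage (continuous_snd.comp continuous_snd),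
      ((dense_HS lg (h.hA i₀) hi₀).inter_of_isOpen_left (dense_HS h.lg h.hD h.ne) o1).preimage
        (isOpenMap_snd.comp isOpenMap_snd), fun m hm => ?_⟩,
    fun m hm => emid_hol hκ h ht ht1 (bne _ hm),
    fun i m hm => S.push_Z (f := fun z => A i z / A i₀ z)
      ((h.hA i _).div lg (h.hA i₀ _) (bne _ hm)),
    ⟨∑ i, K i ^ 2 + L ^ 2 / (nY y₀ * nZ z₀), fun m => ⟨sq_nonneg _, hK2 _ _, ?_, fun i => ?_⟩⟩,
    ⟨(nY y₀ * nZ z₀)⁻¹, fun m hm => ?_⟩,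
    ⟨fun z => ‖D z‖ ^ 2 / (nY y₀ * nZ z₀ * ‖A i₀ z‖ ^ 2), nτ⟩⟩⟩
  · obtain ⟨μ, l, hμ, -, -, hA, -⟩ := act γ hγ m.2.2
    rw [Prod.smul_snd, Prod.smul_snd, hA, norm_mul, hμ, one_mul]
  · obtain ⟨x, y, z⟩ := m
    obtain ⟨μ, l, hμ, hl, hj, hA, hD, e⟩ := act γ hγ z
    have e1 := hκ.act γ (h1 γ hγ.2) (h2 γ hγ.2) (x, y, z)
    have k1 := emid_ne hκ 0 y z₀
    have k2 := emid_ne hκ 0 y₀ z
    have k3 := emid_ne hκ 0 y₀ (γ • z)
    have k4 := t0 y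
    have k5 : μ ≠ 0 := fun e => by simp [e] at hμ
    simp only [τ, Prod.smul_mk, h2 γ hγ.2] at e1 ⊢
    rw [e1, hA, hD]
    by_cases h0 : A i₀ z = 0
    · simp [h0]
    · field_simp
      linear_combination (-κ y (γ • z) (γ • x, y, γ • z) * D z) * e
  · obtain ⟨μ, l, hμ, -, -, hA, -⟩ := act γ hγ z
    rw [hA, hA, mul_div_mul_left _ _ fun e => by simp [e] at hμ]
  · exact ⟨pow_ne_zero 2 (norm_ne_zero_iff.2 hm.1), div_ne_zero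
      (mul_ne_zero (emid_ne hκ m.1 _ _) hm.2) (mul_ne_zero (mul_ne_zero (emid_ne hκ 0 _ _) (t0 _))
        (mul_ne_zero (emid_ne hκ 0 _ _) hm.1))⟩
  · have h3 : 0 ≤ ∑ i, K i ^ 2 := Finset.sum_nonneg fun _ _ => sq_nonneg _
    by_cases h0 : ‖A i₀ m.2.2‖ ^ 2 = 0
    · rw [h0, mul_zero]
      positivity
    · rw [nτ, ← div_div, div_mul_cancel₀ _ h0]
      exact le_add_of_nonneg_of_le h3 (div_le_div_of_nonneg_right
        (pow_le_pow_left₀ (norm_nonneg _) (hL _) 2) c0.le)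
  · by_cases h0 : ‖A i₀ m.2.2‖ ^ 2 = 0
    · rw [h0, mul_zero]
      exact (sq_nonneg _).trans (hK2 i m.2.2)
    · rw [norm_div, div_pow, div_mul_cancel₀ _ h0]
      exact hK2 _ _
  · simp only [nτ, norm_div, div_pow]
    rw [← Finset.sum_div, inv_mul_eq_div, div_div, mul_comm (‖A i₀ m.2.2‖ ^ 2)]
    exact div_le_div_of_nonneg_right (h.le _) (mul_nonneg c0.le (sq_nonneg _))

end Vale.Agent.P299
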