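import Vale.Agent.P299.ELG

/-! P299, part E: immersions by spanning families, and Wronskians.

Hints. `ImF.span`: the sections `e i` lie in the span of the `e' k`; the expression
`F * dF' ξ - F' * dF ξ` is bilinear in `(F, F')` (`Submodule.span_induction` twice).
`WW_tr`: the matrix is `diagonal (χ χ h ^ 2) * W = W' * DM T` (product and chain rules). `WW_ne`: the
covectors span the dual space, so some `d` of them are a basis (`exists_linearIndependent`, or choose
rows greedily); `Matrix.linearIndependent_rows_iff_isUnit`. -/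

open MeasureTheory Set Filter Topology Matrix
open scoped ContDiff ComplexConjugate ComplexOrder

noncomputable section

namespace Vale.Agent.P299

open Vale.Agent.P271 Vale.Agent.P272

variable {d : ℕ} {Y : Type} [TopologicalSpace Y] {c : CA d Y} {g g' : Y → Y → ℂ} {f f' : Y → ℂ}
  {p : Y}

theorem ew_lin {κ : Type} {e' : κ → Y → ℂ} (h1 : ∀ k, e' k ∈ HS c g) (p : Y) (ξ : Cn d) (s t : ℂ)
    (h : ∀ k, s * fderiv ℂ (c.lo p fun x => g p x * e' k x) (c.c p p) ξ =
      c.lo p (fun x => g p x * e' k x) (c.c p p) * t) (hf : f ∈ Submodule.span ℂ (range e')) :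
    f ∈ HS c g ∧ s * fderiv ℂ (c.lo p fun x => g p x * f x) (c.c p p) ξ =
      c.lo p (fun x => g p x * f x) (c.c p p) * t := by
  induction hf using Submodule.span_induction with
  | mem f hf =>
    obtain ⟨k, rfl⟩ := hf
    exact ⟨h1 k, h k⟩
  | zero =>
    have e : c.lo p (fun x => g p x * (0 : Y → ℂ) x) = fun _ => 0 := by funext z; simp [CA.lo]
    exact ⟨zero_mem _, by rw [e]; simp⟩
  | add a b _ _ ha hb =>
    have e : c.lo p (fun x => g p x * (a + b) x) =
        c.lo p (fun x => g p x * a x) + c.lo p (fun x => g p x * b x) := by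
      funext z; simp [CA.lo, mul_add]
    refine ⟨add_mem ha.1 hb.1, ?_⟩
    rw [e, fderiv_add (ha.1 p).differentiableAt (hb.1 p).differentiableAt,
      _root_.add_apply, Pi.add_apply, mul_add, add_mul, ha.2, hb.2]
  | smul r a _ ha =>
    have e : c.lo p (fun x => g p x * (r • a) x) = r • c.lo p (fun x => g p x * a x) := by
      funext z; simp [CA.lo]; ring
    refine ⟨Submodule.smul_mem _ r ha.1, ?_⟩
    rw [e, fderiv_const_smul (ha.1 p).differentiableAt, _root_.smul_apply,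
      Pi.smul_apply, smul_eq_mul, smul_eq_mul, mul_left_comm, ha.2, mul_assoc]

theorem ew_sum (L : Cn d →ₗ[ℂ] ℂ) (v : Cn d) : ∑ l, L (Pi.single l 1) * v l = L v := by
  conv_rhs => rw [pi_eq_sum_univ' v, map_sum]
  exact Finset.sum_congr rfl fun l _ => by rw [map_smul, smul_eq_mul, mul_comm]

theorem ImF.span {ι κ : Type} {e : ι → Y → ℂ} (h : ImF c g e) {e' : κ → Y → ℂ}
    (h1 : ∀ k, e' k ∈ HS c g) (h2 : HS c g ≤ Submodule.span ℂ (range e')) : ImF c g e' := by
  refine ⟨h1, fun p => ?_, fun p ξ hξ => ?_⟩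
  · by_contra h0
    push Not at h0
    obtain ⟨i, hi⟩ := h.bpf p
    refine hi (Submodule.span_le (p := LinearMap.ker (LinearMap.proj (R := ℂ) p)).2 ?_
      (h2 (h.mem i)))
    rintro _ ⟨k, rfl⟩
    exact h0 k
  · by_contra h0
    push Not at h0
    obtain ⟨i, j, hij⟩ := h.imm p ξ hξ
    exact hij (ew_lin h1 p ξ _ _
      (fun k => (ew_lin h1 p ξ _ _ (h0 k) (h2 (h.mem i))).2.symm) (h2 (h.mem j))).2

theorem WW_an {ι : Type} {E : ι → Cn d → ℂ} {w : Cn d} (h : ∀ i, AnalyticAt ℂ (E i) w)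
    (I : Fin d → ι × ι) : AnalyticAt ℂ (WW E I) w := by
  have h1 : ∀ i (v : Cn d), AnalyticAt ℂ (fun z => fderiv ℂ (E i) z v) w := fun i v =>
    ((ContinuousLinearMap.apply ℂ ℂ v).analyticAt _).comp (h i).fderiv
  unfold WW
  simp only [det_apply', of_apply]
  exact Finset.analyticAt_fun_sum _ fun σ _ => analyticAt_const.mul
    (Finset.analyticAt_fun_prod _ fun l _ => ((h _).mul (h1 _ _)).sub ((h _).mul (h1 _ _)))

theorem WW_tr {ι : Type} {E E' : ι → Cn d → ℂ} {T : Cn d → Cn d} {w : Cn d} {h : Cn d → ℂ}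
    {χ : ι → ℂ} (hE : ∀ i, AnalyticAt ℂ (E i) w) (hE' : ∀ i, AnalyticAt ℂ (E' i) (T w))
    (hT : AnalyticAt ℂ T w) (hh : AnalyticAt ℂ h w)
    (e : ∀ i, ∀ᶠ v in 𝓝 w, E' i (T v) = χ i * h v * E i v) (I : Fin d → ι × ι) :
    WW E' I (T w) * (DM T w).det = (∏ k, χ (I k).1 * χ (I k).2) * h w ^ (2 * d) * WW E I w := by
  have h1 : ∀ i v, fderiv ℂ (E' i) (T w) (fderiv ℂ T w v) =
      χ i * (h w * fderiv ℂ (E i) w v + E i w * fderiv ℂ h w v) := fun i v => by
    have a1 := (hE' i).differentiableAt.hasFDerivAt.comp w hT.differentiableAt.hasFDerivAt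
    have a2 := ((hh.differentiableAt.hasFDerivAt.const_mul (χ i)).mul
      (hE i).differentiableAt.hasFDerivAt).congr_of_eventuallyEq (f₁ := E' i ∘ T) (e i)
    have a3 := congrArg (fun L : Cn d →L[ℂ] ℂ => L v) (a1.unique a2)
    simp only [ContinuousLinearMap.comp_apply, _root_.add_apply,
      _root_.smul_apply, smul_eq_mul] at a3
    rw [a3]
    ring
  rw [WW, WW, ← det_mul, mul_comm 2 d, pow_mul', ← Fin.prod_const, ← Finset.prod_mul_distrib,
    ← det_diagonal, ← det_mul]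
  congr 1
  ext k l
  have a1 := fun i => ew_sum (fderiv ℂ (E' i) (T w) : Cn d →ₗ[ℂ] ℂ) (fderiv ℂ T w (Pi.single l 1))
  simp only [ContinuousLinearMap.coe_coe] at a1
  rw [diagonal_mul, mul_apply]
  simp only [of_apply, DM, sub_mul, mul_assoc, Finset.sum_sub_distrib, ← Finset.mul_sum, a1, h1,
    (e _).self_of_nhds]
  ring

theorem WW_ne {ι : Type} {E : ι → Cn d → ℂ} {w : Cn d}
    (h : ∀ ξ : Cn d, ξ ≠ 0 → ∃ i j, E i w * fderiv ℂ (E j) w ξ ≠ E j w * fderiv ℂ (E i) w ξ) :
    ∃ I, WW E I w ≠ 0 := by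
  obtain ⟨φ, hφ⟩ : ∃ φ : ι × ι → Cn d, φ = fun a l => E a.1 w * fderiv ℂ (E a.2) w (Pi.single l 1) -
    E a.2 w * fderiv ℂ (E a.1) w (Pi.single l 1) := ⟨_, rfl⟩
  have h1 : Submodule.span ℂ (range φ) = ⊤ := by
    by_contra h0
    obtain ⟨L, hL, h2⟩ := Submodule.exists_le_ker_of_lt_top _ (lt_top_iff_ne_top.2 h0)
    obtain ⟨i, j, hij⟩ := h (fun l => L (Pi.single l 1)) fun h3 => hL (LinearMap.ext fun v => by
      rw [← ew_sum]
      exact Finset.sum_eq_zero fun l _ => mul_eq_zero_of_left (congrFun h3 l) _)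
    have h3 : L (φ (i, j)) = 0 := h2 (Submodule.subset_span ⟨_, rfl⟩)
    have a1 := fun i => ew_sum (fderiv ℂ (E i) w : Cn d →ₗ[ℂ] ℂ) fun l => L (Pi.single l 1)
    simp only [ContinuousLinearMap.coe_coe] at a1
    rw [← ew_sum] at h3
    simp only [hφ, mul_comm (L _), sub_mul, mul_assoc, Finset.sum_sub_distrib, ← Finset.mul_sum,
      a1] at h3
    exact hij (sub_eq_zero.1 h3)
  obtain ⟨f, h2, -, h3⟩ := Submodule.exists_fun_fin_finrank_span_eq ℂ (range φ)
  have h4 : d = Module.finrank ℂ (Submodule.span ℂ (range φ)) := by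
    rw [h1, finrank_top, Module.finrank_fin_fun]
  choose I hI using h2
  have h5 : LinearIndependent ℂ fun k => φ (I (Fin.cast h4 k)) := by
    simp only [hI]
    exact h3.comp _ (Fin.cast_injective h4)
  refine ⟨fun k => I (Fin.cast h4 k), ?_⟩
  subst hφ
  exact ((isUnit_iff_isUnit_det _).1 (linearIndependent_rows_iff_isUnit.1 h5)).ne_zero

end Vale.Agent.P299
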