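import Vale.Agent.P299.EAtl
import Vale.Agent.P299.ED
import Vale.Agent.P299.EW

/-! P299, part E: eigen-sections.

Hints. Choose `t γ`. `T γ f = t γ⁻¹ * (f ∘ γ⁻¹)` maps `HS c g` to itself (`HA.pb`, `HA.mul`, `HA.congr`,
`LG.pb`). `unit_ratio` for the gauge `g / pb (γ * γ') g` gives `t (γ * γ') = l * (t γ' * t γ ∘ γ')`, so `T` is
a projective representation. Put the supremum norm on `HS c g` (`bound_HS`; for example
`NormedAddCommGroup.induced` along the embedding into `lp (fun _ : Y => ℂ) ⊤`, or an `AddGroupNorm`),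
`finDim_HS`, then `proj_eigen` and `ImF.span`. The eigenvalues have modulus one by isometry. -/

open MeasureTheory Set Filter Topology Matrix
open scoped ContDiff ComplexConjugate ComplexOrder

noncomputable section

namespace Vale.Agent.P299

open Vale.Agent.P271 Vale.Agent.P272

variable {d : ℕ} {Y : Type} [TopologicalSpace Y] {c : CA d Y} {g g' : Y → Y → ℂ} {f f' : Y → ℂ}
  {p : Y}

omit [TopologicalSpace Y] in
theorem erep_eig (W : Submodule ℂ (Y → ℂ)) [FiniteDimensional ℂ W]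
    (hb : ∀ f ∈ W, ∃ C : ℝ, ∀ x, ‖f x‖ ≤ C) {G : Type} [Group G] (fg : Group.FG G)
    (hG : ∃ k, P188.PG G k) (T : G → W →ₗ[ℂ] W)
    (iso : ∀ γ (f : W), (range fun x => ‖(T γ f).1 x‖) = range fun x => ‖f.1 x‖)
    (mul : ∀ γ δ, ∃ l : ℂ, ∀ f, T (γ * δ) f = l • T γ (T δ f)) :
    ∃ H : Subgroup G, H.FiniteIndex ∧ ∃ (r : ℕ) (b : Module.Basis (Fin r) ℂ W),
      ∀ h ∈ H, ∀ i, ∃ l : ℂ, ‖l‖ = 1 ∧ T h (b i) = l • b i := by
  let φ : W →ₗ[ℂ] lp (fun _ : Y => ℂ) ⊤ :=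
    { toFun := fun f => ⟨f.1, memℓp_infty (by
        obtain ⟨C, hC⟩ := hb f.1 f.2
        exact ⟨C, by rintro _ ⟨x, rfl⟩; exact hC x⟩)⟩
      map_add' := fun _ _ => rfl
      map_smul' := fun _ _ => rfl }
  have hφ : Function.Injective φ := fun f f' h =>
    Subtype.ext (congrArg Subtype.val h : (φ f).1 = (φ f').1)
  let _ : NormedAddCommGroup W := NormedAddCommGroup.induced W _ φ hφ
  let _ : NormedSpace ℂ W := NormedSpace.induced ℂ W _ φ
  have hn : ∀ f : W, ‖f‖ = sSup (range fun x => ‖f.1 x‖) := fun f => lp.norm_eq_ciSup (φ f)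
  have iso' : ∀ γ (f : W), ‖T γ f‖ = ‖f‖ := fun γ f => by rw [hn, hn, iso]
  obtain ⟨H, hH, r, b, h⟩ := proj_eigen (V := W) fg hG T iso' mul
  refine ⟨H, hH, r, b, fun γ hγ i => ?_⟩
  obtain ⟨l, hl⟩ := h γ hγ i
  refine ⟨l, ?_, hl⟩
  have h1 := iso' γ (b i)
  rw [hl, norm_smul] at h1
  exact mul_right_cancel₀ (norm_ne_zero_iff.2 (b.ne_zero i)) (h1.trans (one_mul _).symm)

theorem erep_mem {T : Y → Y} (hT : HolM c T) (hg : LG c g) {t : Y → ℂ}
    (ht : t ∈ HS c (g / pb T g)) (hf : f ∈ HS c g) : t * (f ∘ T) ∈ HS c g := by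
  intro p
  refine ((ht p).mul (HA.pb hT (hf (T p)))).congr ?_
  filter_upwards [(hg.pb hT).ne p] with x hx
  simp only [Pi.mul_apply, Pi.div_apply]
  field_simp

theorem erep_coc {T T' : Y → Y} (hT' : HolM c T') (hg : LG c g) {t t' : Y → ℂ}
    (ht : t ∈ HS c (g / pb T g)) (ht' : t' ∈ HS c (g / pb T' g)) :
    t' * (t ∘ T') ∈ HS c (g / pb (fun x => T (T' x)) g) := by
  intro p
  refine ((ht' p).mul (HA.pb hT' (ht (T' p)))).congr ?_
  filter_upwards [(hg.pb hT').ne p] with x hx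
  simp only [Pi.mul_apply, Pi.div_apply, pb] at hx ⊢
  field_simp

theorem eigen [T2Space Y] [CompactSpace Y] [ConnectedSpace Y] {G : Type} [Group G] [MulAction G Y]
    (fg : Group.FG G) (hG : ∃ k, P188.PG G k) (hol : ∀ γ : G, HolM c fun x => γ • x) (hg : LG c g)
    {ι : Type} {s : ι → Y → ℂ} (hs : ImF c g s)
    (ht : ∀ γ : G, ∃ t ∈ HS c (g / pb (fun x => γ • x) g), ∀ p, ‖t p‖ = 1) :
    ∃ (H : Subgroup G) (r : ℕ) (e : Fin r → Y → ℂ), H.FiniteIndex ∧ ImF c g e ∧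
      (∀ i, e i ≠ 0) ∧ Eig H e := by
  choose t ht hn using ht
  have := finDim_HS hg
  let T : G → HS c g →ₗ[ℂ] HS c g := fun γ =>
    { toFun := fun f => ⟨t γ⁻¹ * (f.1 ∘ fun x => γ⁻¹ • x), erep_mem (hol _) hg (ht _) f.2⟩
      map_add' := fun f f' => Subtype.ext (funext fun x => by simp [mul_add])
      map_smul' := fun a f => Subtype.ext (funext fun x => by simp [mul_left_comm]) }
  have hT : ∀ γ (f : HS c g) x, (T γ f).1 x = t γ⁻¹ x * f.1 (γ⁻¹ • x) := fun _ _ _ => rfl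
  obtain ⟨H, hH, r, b, hb⟩ := erep_eig (HS c g)
    (fun f hf => (bound_HS hg hf).imp fun C hC => hC.2) fg hG T
    (fun γ f => by
      simp only [hT, norm_mul, hn, one_mul]
      exact (MulAction.surjective γ⁻¹).range_comp fun x => ‖f.1 x‖)
    (fun γ δ => by
      have h1 := erep_coc (hol γ⁻¹) hg (ht δ⁻¹) (ht γ⁻¹)
      have h2 := ht (γ * δ)⁻¹
      have e : (fun x : Y => (γ * δ)⁻¹ • x) = fun x => δ⁻¹ • γ⁻¹ • x := by
        funext x; rw [_root_.mul_inv_rev, mul_smul]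
      rw [e] at h2
      have hL : LG c (g / pb (fun x => δ⁻¹ • γ⁻¹ • x) g) := by
        rw [← e]; exact hg.div (hg.pb (hol _))
      obtain ⟨l, -, hl⟩ := unit_ratio hL h2 h1 (hn _) fun x => by
        simp only [Pi.mul_apply, Function.comp_apply, norm_mul, hn, one_mul]
      refine ⟨l, fun f => Subtype.ext (funext fun x => ?_)⟩
      change _ = l * (T γ (T δ f)).1 x
      rw [hT, hT, hT, hl, congrFun e x]
      simp only [Pi.mul_apply, Function.comp_apply]
      ring)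
  refine ⟨H, r, fun i => (b i).1, hH, hs.span (fun i => (b i).2) fun f hf => ?_,
    fun i h => b.ne_zero i (Subtype.ext h), fun γ hγ => ?_⟩
  · have h1 : (⟨f, hf⟩ : HS c g) ∈ Submodule.span ℂ (range b) := by
      rw [b.span_eq]; trivial
    have h2 := Submodule.mem_map_of_mem (f := (HS c g).subtype) h1
    rwa [Submodule.map_span, ← range_comp] at h2
  · choose χ h1 h2 using hb γ⁻¹ (H.inv_mem hγ)
    refine ⟨χ, fun p => (t γ p)⁻¹, h1, fun p => by rw [norm_inv, hn, inv_one], fun i p => ?_⟩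
    have h3 : (T γ⁻¹ (b i)).1 p = χ i * (b i).1 p := by rw [h2]; rfl
    rw [hT, inv_inv] at h3
    have h4 : t γ p ≠ 0 := norm_ne_zero_iff.1 (by rw [hn]; exact one_ne_zero)
    change (b i).1 (γ • p) = χ i * (t γ p)⁻¹ * (b i).1 p
    field_simp
    rw [mul_comm, h3]

end Vale.Agent.P299
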