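import Vale.Agent.P299.EInv
import Vale.Agent.P299.EFlat
import Vale.Agent.P299.Ga

/-! P299, part E: restriction to slices.

Hints. `Lev_comp'`: copy `P271A.Lev_comp_hol` for different dimensions, or use
`Lev_eq_fderiv` and the second order chain rule. The slice map in charts is
`w ↦ S.Φ a y z (x, cY.c y y, w)`, its derivative is `ξ ↦ DΦ (0, 0, ξ)`; `S.met` gives the curvature,
injectivity of `DΦ` and `P.imm` give the immersion (sections `P.s i * exp (-u / 2)` of `uG P u`).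
`sl_pb` is `π (γ • m) = π m`. `slices`: `flat_div` for the slices `(0, y₀)` and `γ⁻¹ • (0, y₀)`. -/

open MeasureTheory Set Filter Topology Matrix
open scoped ContDiff ComplexConjugate ComplexOrder

noncomputable section

namespace Vale.Agent.P299

open Vale.Agent.P271 Vale.Agent.P272

variable {n : ℕ} {X : Type} [TopologicalSpace X] [MeasurableSpace X] {M : Model n X}
  {η : Frm M.toAtl} {B : EF M.toAtl}

open Vale.Agent.P271A in
theorem Lev_comp' {d : ℕ} {φ : Cn n → ℝ} {T : Cn d → Cn n} {z : Cn d}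
    (hφ : ContDiffAt ℝ ∞ φ (T z)) (hT : AnalyticAt ℂ T z) (ξ : Cn d) :
    Lev (φ ∘ T) z ξ = Lev φ (T z) (fderiv ℂ T z ξ) := by
  have hc : ∀ {F : Cn n → ℂ} {x}, DifferentiableAt ℝ F (T x) → DifferentiableAt ℂ T x → ∀ v,
      fderiv ℝ (fun w => F (T w)) x v = fderiv ℝ F (T x) (fderiv ℂ T x v) := fun hF hT v => by
    rw [fderiv_fun_comp _ hF (hT.restrictScalars ℝ), hT.fderiv_restrictScalars ℝ]
    rfl
  have hT1 := hT.differentiableAt
  have hd : ∀ k, DifferentiableAt ℝ (eX (bv k) fun w => (φ w : ℂ)) (T z) := fun k =>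
    (contDiffAt_eX (Brid_ofReal hφ)).differentiableAt (by simp)
  have hd' : ∀ k, DifferentiableAt ℝ (fun x => eX (bv k) (fun w => (φ w : ℂ)) (T x)) z :=
    fun k => (hd k).comp z (hT1.restrictScalars ℝ)
  have hG : ∀ k, DifferentiableAt ℂ (fun x => fderiv ℂ T x ξ k) z := fun k =>
    differentiableAt_pi.1 (hT.fderiv.differentiableAt.clm_apply (differentiableAt_const ξ)) k
  have hG' := fun k => Brid_conj_diff ((hG k).restrictScalars ℝ)
  have e : (dzb ξ fun w => ((φ ∘ T) w : ℂ)) =ᶠ[𝓝 z]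
      fun x => ∑ k, eX (bv k) (fun w => (φ w : ℂ)) (T x) * conj (fderiv ℂ T x ξ k) := by
    filter_upwards [hT.eventually_analyticAt,
      hT.continuousAt.eventually (Brid_ev (Brid_ofReal hφ))] with x h1 h2
    rw [← dzb_eq_sum]
    simp only [dzb, Function.comp_apply, hc h2 h1.differentiableAt, map_smul]
  rw [Lev_eq_sum hφ, Finset.sum_comm]
  unfold Lev lev
  rw [dz_congr e, dz_sum _ fun k _ => (hd' k).fun_mul (hG' k)]
  refine congrArg Complex.re (Finset.sum_congr rfl fun k _ => ?_)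
  rw [dz_mul (hd' k) (hG' k), Brid_dz_conj_hol (hG k), mul_zero, add_zero, ← Finset.sum_mul,
    ← dz_eq_sum]
  simp only [dz, hc (hd k) hT1, map_smul]

theorem uG_gauge {P : Pol M.toAtl} {u : X → ℝ} (hu : M.Sm u) : M.IsGauge (uG P u) := by
  have h0 : ∀ p, ((Real.exp (u p / 2) : ℝ) : ℂ) ≠ 0 := fun p =>
    Complex.ofReal_ne_zero.2 (Real.exp_pos _).ne'
  refine ⟨fun a p hp => mul_ne_zero (P.gauge.ne a p hp) (h0 p), fun a b => ?_, fun a => ?_⟩
  · simpa only [uG, mul_div_mul_right _ _ (h0 _)] using P.gauge.hol a b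
  · refine (ContDiffOn.mul (P.gauge.sm a) (((hu a).div_const 2).exp.pow 2)).congr fun z _ => ?_
    simp only [uG, Atl.loc, norm_mul, mul_pow, Complex.norm_real, Real.norm_eq_abs, sq_abs]

/-- The slice map in charts. -/
def eslT (S : Spl M η B) (a : M.ι) (x : Cn S.q) (y : S.Y) (z : S.Z) (w : Cn S.d₂) : Cn n :=
  S.Φ a y z (x, S.cY.c y y, w)

/-- The domain of the slice map. -/
def eslG (S : Spl M η B) (a : M.ι) (x : Cn S.q) (y : S.Y) (z : S.Z) (w : Cn S.d₂) : Prop :=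
  w ∈ (S.cZ.c z).target ∧ S.π (x, y, (S.cZ.c z).symm w) ∈ (M.e a).source

section
variable {S : Spl M η B} {a : M.ι} {x : Cn S.q} {y : S.Y} {z : S.Z} {w : Cn S.d₂}

theorem esl_pt : pt S.cY S.cZ y z (x, S.cY.c y y, w) = (x, y, (S.cZ.c z).symm w) := by
  simp only [pt, (S.cY.c y).left_inv (S.cY.mem y)]

theorem esl_T : eslT S a x y z w = M.e a (S.π (x, y, (S.cZ.c z).symm w)) := by
  rw [eslT, Spl.Φ, esl_pt]

theorem esl_near (h : S.π (x, y, z) ∈ (M.e a).source) :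
    ∀ᶠ z' in 𝓝 z, S.π (x, y, z') ∈ (M.e a).source :=
  (S.lh.continuous.comp (by fun_prop : Continuous fun z' : S.Z => (x, y, z'))).continuousAt.eventually
    ((M.e a).open_source.mem_nhds h)

theorem esl_ev (h : eslG S a x y z w) : ∀ᶠ w' in 𝓝 w, eslG S a x y z w' :=
  ((S.cZ.c z).open_target.eventually_mem h.1).and
    (((S.cZ.c z).continuousAt_symm h.1).eventually (esl_near h.2))

theorem esl_G (h : S.π (x, y, z) ∈ (M.e a).source) : eslG S a x y z (S.cZ.c z z) :=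
  ⟨(S.cZ.c z).map_source (S.cZ.mem z), by rwa [(S.cZ.c z).left_inv (S.cZ.mem z)]⟩

theorem esl_mem (h : eslG S a x y z w) : eslT S a x y z w ∈ (M.e a).target :=
  esl_T (S := S) ▸ (M.e a).map_source h.2

theorem esl_loc {E : Type} (h : eslG S a x y z w) (G : X → E) :
    S.cZ.lo z (fun z' => G (S.π (x, y, z'))) =ᶠ[𝓝 w] M.loc a G ∘ eslT S a x y z := by
  filter_upwards [esl_ev h] with w' h'
  rw [Function.comp_apply, esl_T, M.loc_e a G h'.2]
  rfl

theorem esl_an (h : eslG S a x y z w) : AnalyticAt ℂ (eslT S a x y z) w ∧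
    (∀ ξ, fderiv ℂ (eslT S a x y z) w ξ = fderiv ℂ (S.Φ a y z) (x, S.cY.c y y, w) (0, 0, ξ)) ∧
      ∀ ξ, ξ ≠ 0 → fderiv ℂ (eslT S a x y z) w ξ ≠ 0 := by
  obtain ⟨h1, h2⟩ := S.an a y z (x, S.cY.c y y, w) ((S.cY.c y).map_source (S.cY.mem y)) h.1
    (by rw [esl_pt]; exact h.2)
  have h3 : ∀ ξ, fderiv ℂ (eslT S a x y z) w ξ =
      fderiv ℂ (S.Φ a y z) (x, S.cY.c y y, w) (0, 0, ξ) := fun ξ => by
    have h4 := (h1.differentiableAt.hasFDerivAt.comp (f := fun w => (x, S.cY.c y y, w)) w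
      ((hasFDerivAt_const x w).prodMk
        ((hasFDerivAt_const (S.cY.c y y) w).prodMk (hasFDerivAt_id w)))).fderiv
    exact DFunLike.congr_fun h4 ξ
  refine ⟨h1.comp (f := fun w => (x, S.cY.c y y, w))
    (analyticAt_const.prod (analyticAt_const.prod analyticAt_id)), h3, fun ξ hξ h4 => hξ ?_⟩
  exact congrArg (fun v => v.2.2) (h2.1 (((h3 ξ).symm.trans h4).trans (map_zero _).symm))

end

theorem sl_LG (S : Spl M η B) {F : M.ι → X → ℂ} (hF : M.IsGauge F) (x : Cn S.q) (y : S.Y) :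
    LG S.cZ (S.sl F x y) := by
  refine ⟨fun p => (esl_near (ch_mem _ _)).mono fun z hz => hF.ne _ _ hz,
    fun p => (esl_near (ch_mem M.toAtl (S.π (x, y, p)))).mono fun z hz => ?_,
    fun p => (esl_ev (esl_G (ch_mem M.toAtl (S.π (x, y, p))))).mono fun w h => ?_⟩
  · have h := esl_G hz
    refine ((hF.hol _ (ch M.toAtl (S.π (x, y, z))) _ ⟨esl_mem h, ?_⟩).comp (esl_an h).1).congr
      (esl_loc h _).symm
    rw [mem_preimage, esl_T, (M.e _).left_inv h.2, (S.cZ.c z).left_inv (S.cZ.mem z)]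
    exact ch_mem _ _
  · exact (((hF.sm _).contDiffAt ((M.e _).open_target.mem_nhds (esl_mem h))).comp w
      (((esl_an h).1.contDiffAt (n := ∞)).restrict_scalars ℝ)).congr_of_eventuallyEq
        (esl_loc h fun q => ‖F (ch M.toAtl (S.π (x, y, p))) q‖ ^ 2)

theorem sl_HS (S : Spl M η B) {F : M.ι → X → ℂ} {f : X → ℂ} (hf : f ∈ M.H0 F) (x : Cn S.q)
    (y : S.Y) : (fun z => f (S.π (x, y, z))) ∈ HS S.cZ (S.sl F x y) := fun p => by
  have h := esl_G (ch_mem M.toAtl (S.π (x, y, p)))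
  exact ((hf _ _ (esl_mem h)).comp (esl_an h).1).congr (esl_loc h _).symm

theorem sl_ImF (S : Spl M η B) {F : M.ι → X → ℂ} {ι : Type} {s : ι → X → ℂ} (hs : M.Imm F s)
    (x : Cn S.q) (y : S.Y) : ImF S.cZ (S.sl F x y) fun i z => s i (S.π (x, y, z)) := by
  refine ⟨fun i => sl_HS S (hs.mem i) x y, fun p => hs.bpf _, fun p ξ hξ => ?_⟩
  have h := esl_G (ch_mem M.toAtl (S.π (x, y, p)))
  obtain ⟨i, j, hij⟩ := hs.imm _ _ (esl_mem h) _ ((esl_an h).2.2 ξ hξ)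
  have e := fun i => esl_loc h fun q => F (ch M.toAtl (S.π (x, y, p))) q * s i q
  refine ⟨i, j, ?_⟩
  simp only [Spl.sl]
  rw [(e i).eq_of_nhds, (e j).eq_of_nhds, (e i).fderiv_eq, (e j).fderiv_eq,
    fderiv_comp _ (hs.mem i _ _ (esl_mem h)).differentiableAt (esl_an h).1.differentiableAt,
    fderiv_comp _ (hs.mem j _ _ (esl_mem h)).differentiableAt (esl_an h).1.differentiableAt]
  exact hij

theorem sl_pb (S : Spl M η B) (F : M.ι → X → ℂ) (x : Cn S.q) (y : S.Y) (γ : S.Γ) :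
    pb (fun z => γ • z) (S.sl F x y) = S.sl F (γ⁻¹ • x) (γ⁻¹ • y) := by
  have h : ∀ z : S.Z, S.π (x, y, γ • z) = S.π (γ⁻¹ • x, γ⁻¹ • y, z) := fun z => by
    rw [← S.tp.cov.map_smul γ (e := (γ⁻¹ • x, γ⁻¹ • y, z))]
    simp only [Prod.smul_mk, smul_inv_smul]
  funext p z
  simp only [pb, Spl.sl, h]

theorem sl_Lev {P : Pol M.toAtl} {u : X → ℝ} (hu : M.Sm u)
    (S : Spl M (fsF P + ddc M.toAtl u) B) (x : Cn S.q) (y : S.Y) (z : S.Z) :
    ∀ᶠ w in 𝓝 (S.cZ.c z z), ∀ ξ,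
      Lev (S.cZ.cv (S.sl (uG P u) x y) z) w ξ = (star ξ ⬝ᵥ S.gZ z w *ᵥ ξ).re := by
  filter_upwards [esl_ev (esl_G (ch_mem M.toAtl (S.π (x, y, z))))] with w h ξ
  generalize ha : ch M.toAtl (S.π (x, y, z)) = a at h
  have h1 : ∀ ζ ∈ (M.e a).target, M.loc a (fun p => ‖P.u a p‖ ^ 2) ζ ≠ 0 := fun ζ hζ =>
    pow_ne_zero 2 (norm_ne_zero_iff.2 (P.gauge.ne _ _ ((M.e a).map_target hζ)))
  have h2 : ContDiffAt ℝ ∞ ((fsF P + ddc M.toAtl u) a) (eslT S a x y z w) :=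
    (((P.gauge.sm a).log h1).add (hu a)).contDiffAt ((M.e a).open_target.mem_nhds (esl_mem h))
  have h3 : S.cZ.cv (S.sl (uG P u) x y) z =ᶠ[𝓝 w] (fsF P + ddc M.toAtl u) a ∘ eslT S a x y z := by
    filter_upwards [esl_ev h, esl_loc h fun p => Real.log (‖uG P u a p‖ ^ 2)] with w' h' e
    simp only [CA.cv, Spl.sl, ha]
    refine e.trans ?_
    have h4 := h1 _ (esl_mem h')
    simp only [Function.comp_apply, Pi.add_apply, fsF, ddc, Atl.loc, uG, norm_mul, mul_pow,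
      Complex.norm_real, Real.norm_eq_abs, sq_abs] at h4 ⊢
    rw [Real.log_mul h4 (pow_pos (Real.exp_pos _) 2).ne', Real.log_pow (Real.exp _), Real.log_exp]
    push_cast
    ring
  rw [P271A.Lev_congr h3, Lev_comp' h2 (esl_an h).1, Lev_eq_LM h2, (esl_an h).2.1]
  refine congrArg Complex.re ((S.met a y z (x, S.cY.c y y, w) ((S.cY.c y).map_source (S.cY.mem y))
    h.1 (by rw [esl_pt]; exact h.2) (0, 0, ξ) (0, 0, ξ)).trans ?_)
  simp

theorem slices {P : Pol M.toAtl} (hk : P.k0 = 1) {u : X → ℝ} (hu : M.Sm u)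
    (S : Spl M (fsF P + ddc M.toAtl u) B) : ∃ (g : S.Z → S.Z → ℂ) (s : Fin P.N → S.Z → ℂ),
      LG S.cZ g ∧ ImF S.cZ g s ∧
        ∀ γ : S.Γ, ∃ t ∈ HS S.cZ (g / pb (fun x => γ • x) g), ∀ p, ‖t p‖ = 1 := by
  obtain ⟨y⟩ : Nonempty S.Y := inferInstance
  have h0 : ∀ p, ((Real.exp (u p / 2) : ℝ) : ℂ) ≠ 0 := fun p =>
    Complex.ofReal_ne_zero.2 (Real.exp_pos _).ne'
  have e : ∀ a i, (fun p => uG P u a p * (P.s i p / (Real.exp (u p / 2) : ℝ))) =
      fun p => (P.u ^ P.k0) a p * P.s i p := fun a i => funext fun p => by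
    rw [hk, pow_one, uG, mul_assoc, mul_div_cancel₀ _ (h0 p)]
  have h1 : M.Imm (uG P u) fun i p => P.s i p / (Real.exp (u p / 2) : ℝ) :=
    ⟨fun i a => (e a i).symm ▸ P.imm.mem i a,
      fun p => (P.imm.bpf p).imp fun i hi => div_ne_zero hi (h0 p), fun a => by
        simp only [e]
        exact P.imm.imm a⟩
  refine ⟨_, _, sl_LG S (uG_gauge hu) 0 y, sl_ImF S h1 0 y, fun γ => ?_⟩
  rw [sl_pb]
  refine flat_div (sl_LG S (uG_gauge hu) _ _) (sl_LG S (uG_gauge hu) _ _) fun p => ?_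
  filter_upwards [sl_Lev hu S 0 y p, sl_Lev hu S (γ⁻¹ • 0) (γ⁻¹ • y) p] with w h2 h3 ξ
  rw [h2, h3]

end Vale.Agent.P299
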