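import Vale.Agent.P299.EVb
import Vale.Agent.P299.EVc
import Vale.Agent.P272.Api

/-! P299, part E(h): sections that vanish along a given divisor. -/

open MeasureTheory Set Filter Topology
open scoped ContDiff ENNReal ComplexConjugate

noncomputable section

namespace Vale.Agent.P299

open Vale.Agent.P271 Vale.Agent.P271A

variable {n : ℕ} {X : Type} [TopologicalSpace X] [T2Space X] [CompactSpace X] [ConnectedSpace X]
  [MeasurableSpace X] [BorelSpace X] {M : Model n X} {β : X → ℝ}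

omit [T2Space X] [CompactSpace X] [ConnectedSpace X] [MeasurableSpace X] [BorelSpace X] in
theorem ev_peak {A : Atl n X} {P : Pol A} (hk : P.k0 = 1) (x : X) : ∃ σ ∈ A.H0 P.u,
    ‖σ x‖ ^ 2 = 1 ∧ (∀ p, ‖σ p‖ ^ 2 ≤ 1) ∧ ∀ p, p ≠ x → ‖σ p‖ ^ 2 < 1 := by
  have hm : ∀ i, P.s i ∈ A.H0 P.u := fun i => by simpa [hk] using P.imm.mem i
  have e : ∀ p, (∑ i, conj (P.s i x) • P.s i) p = ∑ i, conj (P.s i x) * P.s i p := fun p => by
    simp
  refine ⟨∑ i, conj (P.s i x) • P.s i, Submodule.sum_mem _ fun i _ => Submodule.smul_mem _ _ (hm i),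
    ?_, fun p => ?_, fun p hp => ?_⟩
  · have := lagrange (fun i => P.s i x) fun i => P.s i x
    have h1 : ∑ i, ∑ j, ‖P.s i x * P.s j x - P.s j x * P.s i x‖ ^ 2 = 0 := by simp [mul_comm]
    rw [h1, P.norm] at this
    rw [e]
    linarith
  · simpa only [e, P.norm, mul_one] using cs_fin (fun i => P.s i x) fun i => P.s i p
  · have := lagrange (fun i => P.s i x) fun i => P.s i p
    obtain ⟨i, j, hij⟩ := P.sep x p hp.symm
    have h1 : 0 < ∑ i, ∑ j, ‖P.s i x * P.s j p - P.s j x * P.s i p‖ ^ 2 :=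
      Finset.sum_pos' (fun _ _ => Finset.sum_nonneg fun _ _ => sq_nonneg _) ⟨i, Finset.mem_univ _,
        Finset.sum_pos' (fun _ _ => sq_nonneg _) ⟨j, Finset.mem_univ _,
          pow_pos (norm_pos_iff.2 (sub_ne_zero.2 hij)) 2⟩⟩
    rw [P.norm, P.norm] at this
    rw [e]
    linarith

theorem ev_step {b : ℝ} (hb : 0 < b) : ∃ θ : ℝ → ℝ, ContDiff ℝ ∞ θ ∧ (∀ t, θ t ^ 2 ≤ 1) ∧
    (∀ t, θ t ≠ 0 → b / 2 ≤ t) ∧ (∀ t, 3 * b / 4 ≤ t → θ t = 1) ∧
    ∀ t, deriv θ t ≠ 0 → b / 2 ≤ t ∧ t ≤ 3 * b / 4 := by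
  have h0 : ∀ t, t < b / 2 → Real.smoothTransition (4 / b * t - 2) = 0 := fun t ht =>
    Real.smoothTransition.zero_of_nonpos (by
      rw [div_mul_eq_mul_div, sub_nonpos, div_le_iff₀ hb]; linarith)
  have h1 : ∀ t, 3 * b / 4 ≤ t → Real.smoothTransition (4 / b * t - 2) = 1 := fun t ht =>
    Real.smoothTransition.one_of_one_le (by
      rw [div_mul_eq_mul_div, le_sub_iff_add_le, le_div_iff₀ hb]; linarith)
  refine ⟨fun t => Real.smoothTransition (4 / b * t - 2),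
    Real.smoothTransition.contDiff.comp ((contDiff_const.mul contDiff_id).sub contDiff_const),
    fun t => pow_le_one₀ (Real.smoothTransition.nonneg _) (Real.smoothTransition.le_one _),
    fun t ht => not_lt.1 fun h => ht (h0 t h), h1, fun t ht => ⟨not_lt.1 fun h => ht ?_,
      not_lt.1 fun h => ht ?_⟩⟩
  · rw [EventuallyEq.deriv_eq (f := fun _ => 0) ((gt_mem_nhds h).mono h0), deriv_const]
  · rw [EventuallyEq.deriv_eq (f := fun _ => 1) ((lt_mem_nhds h).mono fun t ht => h1 t ht.le),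
      deriv_const]

theorem ev_horm (P : Pol M.toAtl) (hb : M.Sm β) (hloc : LocB M.toAtl β) : ∃ (C : ℝ) (m₀ : ℕ),
    0 ≤ C ∧ ∀ m ≥ m₀, ∀ σ ∈ M.H0 (P.u ^ m), ∀ θ : ℝ → ℝ, ContDiff ℝ ∞ θ → ∀ ε > (0 : ℝ),
      (fun p => (θ (β p) : ℂ) * σ p) ∈ M.Sec (P.u ^ m) ∧ ∃ h ∈ M.H0 (P.u ^ m),
        ∫ p, ‖θ (β p) * σ p - h p‖ ^ 2 / (β p + ε) ∂M.μ ≤
          ∫ p, C * deriv θ (β p) ^ 2 * ‖σ p‖ ^ 2 / (β p + ε) ∂M.μ := by
  obtain ⟨C, hC0, hC⟩ := evc_unif P hb hloc
  have hv : M.IsGauge (M.k⁻¹ ^ 1) := M.k_gauge.inv.pow 1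
  obtain ⟨m0, hm0⟩ := exists_semipos M P hv
  obtain ⟨m1, hm1⟩ := exists_nat_ge (C + 1)
  refine ⟨C, m0 + m1, hC0, fun m hm σ hσ θ hθ ε hε => ?_⟩
  obtain ⟨m', rfl⟩ : ∃ m', m = m0 + m' := ⟨m - m0, by omega⟩
  have hm' : C + 1 ≤ m' := hm1.trans (Nat.cast_le.2 (by omega))
  have hp : ∀ p, 0 < β p + ε := fun p => add_pos_of_nonneg_of_pos (hloc.nonneg p) hε
  have hg : ∀ a, ∀ p ∈ (M.e a).source,
      (M.k * (P.u ^ (m0 + m') * M.k⁻¹ ^ 1)) a p = (P.u ^ (m0 + m')) a p := fun a p hp => by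
    have := M.k_gauge.ne a p hp
    simp only [Pi.mul_apply, Pi.pow_apply, Pi.inv_apply]
    field_simp
  have hχ : M.Sm fun p => θ (β p) := sm_comp hb fun _ => hθ.contDiffAt
  have hw : (fun p => (θ (β p) : ℂ) * σ p) ∈ M.Sec (P.u ^ (m0 + m')) := by
    have h1 : (fun p => (θ (β p) : ℂ)) ∈ M.Sec 1 := fun a =>
      (Complex.ofRealCLM.contDiff.comp_contDiffOn (hχ a)).congr fun z _ => by simp [Atl.loc]
    have h2 := Atl.mul_mem_Sec h1 (Atl.H0_le_Sec hσ)
    rwa [one_mul] at h2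
  have hψ : M.Sm fun p => Real.log (β p + ε) :=
    sm_comp (χ := Real.log) (sm_add hb (sm_const ε)) fun p => Real.contDiffAt_log.2 (hp p).ne'
  have hσc := Atl.continuous_norm_of_mem (P.gauge.pow _) (Atl.H0_le_Sec hσ)
  obtain ⟨h, hh, hN⟩ := hormX M P (m0 + m') 1 hψ (w := fun p => (θ (β p) : ℂ) * σ p)
    (by rwa [Atl.Sec_congr hg]) (θ := fun p => C * deriv θ (β p) ^ 2 * ‖σ p‖ ^ 2)
    ((continuous_const.mul (((hθ.continuous_deriv (by simp)).comp hb.continuous).pow 2)).mul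
      (hσc.pow 2)) (fun p => by positivity) (fun p => by
    obtain ⟨a, ha, h1⟩ := hC p
    refine ⟨a, ha, fun ξ => ?_⟩
    have h2 : Lv P (fun _ => 0) 1 a p ξ ≤ Lev (M.wt (P.u ^ (m0 + m') * M.k⁻¹ ^ 1)
        (fun p => Real.log (β p + ε)) a) (M.e a p) ξ := by
      rw [wt_pow_mul P hv hψ m0 m' ha, Lv_eq P hψ _ ha, ← Lv_fs P ha]
      nlinarith [hm0 a p ha ξ, (h1 ξ).2 ε hε, Lv_fs_nonneg P ha (ξ := ξ)]
    have h3 := Lv_fs_nonneg P ha (ξ := ξ)
    refine ⟨h3.trans h2, ?_⟩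
    have d1 := (sm_at hb ha).differentiableAt (by simp)
    have d2 := (H0_at hσ ha).differentiableAt
    have d3 : DifferentiableAt ℝ (fun z => (θ (M.loc a β z) : ℂ)) (M.e a p) :=
      Brid_ofReal_diff ((sm_at hχ ha).differentiableAt (by simp))
    rw [dzb_congr (G := fun z => (θ (M.loc a β z) : ℂ) *
      M.loc a (fun q => (P.u ^ (m0 + m')) a q * σ q) z) (by
        filter_upwards [ev_source ha] with z hz
        simp only [Atl.loc, hg a _ hz]; ring),
      dzb_mul d3 (d2.restrictScalars ℝ), dzb_hol d2, mul_zero, add_zero,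
      dzb_comp d1 (hθ.differentiable (by simp) _).hasDerivAt, hg a p ha, M.loc_e a _ ha,
      M.loc_e a _ ha, norm_mul, norm_mul, norm_mul, Complex.norm_real, Real.norm_eq_abs, mul_pow,
      mul_pow, mul_pow, sq_abs]
    have h4 : ‖dzb ξ (fun w => ((M.loc a β w : ℝ) : ℂ)) (M.e a p)‖ ^ 2 ≤ C * Lev (M.wt
        (P.u ^ (m0 + m') * M.k⁻¹ ^ 1) (fun p => Real.log (β p + ε)) a) (M.e a p) ξ :=
      (h1 ξ).1.trans (mul_le_mul_of_nonneg_left h2 hC0)
    calc _ ≤ deriv θ (β p) ^ 2 * (C * _) * (‖(P.u ^ (m0 + m')) a p‖ ^ 2 * ‖σ p‖ ^ 2) := by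
          gcongr
      _ = _ := by ring)
  refine ⟨hw, h, by rwa [Atl.H0_congr hg] at hh, ?_⟩
  simpa only [Model.N2, Real.exp_neg, Real.exp_log (hp _), ← div_eq_mul_inv, Pi.sub_apply] using hN

theorem van {P : Pol M.toAtl} (hk : P.k0 = 1) (hb : M.Sm β) (hne : β ≠ 0)
    (hloc : LocB M.toAtl β) :
    ∃ l : ℕ, ∃ s ∈ M.H0 (P.u ^ l), s ≠ 0 ∧ ∃ C : ℝ, ∀ p, ‖s p‖ ^ 2 ≤ C * β p := by
  obtain ⟨x, hx⟩ := Function.ne_iff.1 hne
  have hb0 : 0 < β x := (hloc.nonneg x).lt_of_ne' hx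
  obtain ⟨σ, hσ, s1, s2, s3⟩ := ev_peak hk x
  obtain ⟨θ, hθ, t1, t2, t3, t4⟩ := ev_step hb0
  obtain ⟨C, m₀, hC, hH⟩ := ev_horm P hb hloc
  have hβ := hb.continuous
  have hσc := (Atl.continuous_norm_of_mem P.gauge (Atl.H0_le_Sec hσ)).pow 2
  have hi : ∀ {f : X → ℝ}, Continuous f → Integrable f M.μ := fun hf =>
    hf.integrable_of_hasCompactSupport (HasCompactSupport.of_compactSpace _)
  obtain ⟨q, q0, q1, hq⟩ : ∃ q : ℝ, 0 ≤ q ∧ q < 1 ∧ ∀ p, β p ≤ 3 * β x / 4 → ‖σ p‖ ^ 2 ≤ q := by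
    obtain ⟨a, ha, h⟩ := (isClosed_le hβ continuous_const).isCompact.exists_forall_le'
      (f := fun p => -‖σ p‖ ^ 2) hσc.neg.continuousOn (a := -1) fun p (hp : β p ≤ 3 * β x / 4) =>
        neg_lt_neg (s3 p fun e => by rw [e] at hp; linarith)
    exact ⟨max (-a) 0, le_max_right _ _, max_lt (by linarith) one_pos,
      fun p hp => le_max_of_le_left (by linarith [h p hp])⟩
  have hV : IsOpen {p | 3 * β x / 4 < β p ∧ (1 + q) / 2 < ‖σ p‖ ^ 2} :=
    (isOpen_lt continuous_const hβ).inter (isOpen_lt continuous_const hσc)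
  set V := {p | 3 * β x / 4 < β p ∧ (1 + q) / 2 < ‖σ p‖ ^ 2}
  have := P272.isOpenPos M
  have hv : 0 < M.μ.real V := ENNReal.toReal_pos
    (hV.measure_ne_zero _ ⟨x, by linarith, by linarith⟩) (measure_ne_top _ _)
  have hd := ((hθ.continuous_deriv (by simp)).comp hβ).pow 2
  obtain ⟨L, hL⟩ := isCompact_univ.exists_bound_of_continuousOn hd.continuousOn
  obtain ⟨B, hB⟩ := isCompact_univ.exists_bound_of_continuousOn hβ.continuousOn
  have hL' : ∀ p, deriv θ (β p) ^ 2 ≤ L := fun p => (le_abs_self _).trans (hL p trivial)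
  have hB' : ∀ p, β p ≤ B := fun p => (le_abs_self _).trans (hB p trivial)
  have L0 : 0 ≤ L := (sq_nonneg _).trans (hL' x)
  have B0 : 0 < B := hb0.trans_le (hB' x)
  set E := C * L * (2 / β x) * M.μ.real univ
  have E0 : 0 ≤ E := by positivity
  obtain ⟨m, hm, hE⟩ : ∃ m ≥ m₀, (B + 1) * (E * q ^ m) ≤ M.μ.real V * ((1 + q) / 2) ^ m / 4 := by
    have h1 := (tendsto_pow_atTop_nhds_zero_of_lt_one (r := q / ((1 + q) / 2)) (by positivity)
      (by rw [div_lt_one (by positivity)]; linarith)).const_mul ((B + 1) * E)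
    rw [mul_zero] at h1
    obtain ⟨m, h2, h3⟩ := ((eventually_ge_atTop m₀).and
      (h1.eventually (gt_mem_nhds (show 0 < M.μ.real V / 4 by positivity)))).exists
    refine ⟨m, h2, ?_⟩
    rw [div_pow, ← mul_div_assoc, div_lt_iff₀ (by positivity)] at h3
    linarith
  have hσm := Atl.pow_mem_H0 hσ m
  have nm : ∀ p, ‖(σ ^ m) p‖ ^ 2 = (‖σ p‖ ^ 2) ^ m := fun p => by
    rw [Pi.pow_apply, norm_pow, ← pow_mul, ← pow_mul, mul_comm]
  obtain ⟨g, hg, hg0, hg1⟩ := ev_limit (P.gauge.pow m) hβ hloc.nonneg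
    (c₀ := M.μ.real V * ((1 + q) / 2) ^ m / 4)
    (A := 2 * (E * q ^ m) + 2 * (2 / β x * M.μ.real univ)) (by positivity) fun ε hε hε1 => by
    obtain ⟨hw, h, hh, hN⟩ := hH m hm _ hσm θ hθ ε hε
    have hp : ∀ p, 0 < β p + ε := fun p => add_pos_of_nonneg_of_pos (hloc.nonneg p) hε
    have c0 : Continuous fun p => β p + ε := hβ.add continuous_const
    have c1 : Continuous fun p => ‖θ (β p) * (σ ^ m) p‖ ^ 2 :=
      (Atl.continuous_norm_of_mem (P.gauge.pow m) hw).pow 2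
    have c2 : Continuous fun p => ‖h p‖ ^ 2 :=
      (Atl.continuous_norm_of_mem (P.gauge.pow m) (Atl.H0_le_Sec hh)).pow 2
    have c3 : Continuous fun p => ‖θ (β p) * (σ ^ m) p - h p‖ ^ 2 :=
      (Atl.continuous_norm_of_mem (P.gauge.pow m) (sub_mem hw (Atl.H0_le_Sec hh))).pow 2
    have c4 : Continuous fun p => ‖θ (β p) * (σ ^ m) p - h p‖ ^ 2 / (β p + ε) :=
      c3.div c0 fun p => (hp p).ne'
    have nw : ∀ p, ‖θ (β p) * (σ ^ m) p‖ ^ 2 = θ (β p) ^ 2 * (‖σ p‖ ^ 2) ^ m := fun p => by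
      rw [norm_mul, mul_pow, nm, Complex.norm_real, Real.norm_eq_abs, sq_abs]
    have i1 : ∫ p, ‖θ (β p) * (σ ^ m) p - h p‖ ^ 2 / (β p + ε) ∂M.μ ≤ E * q ^ m := by
      refine hN.trans ((integral_mono_of_nonneg (Eventually.of_forall fun p => by
        have := hp p; positivity) (integrable_const (C * L * (2 / β x) * q ^ m))
        (Eventually.of_forall fun p => ?_)).trans (le_of_eq ?_))
      · by_cases h0 : deriv θ (β p) = 0
        · simp only [h0]; rw [zero_pow two_ne_zero, mul_zero, zero_mul, zero_div]; positivity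
        · obtain ⟨h1, h2⟩ := t4 _ h0
          have h3 : (β p + ε)⁻¹ ≤ 2 / β x := by
            rw [inv_le_comm₀ (hp p) (by positivity), inv_div]; linarith
          calc _ = C * deriv θ (β p) ^ 2 * (β p + ε)⁻¹ * (‖σ p‖ ^ 2) ^ m := by rw [nm]; ring
            _ ≤ C * L * (2 / β x) * q ^ m := by
              have := hp p
              gcongr
              exacts [hL' p, hq p h2]
      · rw [integral_const, smul_eq_mul]; ring
    have tri : ∀ u v : ℂ, ‖u‖ ^ 2 ≤ 2 * ‖u - v‖ ^ 2 + 2 * ‖v‖ ^ 2 := fun u v => by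
      have h1 : ‖u‖ ≤ ‖u - v‖ + ‖v‖ := norm_le_norm_sub_add u v
      nlinarith [norm_nonneg u, sq_nonneg (‖u - v‖ - ‖v‖)]
    refine ⟨h, hh, ?_, ?_⟩
    · have i2 : M.μ.real V * ((1 + q) / 2) ^ m ≤ ∫ p, ‖θ (β p) * (σ ^ m) p‖ ^ 2 ∂M.μ := by
        refine le_trans ?_ (setIntegral_le_integral (s := V) (hi c1)
          (Eventually.of_forall fun p => sq_nonneg _))
        rw [mul_comm]
        refine setIntegral_ge_of_const_le_real hV.measurableSet (measure_ne_top _ _)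
          (fun p hp => ?_) (hi c1).integrableOn
        rw [nw, t3 _ hp.1.le, one_pow, one_mul]
        exact pow_le_pow_left₀ (by positivity) hp.2.le m
      have i3 : ∫ p, ‖θ (β p) * (σ ^ m) p‖ ^ 2 ∂M.μ ≤ ∫ p, (2 * (B + 1) *
          (‖θ (β p) * (σ ^ m) p - h p‖ ^ 2 / (β p + ε)) + 2 * ‖h p‖ ^ 2) ∂M.μ := by
        refine integral_mono (hi c1) (hi ((continuous_const.mul c4).add
          (continuous_const.mul c2))) fun p => (tri _ (h p)).trans ?_
        have h1 : ‖θ (β p) * (σ ^ m) p - h p‖ ^ 2 ≤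
            (B + 1) * (‖θ (β p) * (σ ^ m) p - h p‖ ^ 2 / (β p + ε)) := by
          rw [← mul_div_assoc, le_div_iff₀ (hp p), mul_comm]
          gcongr
          exact hB' p
        linarith
      rw [integral_add ((hi c4).const_mul _) ((hi c2).const_mul _),
        integral_const_mul, integral_const_mul] at i3
      nlinarith
    · have i4 : ∫ p, ‖h p‖ ^ 2 / (β p + ε) ∂M.μ ≤
          ∫ p, (2 * (‖θ (β p) * (σ ^ m) p - h p‖ ^ 2 / (β p + ε)) + 2 * (2 / β x)) ∂M.μ := by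
        refine integral_mono (hi (c2.div c0 fun p => (hp p).ne'))
          (hi ((continuous_const.mul c4).add continuous_const))
          fun p => ?_
        have h1 : ‖θ (β p) * (σ ^ m) p‖ ^ 2 / (β p + ε) ≤ 2 / β x := by
          by_cases h0 : θ (β p) = 0
          · simp only [h0]; simp; positivity
          · rw [nw, div_le_div_iff₀ (hp p) hb0]
            have h2 : θ (β p) ^ 2 * (‖σ p‖ ^ 2) ^ m ≤ 1 :=
              mul_le_one₀ (t1 _) (by positivity) (pow_le_one₀ (sq_nonneg _) (s2 p))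
            nlinarith [t2 _ h0]
        have h2 := div_le_div_of_nonneg_right (tri (h p) (θ (β p) * (σ ^ m) p)) (hp p).le
        rw [norm_sub_rev, add_div, mul_div_assoc, mul_div_assoc] at h2
        dsimp only
        linarith
      rw [integral_add ((hi c4).const_mul _) (integrable_const _),
        integral_const_mul, integral_const, smul_eq_mul] at i4
      nlinarith
  exact ⟨m, g, hg, hg0, hloc.bound hb hne (P.gauge.pow m) hg hg1⟩

end Vale.Agent.P299
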