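import Vale.Agent.P299.EZa
import Vale.Agent.P299.EAtl

/-! P299, part E: invariant top forms with a common denominator.

Hints. `Π I = ∏ k, e (I k).1 * e (I k).2` (degree `2 * d`), `A' I = A I * ∏ J ∈ univ.erase I, Π J`,
`D = ε * ∏ J, Π J`. By compactness `∑ ‖A I‖ ^ 2 ≥ δ > 0` and `‖Π I‖ ≤ C`, so
`‖∏ Π J‖ ^ 2 * ‖A I‖ ^ 2 ≤ C ^ 2 * ‖A' I‖ ^ 2`. Reindex by `Fintype.equivFin`. The index type is nonempty
because `Y` is. -/

open MeasureTheory Set Filter Topology Matrix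
open scoped ContDiff ComplexConjugate ComplexOrder

noncomputable section

namespace Vale.Agent.P299

open Vale.Agent.P271 Vale.Agent.P272

variable {d : ℕ} {Y : Type} [TopologicalSpace Y] {c : CA d Y} {g g' : Y → Y → ℂ} {f f' : Y → ℂ}
  {p : Y}

theorem ez_pos [CompactSpace Y] [Nonempty Y] {u : Y → ℝ} (hu : Continuous u) (h : ∀ p, 0 < u p) :
    ∃ δ : ℝ, 0 < δ ∧ ∀ p, δ ≤ u p := by
  obtain ⟨x, -, hx⟩ := isCompact_univ.exists_isMinOn univ_nonempty hu.continuousOn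
  exact ⟨u x, h x, fun p => hx (mem_univ p)⟩

theorem ez_ne [CompactSpace Y] [ConnectedSpace Y] (hg : LG c g) (h : f ∈ HS c g)
    (h' : f' ∈ HS c g) (h0 : f ≠ 0) (h0' : f' ≠ 0) : f * f' ≠ 0 := by
  have h1 := prod_ne_HS hg (Finset.univ : Finset (Fin 2)) (e := ![f, f'])
    (fun i _ => by fin_cases i <;> assumption) (fun i _ => by fin_cases i <;> assumption)
  rwa [Fin.prod_univ_two] at h1

/-- The common denominator, for an abstract finite family. -/
theorem ez_den [CompactSpace Y] [ConnectedSpace Y] {κ : Y → Y → ℂ} (hg : LG c g) (hκ : LG c κ)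
    {G : Type} [Group G] [MulAction G Y] {H : Subgroup G} {J : Type} [Fintype J]
    {A P : J → Y → ℂ} (hA : ∀ I, A I ∈ HS c (κ * g)) (hP : ∀ I, P I ∈ HS c g)
    (hA0 : ∀ p, ∃ I, A I p ≠ 0) (hP0 : ∀ I, P I ≠ 0)
    (act : ∀ γ ∈ H, ∀ p, ∃ l : J → ℂ, ∀ I, ‖l I‖ = 1 ∧ P I (γ • p) = l I * P I p ∧
      κ (γ • p) (γ • p) * A I (γ • p) * jc c (fun x => γ • x) p = l I * (κ p p * A I p)) :
    ∃ (D : Y → ℂ) (A' : Fin (Fintype.card J) → Y → ℂ),
      EZO c κ (g ^ Fintype.card J) H D A' := by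
  classical
  obtain ⟨δ, hδ, h1⟩ := ez_pos (u := fun p => ∑ I, ‖A I p‖ ^ 2)
    (continuous_finsetSum _ fun I _ => (cont_HS (hκ.mul hg) (hA I)).pow 2) fun p => by
      obtain ⟨I, hI⟩ := hA0 p
      exact Finset.sum_pos' (fun _ _ => by positivity) ⟨I, Finset.mem_univ _, by positivity⟩
  choose C hC0 hC using fun I => bound_HS hg (hP I)
  obtain ⟨I₀, -⟩ := hA0 (Classical.arbitrary Y)
  have hK : 0 < ∑ I, C I := Finset.sum_pos' (fun I _ => (hC0 I).le) ⟨I₀, Finset.mem_univ _, hC0 _⟩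
  have hK' : ∀ I p, ‖P I p‖ ≤ ∑ I, C I := fun I p =>
    (hC I p).trans (Finset.single_le_sum (fun I _ => (hC0 I).le) (Finset.mem_univ I))
  set K := ∑ I, C I
  have hε : 0 < √δ / K := by positivity
  have hsp : ∀ I p, (∏ I', P I') p = P I p * (∏ I' ∈ Finset.univ.erase I, P I') p := fun I p => by
    rw [← Finset.mul_prod_erase _ _ (Finset.mem_univ I), Pi.mul_apply]
  refine ⟨((√δ / K : ℝ) : ℂ) • ∏ I, P I, fun i => A ((Fintype.equivFin J).symm i) *
    ∏ I' ∈ Finset.univ.erase ((Fintype.equivFin J).symm i), P I', hg.pow _,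
    (HS c _).smul_mem _ (prod_HS _ fun I _ => hP I), fun i => ?_,
    smul_ne_zero (by exact_mod_cast hε.ne') (prod_ne_HS hg _ (fun I _ => hP I) fun I _ => hP0 I),
    fun p => ?_, fun γ hγ p => ?_⟩
  · have h2 := mul_HS (hA ((Fintype.equivFin J).symm i))
      (prod_HS (Finset.univ.erase ((Fintype.equivFin J).symm i)) fun I _ => hP I)
    rwa [mul_assoc, ← pow_succ', Finset.card_erase_add_one (Finset.mem_univ _)] at h2
  · rw [(Fintype.equivFin J).symm.sum_comp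
      fun I => ‖(A I * ∏ I' ∈ Finset.univ.erase I, P I') p‖ ^ 2, Pi.smul_apply, smul_eq_mul,
      norm_mul, Complex.norm_real, Real.norm_of_nonneg hε.le, mul_pow, div_pow, Real.sq_sqrt hδ.le,
      div_mul_eq_mul_div, div_le_iff₀ (by positivity)]
    refine (mul_le_mul_of_nonneg_right (h1 p) (by positivity)).trans ?_
    rw [Finset.sum_mul, Finset.sum_mul]
    refine Finset.sum_le_sum fun I _ => ?_
    rw [hsp I p, Pi.mul_apply, norm_mul, norm_mul, mul_pow, mul_pow, mul_comm (‖P I p‖ ^ 2),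
      ← mul_assoc]
    exact mul_le_mul_of_nonneg_left (pow_le_pow_left₀ (norm_nonneg _) (hK' I p) 2) (by positivity)
  · obtain ⟨l, hl⟩ := act γ hγ p
    have h2 : ∀ s : Finset J, (∏ I ∈ s, P I) (γ • p) = (∏ I ∈ s, l I) * (∏ I ∈ s, P I) p :=
      fun s => by
        simp only [Finset.prod_apply, ← Finset.prod_mul_distrib]
        exact Finset.prod_congr rfl fun I _ => (hl I).2.1
    refine ⟨∏ I, l I, ?_, ?_, fun i => ?_⟩
    · rw [norm_prod]
      exact Finset.prod_eq_one fun I _ => (hl I).1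
    · simp only [Pi.smul_apply, smul_eq_mul, h2]
      ring
    · rw [Pi.mul_apply, Pi.mul_apply, h2,
        ← Finset.mul_prod_erase _ l (Finset.mem_univ ((Fintype.equivFin J).symm i))]
      linear_combination ((∏ I ∈ Finset.univ.erase ((Fintype.equivFin J).symm i), l I) *
        (∏ I ∈ Finset.univ.erase ((Fintype.equivFin J).symm i), P I) p) *
          (hl ((Fintype.equivFin J).symm i)).2.2

theorem zout [CompactSpace Y] [ConnectedSpace Y] {κ : Y → Y → ℂ} (hg : LG c g) (hκ : Can c κ)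
    {G : Type} [Group G] [MulAction G Y] (hol : ∀ γ : G, HolM c fun x => γ • x) {H : Subgroup G}
    {r : ℕ} {e : Fin r → Y → ℂ} (he : ImF c g e) (h0 : ∀ i, e i ≠ 0) (hH : Eig H e) :
    ∃ (m s : ℕ) (D : Y → ℂ) (A : Fin s → Y → ℂ), EZO c κ (g ^ m) H D A := by
  obtain ⟨A, hA, hA0, hT⟩ := wronski hg hκ he
  have h1 : ∀ i j, e i * e j ∈ HS c (g * g) := fun i j => mul_HS (he.mem i) (he.mem j)
  obtain ⟨D, A', h⟩ := ez_den (H := H) (hg.pow (2 * d)) hκ.1 hA
    (P := fun I => ∏ k, e (I k).1 * e (I k).2) (fun I => by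
      have h2 := prod_HS Finset.univ fun k _ => h1 (I k).1 (I k).2
      rwa [← sq, ← pow_mul, Finset.card_fin] at h2) hA0
    (fun I => prod_ne_HS (hg.mul hg) _ (fun k _ => h1 _ _) fun k _ =>
      ez_ne hg (he.mem _) (he.mem _) (h0 _) (h0 _)) fun γ hγ p => by
    obtain ⟨χ, t, hχ, ht, h2⟩ := hH γ hγ
    refine ⟨fun I => (∏ k, χ (I k).1 * χ (I k).2) * t p ^ (2 * d), fun I => ⟨?_, ?_,
      hT _ (hol γ) χ t (fun i => norm_ne_zero_iff.1 (by rw [hχ]; exact one_ne_zero)) h2 I p⟩⟩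
    · simp only [norm_mul, norm_prod, norm_pow, hχ, ht, mul_one, one_pow, Finset.prod_const_one]
    · have h3 : t p ^ (2 * d) = ∏ _k : Fin d, t p ^ 2 := by
        rw [Finset.prod_const, Finset.card_fin, pow_mul]
      simp only [Finset.prod_apply, Pi.mul_apply, h2, h3, ← Finset.prod_mul_distrib]
      exact Finset.prod_congr rfl fun k _ => by ring
  rw [← pow_mul] at h
  exact ⟨_, _, D, A', h⟩

end Vale.Agent.P299
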