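import Vale.Agent.P299.EW

/-! P299, part E: the Wronskian sections.

Hints. `A I p = WW (E p) I (c.c p p) / (κ p p * g p p ^ (2 * d))` with `E p i = c.lo p (g p * e i)`.
For `x` near `p`, `WW_tr` with `T = c.mp id p x`, `h = c.lo p (g x / g p)`, `χ = 1` gives
`κ p x * g p x ^ (2 * d) * A I x = WW (E p) I (c.c p x)`. For a map `T` use `h = g (T p) (T ·) * t / g p`; it
is analytic since it equals `E' i ∘ T / (χ i * E i)` near the centre when `e i p ≠ 0`. -/

open MeasureTheory Set Filter Topology Matrix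
open scoped ContDiff ComplexConjugate ComplexOrder

noncomputable section

namespace Vale.Agent.P299

open Vale.Agent.P271 Vale.Agent.P272

variable {d : ℕ} {Y : Type} [TopologicalSpace Y] {c : CA d Y} {g g' : Y → Y → ℂ} {f f' : Y → ℂ}
  {p : Y}

theorem eza_src (c : CA d Y) (p : Y) : ∀ᶠ x in 𝓝 p, x ∈ (c.c p).source :=
  (c.c p).open_source.mem_nhds (c.mem p)

theorem eza_mp (c : CA d Y) (T : Y → Y) (p p' : Y) {x : Y} (hx : x ∈ (c.c p).source) :
    c.mp T p p' (c.c p x) = c.c p' (T x) := by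
  unfold CA.mp
  rw [(c.c p).left_inv hx]

theorem eza_id (c : CA d Y) : HolM c id := by
  refine ⟨continuous_id, fun p => ?_⟩
  refine (analyticAt_id (𝕜 := ℂ) (z := c.c p p)).congr ?_
  filter_upwards [(c.c p).open_target.mem_nhds ((c.c p).map_source (c.mem p))] with w hw
  exact ((c.c p).right_inv hw).symm

/-- The transition rule for the Wronskians. -/
theorem eza_loc (hg : LG c g) {ι : Type} {e : ι → Y → ℂ} (he : ∀ i, e i ∈ HS c g)
    (I : Fin d → ι × ι) (p : Y) : ∀ᶠ x in 𝓝 p,
      WW (fun i => c.lo x fun y => g x y * e i y) I (c.c x x) *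
          (DM (c.mp id p x) (c.c p x)).det =
        (g x x / g p x) ^ (2 * d) * WW (fun i => c.lo p fun y => g p y * e i y) I (c.c p x) := by
  filter_upwards [eza_src c p, (hg.ne p).eventually_nhds, hg.hol p] with x hx hn hh
  have hxx : g x x ≠ 0 := (hg.ne x).self_of_nhds
  have hpx : g p x ≠ 0 := hn.self_of_nhds
  have hE : ∀ i, AnalyticAt ℂ (c.lo p fun y => g p y * e i y) (c.c p x) := by
    intro i
    rw [c.an_iff hx (c.mem x)]
    refine (hh.mul (he i x)).congr ?_
    filter_upwards [(c.ev_iff (c.mem x)).2 (hg.ne x)] with w hw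
    simp only [CA.lo, Pi.mul_apply]
    field_simp
  have hT := (eza_id c).near hx (c.mem x)
  have e0 : c.mp id p x (c.c p x) = c.c x x := eza_mp c id p x hx
  have h1 : AnalyticAt ℂ (c.lo p fun y => g x y / g p y) (c.c p x) := by
    rw [c.an_iff hx (c.mem x)]
    have h0 : c.lo x (fun y => g p y / g x y) (c.c x x) ≠ 0 := by
      rw [c.lo_ce x _ (c.mem x)]
      exact div_ne_zero hpx hxx
    refine (hh.inv h0).congr (Eventually.of_forall fun w => ?_)
    simp only [CA.lo, Pi.inv_apply, inv_div]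
  have key := WW_tr (E := fun i => c.lo p fun y => g p y * e i y)
    (E' := fun i => c.lo x fun y => g x y * e i y) (χ := fun _ => 1) hE
    (fun i => by rw [e0]; exact he i x) hT h1 (fun i => by
      filter_upwards [(c.ev_iff hx).2 (hn.and (eza_src c x))] with w hw
      have := c.lo_ce x (fun y => g x y * e i y) hw.2
      have h2 := hw.1
      refine this.trans ?_
      simp only [CA.lo]
      field_simp) I
  rw [e0, c.lo_ce p _ hx] at key
  simpa using key

/-- The transformation rule for the Wronskians. -/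
theorem eza_map (hg : LG c g) {ι : Type} {e : ι → Y → ℂ} (he : ImF c g e) {T : Y → Y}
    (hT : HolM c T) {χ : ι → ℂ} {t : Y → ℂ} (hχ : ∀ i, χ i ≠ 0)
    (ht : ∀ i p, e i (T p) = χ i * t p * e i p) (I : Fin d → ι × ι) (p : Y) :
    WW (fun i => c.lo (T p) fun y => g (T p) y * e i y) I (c.c (T p) (T p)) * jc c T p =
      (∏ k, χ (I k).1 * χ (I k).2) * (g (T p) (T p) * t p / g p p) ^ (2 * d) *
        WW (fun i => c.lo p fun y => g p y * e i y) I (c.c p p) := by
  have e0 : c.mp T p (T p) (c.c p p) = c.c (T p) (T p) := eza_mp c T p (T p) (c.mem p)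
  have hs : ∀ᶠ x in 𝓝 p, T x ∈ (c.c (T p)).source :=
    hT.1.continuousAt.eventually (eza_src c (T p))
  have hE' : ∀ i, AnalyticAt ℂ (c.lo (T p) fun y => g (T p) y * e i y)
      (c.mp T p (T p) (c.c p p)) := fun i => by rw [e0]; exact he.mem i (T p)
  have hev : ∀ i, ∀ᶠ v in 𝓝 (c.c p p),
      (c.lo (T p) fun y => g (T p) y * e i y) (c.mp T p (T p) v) =
        χ i * c.lo p (fun x => g (T p) (T x) * t x / g p x) v *
          c.lo p (fun y => g p y * e i y) v := by
    intro i
    filter_upwards [(c.ev_iff (c.mem p)).2 ((hg.ne p).and hs)] with w hw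
    have := c.lo_ce (T p) (fun y => g (T p) y * e i y) hw.2
    have h2 := hw.1
    refine this.trans ?_
    simp only [CA.lo, ht]
    field_simp
  have hh : AnalyticAt ℂ (c.lo p fun x => g (T p) (T x) * t x / g p x) (c.c p p) := by
    obtain ⟨i, hi⟩ := he.bpf p
    have hA : AnalyticAt ℂ (c.lo p fun y => g p y * e i y) (c.c p p) := he.mem i p
    have h0 : c.lo p (fun y => g p y * e i y) (c.c p p) ≠ 0 := by
      rw [c.lo_ce p _ (c.mem p)]
      exact mul_ne_zero (hg.ne p).self_of_nhds hi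
    have h1 := ((hE' i).comp (hT.2 p)).div (analyticAt_const.mul hA) (mul_ne_zero (hχ i) h0)
    refine h1.congr ?_
    filter_upwards [hev i, hA.continuousAt.eventually_ne h0] with w hw hw0
    have h3 := hχ i
    simp only [Pi.div_apply, Function.comp_apply, Pi.mul_apply]
    rw [hw]
    field_simp
  have key := WW_tr (E := fun i => c.lo p fun y => g p y * e i y)
    (E' := fun i => c.lo (T p) fun y => g (T p) y * e i y) (fun i => he.mem i p) hE' (hT.2 p) hh
    hev I
  rw [e0, c.lo_ce p _ (c.mem p)] at key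
  exact key

theorem wronski {κ : Y → Y → ℂ} (hg : LG c g) (hκ : Can c κ) {ι : Type} {e : ι → Y → ℂ}
    (he : ImF c g e) : ∃ A : (Fin d → ι × ι) → Y → ℂ, (∀ I, A I ∈ HS c (κ * g ^ (2 * d))) ∧
      (∀ p, ∃ I, A I p ≠ 0) ∧ ∀ T : Y → Y, HolM c T → ∀ (χ : ι → ℂ) (t : Y → ℂ), (∀ i, χ i ≠ 0) →
        (∀ i p, e i (T p) = χ i * t p * e i p) → ∀ I p, κ (T p) (T p) * A I (T p) * jc c T p =
          (∏ k, χ (I k).1 * χ (I k).2) * t p ^ (2 * d) * (κ p p * A I p) := by
  have hk : ∀ p, κ p p ≠ 0 := fun p => (hκ.1.ne p).self_of_nhds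
  have hgg : ∀ p, g p p ≠ 0 := fun p => (hg.ne p).self_of_nhds
  refine ⟨fun I p => WW (fun i => c.lo p fun y => g p y * e i y) I (c.c p p) /
    (κ p p * g p p ^ (2 * d)), fun I p => ?_, fun p => ?_, fun T hT χ t hχ ht I p => ?_⟩
  · have h1 : ∀ᶠ x in 𝓝 p, κ p x * g p x ^ (2 * d) *
        (WW (fun i => c.lo x fun y => g x y * e i y) I (c.c x x) / (κ x x * g x x ^ (2 * d))) =
        WW (fun i => c.lo p fun y => g p y * e i y) I (c.c p x) := by
      filter_upwards [eza_loc hg he.mem I p, hκ.2 p, hg.ne p] with x h1 h2 h3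
      have h4 := hk x
      have h5 := pow_ne_zero (2 * d) (hgg x)
      have h6 := pow_ne_zero (2 * d) h3
      rw [div_pow] at h1
      rw [h2]
      field_simp at h1 ⊢
      linear_combination h1
    refine (WW_an (E := fun i => c.lo p fun y => g p y * e i y) (fun i => he.mem i p) I).congr ?_
    filter_upwards [(c.ev_iff (c.mem p)).2 h1,
      (c.c p).open_target.mem_nhds ((c.c p).map_source (c.mem p))] with w hw hw'
    rw [(c.c p).right_inv hw'] at hw
    exact hw.symm
  · obtain ⟨I, hI⟩ := WW_ne (E := fun i => c.lo p fun y => g p y * e i y) (he.imm p)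
    exact ⟨I, div_ne_zero hI (mul_ne_zero (hk p) (pow_ne_zero _ (hgg p)))⟩
  · have h1 := eza_map hg he hT hχ ht I p
    have h2 := hk p
    have h3 := hk (T p)
    have h4 := pow_ne_zero (2 * d) (hgg p)
    have h5 := pow_ne_zero (2 * d) (hgg (T p))
    rw [div_pow, mul_pow] at h1
    field_simp at h1 ⊢
    linear_combination h1

end Vale.Agent.P299
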