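import Vale.Agent.P299.FG2

/-! P299, part F: the gluing lemma. -/

open MeasureTheory Set Filter Topology
open scoped ContDiff

noncomputable section

namespace Vale.Agent.P299

open Vale.Agent.P271A

variable {n : ℕ} {Y : Type} [TopologicalSpace Y] [T2Space Y] [SecondCountableTopology Y]
  [MeasurableSpace Y] [BorelSpace Y] {D : RD n Y}

theorem fg_seq {ψ γ₀ : Y → ℝ} (hψ : Continuous ψ) (hK : ∀ T, IsCompact {y | ψ y ≤ T})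
    (hγ : Continuous γ₀) {S : ℕ → Set (Y → ℝ)} (hS : Antitone S)
    (h1 : ∀ m, ∀ g ∈ S m, D.SmR g ∧ ∀ y v, 0 ≤ D.levi g y v) {B : ℝ}
    (hU : ∀ Q, IsCompact Q → ∃ m, ∀ g ∈ S m, ∀ y ∈ Q, g y ≤ γ₀ y + B)
    (hL : ∀ y m, ∃ g ∈ S m, γ₀ y - B ≤ g y) :
    ∃ u : ℕ → Y → ℝ, ∀ i : ℕ, D.SmR (u i) ∧ (∀ y, ψ y ≤ i + 2 → (∀ v, 0 ≤ D.levi (u i) y v) ∧
      γ₀ y - B ≤ u i y ∧ u i y ≤ γ₀ y + B + 2) ∧
      ∀ y, ψ y ≤ i + 1 → u (i + 1) y ≤ u i y + 2 * (1 / 2) ^ i := by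
  rcases isEmpty_or_nonempty Y with hY | ⟨⟨y₁⟩⟩
  · exact ⟨fun _ _ => 0, fun _ => ⟨RD.smR_const 0, fun y => hY.elim y, fun y => hY.elim y⟩⟩
  have key : ∀ (i : ℕ) (x : ℕ × {u : Y → ℝ // D.SmR u}), ∃ x' : ℕ × {u : Y → ℝ // D.SmR u},
      x.1 ≤ x'.1 ∧ ∀ y, ψ y ≤ i + 2 → (∀ v, 0 ≤ D.levi x'.2.1 y v) ∧
        (∀ g ∈ S x'.1, g y ≤ x'.2.1 y) ∧ x'.2.1 y ≤ γ₀ y + B + 2 ∧ ∃ g ∈ S x'.1, ∃ y',
          ψ y' < ψ y + 1 ∧ x.2.1 y' < x.2.1 y + (1 / 2) ^ i ∧ x'.2.1 y ≤ g y' + (1 / 2) ^ i := by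
    intro i x
    have ho : ∀ {f : Y → ℝ}, Continuous f → ∀ c, IsOpen {q : Y × Y | f q.2 < f q.1 + c} :=
      fun hf c => isOpen_lt (by fun_prop) (by fun_prop)
    obtain ⟨m, hm⟩ := hU _ (hK (i + 3))
    have hc := x.2.2.continuous
    have hδ : (0 : ℝ) < (1 / 2) ^ i := by positivity
    have hδ1 : (1 / 2 : ℝ) ^ i ≤ 1 := pow_le_one₀ (by norm_num) (by norm_num)
    have hb : ∀ y y', ψ y ≤ i + 2 → ψ y' < ψ y + 1 → γ₀ y' < γ₀ y + 1 → ∀ g ∈ S (max x.1 m),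
        g y' ≤ γ₀ y + B + 1 := fun y y' g1 g2 g3 g hg => by
      have := hm g (hS (le_max_right _ _) hg) y' (show ψ y' ≤ i + 3 by linarith)
      linarith
    obtain ⟨u, u1, u2⟩ := fg_major (hK (i + 2)) (W := {q : Y × Y | ψ q.2 < ψ q.1 + 1 ∧
      γ₀ q.2 < γ₀ q.1 + 1 ∧ x.2.1 q.2 < x.2.1 q.1 + (1 / 2) ^ i})
      ((ho hψ _).and ((ho hγ _).and (ho hc _)))
      (fun y => ⟨lt_add_one _, lt_add_one _, lt_add_of_pos_right _ hδ⟩) (h1 (max x.1 m))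
      ((hL y₁ _).imp fun g hg => hg.1) (fun y hy => ⟨_, fun y' h => hb y y' hy h.1 h.2.1⟩) hδ
    refine ⟨(max x.1 m, ⟨u, u1⟩), le_max_left _ _, fun y hy => ?_⟩
    obtain ⟨g1, g2, g, hg, y', g3, g4⟩ := u2 y hy
    have g5 := hb y y' hy g3.1 g3.2.1 g hg
    exact ⟨g1, g2, by simp only; linarith, g, hg, y', g3.1, g3.2.2, g4⟩
  choose f hf hf' using key
  obtain ⟨x, hx0, hx⟩ : ∃ x : ℕ → ℕ × {u : Y → ℝ // D.SmR u},
      x 0 = f 0 (0, ⟨_, RD.smR_const 0⟩) ∧ ∀ i, x (i + 1) = f (i + 1) (x i) :=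
    ⟨fun i => Nat.rec (f 0 (0, ⟨_, RD.smR_const 0⟩)) (fun i x => f (i + 1) x) i, rfl,
      fun _ => rfl⟩
  have hg : ∀ i : ℕ, ∃ z, x i = f i z := fun i => by
    cases i with
    | zero => exact ⟨_, hx0⟩
    | succ i => exact ⟨_, hx i⟩
  refine ⟨fun i => (x i).2.1, fun i => ⟨(x i).2.2, fun y hy => ?_, fun y hy => ?_⟩⟩
  · obtain ⟨z, hz⟩ := hg i
    obtain ⟨g1, g2, g3, -⟩ := hf' i z y hy
    rw [← hz] at g1 g2 g3
    obtain ⟨g, g4, g5⟩ := hL y (x i).1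
    exact ⟨g1, g5.trans (g2 g g4), g3⟩
  · obtain ⟨z, hz⟩ := hg i
    obtain ⟨-, -, -, g, g1, y', g2, g3, g4⟩ := hf' (i + 1) (x i) y (by push_cast; linarith)
    have g5 := (hf' i z y' (by linarith)).2.1
    rw [← hz] at g5
    have g6 := g5 g (hS (hf (i + 1) (x i)) g1)
    have g7 : (0 : ℝ) < (1 / 2) ^ i := by positivity
    rw [← hx i, pow_succ] at g4
    rw [pow_succ] at g3
    simp only
    linarith

omit [T2Space Y] [SecondCountableTopology Y] [BorelSpace Y] in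
theorem fg_core {ψ γ₀ : Y → ℝ} {B : ℝ} (hψ : D.SmR ψ) {u : ℕ → Y → ℝ}
    (hu : ∀ i : ℕ, D.SmR (u i) ∧ (∀ y, ψ y ≤ i + 2 → (∀ v, 0 ≤ D.levi (u i) y v) ∧
      γ₀ y - B ≤ u i y ∧ u i y ≤ γ₀ y + B + 2) ∧
      ∀ y, ψ y ≤ i + 1 → u (i + 1) y ≤ u i y + 2 * (1 / 2) ^ i)
    {H : ℝ → ℝ} (Hs : ContDiff ℝ ∞ H) (H0 : ∀ t ≤ 1 / 4, H t = 0) (H1 : ∀ t, 3 / 4 ≤ t → H t = 1)
    (Hn : ∀ t, 0 ≤ H t) {e : Y → (Fin n → ℂ) → ℝ} (e0 : ∀ y v, 0 ≤ e y v)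
    (he : ∀ (i : ℕ) y v, (2 * |B| + 6) * D.levi (fun p => H (ψ p - i)) y v ≤ e y v) :
    ∃ γ, D.SmR γ ∧ (∀ y, |γ y - γ₀ y| ≤ |B| + 6) ∧ ∀ y v, -e y v ≤ D.levi γ y v := by
  have hq : ∀ i : ℕ, (0 : ℝ) < (1 / 2) ^ i ∧ (1 / 2 : ℝ) ^ i ≤ 1 := fun i =>
    ⟨by positivity, pow_le_one₀ (by norm_num) (by norm_num)⟩
  have ha : ∀ i : ℕ, D.SmR fun p => u i p - 6 * (1 - (1 / 2) ^ i) := fun i =>
    (hu i).1.sub (RD.smR_const _)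
  have hH : ∀ i : ℕ, D.SmR fun p => H (ψ p - i) := fun i =>
    (hψ.sub (RD.smR_const _)).comp fun _ => Hs.contDiffAt
  have hH' : ∀ i : ℕ, D.SmR fun p => (2 * |B| + 6) * H (ψ p - i) := fun i =>
    (RD.smR_const _).mul (hH i)
  choose M m1 m2 m3 m4 m5 using fun i : ℕ => fg_max ((ha i).sub (hH' i)) (ha (i + 1)) (hq i).1
  have hB := le_abs_self B
  have inner : ∀ (i : ℕ) p, ψ p ≤ i + 1 / 4 → M i p = u i p - 6 * (1 - (1 / 2) ^ i) := by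
    intro i p hp
    have h1 := (hu i).2.2 p (by linarith)
    have h2 := H0 (ψ p - i) (by linarith)
    rw [m3 i p (by rw [h2, pow_succ]; linarith), h2, mul_zero, sub_zero]
  have outer : ∀ (i : ℕ) p, i + 3 / 4 ≤ ψ p → ψ p ≤ i + 1 →
      M i p = u (i + 1) p - 6 * (1 - (1 / 2) ^ (i + 1)) := by
    intro i p hp hp'
    have h1 := ((hu i).2.1 p (by linarith)).2.2
    have h2 := ((hu (i + 1)).2.1 p (by push_cast; linarith)).2.1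
    have h3 := (hq i).2
    exact m4 i p (by rw [H1 (ψ p - i) (by linarith), pow_succ]; linarith)
  have key : ∀ y, (fun p => M ⌊ψ p⌋₊ p) =ᶠ[𝓝 y] M ⌊ψ y⌋₊ := by
    intro y
    have hc := hψ.continuous.continuousAt (x := y)
    filter_upwards [hc.eventually (gt_mem_nhds (Nat.lt_floor_add_one (ψ y))),
      hc.eventually (lt_mem_nhds (sub_lt_self (ψ y) (show (0 : ℝ) < 1 / 4 by norm_num)))]
      with p h1 h2
    have h3 : ⌊ψ p⌋₊ < ⌊ψ y⌋₊ + 1 :=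
      (Nat.floor_lt' (Nat.succ_ne_zero _)).2 (by push_cast; exact h1)
    rcases (Nat.lt_succ_iff.1 h3).eq_or_lt with h4 | h4
    · rw [h4]
    · obtain ⟨j, hj⟩ : ∃ j, ⌊ψ y⌋₊ = j + 1 := ⟨⌊ψ y⌋₊ - 1, by omega⟩
      have h5 : ((j + 1 : ℕ) : ℝ) ≤ ψ y := (Nat.le_floor_iff' (Nat.succ_ne_zero j)).1 hj.ge
      have h6 : ψ p < ((j + 1 : ℕ) : ℝ) :=
        (Nat.floor_lt' (Nat.succ_ne_zero j)).1 (h4.trans_eq hj)
      have h7 : (0 : ℝ) ≤ j := Nat.cast_nonneg j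
      push_cast at h5 h6
      have h8 : ⌊ψ p⌋₊ = j := (Nat.floor_eq_iff (by linarith)).2 ⟨by linarith, h6⟩
      rw [h8, hj, outer j p (by linarith) h6.le, inner (j + 1) p (by push_cast; linarith)]
  refine ⟨fun p => M ⌊ψ p⌋₊ p, RD.sm_of_rep fun y => ⟨_, m1 ⌊ψ y⌋₊ y, EventuallyEq.trans
    ((key y).mono fun p hp => congrArg _ hp) (D.rep_sec _ y)⟩, fun y => ?_, fun y v => ?_⟩
  all_goals
    have h1 := Nat.lt_floor_add_one (ψ y)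
    obtain ⟨g1, g2, g3⟩ := (hu ⌊ψ y⌋₊).2.1 y (by linarith)
    obtain ⟨g4, g5, g6⟩ := (hu (⌊ψ y⌋₊ + 1)).2.1 y (by push_cast; linarith)
  · obtain ⟨-, h2, h3⟩ := m2 ⌊ψ y⌋₊ y
    obtain ⟨h4, h5⟩ := hq ⌊ψ y⌋₊
    have h6 := mul_nonneg (show 0 ≤ 2 * |B| + 6 by positivity) (Hn (ψ y - ⌊ψ y⌋₊))
    rw [pow_succ] at h2 h3
    refine abs_le.2 ⟨by simp only; linarith, ?_⟩
    rcases le_max_iff.1 h3 with h7 | h7 <;> simp only <;> linarith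
  · rw [RD.levi_congr (key y)]
    refine m5 _ y v _ ?_ ?_
    · rw [fg_levi_sub (ha _) (hH' _), fg_levi_sub (hu _).1 (RD.smR_const _), RD.levi_const,
        RD.levi_const_mul (hH _)]
      linarith [g1 v, he ⌊ψ y⌋₊ y v]
    · rw [fg_levi_sub (hu _).1 (RD.smR_const _), RD.levi_const]
      linarith [g4 v, e0 y v]

/-- The gluing lemma. -/
theorem glue {Ψ ψ γ₀ : Y → ℝ} {C B : ℝ} (hΨ : ∀ y v, 0 ≤ D.levi Ψ y v) (hψ : D.SmR ψ)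
    (hK : ∀ T, IsCompact {y | ψ y ≤ T})
    (hC : ∀ y v, ‖D.del ψ y v‖ ^ 2 ≤ C * D.levi Ψ y v ∧ D.levi ψ y v ≤ C * D.levi Ψ y v)
    (hγ : Continuous γ₀) {S : ℕ → Set (Y → ℝ)} (hS : Antitone S)
    (h1 : ∀ m, ∀ g ∈ S m, D.SmR g ∧ ∀ y v, 0 ≤ D.levi g y v)
    (hU : ∀ Q, IsCompact Q → ∃ m, ∀ g ∈ S m, ∀ y ∈ Q, g y ≤ γ₀ y + B)
    (hL : ∀ y m, ∃ g ∈ S m, γ₀ y - B ≤ g y) :
    ∃ B' : ℝ, ∀ ε > (0 : ℝ), ∃ γ, D.SmR γ ∧ (∀ y, |γ y - γ₀ y| ≤ B') ∧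
      ∀ y v, -(ε * D.levi Ψ y v) ≤ D.levi γ y v := by
  refine ⟨|B| + 6, fun ε hε => ?_⟩
  obtain ⟨H, c, Hs, c0, H0, H1, Hn, Hd⟩ := fg_step_fn
  obtain ⟨t, ⟨t1, t2⟩, t0⟩ : ∃ t : ℝ, (t ≤ 1 ∧ (2 * |B| + 6) * (2 * c * |C|) * t ≤ ε) ∧ 0 < t := by
    have g : Tendsto (fun t : ℝ => (2 * |B| + 6) * (2 * c * |C|) * t) (𝓝 0) (𝓝 0) :=
      (continuous_const.mul continuous_id).tendsto' _ _ (mul_zero _)
    exact ((((ge_mem_nhds one_pos : ∀ᶠ t : ℝ in 𝓝 0, t ≤ 1).and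
      (g.eventually (ge_mem_nhds hε))).filter_mono (nhdsWithin_le_nhds (s := Ioi 0))).and
      self_mem_nhdsWithin).exists
  have hψ' : D.SmR fun p => t * ψ p := (RD.smR_const t).mul hψ
  obtain ⟨u, hu⟩ := fg_seq hψ'.continuous (fun T => by
    simpa only [le_div_iff₀' t0] using hK (T / t)) hγ hS h1 hU hL
  refine fg_core hψ' hu Hs H0 H1 Hn (fun y v => mul_nonneg hε.le (hΨ y v)) fun i y v => ?_
  have Hs' := (contDiff_infty_iff_deriv.1 Hs).2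
  have d0 : ∀ s : ℝ, HasDerivAt (fun s : ℝ => t * s - i) t s := fun s => by
    simpa using ((hasDerivAt_id s).const_mul t).sub_const (i : ℝ)
  rw [RD.levi_comp' (χ := fun s => H (t * s - i)) (χ₁ := fun s => deriv H (t * s - i) * t)
    (c := deriv (deriv H) (t * ψ y - i) * t * t) hψ
    (fun _ => (Hs.comp (by fun_prop)).contDiffAt)
    (Eventually.of_forall fun s => (Hs.differentiable (by simp) _).hasDerivAt.comp s (d0 s))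
    (((Hs'.differentiable (by simp) _).hasDerivAt.comp (ψ y) (d0 _)).mul_const t)]
  obtain ⟨a1, a2, a3⟩ := Hd (t * ψ y - i)
  obtain ⟨b1, b2⟩ := hC y v
  have b0 := hΨ y v
  have b3 : C * D.levi Ψ y v ≤ |C| * D.levi Ψ y v := mul_le_mul_of_nonneg_right (le_abs_self C) b0
  have b4 : 0 ≤ |C| * D.levi Ψ y v := by positivity
  have e1 : deriv H (t * ψ y - i) * t * D.levi ψ y v ≤ c * t * (|C| * D.levi Ψ y v) :=
    (mul_le_mul_of_nonneg_left (b2.trans b3) (by positivity)).trans (by gcongr)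
  have e2 : deriv (deriv H) (t * ψ y - i) * t * t * ‖D.del ψ y v‖ ^ 2 ≤
      c * t * (|C| * D.levi Ψ y v) := by
    calc _ ≤ c * t * t * ‖D.del ψ y v‖ ^ 2 := by gcongr
      _ ≤ c * t * 1 * (|C| * D.levi Ψ y v) := by gcongr; exact b1.trans b3
      _ = _ := by rw [mul_one]
  have e3 := mul_le_mul_of_nonneg_left (add_le_add e1 e2) (show 0 ≤ 2 * |B| + 6 by positivity)
  have e4 := mul_le_mul_of_nonneg_right t2 b0
  linarith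

end Vale.Agent.P299
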