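import Vale.Agent.P299.Defs
import Vale.Agent.P271A.Dual
import Vale.Agent.P271A.Levi
import Vale.Agent.P271A.Part

/-! P299, part F: the regularised maximum. -/

open MeasureTheory Set Filter Topology
open scoped ContDiff

noncomputable section

namespace Vale.Agent.P299

open Vale.Agent.P271A

theorem fg_theta {δ : ℝ} (hδ : 0 < δ) : ∃ θ : ℝ → ℝ, ContDiff ℝ ∞ θ ∧
    (∀ t, 0 ≤ deriv θ t ∧ deriv θ t ≤ 1) ∧ (∀ t, 0 ≤ deriv (deriv θ) t) ∧
    (∀ t ≤ -δ, θ t = 0) ∧ (∀ t, δ ≤ t → θ t = t) ∧ ∀ t, 0 ≤ θ t ∧ t ≤ θ t ∧ θ t ≤ max t δ := by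
  obtain ⟨F, hF, hF0, -⟩ := dual_prim
  have hFd : deriv F = Real.smoothTransition := funext fun t => (hF t).deriv
  have hFs : ContDiff ℝ ∞ F := contDiff_infty_iff_deriv.2
    ⟨fun t => (hF t).differentiableAt, hFd ▸ Real.smoothTransition.contDiff⟩
  have hFm : Monotone F := monotone_of_deriv_nonneg (fun t => (hF t).differentiableAt)
    fun t => hFd ▸ Real.smoothTransition.nonneg t
  have hG : ∀ t, HasDerivAt (fun t => t - F t) (1 - Real.smoothTransition t) t :=
    fun t => (hasDerivAt_id t).sub (hF t)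
  have hGm : Monotone fun t => t - F t := monotone_of_deriv_nonneg
    (fun t => (hG t).differentiableAt) fun t => by
      rw [(hG t).deriv]
      exact sub_nonneg.2 (Real.smoothTransition.le_one t)
  have hGa : AntitoneOn (fun t => t - F t) (Ici 1) := antitoneOn_of_deriv_nonpos (convex_Ici 1)
    (fun t _ => (hG t).continuousAt.continuousWithinAt)
    (fun t _ => (hG t).differentiableAt.differentiableWithinAt) fun t ht => by
      have h1 : t ∈ Ici (1 : ℝ) := interior_subset ht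
      rw [(hG t).deriv, Real.smoothTransition.one_of_one_le h1, sub_self]
  obtain ⟨c, hc⟩ : ∃ c, c = 1 - F 1 := ⟨_, rfl⟩
  have c0 : 0 ≤ c := by
    have h1 := hGm zero_le_one
    simp only [hF0 0 le_rfl] at h1
    linarith
  have c1 : c ≤ 1 := by
    have h1 := hFm zero_le_one
    rw [hF0 0 le_rfl] at h1
    linarith
  have hd : ∀ t, HasDerivAt (fun t => δ * F (t / δ + c)) (Real.smoothTransition (t / δ + c)) t := by
    intro t
    have h1 := ((hF (t / δ + c)).comp t (((hasDerivAt_id t).div_const δ).add_const c)).const_mul δ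
    rwa [mul_one_div, mul_div_cancel₀ _ hδ.ne'] at h1
  have hd' : deriv (fun t => δ * F (t / δ + c)) = fun t => Real.smoothTransition (t / δ + c) :=
    funext fun t => (hd t).deriv
  have h0 : ∀ t ≤ -δ, δ * F (t / δ + c) = 0 := fun t ht => by
    have h1 : t / δ ≤ -1 := by rw [div_le_iff₀ hδ]; linarith
    rw [hF0 _ (by linarith), mul_zero]
  have hle : ∀ t, t ≤ δ * F (t / δ + c) := fun t => by
    have h1 : t / δ + c - F (t / δ + c) ≤ c := by
      rcases le_total (t / δ + c) 1 with h | h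
      · exact (hGm h).trans hc.ge
      · exact (hGa (mem_Ici.2 le_rfl) h h).trans hc.ge
    rw [← div_le_iff₀' hδ]
    linarith
  have h1 : ∀ t, δ ≤ t → δ * F (t / δ + c) = t := fun t ht => by
    have h2 : 1 ≤ t / δ := by rw [le_div_iff₀ hδ]; linarith
    have h3 := hGm (show 1 ≤ t / δ + c by linarith)
    refine le_antisymm ?_ (hle t)
    rw [← le_div_iff₀' hδ]
    simp only at h3
    linarith
  have hm : Monotone fun t => δ * F (t / δ + c) := fun s t h =>
    mul_le_mul_of_nonneg_left (hFm (by gcongr)) hδ.le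
  refine ⟨fun t => δ * F (t / δ + c), by fun_prop, fun t => ?_, fun t => ?_, h0, h1,
    fun t => ⟨?_, hle t, ?_⟩⟩
  · rw [hd']
    exact ⟨Real.smoothTransition.nonneg _, Real.smoothTransition.le_one _⟩
  · rw [hd']
    exact Monotone.deriv_nonneg fun s t h => Real.smoothTransition.monotone (by gcongr)
  · exact (h0 _ (min_le_right t _)).ge.trans (hm (min_le_left t _))
  · exact (hm (le_max_left t δ)).trans (h1 _ (le_max_right t δ)).le

variable {n : ℕ} {Y : Type} [TopologicalSpace Y] [MeasurableSpace Y] {D : RD n Y}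

theorem fg_levi_sub {a b : Y → ℝ} (ha : D.SmR a) (hb : D.SmR b) (y : Y) (v : Fin n → ℂ) :
    D.levi (fun p => a p - b p) y v = D.levi a y v - D.levi b y v := by
  have h := RD.levi_add (y := y) (v := v) (ha.sub hb) hb
  simp only [sub_add_cancel] at h
  linarith

/-- The regularised maximum of two functions. -/
theorem fg_max {a b : Y → ℝ} (ha : D.SmR a) (hb : D.SmR b) {δ : ℝ} (hδ : 0 < δ) :
    ∃ M, D.SmR M ∧ (∀ y, a y ≤ M y ∧ b y ≤ M y ∧ M y ≤ max (a y) (b y + δ)) ∧
      (∀ y, b y + δ ≤ a y → M y = a y) ∧ (∀ y, a y + δ ≤ b y → M y = b y) ∧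
      ∀ y v e, e ≤ D.levi a y v → e ≤ D.levi b y v → e ≤ D.levi M y v := by
  obtain ⟨θ, hs, h1, h2, h3, h4, h5⟩ := fg_theta hδ
  have hθ : D.SmR fun p => θ (a p - b p) := (ha.sub hb).comp fun _ => hs.contDiffAt
  refine ⟨fun p => b p + θ (a p - b p), hb.add hθ, fun y => ?_, fun y h => ?_, fun y h => ?_,
    fun y v e e1 e2 => ?_⟩
  · obtain ⟨g1, g2, g3⟩ := h5 (a y - b y)
    refine ⟨by linarith, by linarith, ?_⟩
    rcases le_max_iff.1 g3 with g | g
    · exact le_max_of_le_left (by linarith)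
    · exact le_max_of_le_right (by linarith)
  · simp only [h4 (a y - b y) (by linarith)]
    ring
  · simp only [h3 (a y - b y) (by linarith)]
    ring
  · rw [RD.levi_add hb hθ, RD.levi_comp (ha.sub hb) fun _ => hs.contDiffAt, fg_levi_sub ha hb]
    obtain ⟨g1, g2⟩ := h1 (a y - b y)
    have g3 := mul_nonneg (h2 (a y - b y)) (sq_nonneg ‖D.del (fun p => a p - b p) y v‖)
    have g4 := mul_nonneg g1 (sub_nonneg.2 e1)
    have g5 := mul_nonneg (sub_nonneg.2 g2) (sub_nonneg.2 e2)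
    linarith

/-- The regularised maximum of a finite family. -/
theorem fg_fin {ι : Type} {s : Finset ι} (hs : s.Nonempty) {f : ι → Y → ℝ}
    (hf : ∀ j, D.SmR (f j)) : ∀ δ > (0 : ℝ), ∃ u, D.SmR u ∧ (∀ j ∈ s, ∀ y, f j y ≤ u y) ∧
      (∀ y, ∃ j ∈ s, u y ≤ f j y + δ) ∧
      ∀ y v, (∀ j ∈ s, 0 ≤ D.levi (f j) y v) → 0 ≤ D.levi u y v := by
  induction hs using Finset.Nonempty.cons_induction with
  | singleton a =>
    refine fun δ hδ => ⟨f a, hf a, fun j hj y => ?_, fun y => ⟨a, Finset.mem_singleton_self a,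
      by linarith⟩, fun y v h => h a (Finset.mem_singleton_self a)⟩
    rw [Finset.mem_singleton.1 hj]
  | cons a s h hs ih =>
    intro δ hδ
    obtain ⟨u, h1, h2, h3, h4⟩ := ih (δ / 2) (half_pos hδ)
    obtain ⟨M, g1, g2, -, -, g3⟩ := fg_max (hf a) h1 (half_pos hδ)
    refine ⟨M, g1, fun j hj y => ?_, fun y => ?_, fun y v hv => ?_⟩
    · rcases Finset.mem_cons.1 hj with rfl | hj
      · exact (g2 y).1
      · exact (h2 j hj y).trans (g2 y).2.1
    · rcases le_max_iff.1 (g2 y).2.2 with g | g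
      · exact ⟨a, Finset.mem_cons_self a s, by linarith⟩
      · obtain ⟨j, hj, g'⟩ := h3 y
        exact ⟨j, Finset.mem_cons_of_mem hj, by linarith⟩
    · exact g3 y v 0 (hv a (Finset.mem_cons_self a s))
        (h4 y v fun j hj => hv j (Finset.mem_cons_of_mem hj))

/-- A smooth step with bounded derivatives. -/
theorem fg_step_fn : ∃ (H : ℝ → ℝ) (C : ℝ), ContDiff ℝ ∞ H ∧ 0 < C ∧
    (∀ t ≤ 1 / 4, H t = 0) ∧ (∀ t, 3 / 4 ≤ t → H t = 1) ∧ (∀ t, 0 ≤ H t) ∧
    ∀ t, 0 ≤ deriv H t ∧ deriv H t ≤ C ∧ deriv (deriv H) t ≤ C := by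
  have hs : ContDiff ℝ ∞ fun t : ℝ => Real.smoothTransition (2 * t - 1 / 2) :=
    Real.smoothTransition.contDiff.comp (by fun_prop)
  have h0 : ∀ t : ℝ, t ≤ 1 / 4 → Real.smoothTransition (2 * t - 1 / 2) = 0 := fun t ht =>
    Real.smoothTransition.zero_of_nonpos (by linarith)
  have h1 : ∀ t : ℝ, 3 / 4 ≤ t → Real.smoothTransition (2 * t - 1 / 2) = 1 := fun t ht =>
    Real.smoothTransition.one_of_one_le (by linarith)
  have hs' := (contDiff_infty_iff_deriv.1 hs).2
  have hc : HasCompactSupport (deriv fun t : ℝ => Real.smoothTransition (2 * t - 1 / 2)) := by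
    refine HasCompactSupport.intro (isCompact_Icc (a := 1 / 4) (b := 3 / 4)) fun t ht => ?_
    rcases not_and_or.1 ht with h | h
    · rw [EventuallyEq.deriv_eq (f := fun _ => 0) ((gt_mem_nhds (not_le.1 h)).mono
        fun s hs => h0 s hs.le), deriv_const]
    · rw [EventuallyEq.deriv_eq (f := fun _ => 1) ((lt_mem_nhds (not_le.1 h)).mono
        fun s hs => h1 s hs.le), deriv_const]
  obtain ⟨C₁, hC₁⟩ := hs'.continuous.bounded_above_of_compact_support hc
  obtain ⟨C₂, hC₂⟩ := (contDiff_infty_iff_deriv.1 hs').2.continuous.bounded_above_of_compact_support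
    hc.deriv
  refine ⟨_, |C₁| + |C₂| + 1, hs, by positivity, h0, h1, fun t => Real.smoothTransition.nonneg _,
    fun t => ⟨Monotone.deriv_nonneg fun s t h => Real.smoothTransition.monotone (by gcongr),
      ?_, ?_⟩⟩
  · linarith [le_abs_self C₁, abs_nonneg C₂, (le_abs_self _).trans (hC₁ t)]
  · linarith [le_abs_self C₂, abs_nonneg C₁, (le_abs_self _).trans (hC₂ t)]

end Vale.Agent.P299
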