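import Vale.Agent.P299.FG1

/-! P299, part F: translations on a Riemann domain and smooth majorants of a family. -/

open MeasureTheory Set Filter Topology
open scoped ContDiff

noncomputable section

namespace Vale.Agent.P299

open Vale.Agent.P271A

variable {n : ℕ} {Y : Type} [TopologicalSpace Y] [T2Space Y] [SecondCountableTopology Y]
  [MeasurableSpace Y] [BorelSpace Y] {D : RD n Y}

omit [T2Space Y] [SecondCountableTopology Y] [BorelSpace Y] in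
theorem fg_loc (D : RD n Y) {W : Set (Y × Y)} (hW : IsOpen W) (hd : ∀ y, (y, y) ∈ W) (y : Y) :
    ∃ R > (0 : ℝ), ∃ V, IsOpen V ∧ y ∈ V ∧ ∀ p ∈ V, p ∈ (D.ch y).source ∧ ∀ w : E n, ‖w‖ < R →
      D.pr p + w ∈ (D.ch y).target ∧ (p, D.sec y (D.pr p + w)) ∈ W := by
  have t1 : Tendsto (fun q : Y × E n => D.pr q.1 + q.2) (𝓝 (y, 0)) (𝓝 (D.pr y)) :=
    ((D.continuous_pr.comp continuous_fst).add continuous_snd).tendsto' _ _ (by simp)
  have t2 : Tendsto (fun q : Y × E n => q.1) (𝓝 (y, 0)) (𝓝 y) := continuous_fst.tendsto _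
  have t3 := t2.prodMk_nhds ((D.tendsto_sec y).comp t1)
  have h := (t2.eventually (D.source_nhds y)).and ((t1.eventually (D.target_nhds y)).and
    (t3.eventually (hW.mem_nhds (hd y))))
  obtain ⟨U, hU, T, hT, hs⟩ := mem_nhds_prod_iff.1 h
  obtain ⟨R, hR, hb⟩ := Metric.mem_nhds_iff.1 hT
  refine ⟨R, hR, interior U, isOpen_interior, mem_interior_iff_mem_nhds.2 hU, fun p hp =>
    ⟨(hs (mk_mem_prod (interior_subset hp) (mem_of_mem_nhds hT))).1, fun w hw => ?_⟩⟩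
  exact (hs (mk_mem_prod (interior_subset hp) (hb (mem_ball_zero_iff.2 hw)))).2

omit [SecondCountableTopology Y] [BorelSpace Y] in
theorem fg_uniq {y y' p : Y} {r : ℝ} (hr : 0 < r) (h : p ∈ (D.ch y).source)
    (h' : p ∈ (D.ch y').source) (g : ∀ w : E n, ‖w‖ < r → D.pr p + w ∈ (D.ch y).target)
    (g' : ∀ w : E n, ‖w‖ < r → D.pr p + w ∈ (D.ch y').target) {w : E n} (hw : ‖w‖ < r) :
    D.sec y (D.pr p + w) = D.sec y' (D.pr p + w) := by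
  have hc : ∀ z : Y, (∀ w : E n, ‖w‖ < r → D.pr p + w ∈ (D.ch z).target) →
      ContinuousOn (fun w : E n => D.sec z (D.pr p + w)) (Metric.ball 0 r) := fun z hz =>
    (D.ch z).continuousOn_symm.comp (by fun_prop) fun w hw => hz w (mem_ball_zero_iff.1 hw)
  refine (T2Space.isSeparatedMap D.pr).eqOn_of_comp_eqOn D.lh.isLocallyInjective
    (convex_ball (0 : E n) r).isPreconnected (hc y g) (hc y' g') (fun w hw => ?_)
    (Metric.mem_ball_self hr) ?_ (mem_ball_zero_iff.2 hw)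
  · exact (D.pr_sec (g w (mem_ball_zero_iff.1 hw))).trans
      (D.pr_sec (g' w (mem_ball_zero_iff.1 hw))).symm
  · simp only [add_zero, D.sec_pr h, D.sec_pr h']

omit [SecondCountableTopology Y] [BorelSpace Y] in
theorem fg_shift (D : RD n Y) {K : Set Y} (hK : IsCompact K) {W : Set (Y × Y)} (hW : IsOpen W)
    (hd : ∀ y, (y, y) ∈ W) : ∃ r > (0 : ℝ), ∃ O, IsOpen O ∧ K ⊆ O ∧ ∃ τ : E n → Y → Y,
      ∀ y ∈ O, ∃ y₀, ∀ᶠ p in 𝓝 y, p ∈ (D.ch y₀).source ∧ ∀ w : E n, ‖w‖ < r →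
        D.pr p + w ∈ (D.ch y₀).target ∧ τ w p = D.sec y₀ (D.pr p + w) ∧ (p, τ w p) ∈ W := by
  classical
  choose R hR V hV hm hp using fg_loc D hW hd
  obtain ⟨t, -, ht⟩ := hK.elim_nhds_subcover V fun y _ => (hV y).mem_nhds (hm y)
  obtain ⟨r, h1, h2⟩ := (((eventually_all_finset t).2 fun y _ => (ge_mem_nhds (hR y)).filter_mono
    (nhdsWithin_le_nhds (s := Ioi 0))).and self_mem_nhdsWithin).exists
  have hex : ∀ p : Y, ∃ c, (∃ y ∈ t, p ∈ V y) → c ∈ t ∧ p ∈ V c := fun p => by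
    by_cases h : ∃ y ∈ t, p ∈ V y
    · exact h.imp fun c hc _ => hc
    · exact ⟨p, fun h' => (h h').elim⟩
  choose c hc using hex
  refine ⟨r, h2, ⋃ y ∈ t, V y, isOpen_biUnion fun y _ => hV y, ht,
    fun w p => D.sec (c p) (D.pr p + w), fun y hy => ?_⟩
  obtain ⟨y₀, h3, h4⟩ := mem_iUnion₂.1 hy
  refine ⟨y₀, Eventually.mono ((hV y₀).mem_nhds h4) fun p h5 =>
    ⟨(hp y₀ p h5).1, fun w hw => ?_⟩⟩
  obtain ⟨h6, h7⟩ := hc p ⟨y₀, h3, h5⟩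
  exact ⟨((hp y₀ p h5).2 w (hw.trans_le (h1 y₀ h3))).1, fg_uniq h2 (hp _ p h7).1 (hp y₀ p h5).1
    (fun w hw => ((hp _ p h7).2 w (hw.trans_le (h1 _ h6))).1)
    (fun w hw => ((hp y₀ p h5).2 w (hw.trans_le (h1 y₀ h3))).1) hw,
    ((hp _ p h7).2 w (hw.trans_le (h1 _ h6))).2⟩

theorem fg_eX (ξ : E n × E n) (G : E n → ℂ) (w : E n) :
    eX ξ (fun z => G (z + w)) = fun z => eX ξ G (z + w) := by
  funext z
  simp only [eX, fderiv_comp_add_right]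

omit [T2Space Y] [SecondCountableTopology Y] [BorelSpace Y] in
theorem fg_levi_rep {φ : Y → ℝ} {y : Y} {F : E n → ℂ}
    (h : (fun p => (φ p : ℂ)) =ᶠ[𝓝 y] F ∘ D.pr) (v : Fin n → ℂ) : D.levi φ y v =
      (∑ j, ∑ k, eX (zv j) (eX (bv k) F) (D.pr y) * v j * (starRingEnd ℂ) (v k)).re := by
  unfold RD.levi
  refine congrArg _ (Finset.sum_congr rfl fun j _ => Finset.sum_congr rfl fun k _ => ?_)
  rw [RD.dz, RD.db, RD.dX_rep (RD.dX_rep_ev h)]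

theorem fg_tr (D : RD n Y) {K : Set Y} (hK : IsCompact K) {W : Set (Y × Y)} (hW : IsOpen W)
    (hd : ∀ y, (y, y) ∈ W) : ∃ r > (0 : ℝ), ∃ τ : E n → Y → Y,
      (∀ y ∈ K, ∀ w : E n, ‖w‖ < r → (y, τ w y) ∈ W) ∧
      (∀ y ∈ K, ∀ᶠ p in 𝓝 y, ∃ w : E n, ‖w‖ < r ∧ τ w y = p) ∧
      ∀ g, D.SmR g → ∀ w : E n, ‖w‖ < r → ∃ g', D.SmR g' ∧ ∀ y ∈ K, g' y = g (τ w y) ∧
        ∀ v, D.levi g' y v = D.levi g (τ w y) v := by
  obtain ⟨r, hr, O, hO, hKO, τ, h⟩ := fg_shift D hK hW hd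
  obtain ⟨χ, hχ, -, h1, h2⟩ := D.exists_cutoff hK hO hKO
  refine ⟨r, hr, τ, fun y hy w hw => ?_, fun y hy => ?_, fun g hg w hw => ?_⟩
  · obtain ⟨y₀, h3⟩ := h y (hKO hy)
    exact (h3.self_of_nhds.2 w hw).2.2
  · obtain ⟨y₀, h3⟩ := h y (hKO hy)
    have t1 : Tendsto (fun p => ‖D.pr p - D.pr y‖) (𝓝 y) (𝓝 0) :=
      (D.continuous_pr.sub continuous_const).norm.tendsto' _ _ (by simp)
    filter_upwards [h3, t1.eventually (gt_mem_nhds hr)] with p h4 h5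
    refine ⟨_, h5, ?_⟩
    rw [(h3.self_of_nhds.2 _ h5).2.1, add_sub_cancel, D.sec_pr h4.1]
  · have key : ∀ y ∈ O, ∃ y₀, D.pr y + w ∈ (D.ch y₀).target ∧ τ w y = D.sec y₀ (D.pr y + w) ∧
        (fun p => (g (τ w p) : ℂ)) =ᶠ[𝓝 y]
          (fun z => ((fun p => (g p : ℂ)) ∘ D.sec y₀) (z + w)) ∘ D.pr := fun y hy => by
      obtain ⟨y₀, h3⟩ := h y hy
      refine ⟨y₀, (h3.self_of_nhds.2 w hw).1, (h3.self_of_nhds.2 w hw).2.1,
        h3.mono fun p hp => ?_⟩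
      simp only [Function.comp_apply, (hp.2 w hw).2.1]
    refine ⟨fun p => χ p * g (τ w p), RD.sm_of_rep fun y => ?_, fun y hy => ⟨?_, fun v => ?_⟩⟩
    · by_cases hy : y ∈ O
      · obtain ⟨y₀, h3, -, h4⟩ := key y hy
        refine ⟨_, (hχ.1 y).mul ((RD.Sm.at_sec hg h3).comp (D.pr y)
          (contDiffAt_id.add contDiffAt_const)), ?_⟩
        filter_upwards [h4, D.rep_sec (fun p => (χ p : ℂ)) y] with p h5 h6
        rw [Complex.ofReal_mul, h5, h6]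
        rfl
      · refine ⟨fun _ => 0, contDiffAt_const, ?_⟩
        filter_upwards [notMem_tsupport_iff_eventuallyEq.1 fun h3 => hy (h2 h3)] with p hp
        simp [hp]
    · simp only [(h1 y hy).self_of_nhds, one_mul]
    · obtain ⟨y₀, h3, h4, h5⟩ := key y (hKO hy)
      rw [RD.levi_congr (ψ := fun p => g (τ w p)) ((h1 y hy).mono fun p hp => by
        simp only [hp, one_mul]), fg_levi_rep h5, h4,
        fg_levi_rep (D.rep_sec' _ (D.sec_mem h3)), D.pr_sec h3]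
      simp only [fg_eX]

/-- A smooth plurisubharmonic majorant of a family that is bounded by nearby values. -/
theorem fg_major {K : Set Y} (hK : IsCompact K) {W : Set (Y × Y)} (hW : IsOpen W)
    (hd : ∀ y, (y, y) ∈ W) {S : Set (Y → ℝ)} (hS : ∀ g ∈ S, D.SmR g ∧ ∀ y v, 0 ≤ D.levi g y v)
    (hne : S.Nonempty) (hb : ∀ y ∈ K, ∃ C, ∀ y', (y, y') ∈ W → ∀ g ∈ S, g y' ≤ C) {δ : ℝ}
    (hδ : 0 < δ) : ∃ u, D.SmR u ∧ ∀ y ∈ K, (∀ v, 0 ≤ D.levi u y v) ∧ (∀ g ∈ S, g y ≤ u y) ∧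
      ∃ g ∈ S, ∃ y', (y, y') ∈ W ∧ u y ≤ g y' + δ := by
  rcases K.eq_empty_or_nonempty with rfl | ⟨y₁, hy₁⟩
  · exact ⟨fun _ => 0, RD.smR_const 0, fun y hy => hy.elim⟩
  obtain ⟨r, hr, τ, h1, h2, h3⟩ := fg_tr D hK hW hd
  have key : ∀ y₀, ∃ f, D.SmR f ∧ (y₀ ∈ K → (∀ y ∈ K, (∀ v, 0 ≤ D.levi f y v) ∧
      ∃ g ∈ S, ∃ y', (y, y') ∈ W ∧ f y = g y') ∧
      ∀ᶠ p in 𝓝 y₀, ∀ g ∈ S, g p ≤ f p + δ / 2) := fun y₀ => by
    by_cases hy : y₀ ∈ K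
    swap
    · exact ⟨fun _ => 0, RD.smR_const 0, fun h => (hy h).elim⟩
    obtain ⟨C, hC⟩ := hb y₀ hy
    obtain ⟨g₁, hg₁⟩ := hne
    have hA : BddAbove {a | ∃ g ∈ S, ∃ w : E n, ‖w‖ < r ∧ a = g (τ w y₀)} :=
      ⟨C, by
        rintro _ ⟨g, hg, w, hw, rfl⟩
        exact hC _ (h1 y₀ hy w hw) g hg⟩
    obtain ⟨_, ⟨g₀, hg₀, w₀, hw₀, rfl⟩, h4⟩ := exists_lt_of_lt_csSup
      (s := {a | ∃ g ∈ S, ∃ w : E n, ‖w‖ < r ∧ a = g (τ w y₀)})
      ⟨_, g₁, hg₁, 0, by simpa using hr, rfl⟩ (sub_lt_self _ (half_pos hδ))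
    obtain ⟨f, h5, h6⟩ := h3 g₀ (hS g₀ hg₀).1 w₀ hw₀
    refine ⟨f, h5, fun _ => ⟨fun y hy' => ⟨fun v => ?_, g₀, hg₀, _, h1 y hy' w₀ hw₀,
      (h6 y hy').1⟩, ?_⟩⟩
    · rw [(h6 y hy').2]
      exact (hS g₀ hg₀).2 _ _
    · rw [← (h6 y₀ hy).1] at h4
      filter_upwards [h2 y₀ hy, h5.continuous.continuousAt.eventually (lt_mem_nhds h4)]
        with p ⟨w, hw, h7⟩ h8 g hg
      have h9 := le_csSup hA ⟨g, hg, w, hw, rfl⟩
      rw [h7] at h9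
      linarith
  choose f hf hf' using key
  obtain ⟨t, ht, ht'⟩ := hK.elim_nhds_subcover (fun y => {p | ∀ g ∈ S, g p ≤ f y p + δ / 2})
    fun y hy => (hf' y hy).2
  obtain ⟨y₂, hy₂, -⟩ := mem_iUnion₂.1 (ht' hy₁)
  obtain ⟨u, u1, u2, u3, u4⟩ := fg_fin ⟨y₂, hy₂⟩ hf _ (half_pos hδ)
  refine ⟨fun p => u p + δ / 2, u1.add (RD.smR_const _), fun y hy => ⟨fun v => ?_,
    fun g hg => ?_, ?_⟩⟩
  · rw [RD.levi_add u1 (RD.smR_const _), RD.levi_const, add_zero]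
    exact u4 y v fun j hj => ((hf' j (ht j hj)).1 y hy).1 v
  · obtain ⟨j, hj, h4⟩ := mem_iUnion₂.1 (ht' hy)
    have h5 := h4 g hg
    have h6 := u2 j hj y
    simp only
    linarith
  · obtain ⟨j, hj, h4⟩ := u3 y
    obtain ⟨g, hg, y', h5, h6⟩ := ((hf' j (ht j hj)).1 y hy).2
    refine ⟨g, hg, y', h5, ?_⟩
    simp only
    linarith

end Vale.Agent.P299
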