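import Vale.Agent.P299.M1a
import Vale.Agent.P271A.Levi

/-! P299: elementary properties of affine models. -/

open MeasureTheory Set Filter Topology Matrix
open scoped ContDiff ENNReal ComplexConjugate ComplexOrder

noncomputable section

namespace Vale.Agent.P299

open Vale.Agent.P271A

variable {n N : ℕ} {Y : Type} [TopologicalSpace Y] [T2Space Y] [SecondCountableTopology Y]
  [MeasurableSpace Y] [BorelSpace Y] {A : AD n N Y}

set_option linter.unusedSectionVars false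

theorem La_one (A : AD n N Y) : (1 : Y → ℂ) ∈ A.S 0 0 :=
  ⟨RD.hol_const 1, 1, fun y => by simp⟩

theorem La_lag {κ : Type} [Fintype κ] (a b p q : κ → ℂ) :
    ∑ e : κ × κ, (b e.1 * p e.2 - b e.2 * p e.1) * (a e.1 * q e.2 - a e.2 * q e.1) =
      2 * ((∑ i, a i * b i) * (∑ i, q i * p i) - (∑ i, q i * b i) * ∑ i, a i * p i) := by
  have e : ∀ i i', (b i * p i' - b i' * p i) * (a i * q i' - a i' * q i) =
      a i * b i * (q i' * p i') + q i * p i * (a i' * b i') - q i * b i * (a i' * p i') -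
        a i * p i * (q i' * b i') := fun i i' => by ring
  simp only [Fintype.sum_prod_type, e, Finset.sum_sub_distrib, Finset.sum_add_distrib,
    ← Finset.mul_sum, ← Finset.sum_mul]
  ring

theorem AD.S_mul {m m' : ℤ} {l l' : ℕ} {f g : Y → ℂ} (hf : f ∈ A.S m l) (hg : g ∈ A.S m' l') :
    f * g ∈ A.S (m + m') (l + l') := by
  obtain ⟨h1, C, h⟩ := hf
  obtain ⟨h2, C', h'⟩ := hg
  refine ⟨h1.mul h2, C * C', fun y => ?_⟩
  rw [Pi.mul_apply, norm_mul, mul_pow]
  refine (mul_le_mul (h y) (h' y) (sq_nonneg _) ((sq_nonneg _).trans (h y))).trans_eq ?_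
  push_cast
  rw [add_mul, Real.exp_add, pow_add]
  ring

theorem AD.S_pow {m : ℤ} {l : ℕ} {f : Y → ℂ} (hf : f ∈ A.S m l) (j : ℕ) :
    f ^ j ∈ A.S (j * m) (j * l) := by
  induction j with
  | zero => simpa using La_one A
  | succ j ih =>
    rw [pow_succ, Nat.cast_succ, add_mul, add_mul, one_mul, one_mul]
    exact AD.S_mul ih hf

theorem AD.Good.one_le_nx (hA : A.Good) (y : Y) : 1 ≤ A.nx y := by
  have h := Finset.single_le_sum (f := fun i => ‖A.x i y‖ ^ 2) (fun i _ => sq_nonneg _)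
    (Finset.mem_univ 0)
  simpa [hA.x0, AD.nx] using h

theorem AD.Good.S_mono (hA : A.Good) {m : ℤ} {l l' : ℕ} (h : l ≤ l') : A.S m l ≤ A.S m l' := by
  rintro f ⟨h1, C, h2⟩
  refine ⟨h1, |C|, fun y => (h2 y).trans ?_⟩
  have h3 := hA.one_le_nx y
  exact mul_le_mul (le_abs_self C) (mul_le_mul_of_nonneg_left (pow_le_pow_right₀ h3 h)
    (Real.exp_pos _).le) (by positivity) (abs_nonneg C)

theorem AD.Good.ev_mem (hA : A.Good) {p : MvPolynomial (Fin (N + 1)) ℂ} {l : ℕ}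
    (h : p.totalDegree ≤ l) : A.ev p ∈ A.S 0 l := by
  have hx : ∀ i, A.x i ∈ A.S 0 1 := fun i => ⟨hA.hx i, 1, fun y => by
    simpa [AD.nx] using Finset.single_le_sum (f := fun i => ‖A.x i y‖ ^ 2) (fun i _ => sq_nonneg _)
      (Finset.mem_univ i)⟩
  have hp : ∀ (d : Fin (N + 1) → ℕ) (s : Finset (Fin (N + 1))),
      ∏ i ∈ s, A.x i ^ d i ∈ A.S 0 (∑ i ∈ s, d i) := fun d s => by
    induction s using Finset.induction_on with
    | empty => exact La_one A
    | insert i s hi ih =>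
      rw [Finset.prod_insert hi, Finset.sum_insert hi]
      simpa using AD.S_mul (AD.S_pow (hx i) (d i)) ih
  have e : A.ev p = ∑ d ∈ p.support, p.coeff d • ∏ i, A.x i ^ d i := by
    funext y
    simp [AD.ev, MvPolynomial.eval_eq']
  rw [e]
  refine Submodule.sum_mem _ fun d hd => Submodule.smul_mem _ _ (hA.S_mono ?_ (hp d _))
  refine le_trans (le_of_eq ?_) ((MvPolynomial.le_totalDegree hd).trans h)
  rw [Finsupp.sum_fintype _ _ fun _ => rfl]

/-- The identity theorem. -/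
theorem AD.Good.dense_ne (hA : A.Good) {f : Y → ℂ} (hf : A.D.Hol f) (h : f ≠ 0) :
    Dense {y | f y ≠ 0} := by
  have hc : IsClosed (interior {y | f y = 0}) := by
    refine isClosed_of_closure_subset fun y hy => mem_interior_iff_mem_nhds.2 ?_
    obtain ⟨r, hr, hb⟩ := Metric.mem_nhds_iff.1 (A.D.target_nhds y)
    have hb' := A.D.continuous_pr.continuousAt (Metric.ball_mem_nhds (A.D.pr y) hr)
    obtain ⟨q, ⟨q1, q2⟩, q3⟩ := mem_closure_iff_nhds.1 hy _ (inter_mem (A.D.source_nhds y) hb')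
    have an : AnalyticOnNhd ℂ (f ∘ A.D.sec y) (Metric.ball (A.D.pr y) r) := fun z hz =>
      P278F.analyticAt_of_eventually (mem_of_superset (Metric.isOpen_ball.mem_nhds hz)
        fun w hw => hf.at_sec (hb hw))
    have t := A.D.tendsto_sec' (A.D.pr_mem q1)
    rw [A.D.sec_pr q1] at t
    have z0 := an.eqOn_zero_of_preconnected_of_eventuallyEq_zero
      (convex_ball _ _).isPreconnected q2 (t (mem_interior_iff_mem_nhds.1 q3))
    filter_upwards [A.D.rep_sec f y, hb'] with w h1 h2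
    exact h1.trans (z0 h2)
  have : PreconnectedSpace Y := ⟨hA.conn.isPreconnected⟩
  rcases isClopen_iff.1 ⟨hc, isOpen_interior⟩ with h1 | h1
  · exact interior_eq_empty_iff_dense_compl.1 h1
  · exact (h (funext fun y =>
      interior_subset (s := {y | f y = 0}) (h1.ge (mem_univ y)))).elim

theorem AD.Good.mul_ne (hA : A.Good) {f g : Y → ℂ} (hf : A.D.Hol f) (hg : A.D.Hol g) (h : f ≠ 0)
    (h' : g ≠ 0) : f * g ≠ 0 := by
  obtain ⟨y, h1, h2⟩ := (hA.dense_ne hg h').inter_open_nonempty _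
    (isOpen_ne_fun hf.sm.continuous continuous_const) (Function.ne_iff.1 h)
  exact Function.ne_iff.2 ⟨y, mul_ne_zero h1 h2⟩

theorem AD.Good.exists_ne (hA : A.Good) (m : ℤ) : ∃ d, ∃ e ∈ A.S m d, e ≠ 0 := by
  obtain ⟨d, r, e, c, hc, he, h⟩ := hA.bpf m
  obtain ⟨y, -⟩ := hA.conn.nonempty
  by_contra hn
  have h0 : ∀ i, e i = 0 := fun i => by_contra fun hi => hn ⟨d, e i, he i, hi⟩
  have h1 := h y
  have h2 := hA.one_le_nx y
  simp only [h0, Pi.zero_apply, norm_zero, ne_eq, OfNat.ofNat_ne_zero, not_false_eq_true,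
    zero_pow, Finset.sum_const_zero] at h1
  exact absurd h1 (not_le.2 (by positivity))

/-- The Levi form of the logarithm of a sum of squares. -/
theorem LMd_lg {κ : Type} [Fintype κ] {D : RD n Y} {a : κ → Y → ℂ} (ha : ∀ i, D.Hol (a i))
    (h : ∀ y, ∃ i, a i y ≠ 0) (y : Y) : LMd D (lg a) y =
      ((2 * (∑ i, ‖a i y‖ ^ 2) ^ 2 : ℝ) : ℂ)⁻¹ • ∑ e : κ × κ,
        vecMulVec (star fun j => a e.1 y * D.dz j (a e.2) y - a e.2 y * D.dz j (a e.1) y)
          fun j => a e.1 y * D.dz j (a e.2) y - a e.2 y * D.dz j (a e.1) y := by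
  have q0 : ∀ p, (∑ i, ‖a i p‖ ^ 2) ≠ 0 := fun p => by
    obtain ⟨i, hi⟩ := h p
    exact (Finset.sum_pos' (fun i _ => sq_nonneg _) ⟨i, Finset.mem_univ i, by positivity⟩).ne'
  have e : ∀ p, ((∑ i, ‖a i p‖ ^ 2 : ℝ) : ℂ) = ∑ i, a i p * conj (a i p) := fun p => by
    simp [Complex.mul_conj']
  have s1 : ∀ i, D.Sm fun p => a i p * conj (a i p) := fun i => (ha i).sm.mul (ha i).sm.conj
  have hQ : D.SmR fun p => ∑ i, ‖a i p‖ ^ 2 := by
    simpa only [RD.SmR, e] using RD.Sm.sum Finset.univ fun i _ => s1 i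
  have hI : D.SmR fun p => (∑ i, ‖a i p‖ ^ 2)⁻¹ := hQ.comp fun p => contDiffAt_inv ℝ (q0 p)
  ext j k
  have s2 : ∀ i, D.Sm fun p => conj (D.dz j (a i) p) := fun i => ((ha i).dz j).sm.conj
  have d1 : D.db j (fun p => (lg a p : ℂ)) =
      fun p => (((∑ i, ‖a i p‖ ^ 2)⁻¹ : ℝ) : ℂ) * ∑ i, a i p * conj (D.dz j (a i) p) := by
    funext p
    refine (RD.dX_comp hQ (Real.hasDerivAt_log (q0 p))).trans (congrArg _ ?_)
    simp only [e]
    rw [RD.dX_sum _ fun i _ => s1 i]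
    refine Finset.sum_congr rfl fun i _ => ?_
    rw [RD.dX_mul (ha i).sm (ha i).sm.conj, RD.conj_dz]
    exact (congrArg (fun t => t * conj (a i p) + _) ((ha i).db j p)).trans (by simp [RD.db])
  have d2 : D.dz k (fun p => (((∑ i, ‖a i p‖ ^ 2)⁻¹ : ℝ) : ℂ)) y =
      ((-((∑ i, ‖a i y‖ ^ 2) ^ 2)⁻¹ : ℝ) : ℂ) * ∑ i, D.dz k (a i) y * conj (a i y) := by
    refine (RD.dX_comp hQ (hasDerivAt_inv (q0 y))).trans (congrArg _ ?_)
    simp only [e]
    rw [RD.dX_sum _ fun i _ => s1 i]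
    refine Finset.sum_congr rfl fun i _ => ?_
    rw [RD.dX_mul (ha i).sm (ha i).sm.conj]
    exact (congrArg (fun t => _ + a i y * t) ((ha i).dz_conj k y)).trans (by simp [RD.dz])
  have d3 : D.dz k (fun p => ∑ i, a i p * conj (D.dz j (a i) p)) y =
      ∑ i, D.dz k (a i) y * conj (D.dz j (a i) y) := by
    refine (RD.dX_sum _ (fun i _ => (ha i).sm.mul (s2 i)) y).trans
      (Finset.sum_congr rfl fun i _ => ?_)
    rw [RD.dX_mul (ha i).sm (s2 i)]
    exact (congrArg (fun t => _ + a i y * t) (((ha i).dz j).dz_conj k y)).trans (by simp [RD.dz])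
  have d4 := RD.dX_mul (ξ := zv k) hI (RD.Sm.sum Finset.univ fun i _ => (ha i).sm.mul (s2 i)) y
  have q1 : (∑ i, a i y * conj (a i y)) ≠ 0 := by
    rw [← e]
    exact Complex.ofReal_ne_zero.2 (q0 y)
  rw [LMd, Matrix.of_apply, d1, RD.dz, d4, ← RD.dz, ← RD.dz, d2, d3, Matrix.smul_apply,
    Matrix.sum_apply]
  simp only [vecMulVec_apply, Pi.star_apply, star_sub, star_mul', Complex.star_def, smul_eq_mul]
  rw [La_lag (fun i => a i y) (fun i => conj (a i y)) (fun i => conj (D.dz j (a i) y))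
    fun i => D.dz k (a i) y]
  rw [Complex.ofReal_neg, Complex.ofReal_inv, Complex.ofReal_inv, Complex.ofReal_mul,
    Complex.ofReal_pow, e, Complex.ofReal_ofNat]
  field_simp
  ring

/-- A plurisubharmonic exhaustion. -/
theorem AD.Good.exh (hA : A.Good) : ∃ ℓ : Y → ℝ, A.D.SmR ℓ ∧ (∀ c, IsCompact {y | ℓ y ≤ c}) ∧
    (∀ y, 0 ≤ ℓ y) ∧ ∀ y v, A.D.levi ℓ y v = A.l0 * A.D.levi A.ρ y v := by
  obtain ⟨h1, C, hC⟩ := hA.ev_mem hA.deg0
  have p0 : ∀ y, 0 < ‖A.ev A.p0 y‖ ^ 2 := fun y => pow_pos (norm_pos_iff.2 (hA.ne0 y)) 2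
  have n0 : ∀ y, 0 < A.nx y ^ A.l0 := fun y => pow_pos (one_pos.trans_le (hA.one_le_nx y)) _
  have c0 : 0 < |C| + 1 := by positivity
  have s1 : A.D.SmR fun y => A.l0 * A.ρ y := (RD.smR_const _).mul hA.pos.1
  have s2 : A.D.SmR fun y => Real.log (‖A.ev A.p0 y‖ ^ 2) := h1.sm.normSq.log fun y => (p0 y).ne'
  have s3 : A.D.SmR fun y => -1 * Real.log (‖A.ev A.p0 y‖ ^ 2) := (RD.smR_const _).mul s2
  have s4 := (s1.add s3).add (RD.smR_const (Real.log (|C| + 1)))
  have e : ∀ y, A.l0 * A.ρ y + -1 * Real.log (‖A.ev A.p0 y‖ ^ 2) + Real.log (|C| + 1) =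
      Real.log ((|C| + 1) * A.nx y ^ A.l0 / ‖A.ev A.p0 y‖ ^ 2) := fun y => by
    rw [Real.log_div (mul_pos c0 (n0 y)).ne' (p0 y).ne', Real.log_mul c0.ne' (n0 y).ne',
      Real.log_pow (A.nx y)]
    simp only [AD.ρ, lg, AD.nx]
    ring
  refine ⟨_, s4, fun c => ?_, fun y => ?_, fun y v => ?_⟩
  · refine (hA.cpt ((|C| + 1) / Real.exp c) (by positivity)).of_isClosed_subset
      (isClosed_le s4.continuous continuous_const) fun y hy => ?_
    rw [mem_ofPred_eq, e, Real.log_le_iff_le_exp (div_pos (mul_pos c0 (n0 y)) (p0 y)),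
      div_le_iff₀ (p0 y)] at hy
    rw [mem_ofPred_eq, div_mul_eq_mul_div, div_le_iff₀' (Real.exp_pos c)]
    exact hy
  · rw [e]
    refine Real.log_nonneg ((one_le_div (p0 y)).2 ((hC y).trans ?_))
    simp only [Int.cast_zero, zero_mul, Real.exp_zero, one_mul]
    exact mul_le_mul_of_nonneg_right (by linarith [le_abs_self C]) (n0 y).le
  · rw [RD.levi_add (s1.add s3) (RD.smR_const _), RD.levi_add s1 s3, RD.levi_const,
      RD.levi_const_mul hA.pos.1, RD.levi_const_mul s2, RD.levi_log_normSq h1 hA.ne0]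
    ring

end Vale.Agent.P299
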