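import Vale.Agent.P299.FL1
import Vale.Agent.P299.La

/-! P299, part F: the lower bound. -/

open MeasureTheory Set Filter Topology
open scoped ContDiff ENNReal ComplexConjugate ComplexOrder

noncomputable section

namespace Vale.Agent.P299

open Vale.Agent.P271A

variable {n N : ℕ} {Y : Type} [TopologicalSpace Y] [T2Space Y] [SecondCountableTopology Y]
  [MeasurableSpace Y] [BorelSpace Y] {D : RD n Y}

theorem fl_b {d B S M w x ρ ε : ℝ} {k : ℕ} (hρ : 0 < ρ) (hε : 0 ≤ ε) (hd : |d| ≤ B) (h1 : ρ ≤ S)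
    (h2 : S ≤ 2 * ρ) {T : ℝ} (h3 : 1 ≤ T) (h4 : T ≤ M) (w0 : 0 ≤ w) (hw : w ≤ x) :
    (d * -ρ⁻¹) ^ 2 * (S * T ^ 2) * (w / T / (S + ε) ^ k) ≤
      (B * ρ⁻¹) ^ 2 * (2 * ρ) * M / ρ ^ k * x := by
  have T0 : 0 < T := by linarith
  have S0 : 0 < S := by linarith
  have M0 : 0 < M := by linarith
  have e1 : (d * -ρ⁻¹) ^ 2 ≤ (B * ρ⁻¹) ^ 2 := by
    rw [mul_pow, mul_pow, neg_sq]
    exact mul_le_mul_of_nonneg_right (sq_le_sq' (abs_le.1 hd).1 (abs_le.1 hd).2) (sq_nonneg _)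
  calc _ = (d * -ρ⁻¹) ^ 2 * S * T / (S + ε) ^ k * w := by field_simp
    _ ≤ _ := by gcongr; linarith

theorem fl_fin {g h : ℂ} {T s M w x : ℝ} {k : ℕ} (h1 : 1 ≤ T) (h2 : 0 < s) (h3 : s ≤ M * T)
    (w0 : 0 ≤ w) (x0 : 0 ≤ x) (hg : ‖g‖ ≤ 1) (hx : g ≠ 0 → w ≤ x) :
    ‖h‖ ^ 2 * (w / T ^ (k + 1)) ≤ 2 * M ^ k * (‖g - h‖ ^ 2 * (w / T / s ^ k)) + 2 * x := by
  have T0 : 0 < T := by linarith
  have e1 : ‖h‖ ^ 2 ≤ 2 * ‖g - h‖ ^ 2 + 2 * ‖g‖ ^ 2 := by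
    have h4 := norm_sub_le g (g - h)
    rw [sub_sub_cancel] at h4
    nlinarith [pow_le_pow_left₀ (norm_nonneg _) h4 2, sq_nonneg (‖g‖ - ‖g - h‖)]
  have e2 : w / T ^ (k + 1) ≤ M ^ k * (w / T / s ^ k) := by
    rw [div_div, ← mul_div_assoc, div_le_div_iff₀ (by positivity) (by positivity)]
    calc w * (T * s ^ k) ≤ w * (T * (M * T) ^ k) := by gcongr
      _ = _ := by ring
  have e3 : ‖g‖ ^ 2 * (w / T ^ (k + 1)) ≤ x := by
    by_cases h4 : g = 0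
    · simpa [h4] using x0
    · exact (mul_le_of_le_one_left (by positivity) (pow_le_one₀ (norm_nonneg _) hg)).trans
        ((div_le_self w0 (one_le_pow₀ h1)).trans (hx h4))
  have e4 := mul_le_mul_of_nonneg_right e1 (show 0 ≤ w / T ^ (k + 1) by positivity)
  have e5 := mul_le_mul_of_nonneg_left e2 (sq_nonneg ‖g - h‖)
  linarith

theorem fl_main {α : ℕ} {a : Fin (α + 1) → Y → ℂ} (ha : ∀ i, D.Hol (a i)) (h0 : a 0 = 1)
    {ℓ V : Y → ℝ} (hℓ : D.SmR ℓ) (hc : ∀ c, IsCompact {y | ℓ y ≤ c})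
    (hp : ∀ y v, 0 ≤ D.levi ℓ y v) (hV : Integrable V D.μ) (V0 : ∀ y, 0 ≤ V y) (y₀ : Y) {ρ : ℝ}
    (hρ : 0 < ρ) : ∃ K : ℝ, 0 < K ∧ ∀ (Φ : Y → ℝ) (Λ : ℝ), 0 < Λ → D.SmR Φ →
      (∀ y v, 0 ≤ D.levi Φ y v) →
      (∀ y, ∑ i, ‖a i y - a i y₀‖ ^ 2 ≤ 2 * ρ → Real.exp (-Φ y) ≤ Λ * V y) →
      ∃ h, D.Hol h ∧ 1 / 2 ≤ ‖h y₀‖ ∧
        nO D (fun y => Φ y + (n + 2 : ℕ) * lg a y) h ≤ ENNReal.ofReal (K * Λ) := by
  obtain ⟨B, hB⟩ := wy_deriv_bound
  obtain ⟨S, hS⟩ : ∃ S : Y → ℝ, S = fun y => ∑ i, ‖a i y - a i y₀‖ ^ 2 := ⟨_, rfl⟩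
  obtain ⟨T, hT⟩ : ∃ T : Y → ℝ, T = fun y => ∑ i, ‖a i y‖ ^ 2 := ⟨_, rfl⟩
  have ha' : ∀ i, D.Hol fun p => a i p - a i y₀ := fun i => (ha i).sub (RD.hol_const _)
  have Ss : D.SmR S := hS ▸ RD.SmR.sum _ fun i _ => (ha' i).sm.normSq
  have Ts : D.SmR T := hT ▸ RD.SmR.sum _ fun i _ => (ha i).sm.normSq
  have S0 : ∀ y, 0 ≤ S y := fun y => hS ▸ Finset.sum_nonneg fun _ _ => sq_nonneg _
  have T1 : ∀ y, 1 ≤ T y := fun y => hT ▸ fl_one h0 y
  have T0 : ∀ y, 0 < T y := fun y => one_pos.trans_le (T1 y)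
  have ST : ∀ y, S y ≤ 2 * T y + 2 * T y₀ := fun y => by
    simpa only [hS, hT, norm_neg, ← sub_eq_add_neg] using fl_tri (fun i => a i y) fun i => -a i y₀
  have TS : ∀ y, T y ≤ 2 * S y + 2 * T y₀ := fun y => by
    simpa only [hS, hT, sub_add_cancel] using fl_tri (fun i => a i y - a i y₀) fun i => a i y₀
  have eT : ∀ y, Real.exp (lg a y) = T y := fun y => by
    rw [hT]
    exact Real.exp_log (one_pos.trans_le (fl_one h0 y))
  obtain ⟨K₁, hK₁⟩ : ∃ K₁ : ℝ, K₁ = (B * ρ⁻¹) ^ 2 * (2 * ρ) * (4 * ρ + 2 * T y₀) / ρ ^ (n + 1) :=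
    ⟨_, rfl⟩
  have I0 : 0 ≤ ∫ y, V y ∂D.μ := integral_nonneg V0
  have Ty := T0 y₀
  have K0 : 0 ≤ K₁ := by rw [hK₁]; positivity
  refine ⟨2 * (2 * T y₀ + 3) ^ (n + 1) * (K₁ * ∫ y, V y ∂D.μ) + 2 * ∫ y, V y ∂D.μ + 1,
    by positivity, fun Φ Λ hΛ hΦ hΦp hΦV => ?_⟩
  have hs : ContDiff ℝ ∞ Real.smoothTransition := Real.smoothTransition.contDiff
  have hd : ∀ t : ℝ, HasDerivAt (fun t => Real.smoothTransition (2 - t * ρ⁻¹))
      (deriv Real.smoothTransition (2 - t * ρ⁻¹) * -ρ⁻¹) t := fun t => by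
    have h1 := ((hasDerivAt_id t).mul_const ρ⁻¹).const_sub 2
    rw [one_mul] at h1
    exact (hs.differentiable (by simp) _).hasDerivAt.comp t h1
  have gs : D.SmR fun p => Real.smoothTransition (2 - S p * ρ⁻¹) :=
    Ss.comp (χ := fun t => Real.smoothTransition (2 - t * ρ⁻¹))
      fun _ => (hs.comp (by fun_prop)).contDiffAt
  obtain ⟨L, L0, hL⟩ := fl_lip ha y₀
  have Sy : S y₀ < ρ := by simpa [hS] using hρ
  obtain ⟨ε, ε0, ε1, hm⟩ := fl_mean (D := D) (S := S) (W := fun p => Real.exp (-Φ p) / T p)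
    (g := fun p => (Real.smoothTransition (2 - S p * ρ⁻¹) : ℝ)) (y := y₀) (L := L)
    (R := K₁ * (Λ * ∫ y, V y ∂D.μ))
    ((Ss.continuous.continuousAt.eventually (gt_mem_nhds Sy)).mono fun p h => by
      have h1 : S p * ρ⁻¹ ≤ 1 := by rw [mul_inv_le_iff₀ hρ]; linarith
      simp only [Real.smoothTransition.one_of_one_le (show 1 ≤ 2 - S p * ρ⁻¹ by linarith),
        Complex.ofReal_one])
    (hΦ.neg.exp.continuous.continuousAt.div Ts.continuous.continuousAt Ty.ne') (by positivity) L0 S0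
    (by rw [hS]; exact hL) (by positivity)
  have Se : ∀ y, 0 < S y + ε := fun y => add_pos_of_nonneg_of_pos (S0 y) ε0
  have ls : D.SmR fun p => Real.log (S p + ε) := (Ss.add (RD.smR_const _)).log fun y => (Se y).ne'
  have ls' : D.SmR fun p => ((n + 1 : ℕ) : ℝ) * Real.log (S p + ε) := (RD.smR_const _).mul ls
  have ws := (hΦ.add (fl_sm ha h0)).add ls'
  have wl : ∀ y v, D.levi (lg a) y v ≤ D.levi
      (fun p => Φ p + lg a p + ((n + 1 : ℕ) : ℝ) * Real.log (S p + ε)) y v := fun y v => by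
    rw [RD.levi_add (hΦ.add (fl_sm ha h0)) ls', RD.levi_add hΦ (fl_sm ha h0),
      RD.levi_const_mul ls]
    have h1 : 0 ≤ D.levi (fun p => Real.log (S p + ε)) y v := by
      rw [hS] at Se ⊢
      exact RD.levi_log_sum_nonneg _ (fun i _ => ha' i) ε0.le Se
    have h2 := mul_nonneg (Nat.cast_nonneg (α := ℝ) (n + 1)) h1
    linarith [hΦp y v]
  have we : ∀ p, Real.exp (-(Φ p + lg a p + ((n + 1 : ℕ) : ℝ) * Real.log (S p + ε))) =
      Real.exp (-Φ p) / T p / (S p + ε) ^ (n + 1) := fun p => by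
    rw [neg_add, neg_add, ← sub_eq_add_neg, ← sub_eq_add_neg, Real.exp_sub, Real.exp_sub, eT,
      Real.exp_nat_mul, Real.exp_log (Se p)]
  have hb : ∀ p, (deriv Real.smoothTransition (2 - S p * ρ⁻¹) * -ρ⁻¹) ^ 2 * (S p * T p ^ 2) *
      Real.exp (-(Φ p + lg a p + ((n + 1 : ℕ) : ℝ) * Real.log (S p + ε))) ≤ K₁ * (Λ * V p) := by
    intro p
    by_cases h : deriv Real.smoothTransition (2 - S p * ρ⁻¹) = 0
    · rw [h, zero_mul, zero_pow two_ne_zero, zero_mul, zero_mul]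
      exact mul_nonneg K0 (mul_nonneg hΛ.le (V0 p))
    · obtain ⟨h1, h2⟩ := fl_deriv h
      have h3 : S p ≤ 2 * ρ := by rw [← mul_inv_le_iff₀ hρ]; linarith
      have h4 : 1 * ρ ≤ S p := by rw [← le_mul_inv_iff₀ hρ]; linarith
      rw [we, hK₁]
      exact fl_b hρ ε0.le (hB _) (by linarith) h3 (T1 p) (by linarith [TS p]) (Real.exp_pos _).le
        (hΦV p (by rw [hS] at h3; exact h3))
  have b0 : ∀ p, 0 ≤ (deriv Real.smoothTransition (2 - S p * ρ⁻¹) * -ρ⁻¹) ^ 2 * (S p * T p ^ 2) :=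
    fun p => mul_nonneg (sq_nonneg _) (mul_nonneg (S0 p) (sq_nonneg _))
  have hVi := (hV.const_mul Λ).const_mul K₁
  have hbi : Integrable (fun p => (deriv Real.smoothTransition (2 - S p * ρ⁻¹) * -ρ⁻¹) ^ 2 *
      (S p * T p ^ 2) * Real.exp (-(Φ p + lg a p + ((n + 1 : ℕ) : ℝ) * Real.log (S p + ε))))
      D.μ := by
    have c1 := Ss.continuous
    have c2 := Ts.continuous
    have c3 := ws.neg.exp.continuous
    have c4 := hs.continuous_deriv (by simp)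
    refine hVi.mono' (Continuous.aestronglyMeasurable (Continuous.mul (by fun_prop) c3))
      (Eventually.of_forall fun p => ?_)
    rw [Real.norm_of_nonneg (mul_nonneg (b0 p) (Real.exp_pos _).le)]
    exact hb p
  obtain ⟨h, hh, hi, hI⟩ := RD.horm hℓ hc hp ws (fun y v => (fl_psh ha h0 y v).trans (wl y v)) gs
    b0 hbi fun y v => by
      rw [fl_db Ss (hd _), mul_assoc]
      refine mul_le_mul_of_nonneg_left ?_ (sq_nonneg _)
      have h1 := fl_del ha h0 (fun i => a i y₀) y v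
      rw [← hS, ← congrFun hS y, ← congrFun hT y, ← mul_assoc] at h1
      exact h1.trans (mul_le_mul_of_nonneg_left (wl y v) (mul_nonneg (S0 y) (sq_nonneg _)))
  have hI' := hI.trans (integral_mono hbi hVi hb)
  rw [integral_const_mul, integral_const_mul] at hI'
  simp only [we] at hi hI'
  have n0 : ∀ p, 0 ≤ Real.exp (-Φ p) / T p / (S p + ε) ^ (n + 1) := fun p => by
    have := T0 p
    have := Se p
    positivity
  refine ⟨h, hh, hm h hh ?_, ?_⟩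
  · rw [← ofReal_integral_eq_lintegral_ofReal hi
      (Eventually.of_forall fun p => mul_nonneg (sq_nonneg _) (n0 p))]
    exact ENNReal.ofReal_le_ofReal hI'
  · have M0 : 0 ≤ 2 * (2 * T y₀ + 3) ^ (n + 1) := by positivity
    have hi1 := hi.const_mul (2 * (2 * T y₀ + 3) ^ (n + 1))
    have hi2 := (hV.const_mul Λ).const_mul 2
    refine (lintegral_mono fun p => ENNReal.ofReal_le_ofReal ?_).trans
      ((ofReal_integral_eq_lintegral_ofReal (hi1.add hi2) (Eventually.of_forall fun p => add_nonneg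
        (mul_nonneg M0 (mul_nonneg (sq_nonneg _) (n0 p)))
        (mul_nonneg zero_le_two (mul_nonneg hΛ.le (V0 p))))).ge.trans
        (ENNReal.ofReal_le_ofReal ?_))
    · rw [neg_add, ← sub_eq_add_neg, Real.exp_sub, Real.exp_nat_mul, eT, Pi.add_apply]
      refine fl_fin (T1 p) (Se p) ?_ (Real.exp_pos _).le (mul_nonneg hΛ.le (V0 p)) ?_ fun h1 => ?_
      · nlinarith [ST p, T1 p]
      · rw [Complex.norm_real, Real.norm_of_nonneg (Real.smoothTransition.nonneg _)]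
        exact Real.smoothTransition.le_one _
      · have h2 : 0 < 2 - S p * ρ⁻¹ := not_le.1 fun h2 => h1 (by
          rw [Real.smoothTransition.zero_of_nonpos h2, Complex.ofReal_zero])
        have h3 : S p ≤ 2 * ρ := by rw [← mul_inv_le_iff₀ hρ]; linarith
        exact hΦV p (by rw [hS] at h3; exact h3)
    · rw [integral_add' hi1 hi2, integral_const_mul, integral_const_mul, integral_const_mul]
      linarith [mul_le_mul_of_nonneg_left hI' M0]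

omit [T2Space Y] [SecondCountableTopology Y] [BorelSpace Y] in
theorem fl_wt {A : AD n N Y} (b : A.BD) (p : ℕ) (y : Y) : Real.exp (-b.wt p 0 y) =
    (‖b.τ y‖ ^ 2 * Real.exp (-(b.k * A.φ y))) ^ p * Real.exp (-A.φ y) := by
  rw [← Real.exp_log (pow_pos (norm_pos_iff.2 (b.τ_ne y)) 2), ← Real.exp_add, ← Real.exp_nat_mul,
    ← Real.exp_add, AD.BD.wt]
  congr 1
  push_cast
  ring

omit [T2Space Y] [SecondCountableTopology Y] [BorelSpace Y] in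
theorem fl_near {A : AD n N Y} (b : A.BD) (y₀ : Y) : ∃ ρ : ℝ, 0 < ρ ∧ ∀ y,
    ∑ i, ‖b.a i y - b.a i y₀‖ ^ 2 ≤ 2 * ρ → (∑ j, ‖b.f j y‖ ^ 2) / ∑ i, ‖b.a i y‖ ^ 2 ≤
      2 * ((∑ j, ‖b.f j y₀‖ ^ 2) / ∑ i, ‖b.a i y₀‖ ^ 2) := by
  choose u u' hu using b.f_a
  have h1 := one_pos.trans_le (fl_one b.a0 y₀)
  have h2 := div_pos (one_pos.trans_le (fl_one b.f0 y₀)) h1
  have hc : ContinuousAt (fun w : Fin (b.α + 1) → ℂ =>
      (∑ j, ‖w (u j) * w (u' j)‖ ^ 2) / ∑ i, ‖w i‖ ^ 2) fun i => b.a i y₀ :=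
    ContinuousAt.div (Continuous.continuousAt (by fun_prop))
      (Continuous.continuousAt (by fun_prop)) h1.ne'
  simp only [hu, Pi.mul_apply] at h2 ⊢
  obtain ⟨r, hr, hb⟩ := Metric.eventually_nhds_iff.1
    (hc.eventually (ge_mem_nhds (lt_two_mul_self h2)))
  refine ⟨r ^ 2 / 4, by positivity, fun y hy => hb (y := fun i => b.a i y) ?_⟩
  refine (dist_pi_lt_iff hr).2 fun i => ?_
  rw [dist_eq_norm]
  refine lt_of_pow_lt_pow_left₀ 2 hr.le (lt_of_le_of_lt (le_trans (Finset.single_le_sum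
    (f := fun i => ‖b.a i y - b.a i y₀‖ ^ 2) (fun _ _ => sq_nonneg _) (Finset.mem_univ i)) hy) ?_)
  linarith [pow_pos hr 2]

theorem f_lower {A : AD n N Y} (hA : A.Good) (b : A.BD) : ∃ (t : ℕ) (B : ℝ), ∀ y₀ (m : ℕ),
    ∃ p : ℕ, max m 1 ≤ p ∧ ∃ F, A.D.Hol F ∧ nO A.D (b.wt p t) F ≤ 1 ∧
      lg b.a y₀ - lg b.f y₀ - B ≤
        (p : ℝ)⁻¹ * Real.log (‖F y₀‖ ^ 2 + Real.exp (-(p : ℝ) ^ 2)) := by
  obtain ⟨C, hC⟩ := b.up
  obtain ⟨ℓ, l1, l2, -, l3⟩ := hA.exh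
  have ha : ∀ i, A.D.Hol (b.a i) := fun i => (b.a_fi i).1
  have C0 : 0 < |C| + 1 := by positivity
  refine ⟨n + 2, Real.log (2 * (|C| + 1)) + 1, fun y₀ m => ?_⟩
  obtain ⟨ρ, hρ, hn⟩ := fl_near b y₀
  obtain ⟨K, K0, hK⟩ := fl_main ha b.a0 l1 l2 (fun y v => by
    rw [l3]
    exact mul_nonneg (Nat.cast_nonneg _) ((LMd_psd hA.pos.1).1 (hA.pos.2 y).posSemidef v))
    hA.fin (fun y => (Real.exp_pos _).le) y₀ hρ
  obtain ⟨p, p1, p2⟩ : ∃ p : ℕ, max m 1 ≤ p ∧ Real.log (4 * K) ≤ p :=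
    ⟨max (max m 1) ⌈Real.log (4 * K)⌉₊, le_max_left _ _,
      (Nat.le_ceil _).trans (Nat.cast_le.2 (le_max_right _ _))⟩
  have a0 := fun y => one_pos.trans_le (fl_one b.a0 y)
  have f0 := one_pos.trans_le (fl_one b.f0 y₀)
  obtain ⟨Λ, hΛ⟩ : ∃ Λ : ℝ, Λ = 2 * (|C| + 1) * ((∑ j, ‖b.f j y₀‖ ^ 2) / ∑ i, ‖b.a i y₀‖ ^ 2) :=
    ⟨_, rfl⟩
  have Λ0 : 0 < Λ := by rw [hΛ]; exact mul_pos (by positivity) (div_pos f0 (a0 y₀))
  have s1 : A.D.SmR fun y => Real.log (‖b.τ y‖ ^ 2) :=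
    b.τ_hol.sm.normSq.log fun y => pow_ne_zero 2 (norm_ne_zero_iff.2 (b.τ_ne y))
  have s2 : A.D.SmR fun y => (b.k : ℝ) * A.φ y := (RD.smR_const _).mul hA.hφ
  have s3 : A.D.SmR fun y => (p : ℝ) * (b.k * A.φ y - Real.log (‖b.τ y‖ ^ 2)) :=
    (RD.smR_const _).mul (s2.sub s1)
  have e0 : b.wt p 0 = fun y => A.φ y + p * (b.k * A.φ y - Real.log (‖b.τ y‖ ^ 2)) := by
    funext y
    rw [AD.BD.wt, Nat.cast_zero, zero_mul, add_zero]
  obtain ⟨h, h1, h2, h3⟩ := hK (b.wt p 0) (Λ ^ p) (pow_pos Λ0 p) (e0 ▸ hA.hφ.add s3) (fun y v => by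
    have g1 := RD.levi_add (y := y) (v := v) (s2.sub s1) s1
    simp only [sub_add_cancel] at g1
    rw [RD.levi_log_normSq b.τ_hol b.τ_ne, add_zero, RD.levi_const_mul hA.hφ] at g1
    rw [e0, RD.levi_add hA.hφ s3, RD.levi_const_mul (s2.sub s1), ← g1]
    have g2 := hA.psh y v
    positivity) fun y hy => by
    rw [fl_wt]
    refine mul_le_mul_of_nonneg_right (pow_le_pow_left₀ (by positivity) ?_ p) (Real.exp_pos _).le
    have g1 := mul_le_mul_of_nonneg_left (hn y hy) C0.le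
    have g2 := (hC y).trans (mul_le_mul_of_nonneg_right
      (show C ≤ |C| + 1 by linarith [le_abs_self C]) (Finset.sum_nonneg fun _ _ => sq_nonneg _))
    rw [← le_div_iff₀ (a0 y), mul_div_assoc] at g2
    rw [hΛ]
    linarith
  have k0 : 0 < K * Λ ^ p := mul_pos K0 (pow_pos Λ0 p)
  have e1 : ∀ y, ‖((√(K * Λ ^ p)⁻¹ : ℝ) : ℂ) * h y‖ ^ 2 = (K * Λ ^ p)⁻¹ * ‖h y‖ ^ 2 := fun y => by
    rw [norm_mul, mul_pow, Complex.norm_real, Real.norm_eq_abs, sq_abs,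
      Real.sq_sqrt (inv_pos.2 k0).le]
  refine ⟨p, p1, fun y => ((√(K * Λ ^ p)⁻¹ : ℝ) : ℂ) * h y, (RD.hol_const _).mul h1, ?_, ?_⟩
  · have e2 : (fun y => b.wt p 0 y + (n + 2 : ℕ) * lg b.a y) = b.wt p (n + 2) := by
      funext y
      rw [e0, AD.BD.wt]
    rw [e2] at h3
    simp only [nO, e1, mul_assoc, ENNReal.ofReal_mul (inv_pos.2 k0).le]
    rw [lintegral_const_mul' _ _ ENNReal.ofReal_ne_top]
    refine (mul_le_mul_right h3 _).trans ?_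
    rw [← ENNReal.ofReal_mul (inv_pos.2 k0).le, inv_mul_cancel₀ k0.ne', ENNReal.ofReal_one]
  · have p0 : (0 : ℝ) < p := Nat.cast_pos.2 ((le_max_right m 1).trans p1)
    have g1 : (4 * K * Λ ^ p)⁻¹ ≤ (K * Λ ^ p)⁻¹ * ‖h y₀‖ ^ 2 + Real.exp (-(p : ℝ) ^ 2) := by
      have g2 := mul_le_mul_of_nonneg_left (pow_le_pow_left₀ (by norm_num) h2 2) (inv_pos.2 k0).le
      rw [mul_assoc, mul_inv]
      linarith [Real.exp_pos (-(p : ℝ) ^ 2)]
    have g2 := Real.log_le_log (by positivity) g1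
    rw [Real.log_inv, Real.log_mul (by positivity) (by positivity), Real.log_pow] at g2
    have g3 : Real.log Λ = Real.log (2 * (|C| + 1)) + (lg b.f y₀ - lg b.a y₀) := by
      rw [hΛ, Real.log_mul (by positivity) (div_pos f0 (a0 y₀)).ne',
        Real.log_div f0.ne' (a0 y₀).ne', lg, lg]
    rw [g3] at g2
    rw [e1, le_inv_mul_iff₀ p0]
    linarith

end Vale.Agent.P299
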