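import Vale.Agent.P299.Defs
import Vale.Agent.P271A.Horm

/-! P299, part F: estimates for the lower bound. -/

open MeasureTheory Set Filter Topology
open scoped ContDiff ENNReal ComplexConjugate

noncomputable section

namespace Vale.Agent.P299

open Vale.Agent.P271A

theorem fl_cs {ι : Type} [Fintype ι] (S T : ι → ℂ) :
    ‖∑ i, conj (S i) * T i‖ ^ 2 ≤ (∑ i, ‖S i‖ ^ 2) * ∑ i, ‖T i‖ ^ 2 := by
  have h1 : ‖∑ i, conj (S i) * T i‖ ≤ ∑ i, ‖S i‖ * ‖T i‖ := by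
    refine (norm_sum_le _ _).trans (le_of_eq (Finset.sum_congr rfl fun i _ => ?_))
    rw [norm_mul, RCLike.norm_conj]
  exact (pow_le_pow_left₀ (norm_nonneg _) h1 2).trans
    (Finset.sum_mul_sq_le_sq_mul_sq _ (fun i => ‖S i‖) fun i => ‖T i‖)

theorem fl_tri {ι : Type} [Fintype ι] (S T : ι → ℂ) :
    ∑ i, ‖S i + T i‖ ^ 2 ≤ 2 * ∑ i, ‖S i‖ ^ 2 + 2 * ∑ i, ‖T i‖ ^ 2 := by
  rw [Finset.mul_sum, Finset.mul_sum, ← Finset.sum_add_distrib]
  refine Finset.sum_le_sum fun i _ => ?_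
  have h := pow_le_pow_left₀ (norm_nonneg _) (norm_add_le (S i) (T i)) 2
  nlinarith [sq_nonneg (‖S i‖ - ‖T i‖)]

theorem fl_deriv {x : ℝ} (h : deriv Real.smoothTransition x ≠ 0) : 0 ≤ x ∧ x ≤ 1 := by
  refine ⟨not_lt.1 fun h1 => h ?_, not_lt.1 fun h1 => h ?_⟩
  · rw [EventuallyEq.deriv_eq (f := fun _ => 0) ((eventually_lt_nhds h1).mono
      fun y hy => Real.smoothTransition.zero_of_nonpos hy.le), deriv_const]
  · rw [EventuallyEq.deriv_eq (f := fun _ => 1) ((eventually_gt_nhds h1).mono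
      fun y hy => Real.smoothTransition.one_of_one_le hy.le), deriv_const]

section
variable {n α : ℕ} {Y : Type} [TopologicalSpace Y] [MeasurableSpace Y] {D : RD n Y}
  {a : Fin (α + 1) → Y → ℂ}

omit [TopologicalSpace Y] [MeasurableSpace Y] in
theorem fl_one (h0 : a 0 = 1) (y : Y) : 1 ≤ ∑ i, ‖a i y‖ ^ 2 := by
  have h := Finset.single_le_sum (f := fun i => ‖a i y‖ ^ 2) (fun i _ => sq_nonneg _)
    (Finset.mem_univ 0)
  simpa [h0] using h

theorem fl_sm (ha : ∀ i, D.Hol (a i)) (h0 : a 0 = 1) : D.SmR (lg a) :=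
  (RD.SmR.sum _ fun i _ => (ha i).sm.normSq).log fun y =>
    (one_pos.trans_le (fl_one h0 y)).ne'

theorem fl_lg (ha : ∀ i, D.Hol (a i)) (h0 : a 0 = 1) (y : Y) (v : Fin n → ℂ) :
    ∑ i, ‖∑ j, D.dz j (a i) y * v j‖ ^ 2 ≤ (∑ i, ‖a i y‖ ^ 2) ^ 2 * D.levi (lg a) y v := by
  have hs : ∀ i ∈ (Finset.univ : Finset (Fin (α + 1))), D.SmR fun p => ‖a i p‖ ^ 2 :=
    fun i _ => (ha i).sm.normSq
  have hp : ∀ p, 0 < ∑ i, ‖a i p‖ ^ 2 := fun p => one_pos.trans_le (fl_one h0 p)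
  have e := RD.levi_log (y := y) (v := v) (RD.SmR.sum _ hs) hp
  rw [RD.levi_sum _ hs, RD.del_sum _ hs, Finset.sum_congr rfl fun i _ => RD.levi_normSq (ha i),
    Finset.sum_congr rfl fun i _ => RD.del_normSq (ha i)] at e
  have e0 : ∑ j, D.dz j (a 0) y * v j = 0 := Finset.sum_eq_zero fun j _ => by
    rw [h0, show D.dz j (1 : Y → ℂ) y = 0 from RD.dX_const 1 y, zero_mul]
  have h1 := fl_cs (fun i : Fin α => a i.succ y) fun i => ∑ j, D.dz j (a i.succ) y * v j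
  have h2 := (hp y).ne'
  rw [show D.levi (lg a) y v = _ from e, mul_sub, mul_div_cancel₀ _ (pow_ne_zero 2 h2), pow_two,
    mul_assoc, mul_div_cancel₀ _ h2]
  have e1 : ‖a 0 y‖ = 1 := by rw [h0, Pi.one_apply, norm_one]
  simp only [Fin.sum_univ_succ, e0, e1, norm_zero, mul_zero, zero_add,
    one_pow, ne_eq, OfNat.ofNat_ne_zero, not_false_eq_true, zero_pow]
  linarith

theorem fl_psh (ha : ∀ i, D.Hol (a i)) (h0 : a 0 = 1) (y : Y) (v : Fin n → ℂ) :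
    0 ≤ D.levi (lg a) y v :=
  nonneg_of_mul_nonneg_right ((Finset.sum_nonneg fun _ _ => sq_nonneg _).trans (fl_lg ha h0 y v))
    (pow_pos (one_pos.trans_le (fl_one h0 y)) 2)

theorem fl_del (ha : ∀ i, D.Hol (a i)) (h0 : a 0 = 1) (c : Fin (α + 1) → ℂ) (y : Y)
    (v : Fin n → ℂ) : ‖D.del (fun p => ∑ i, ‖a i p - c i‖ ^ 2) y v‖ ^ 2 ≤
      (∑ i, ‖a i y - c i‖ ^ 2) * ((∑ i, ‖a i y‖ ^ 2) ^ 2 * D.levi (lg a) y v) := by
  have hc : ∀ i, D.Hol fun p => a i p - c i := fun i => (ha i).sub (RD.hol_const _)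
  rw [RD.del_sum _ fun i _ => (hc i).sm.normSq, Finset.sum_congr rfl fun i _ => RD.del_normSq (hc i)]
  refine (fl_cs _ _).trans (mul_le_mul_of_nonneg_left (le_trans (le_of_eq ?_) (fl_lg ha h0 y v))
    (Finset.sum_nonneg fun _ _ => sq_nonneg _))
  refine Finset.sum_congr rfl fun i _ => congrArg (fun x : ℂ => ‖x‖ ^ 2)
    (Finset.sum_congr rfl fun j _ => ?_)
  rw [RD.dz, RD.dX_sub (ha i).sm (RD.sm_const _), RD.dX_const, sub_zero]
  rfl

theorem fl_db {S : Y → ℝ} (hS : D.SmR S) {χ : ℝ → ℝ} {c : ℝ} {y : Y} (h : HasDerivAt χ c (S y))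
    (v : Fin n → ℂ) :
    ‖∑ j, D.db j (fun p => (χ (S p) : ℂ)) y * conj (v j)‖ ^ 2 = c ^ 2 * ‖D.del S y v‖ ^ 2 := by
  have e : ∑ j, D.db j (fun p => (χ (S p) : ℂ)) y * conj (v j) = c * conj (D.del S y v) := by
    rw [RD.del, map_sum, Finset.mul_sum]
    refine Finset.sum_congr rfl fun j _ => ?_
    rw [map_mul, RD.conj_dz_real, RD.db, RD.db, RD.dX_comp hS h, mul_assoc]
  rw [e, norm_mul, mul_pow, RCLike.norm_conj, Complex.norm_real, Real.norm_eq_abs, sq_abs]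

theorem fl_lip (ha : ∀ i, D.Hol (a i)) (y : Y) : ∃ L : ℝ, 0 ≤ L ∧ ∀ᶠ z in 𝓝 (D.pr y),
    ∑ i, ‖a i (D.sec y z) - a i y‖ ^ 2 ≤ L * ‖z - D.pr y‖ ^ 2 := by
  choose c hc using fun i => (ha i y).isBigO_sub.bound
  refine ⟨∑ i, c i ^ 2, Finset.sum_nonneg fun _ _ => sq_nonneg _,
    (eventually_all.2 hc).mono fun z hz => ?_⟩
  rw [Finset.sum_mul]
  refine Finset.sum_le_sum fun i _ => ?_
  have h := hz i
  simp only [Function.comp_apply, D.sec_pr (D.mem_ch y)] at h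
  rw [← mul_pow]
  exact pow_le_pow_left₀ (norm_nonneg _) h 2

end

variable {n : ℕ} {Y : Type} [TopologicalSpace Y] [T2Space Y] [SecondCountableTopology Y]
  [MeasurableSpace Y] [BorelSpace Y] {D : RD n Y}

theorem fl_mean {g : Y → ℂ} {S W : Y → ℝ} {y : Y} {L R : ℝ} (hg : g =ᶠ[𝓝 y] fun _ => 1)
    (hW : ContinuousAt W y) (hW0 : 0 < W y) (hL : 0 ≤ L) (hS0 : ∀ p, 0 ≤ S p)
    (hS : ∀ᶠ z in 𝓝 (D.pr y), S (D.sec y z) ≤ L * ‖z - D.pr y‖ ^ 2) (hR : 0 ≤ R) :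
    ∃ ε : ℝ, 0 < ε ∧ ε ≤ 1 ∧ ∀ h, D.Hol h → ∫⁻ p, ENNReal.ofReal
      (‖g p - h p‖ ^ 2 * (W p / (S p + ε) ^ (n + 1))) ∂D.μ ≤ ENNReal.ofReal R → 1 / 2 ≤ ‖h y‖ := by
  have t1 := D.tendsto_sec y
  obtain ⟨r, hr, hb⟩ := Metric.eventually_nhds_iff_ball.1 (hS.and ((t1.eventually hg).and
    ((t1.eventually (hW.eventually (lt_mem_nhds (half_lt_self hW0)))).and (D.target_nhds y))))
  have hv : 0 < volume.real (Metric.ball (0 : E n) 1) :=
    ENNReal.toReal_pos (Metric.measure_ball_pos _ _ one_pos).ne' measure_ball_lt_top.ne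
  obtain ⟨s, ⟨⟨s1, s2⟩, s3⟩, s0⟩ : ∃ s : ℝ, ((s < r ∧ s ≤ 1) ∧
      (L + 1) ^ (n + 1) / (W y / 2) * R * s ^ 2 ≤ volume.real (Metric.ball (0 : E n) 1) / 4) ∧
      0 < s := by
    have g1 : Tendsto (fun s : ℝ => (L + 1) ^ (n + 1) / (W y / 2) * R * s ^ 2) (𝓝 0) (𝓝 0) :=
      (continuous_const.mul (continuous_pow 2)).tendsto' _ _ (by simp)
    exact (((((gt_mem_nhds hr : ∀ᶠ s : ℝ in 𝓝 0, s < r).and (ge_mem_nhds one_pos)).and
      (g1.eventually (ge_mem_nhds (by positivity)))).filter_mono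
        (nhdsWithin_le_nhds (s := Ioi 0))).and self_mem_nhdsWithin).exists
  refine ⟨s ^ 2, by positivity, pow_le_one₀ s0.le s2, fun h hh hI => ?_⟩
  have h1 := norm_le_mean (h := fun z => 1 - h (D.sec y z)) (c := D.pr y) s0 s1 fun z hz =>
    ((differentiableAt_const _).sub (hh.at_sec (hb z hz).2.2.2)).differentiableWithinAt
  obtain ⟨κ, hκ⟩ : ∃ κ : ℝ, κ = ((L + 1) * s ^ 2) ^ (n + 1) / (W y / 2) := ⟨_, rfl⟩
  have κ0 : 0 ≤ κ := by rw [hκ]; positivity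
  have h2 : ENNReal.ofReal (∫ z in Metric.ball (D.pr y) s, ‖1 - h (D.sec y z)‖ ^ 2) ≤
      ENNReal.ofReal κ * ENNReal.ofReal R := by
    calc _ ≤ ‖∫ z in Metric.ball (D.pr y) s, ‖1 - h (D.sec y z)‖ ^ 2‖ₑ := Real.ofReal_le_enorm _
      _ ≤ _ := enorm_integral_le_lintegral_enorm _
      _ ≤ ∫⁻ z in Metric.ball (D.pr y) s, ENNReal.ofReal κ * ENNReal.ofReal
          (‖g (D.sec y z) - h (D.sec y z)‖ ^ 2 *
            (W (D.sec y z) / (S (D.sec y z) + s ^ 2) ^ (n + 1))) := by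
        refine setLIntegral_mono' measurableSet_ball fun z hz => ?_
        obtain ⟨g1, g2, g3, -⟩ := hb z (Metric.ball_subset_ball s1.le hz)
        rw [Real.enorm_eq_ofReal (sq_nonneg _), ← ENNReal.ofReal_mul κ0, g2, mul_left_comm]
        refine ENNReal.ofReal_le_ofReal (le_mul_of_one_le_right (sq_nonneg _) ?_)
        have g4 : ‖z - D.pr y‖ ^ 2 ≤ s ^ 2 :=
          pow_le_pow_left₀ (norm_nonneg _) (mem_ball_iff_norm.1 hz).le 2
        have g5 : S (D.sec y z) + s ^ 2 ≤ (L + 1) * s ^ 2 := by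
          linarith [mul_le_mul_of_nonneg_left g4 hL]
        have g6 : 0 < S (D.sec y z) + s ^ 2 := add_pos_of_nonneg_of_pos (hS0 _) (by positivity)
        rw [hκ, div_mul_div_comm, one_le_div (by positivity), mul_comm]
        gcongr
      _ ≤ _ := lintegral_mono_set fun z hz => (hb z (Metric.ball_subset_ball s1.le hz)).2.2.2
      _ = _ := lintegral_const_mul' _ _ ENNReal.ofReal_ne_top
      _ ≤ _ := by
        refine mul_le_mul_right (le_trans ?_ hI) _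
        exact (RD.lintegral_chart (D.ch y) (D.ch_eqOn y) fun p => ENNReal.ofReal
          (‖g p - h p‖ ^ 2 * (W p / (S p + s ^ 2) ^ (n + 1)))).ge.trans
          (setLIntegral_le_lintegral _ _)
  rw [← ENNReal.ofReal_mul κ0, ENNReal.ofReal_le_ofReal_iff (by positivity)] at h2
  have h3 : volume.real (Metric.ball (0 : E n) s) =
      (s ^ 2) ^ n * volume.real (Metric.ball (0 : E n) 1) := by
    rw [measureReal_def, Measure.addHaar_ball_of_pos _ _ s0, ENNReal.toReal_mul,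
      ENNReal.toReal_ofReal (by positivity), Module.finrank_pi_fintype, Finset.sum_const,
      Complex.finrank_real_complex, Finset.card_univ, Fintype.card_fin, smul_eq_mul, mul_comm n 2, pow_mul]
    rfl
  have h4 : κ * R ≤ (s ^ 2) ^ n * volume.real (Metric.ball (0 : E n) 1) * (1 / 2) ^ 2 := by
    have h5 := mul_le_mul_of_nonneg_left s3 (show 0 ≤ (s ^ 2) ^ n by positivity)
    calc κ * R = (s ^ 2) ^ n * ((L + 1) ^ (n + 1) / (W y / 2) * R * s ^ 2) := by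
          rw [hκ, mul_pow]
          ring
      _ ≤ _ := by linarith
  rw [h3, D.sec_pr (D.mem_ch y)] at h1
  have h5 := le_of_mul_le_mul_left (h1.trans (h2.trans h4)) (by positivity)
  have h6 := (pow_le_pow_iff_left₀ (norm_nonneg _) (by norm_num) two_ne_zero).1 h5
  have h7 := norm_sub_norm_le (1 : ℂ) (h y)
  rw [norm_one] at h7
  linarith

end Vale.Agent.P299
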