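import Vale.Agent.P299.La
import Vale.Agent.P271A.Weyl

/-! P299, part F: the complete metric. -/

open MeasureTheory Set Filter Topology Matrix
open scoped ContDiff ENNReal ComplexConjugate ComplexOrder

set_option linter.unusedSectionVars false

noncomputable section

namespace Vale.Agent.P299

open Vale.Agent.P271A

variable {n N : ℕ} {Y : Type} [TopologicalSpace Y] [T2Space Y] [SecondCountableTopology Y]
  [MeasurableSpace Y] [BorelSpace Y] {D : RD n Y} {A : AD n N Y}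

theorem fp_lg {κ : Type} [Fintype κ] {a : κ → Y → ℂ} (ha : ∀ i, D.Hol (a i)) {i₀ : κ}
    (h0 : a i₀ = 1) : D.SmR (lg a) ∧ ∀ y v, 0 ≤ D.levi (lg a) y v := by
  have h1 : ∀ y, 0 < ∑ i, ‖a i y‖ ^ 2 := fun y => by
    have h2 : ‖a i₀ y‖ ^ 2 ≤ ∑ i, ‖a i y‖ ^ 2 :=
      Finset.single_le_sum (f := fun i => ‖a i y‖ ^ 2) (fun i _ => sq_nonneg _) (Finset.mem_univ i₀)
    rw [h0] at h2
    simp only [Pi.one_apply, norm_one, one_pow] at h2
    linarith
  refine ⟨(RD.SmR.sum Finset.univ fun i _ => (ha i).sm.normSq).log fun y => (h1 y).ne', fun y v => ?_⟩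
  have h3 := RD.levi_log_sum_nonneg (y := y) (v := v) Finset.univ (fun i _ => ha i) (η := 0) le_rfl
    (fun p => by rw [add_zero]; exact h1 p)
  simp only [add_zero] at h3
  exact h3

theorem fp_cplt {Ψ ψ : Y → ℝ} (hψ : D.SmR ψ) (hK : ∀ T, IsCompact {y | ψ y ≤ T})
    (hC : ∀ y v, ‖D.del ψ y v‖ ^ 2 ≤ D.levi Ψ y v) : Cplt D Ψ := by
  intro K hKc ε hε
  obtain ⟨B, hB⟩ := wy_deriv_bound
  obtain ⟨M, hM⟩ := hKc.bddAbove_image hψ.continuous.continuousOn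
  have hB0 : 0 ≤ B := (abs_nonneg _).trans (hB 0)
  set R : ℝ := |M| + 1 + B ^ 2 / ε with hR
  have hq : 0 ≤ B ^ 2 / ε := by positivity
  have hR1 : 1 ≤ R := by linarith [abs_nonneg M]
  have hR0 : 0 < R := by linarith
  have hs : ContDiff ℝ ∞ fun t : ℝ => 1 - Real.smoothTransition (t / R - 1) :=
    contDiff_const.sub (Real.smoothTransition.contDiff.comp (by fun_prop))
  have hd : ∀ t : ℝ, HasDerivAt (fun t : ℝ => 1 - Real.smoothTransition (t / R - 1))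
      (-(deriv Real.smoothTransition (t / R - 1) * (1 / R))) t := fun t => by
    have h1 : HasDerivAt (fun t : ℝ => t / R - 1) (1 / R) t :=
      ((hasDerivAt_id t).div_const R).sub_const 1
    have h2 : HasDerivAt Real.smoothTransition (deriv Real.smoothTransition (t / R - 1))
        (t / R - 1) :=
      ((Real.smoothTransition.contDiff (n := 1)).differentiable one_ne_zero _).hasDerivAt
    exact (h2.comp t h1).const_sub 1
  refine ⟨fun y => 1 - Real.smoothTransition (ψ y / R - 1), ⟨⟨hψ.comp fun _ => hs.contDiffAt, ?_⟩,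
    fun y => ⟨?_, ?_⟩, fun y hy => ?_⟩, fun y v => ?_⟩
  · refine HasCompactSupport.intro (hK (2 * R)) fun y hy => ?_
    have h1 : 2 * R < ψ y := not_le.1 hy
    have h2 : 1 ≤ ψ y / R - 1 := by
      have : 2 ≤ ψ y / R := by rw [le_div_iff₀ hR0]; linarith
      linarith
    simp [Real.smoothTransition.one_of_one_le h2]
  · linarith [Real.smoothTransition.le_one (ψ y / R - 1)]
  · linarith [Real.smoothTransition.nonneg (ψ y / R - 1)]
  · have h1 : ψ y ≤ M := hM ⟨y, hy, rfl⟩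
    have h2 : ψ y / R - 1 ≤ 0 := by
      have : ψ y / R ≤ 1 := by rw [div_le_one hR0]; linarith [le_abs_self M]
      linarith
    simp [Real.smoothTransition.zero_of_nonpos h2]
  · rw [RD.del_comp hψ (hd (ψ y)), norm_mul, mul_pow, Complex.norm_real, Real.norm_eq_abs, abs_neg,
      abs_mul, mul_pow, abs_of_pos (by positivity : (0 : ℝ) < 1 / R)]
    have h1 : |deriv Real.smoothTransition (ψ y / R - 1)| ^ 2 ≤ B ^ 2 :=
      pow_le_pow_left₀ (abs_nonneg _) (hB _) 2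
    have h2 : B ^ 2 * (1 / R) ^ 2 ≤ ε := by
      have h3 : B ^ 2 ≤ ε * R := by
        have : B ^ 2 / ε ≤ R := by linarith [abs_nonneg M]
        rwa [div_le_iff₀ hε, mul_comm] at this
      have h4 : (1 / R) ^ 2 * R ≤ 1 := by
        rw [div_pow, one_pow, div_mul_eq_mul_div, one_mul, div_le_one (by positivity)]
        nlinarith
      calc B ^ 2 * (1 / R) ^ 2 ≤ ε * R * (1 / R) ^ 2 := by gcongr
        _ = ε * ((1 / R) ^ 2 * R) := by ring
        _ ≤ ε * 1 := by gcongr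
        _ = ε := mul_one ε
    have h5 : |deriv Real.smoothTransition (ψ y / R - 1)| ^ 2 * (1 / R) ^ 2 ≤ ε :=
      le_trans (mul_le_mul_of_nonneg_right h1 (by positivity)) h2
    exact mul_le_mul h5 (hC y v) (sq_nonneg _) hε.le

/-- The bounded potential and the slowly growing exhaustion. -/
theorem fp_exh {ℓ : Y → ℝ} (hℓ : D.SmR ℓ) (hc : ∀ c, IsCompact {y | ℓ y ≤ c}) (h0 : ∀ y, 0 ≤ ℓ y)
    (hp : ∀ y v, 0 ≤ D.levi ℓ y v) : ∃ χ ψ : Y → ℝ, D.SmR χ ∧ D.SmR ψ ∧ (∀ y, |χ y| ≤ 1) ∧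
      (∀ T, IsCompact {y | ψ y ≤ T}) ∧ ∀ y v, ‖D.del ψ y v‖ ^ 2 ≤ D.levi χ y v + D.levi ℓ y v ∧
        D.levi ψ y v ≤ D.levi ℓ y v := by
  have hl : D.SmR fun y => ℓ y + 3 := hℓ.add (RD.smR_const 3)
  have l3 : ∀ y, 3 ≤ ℓ y + 3 := fun y => by linarith [h0 y]
  have l0 : ∀ y, 0 < ℓ y + 3 := fun y => by linarith [h0 y]
  have hL : D.SmR fun y => Real.log (ℓ y + 3) := hl.log fun y => (l0 y).ne'
  have L1 : ∀ y, 1 ≤ Real.log (ℓ y + 3) := fun y => by
    rw [Real.le_log_iff_exp_le (l0 y)]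
    linarith [Real.exp_one_lt_d9, l3 y]
  have L0 : ∀ y, 0 < Real.log (ℓ y + 3) := fun y => by linarith [L1 y]
  have hψ : D.SmR fun y => Real.log (Real.log (ℓ y + 3)) := hL.log fun y => (L0 y).ne'
  have hi : ∀ y, ContDiffAt ℝ ∞ (fun t : ℝ => t⁻¹) (Real.log (ℓ y + 3)) := fun y =>
    contDiffAt_inv ℝ (L0 y).ne'
  refine ⟨fun y => (Real.log (ℓ y + 3))⁻¹, fun y => Real.log (Real.log (ℓ y + 3)), hL.comp hi, hψ,
    fun y => ?_, fun T => ?_, fun y v => ?_⟩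
  · rw [abs_of_pos (inv_pos.2 (L0 y))]
    exact inv_le_one_of_one_le₀ (L1 y)
  · refine (hc (Real.exp (Real.exp T))).of_isClosed_subset
      (isClosed_le hψ.continuous continuous_const) fun y hy => ?_
    have h1 : Real.log (ℓ y + 3) ≤ Real.exp T := (Real.log_le_iff_le_exp (L0 y)).1 hy
    have h2 : ℓ y + 3 ≤ Real.exp (Real.exp T) := (Real.log_le_iff_le_exp (l0 y)).1 h1
    show ℓ y ≤ _
    linarith
  · have e1 : D.levi (fun y => ℓ y + 3) y v = D.levi ℓ y v := by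
      rw [RD.levi_add hℓ (RD.smR_const 3), RD.levi_const, add_zero]
    have e2 := RD.levi_log (y := y) (v := v) hl l0
    have e3 := RD.levi_log (y := y) (v := v) hL L0
    have e4 := RD.del_comp (y := y) (v := v) hl (Real.hasDerivAt_log (l0 y).ne')
    have e5 := RD.del_comp (y := y) (v := v) hL (Real.hasDerivAt_log (L0 y).ne')
    have g1 : ∀ᶠ t in 𝓝 (Real.log (ℓ y + 3)), HasDerivAt (fun t : ℝ => t⁻¹) (-(t ^ 2)⁻¹) t :=
      (lt_mem_nhds (L0 y)).mono fun t ht => hasDerivAt_inv ht.ne'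
    have g2 : HasDerivAt (fun t : ℝ => -(t ^ 2)⁻¹) (2 / Real.log (ℓ y + 3) ^ 3)
        (Real.log (ℓ y + 3)) := by
      have h := ((hasDerivAt_pow 2 (Real.log (ℓ y + 3))).inv (pow_ne_zero 2 (L0 y).ne')).neg
      refine h.congr_deriv ?_
      have := (L0 y).ne'
      field_simp
      norm_num [mul_comm]
    have e6 := RD.levi_comp' (y := y) (v := v) hL hi g1 g2
    have n4 : ‖D.del (fun y => Real.log (ℓ y + 3)) y v‖ ^ 2
        = ‖D.del (fun y => ℓ y + 3) y v‖ ^ 2 / (ℓ y + 3) ^ 2 := by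
      rw [e4, norm_mul, mul_pow, Complex.norm_real, Real.norm_eq_abs, sq_abs, inv_pow,
        div_eq_inv_mul]
    have n5 : ‖D.del (fun y => Real.log (Real.log (ℓ y + 3))) y v‖ ^ 2
        = ‖D.del (fun y => Real.log (ℓ y + 3)) y v‖ ^ 2 / Real.log (ℓ y + 3) ^ 2 := by
      rw [e5, norm_mul, mul_pow, Complex.norm_real, Real.norm_eq_abs, sq_abs, inv_pow,
        div_eq_inv_mul]
    rw [e6, e3, n5, e2, e1, ← n4]
    have a0 := hp y v
    have q0 : 0 ≤ ‖D.del (fun y => Real.log (ℓ y + 3)) y v‖ ^ 2 := sq_nonneg _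
    generalize ‖D.del (fun y => Real.log (ℓ y + 3)) y v‖ ^ 2 = q at *
    generalize D.levi ℓ y v = a at *
    have b1 := L1 y
    have b3 := l3 y
    generalize Real.log (ℓ y + 3) = L at *
    generalize ℓ y + 3 = l at *
    have c1 : a / l ≤ a := div_le_self a0 (by linarith)
    have c0 : 0 ≤ a / l := by positivity
    have c2 : (L ^ 2)⁻¹ ≤ 1 := inv_le_one_of_one_le₀ (by nlinarith)
    have c3 : 0 ≤ 2 / L ^ 3 * q := by positivity
    have c4 : (L ^ 2)⁻¹ * (a / l) ≤ a := le_trans (mul_le_of_le_one_left c0 c2) c1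
    constructor
    · rw [div_eq_inv_mul q]
      nlinarith
    · have c5 : (a / l - q) / L ≤ a / l / L := by gcongr; linarith
      have c6 : a / l / L ≤ a / l := div_le_self c0 b1
      have c7 : 0 ≤ q / L ^ 2 := by positivity
      linarith

/-- The metric. -/
theorem fp_metric (hA : A.Good) (b : A.BD) : ∃ (Ψ ψ : Y → ℝ) (C : ℝ), Kah A.D Ψ ∧ Cplt A.D Ψ ∧
    (∀ y v, A.D.levi A.ρ y v ≤ A.D.levi Ψ y v) ∧ (∀ y v, A.D.levi (lg b.a) y v ≤ A.D.levi Ψ y v) ∧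
    (∃ C₀ B : ℝ, 0 < C₀ ∧ ∀ y, |Ψ y - (C₀ * A.ρ y + lg b.a y)| ≤ B) ∧
    (∀ y v, 0 ≤ A.D.levi Ψ y v) ∧ A.D.SmR ψ ∧ (∀ T, IsCompact {y | ψ y ≤ T}) ∧
    ∀ y v, ‖A.D.del ψ y v‖ ^ 2 ≤ C * A.D.levi Ψ y v ∧ A.D.levi ψ y v ≤ C * A.D.levi Ψ y v := by
  obtain ⟨ℓ, hℓ, hc, h0, hl⟩ := hA.exh
  obtain ⟨sa, pa⟩ := fp_lg (fun i => (b.a_fi i).1) b.a0
  have sρ : A.D.SmR A.ρ := hA.pos.1
  have pρ : ∀ y v, 0 ≤ A.D.levi A.ρ y v := fun y => (LMd_psd sρ).1 (hA.pos.2 y).posSemidef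
  have l0 : (0 : ℝ) ≤ A.l0 := Nat.cast_nonneg _
  obtain ⟨χ, ψ, sχ, sψ, bχ, cψ, h⟩ := fp_exh hℓ hc h0 fun y v => by
    rw [hl]; exact mul_nonneg l0 (pρ y v)
  have s1 : A.D.SmR fun y => (A.l0 + 1 : ℝ) * A.ρ y := (RD.smR_const _).mul sρ
  have sΨ : A.D.SmR fun y => ((A.l0 + 1 : ℝ) * A.ρ y + lg b.a y) + χ y := (s1.add sa).add sχ
  have e : ∀ y v, A.D.levi (fun y => ((A.l0 + 1 : ℝ) * A.ρ y + lg b.a y) + χ y) y v =
      (A.l0 + 1) * A.D.levi A.ρ y v + A.D.levi (lg b.a) y v + A.D.levi χ y v := fun y v => by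
    rw [RD.levi_add (s1.add sa) sχ, RD.levi_add s1 sa, RD.levi_const_mul sρ]
  have k : ∀ y v, A.D.levi A.ρ y v + A.D.levi (lg b.a) y v + ‖A.D.del ψ y v‖ ^ 2 ≤
      A.D.levi (fun y => ((A.l0 + 1 : ℝ) * A.ρ y + lg b.a y) + χ y) y v := fun y v => by
    have h1 := (h y v).1
    rw [hl] at h1
    rw [e]
    linarith
  have k1 : ∀ y v, A.D.levi A.ρ y v ≤
      A.D.levi (fun y => ((A.l0 + 1 : ℝ) * A.ρ y + lg b.a y) + χ y) y v := fun y v => by
    linarith [k y v, pa y v, sq_nonneg ‖A.D.del ψ y v‖]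
  have k2 : ∀ y v, ‖A.D.del ψ y v‖ ^ 2 ≤
      A.D.levi (fun y => ((A.l0 + 1 : ℝ) * A.ρ y + lg b.a y) + χ y) y v := fun y v => by
    linarith [k y v, pa y v, pρ y v]
  refine ⟨_, ψ, A.l0 + 1, ⟨sΨ, fun y => ?_⟩, fp_cplt sψ cψ k2, k1, fun y v => ?_,
    ⟨A.l0 + 1, 1, by positivity, fun y => by simpa using bχ y⟩, fun y v => (pρ y v).trans (k1 y v),
    sψ, cψ, fun y v => ⟨?_, ?_⟩⟩
  · have h1 : (LMd A.D (fun y => 1 * (((A.l0 + 1 : ℝ) * A.ρ y + lg b.a y) + χ y) + (-1) * A.ρ y)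
        y).PosSemidef := by
      refine (LMd_psd (((RD.smR_const _).mul sΨ).add ((RD.smR_const _).mul sρ))).2 fun v => ?_
      rw [RD.levi_add ((RD.smR_const _).mul sΨ) ((RD.smR_const _).mul sρ), RD.levi_const_mul sΨ,
        RD.levi_const_mul sρ]
      linarith [k1 y v]
    rw [LMd_add sΨ sρ] at h1
    have h2 := (hA.pos.2 y).add_posSemidef h1
    simpa using h2
  · linarith [k y v, pρ y v, sq_nonneg ‖A.D.del ψ y v‖]
  · nlinarith [k2 y v, pρ y v, k1 y v]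
  · have h1 := (h y v).2
    rw [hl] at h1
    nlinarith [pρ y v, k1 y v]

end Vale.Agent.P299
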