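import Vale.Agent.P299.PartR
import Vale.Agent.P271A.Mean

/-! P299, part F: the upper bound for the family of first integrals. -/

open MeasureTheory Set Filter Topology Matrix
open scoped ContDiff ENNReal ComplexConjugate ComplexOrder

noncomputable section

namespace Vale.Agent.P299

open Vale.Agent.P271A

variable {n N : ℕ} {Y : Type} [TopologicalSpace Y] [T2Space Y] [SecondCountableTopology Y]
  [MeasurableSpace Y] [BorelSpace Y] {A : AD n N Y}

set_option linter.unusedSectionVars false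

/-- The mean value inequality, locally uniformly. -/
theorem FU_mean (D : RD n Y) {y₀ : Y} {U : Set Y} (hU : U ∈ 𝓝 y₀) :
    ∃ V ∈ 𝓝 y₀, ∃ c : ℝ, 0 < c ∧ ∀ (F : Y → ℂ) (Φ : Y → ℝ) (M : ℝ), D.Hol F →
      (∀ p ∈ U, Φ p ≤ M) → nO D Φ F ≤ 1 → ∀ y ∈ V, c * ‖F y‖ ^ 2 ≤ Real.exp M := by
  obtain ⟨r, hr, hb⟩ := Metric.mem_nhds_iff.1
    (inter_mem (D.target_nhds y₀) ((D.tendsto_sec y₀).eventually hU))
  have h3 : 0 < r / 3 := by positivity
  refine ⟨(D.ch y₀).source ∩ D.pr ⁻¹' Metric.ball (D.pr y₀) (r / 3), inter_mem (D.source_nhds y₀)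
    (D.continuous_pr.continuousAt.preimage_mem_nhds (Metric.ball_mem_nhds _ h3)),
    volume.real (Metric.ball (0 : E n) (r / 3)),
    ENNReal.toReal_pos (Metric.measure_ball_pos _ _ h3).ne' measure_ball_lt_top.ne,
    fun F Φ M hF hM h1 y hy => ?_⟩
  have hs : Metric.ball (D.pr y) (2 * r / 3) ⊆ Metric.ball (D.pr y₀) r :=
    Metric.ball_subset_ball' (by have := Metric.mem_ball.1 hy.2; linarith)
  have hs' : Metric.ball (D.pr y) (r / 3) ⊆ Metric.ball (D.pr y₀) r :=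
    (Metric.ball_subset_ball (by linarith)).trans hs
  have h2 := norm_le_mean (h := F ∘ D.sec y₀) (c := D.pr y) h3 (by linarith : r / 3 < 2 * r / 3)
    fun z hz => (hF.at_sec (hb (hs hz)).1).differentiableWithinAt
  rw [Function.comp_apply, D.sec_pr hy.1] at h2
  refine h2.trans ?_
  have h4 : ∫⁻ z in Metric.ball (D.pr y) (r / 3), ENNReal.ofReal (‖(F ∘ D.sec y₀) z‖ ^ 2) ≤
      ENNReal.ofReal (Real.exp M) := by
    calc _ ≤ ∫⁻ z in Metric.ball (D.pr y) (r / 3), ENNReal.ofReal (Real.exp M) *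
          ENNReal.ofReal (‖F (D.sec y₀ z)‖ ^ 2 * Real.exp (-Φ (D.sec y₀ z))) := by
          refine setLIntegral_mono' measurableSet_ball fun z hz => ?_
          rw [← ENNReal.ofReal_mul (Real.exp_pos _).le, mul_left_comm, ← Real.exp_add]
          refine ENNReal.ofReal_le_ofReal (le_mul_of_one_le_right (sq_nonneg _) ?_)
          have := hM _ (hb (hs' hz)).2
          exact Real.one_le_exp (by linarith)
      _ ≤ ENNReal.ofReal (Real.exp M) * ∫⁻ z in (D.ch y₀).target,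
          ENNReal.ofReal (‖F (D.sec y₀ z)‖ ^ 2 * Real.exp (-Φ (D.sec y₀ z))) := by
          rw [lintegral_const_mul' _ _ ENNReal.ofReal_ne_top]
          exact mul_le_mul_right (lintegral_mono_set fun z hz => (hb (hs' hz)).1) _
      _ ≤ ENNReal.ofReal (Real.exp M) * 1 := by
          refine mul_le_mul_right (le_trans ?_ h1) _
          exact (RD.lintegral_chart (D.ch y₀) (D.ch_eqOn y₀)
            fun p => ENNReal.ofReal (‖F p‖ ^ 2 * Real.exp (-Φ p))).symm.le.trans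
            (setLIntegral_le_lintegral _ _)
      _ = _ := mul_one _
  by_cases hi : Integrable (fun z => ‖(F ∘ D.sec y₀) z‖ ^ 2)
      (volume.restrict (Metric.ball (D.pr y) (r / 3)))
  · rw [← ofReal_integral_eq_lintegral_ofReal hi (Eventually.of_forall fun z => sq_nonneg _)] at h4
    exact (ENNReal.ofReal_le_ofReal_iff (Real.exp_pos _).le).1 h4
  · rw [integral_undef hi]
    exact (Real.exp_pos _).le

/-- A pointwise bound on compact sets for weights `R + p T`. -/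
theorem FU_cpt (D : RD n Y) {R T : Y → ℝ} (hR : Continuous R) (hT : Continuous T) {K : Set Y}
    (hK : IsCompact K) : ∃ C : ℝ, ∀ (p : ℕ) (F : Y → ℂ), D.Hol F →
      nO D (fun y => R y + p * T y) F ≤ 1 → ∀ y ∈ K, ‖F y‖ ^ 2 ≤ Real.exp (C + p * (T y + 1)) := by
  refine hK.induction_on (p := fun K => ∃ C : ℝ, ∀ (p : ℕ) (F : Y → ℂ), D.Hol F →
    nO D (fun y => R y + p * T y) F ≤ 1 → ∀ y ∈ K, ‖F y‖ ^ 2 ≤ Real.exp (C + p * (T y + 1)))
    ⟨0, fun _ _ _ _ _ h => h.elim⟩ (fun s t hst ⟨C, h⟩ => ⟨C, fun p F h1 h2 y hy =>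
      h p F h1 h2 y (hst hy)⟩) (fun s t ⟨C, h⟩ ⟨C', h'⟩ => ⟨max C C', fun p F h1 h2 y hy => ?_⟩)
    fun y₀ _ => ?_
  · rcases hy with hy | hy
    · exact (h p F h1 h2 y hy).trans (Real.exp_le_exp.2 (by linarith [le_max_left C C']))
    · exact (h' p F h1 h2 y hy).trans (Real.exp_le_exp.2 (by linarith [le_max_right C C']))
  · have e1 : ∀ᶠ y in 𝓝 y₀, R y < R y₀ + 1 := hR.continuousAt.eventually (gt_mem_nhds (by linarith))
    have e2 : ∀ᶠ y in 𝓝 y₀, T y < T y₀ + 1 / 2 :=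
      hT.continuousAt.eventually (gt_mem_nhds (by linarith))
    have e3 : ∀ᶠ y in 𝓝 y₀, T y₀ - 1 / 2 < T y :=
      hT.continuousAt.eventually (lt_mem_nhds (by linarith))
    obtain ⟨V, hV, c, hc, h⟩ := FU_mean D (e1.and e2)
    refine ⟨_, mem_nhdsWithin_of_mem_nhds (inter_mem hV e3), R y₀ + 1 - Real.log c,
      fun p F h1 h2 y hy => ?_⟩
    have hp : (0 : ℝ) ≤ p := Nat.cast_nonneg p
    have h3 := h F _ (R y₀ + 1 + p * (T y + 1)) h1 (fun q hq => by
      have a1 : R q < R y₀ + 1 := hq.1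
      have a2 : T q < T y₀ + 1 / 2 := hq.2
      have a3 : T y₀ - 1 / 2 < T y := hy.2
      nlinarith) h2 y hy.1
    rw [show R y₀ + 1 - Real.log c + p * (T y + 1) = R y₀ + 1 + p * (T y + 1) - Real.log c by ring,
      Real.exp_sub, Real.exp_log hc, le_div_iff₀' hc]
    exact h3

theorem FU_pos {κ : ℕ} {a : Fin (κ + 1) → Y → ℂ} (h : a 0 = 1) (y : Y) : 0 < ∑ i, ‖a i y‖ ^ 2 :=
  lt_of_lt_of_le (by simp [h]) (Finset.single_le_sum (f := fun i => ‖a i y‖ ^ 2)
    (fun _ _ => sq_nonneg _) (Finset.mem_univ 0))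

theorem FU_cont {κ : ℕ} {a : Fin (κ + 1) → Y → ℂ} (h : a 0 = 1) (hc : ∀ i, Continuous (a i)) :
    Continuous (lg a) :=
  (continuous_finsetSum _ fun i _ => (hc i).norm.pow 2).log fun y => (FU_pos h y).ne'

theorem FU_num {x C g : ℝ} {p : ℕ} (hp : 1 ≤ p) (h0 : 0 ≤ x) (h1 : x ≤ Real.exp (C + p * (g + 1)))
    (h2 : C ≤ p) (h3 : -(p : ℝ) ≤ g + 2) :
    (p : ℝ)⁻¹ * Real.log (x + Real.exp (-(p : ℝ) ^ 2)) ≤ g + 3 := by
  have hp' : (1 : ℝ) ≤ p := by exact_mod_cast hp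
  rw [inv_mul_le_iff₀ (by linarith), Real.log_le_iff_le_exp (by positivity)]
  have a1 : x ≤ Real.exp (p * (g + 2)) := h1.trans (Real.exp_le_exp.2 (by linarith))
  have a2 : Real.exp (-(p : ℝ) ^ 2) ≤ Real.exp (p * (g + 2)) := Real.exp_le_exp.2 (by nlinarith)
  have a3 : 2 ≤ Real.exp p := le_trans (by linarith) (Real.add_one_le_exp (p : ℝ))
  rw [show p * (g + 3) = p + p * (g + 2) by ring, Real.exp_add]
  nlinarith [Real.exp_pos (p * (g + 2))]

theorem f_upper (hA : A.Good) (b : A.BD) (t : ℕ) : ∃ B : ℝ, ∀ Q, IsCompact Q → ∃ m : ℕ, ∀ p : ℕ,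
    max m 1 ≤ p → ∀ F, A.D.Hol F → nO A.D (b.wt p t) F ≤ 1 → ∀ y ∈ Q,
      (p : ℝ)⁻¹ * Real.log (‖F y‖ ^ 2 + Real.exp (-(p : ℝ) ^ 2)) ≤ lg b.a y - lg b.f y + B := by
  obtain ⟨c, hc, hlo⟩ := b.lo
  have ca : ∀ i, Continuous (b.a i) := fun i => (b.a_fi i).1.sm.continuous
  have cf : ∀ j, Continuous (b.f j) := fun j => by
    obtain ⟨i, i', h⟩ := b.f_a j
    rw [h]
    exact (ca i).mul (ca i')
  have cg : Continuous fun y => lg b.a y - lg b.f y := (FU_cont b.a0 ca).sub (FU_cont b.f0 cf)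
  have tp : ∀ y, 0 < ‖b.τ y‖ ^ 2 := fun y => pow_pos (norm_pos_iff.2 (b.τ_ne y)) 2
  have hR : Continuous fun y => A.φ y + t * lg b.a y :=
    hA.hφ.continuous.add (continuous_const.mul (FU_cont b.a0 ca))
  have hT : Continuous fun y => b.k * A.φ y - Real.log (‖b.τ y‖ ^ 2) :=
    (continuous_const.mul hA.hφ.continuous).sub
      ((b.τ_hol.sm.continuous.norm.pow 2).log fun y => (tp y).ne')
  refine ⟨3 - Real.log c, fun Q hQ => hQ.induction_on (p := fun Q => ∃ m : ℕ, ∀ p : ℕ,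
    max m 1 ≤ p → ∀ F, A.D.Hol F → nO A.D (b.wt p t) F ≤ 1 → ∀ y ∈ Q,
      (p : ℝ)⁻¹ * Real.log (‖F y‖ ^ 2 + Real.exp (-(p : ℝ) ^ 2)) ≤
        lg b.a y - lg b.f y + (3 - Real.log c))
    ⟨0, fun _ _ _ _ _ _ h => h.elim⟩ (fun s t hst ⟨m, h⟩ => ⟨m, fun p hp F h1 h2 y hy =>
      h p hp F h1 h2 y (hst hy)⟩)
    (fun s t ⟨m, h⟩ ⟨m', h'⟩ => ⟨max m m', fun p hp F h1 h2 y hy => ?_⟩) fun y₀ _ => ?_⟩
  · rcases hy with hy | hy
    · exact h p (le_trans (max_le_max_right _ (le_max_left _ _)) hp) F h1 h2 y hy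
    · exact h' p (le_trans (max_le_max_right _ (le_max_right _ _)) hp) F h1 h2 y hy
  · obtain ⟨O, hO, K, hK, h⟩ := hlo y₀
    obtain ⟨C, hC⟩ := FU_cpt A.D hR hT hK
    have e3 : ∀ᶠ y in 𝓝 y₀, lg b.a y₀ - lg b.f y₀ - 1 < lg b.a y - lg b.f y :=
      cg.continuousAt.eventually (lt_mem_nhds (by linarith))
    obtain ⟨m, hm⟩ := exists_nat_ge (max C (Real.log c - (lg b.a y₀ - lg b.f y₀)))
    refine ⟨_, mem_nhdsWithin_of_mem_nhds (inter_mem hO e3), m, fun p hp F h1 h2 y hy => ?_⟩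
    obtain ⟨ς, hς, e, hle⟩ := h F (partR hA b p t h1 (h2.trans_lt ENNReal.one_lt_top)) y hy.1
    have h3 := hC p F h1 (by
      refine le_of_eq_of_le (congrArg (fun Φ => nO A.D Φ F) (funext fun q => ?_)) h2
      simp only [AD.BD.wt]
      ring) ς hς
    have h4 := Real.log_le_log (mul_pos hc (FU_pos b.f0 y)) hle
    rw [Real.log_mul hc.ne' (FU_pos b.f0 y).ne', Real.log_mul (mul_pos (tp ς) (Real.exp_pos _)).ne'
      (FU_pos b.a0 y).ne', Real.log_mul (tp ς).ne' (Real.exp_pos _).ne', Real.log_exp] at h4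
    have hmp : (m : ℝ) ≤ p := by exact_mod_cast (le_max_left _ _).trans hp
    have hp0 : (0 : ℝ) ≤ p := Nat.cast_nonneg p
    have a3 : lg b.a y₀ - lg b.f y₀ - 1 < lg b.a y - lg b.f y := hy.2
    have h5 := FU_num (x := ‖F y‖ ^ 2) (C := C) (g := lg b.a y - lg b.f y - Real.log c)
      ((le_max_right _ _).trans hp) (sq_nonneg _) (by
        rw [← e]
        refine h3.trans (Real.exp_le_exp.2 (add_le_add_right (mul_le_mul_of_nonneg_left ?_ hp0) _))
        simp only [lg]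
        linarith)
      (((le_max_left _ _).trans hm).trans hmp) (by
        have := ((le_max_right _ _).trans hm).trans hmp
        linarith)
    linarith

end Vale.Agent.P299
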