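import Vale.Agent.P299.Defs

/-! P299: the canonical anticommutation relations and functoriality. -/

open MeasureTheory Set Filter Topology Matrix
open scoped ContDiff ENNReal ComplexConjugate ComplexOrder

noncomputable section

namespace Vale.Agent.P299

variable {ι : Type} [Fintype ι] [LinearOrder ι]

/-- The derived action of a matrix. -/
def dG (h : Matrix ι ι ℂ) : Matrix (Finset ι) (Finset ι) ℂ := ∑ j, ∑ k, h j k • (cr j * an k)

namespace FockA

omit [Fintype ι] in
theorem sg_sq (j : ι) (I : Finset ι) : sg j I * sg j I = 1 := by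
  rw [sg, ← mul_pow]
  simp

omit [Fintype ι] in
theorem sg_insert {i : ι} (j : ι) {I : Finset ι} (h : i ∉ I) :
    sg j (insert i I) = (if i < j then -1 else 1) * sg j I := by
  rw [sg, sg, Finset.filter_insert]
  split_ifs with h1
  · rw [Finset.card_insert_of_notMem fun e => h (Finset.mem_filter.1 e).1, pow_succ, mul_comm]
  · rw [one_mul]

omit [Fintype ι] in
theorem eps {i j : ι} (h : i ≠ j) :
    (if i < j then -1 else 1 : ℂ) = -(if j < i then -1 else 1) := by
  rcases lt_or_gt_of_ne h with h1 | h1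
  · rw [if_pos h1, if_neg h1.not_gt]
  · rw [if_pos h1, if_neg h1.not_gt, neg_neg]

/-- The basis vectors. -/
def e (J : Finset ι) : W ι := Pi.single J 1

theorem ext_e {A B : Matrix (Finset ι) (Finset ι) ℂ} (h : ∀ J, A *ᵥ e J = B *ᵥ e J) : A = B := by
  ext I J
  simpa [e] using congrFun (h J) I

theorem cr_apply (j : ι) (I J : Finset ι) :
    cr j I J = if j ∉ J ∧ I = insert j J then sg j J else 0 := by
  rw [cr, conjTranspose_apply, an, of_apply]
  split_ifs <;> simp [sg]

theorem cr_mem {j : ι} {J : Finset ι} (h : j ∈ J) : cr j *ᵥ e J = 0 := by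
  ext I
  simp [e, cr_apply, h]

theorem cr_not {j : ι} {J : Finset ι} (h : j ∉ J) : cr j *ᵥ e J = sg j J • e (insert j J) := by
  ext I
  simp [e, cr_apply, h, Pi.single_apply]

theorem an_not {j : ι} {J : Finset ι} (h : j ∉ J) : an j *ᵥ e J = 0 := by
  ext I
  have : ¬ (j ∉ I ∧ J = insert j I) := fun h1 => h (h1.2 ▸ Finset.mem_insert_self _ _)
  simp [e, an, this]

theorem an_ins {j : ι} {J : Finset ι} (h : j ∉ J) :
    an j *ᵥ e (insert j J) = sg j J • e J := by
  ext I
  have : (j ∉ I ∧ insert j J = insert j I) ↔ I = J :=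
    ⟨fun h1 => by rw [← Finset.erase_insert h1.1, ← h1.2, Finset.erase_insert h],
      fun h1 => by rw [h1]; exact ⟨h, rfl⟩⟩
  by_cases h1 : I = J
  · simp [e, an, h, h1]
  · simp [e, an, this, h1]

theorem cr_cr (i j : ι) : cr i * cr j = -(cr j * cr i) := by
  refine ext_e fun J => ?_
  rw [neg_mulVec, ← mulVec_mulVec, ← mulVec_mulVec]
  by_cases hj : j ∈ J
  · by_cases hi : i ∈ J
    · rw [cr_mem hi, cr_mem hj, mulVec_zero, mulVec_zero, neg_zero]
    · rw [cr_mem hj, cr_not hi, mulVec_smul, cr_mem (Finset.mem_insert_of_mem hj)]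
      simp
  by_cases hi : i ∈ J
  · rw [cr_mem hi, cr_not hj, mulVec_smul, cr_mem (Finset.mem_insert_of_mem hi)]
    simp
  rcases eq_or_ne i j with rfl | h
  · rw [cr_not hi, mulVec_smul, cr_mem (Finset.mem_insert_self _ _)]
    simp
  rw [cr_not hi, cr_not hj, mulVec_smul, mulVec_smul, cr_not (by simp [h, hi]),
    cr_not (by simp [h.symm, hj]), sg_insert i hj, sg_insert j hi, Finset.insert_comm, smul_smul,
    smul_smul, ← neg_smul, eps h]
  congr 1
  ring

theorem an_cr (i j : ι) : an i * cr j + cr j * an i = if i = j then 1 else 0 := by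
  refine ext_e fun J => ?_
  rw [add_mulVec, ← mulVec_mulVec, ← mulVec_mulVec]
  by_cases hi : i ∈ J
  · obtain ⟨K, hK, rfl⟩ : ∃ K, i ∉ K ∧ insert i K = J :=
      ⟨J.erase i, Finset.notMem_erase _ _, Finset.insert_erase hi⟩
    rw [an_ins hK, mulVec_smul]
    split_ifs with h
    · subst h
      rw [cr_mem hi, cr_not hK, smul_smul, sg_sq]
      simp
    by_cases hj : j ∈ K
    · rw [cr_mem hj, cr_mem (Finset.mem_insert_of_mem hj)]
      simp
    · rw [cr_not hj, cr_not (by simp [Ne.symm h, hj]), mulVec_smul, Finset.insert_comm,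
        an_ins (by simp [h, hK]), sg_insert i hj, sg_insert j hK, smul_smul, smul_smul, ← add_smul,
        eps h, zero_mulVec]
      have := eps (Ne.symm h)
      rcases lt_or_gt_of_ne h with h1 | h1 <;> simp [h1, h1.not_gt, mul_comm]
  · rw [an_not hi, mulVec_zero, add_zero]
    split_ifs with h
    · subst h
      rw [cr_not hi, mulVec_smul, an_ins hi, smul_smul, sg_sq]
      simp
    by_cases hj : j ∈ J
    · rw [cr_mem hj]
      simp
    · rw [cr_not hj, mulVec_smul, an_not (by simp [h, hi])]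
      simp

theorem wdg_wdg (a b : ι → ℂ) : wdg a * wdg b = -(wdg b * wdg a) := by
  simp only [wdg, Finset.sum_mul, Finset.mul_sum, smul_mul_smul_comm, ← Finset.sum_neg_distrib]
  rw [Finset.sum_comm]
  refine Finset.sum_congr rfl fun i _ => Finset.sum_congr rfl fun j _ => ?_
  rw [cr_cr, smul_neg, mul_comm]

theorem wdg_sq (a : ι → ℂ) : wdg a * wdg a = 0 := by
  have h := wdg_wdg a a
  have h2 : (2 : ℂ) • (wdg a * wdg a) = 0 := by rw [two_smul, add_eq_zero_iff_eq_neg]; exact h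
  exact (smul_eq_zero.1 h2).resolve_left two_ne_zero

theorem ctr_wdg (a b : ι → ℂ) : ctr a * wdg b + wdg b * ctr a = (a ⬝ᵥ b) • 1 := by
  simp only [ctr, wdg, Finset.sum_mul, Finset.mul_sum, smul_mul_smul_comm]
  rw [Finset.sum_comm, ← Finset.sum_add_distrib, dotProduct, Finset.sum_smul]
  refine Finset.sum_congr rfl fun i _ => ?_
  rw [← Finset.sum_add_distrib, Finset.sum_eq_single i (fun j _ hj => ?_) (by simp)]
  · rw [mul_comm (b i), ← smul_add, an_cr, if_pos rfl]
  · rw [mul_comm (b j), ← smul_add, an_cr, if_neg hj.symm, smul_zero]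

/-- The ordered products. -/
def P (g : Matrix ι ι ℂ) (J : Finset ι) : Matrix (Finset ι) (Finset ι) ℂ :=
  ((J.sort (· ≤ ·)).map fun j => wdg fun k => g k j).prod

theorem Gm_e (g : Matrix ι ι ℂ) (J : Finset ι) : Gm g *ᵥ e J = P g J *ᵥ e ∅ := by
  ext I
  simp [e, Gm, P]

theorem P_min (g : Matrix ι ι ℂ) {a : ι} {K : Finset ι} (h : ∀ x ∈ K, a < x) :
    P g (insert a K) = (wdg fun k => g k a) * P g K := by
  rw [P, Finset.sort_insert _ (fun b hb => (h b hb).le) fun e => (h a e).false, List.map_cons,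
    List.prod_cons, P]

theorem P_insert (g : Matrix ι ι ℂ) (j : ι) (J : Finset ι) : j ∉ J →
    P g (insert j J) = sg j J • ((wdg fun k => g k j) * P g J) := by
  induction J using Finset.induction_on_min with
  | empty =>
    intro _
    rw [P_min g (by simp)]
    simp [sg]
  | insert a K h ih =>
    intro hj
    rw [Finset.mem_insert, not_or] at hj
    have ha : a ∉ K := fun e => (h a e).false
    rcases lt_or_gt_of_ne hj.1 with h1 | h1
    · have h2 : ∀ x ∈ insert a K, j < x :=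
        Finset.forall_mem_insert _ _ _ |>.2 ⟨h1, fun x hx => h1.trans (h x hx)⟩
      rw [P_min g h2, sg, Finset.filter_eq_empty_iff.2 fun x hx => (h2 x hx).not_gt]
      simp
    · rw [Finset.insert_comm, P_min g (Finset.forall_mem_insert _ _ _ |>.2 ⟨h1, h⟩), ih hj.2,
        P_min g h, sg_insert j ha, if_pos h1, Matrix.mul_smul, ← Matrix.mul_assoc, wdg_wdg,
        ← Matrix.mul_assoc]
      simp

theorem Gm_cr (g : Matrix ι ι ℂ) (j : ι) : Gm g * cr j = (wdg fun k => g k j) * Gm g := by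
  refine ext_e fun J => ?_
  rw [← mulVec_mulVec, ← mulVec_mulVec, Gm_e, mulVec_mulVec _ (wdg _)]
  by_cases h : j ∈ J
  · rw [cr_mem h, ← Finset.insert_erase h, P_insert g j _ (Finset.notMem_erase _ _),
      Matrix.mul_smul, ← Matrix.mul_assoc, wdg_sq]
    simp
  · rw [cr_not h, mulVec_smul, Gm_e, P_insert g j J h, smul_mulVec, smul_smul, sg_sq, one_smul]

theorem Gm_empty (g : Matrix ι ι ℂ) : Gm g *ᵥ e ∅ = e ∅ := by
  rw [Gm_e, P]
  simp

theorem uniq {D : Matrix (Finset ι) (Finset ι) ℂ} (h0 : D *ᵥ e ∅ = 0)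
    (h : ∀ j, ∃ M, D * cr j = M * D) : D = 0 := by
  refine ext_e fun J => ?_
  rw [zero_mulVec]
  induction J using Finset.induction_on with
  | empty => exact h0
  | insert j J hj ih =>
    obtain ⟨M, hM⟩ := h j
    have h1 : e (insert j J) = sg j J • cr j *ᵥ e J := by
      rw [cr_not hj, smul_smul, sg_sq, one_smul]
    rw [h1, mulVec_smul, mulVec_mulVec, hM, ← mulVec_mulVec, ih, mulVec_zero, smul_zero]

theorem eq_Gm {g : Matrix ι ι ℂ} {T : Matrix (Finset ι) (Finset ι) ℂ} (h0 : T *ᵥ e ∅ = e ∅)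
    (h : ∀ j, T * cr j = (wdg fun k => g k j) * T) : Gm g = T :=
  sub_eq_zero.1 (uniq (by rw [sub_mulVec, h0, Gm_empty, sub_self]) fun j =>
    ⟨_, by rw [Matrix.sub_mul, h, Gm_cr, ← Matrix.mul_sub]⟩)

theorem wdg_single (j : ι) : wdg (Pi.single j 1) = cr j := by
  simp [wdg, Pi.single_apply]

theorem ctr_single (j : ι) : ctr (Pi.single j 1) = an j := by
  simp [ctr, Pi.single_apply]

theorem ctr_empty (ξ : ι → ℂ) : ctr ξ *ᵥ e ∅ = 0 := by
  simp [ctr, sum_mulVec, smul_mulVec, an_not]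

end FockA

open FockA

theorem an_an (i j : ι) : an i * an j = -(an j * an i) := by
  have h := congrArg conjTranspose (FockA.cr_cr j i)
  simpa [cr] using h

theorem cr_cr (i j : ι) : cr i * cr j = -(cr j * cr i) := FockA.cr_cr i j

theorem an_cr (i j : ι) : an i * cr j + cr j * an i = if i = j then 1 else 0 := FockA.an_cr i j

theorem an_int (j : ι) (I J : Finset ι) : an j I J = 0 ∨ an j I J = 1 ∨ an j I J = -1 := by
  rw [an, of_apply]
  split_ifs
  · exact Or.inr (neg_one_pow_eq_or ℂ _)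
  · exact Or.inl rfl

theorem Gm_wdg (g : Matrix ι ι ℂ) (ξ : ι → ℂ) : Gm g * wdg ξ = wdg (g *ᵥ ξ) * Gm g := by
  have h : wdg (g *ᵥ ξ) = ∑ j, ξ j • wdg fun k => g k j := by
    simp only [wdg, mulVec, dotProduct, Finset.sum_smul, Finset.smul_sum, smul_smul]
    rw [Finset.sum_comm]
    simp only [mul_comm]
  rw [h, wdg, Finset.mul_sum, Finset.sum_mul]
  exact Finset.sum_congr rfl fun j _ => by rw [Matrix.mul_smul, Gm_cr, Matrix.smul_mul]

theorem ctr_Gm (g : Matrix ι ι ℂ) (ξ : ι → ℂ) : ctr ξ * Gm g = Gm g * ctr (ξ ᵥ* g) := by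
  refine sub_eq_zero.1 (uniq ?_ fun j => ⟨-wdg fun k => g k j, ?_⟩)
  · rw [sub_mulVec, ← mulVec_mulVec, ← mulVec_mulVec, Gm_empty, ctr_empty, ctr_empty, mulVec_zero,
      sub_self]
  · have h1 := eq_sub_of_add_eq (ctr_wdg ξ fun k => g k j)
    have h2 := eq_sub_of_add_eq (ctr_wdg (ξ ᵥ* g) (Pi.single j 1))
    rw [wdg_single, dotProduct_single_one] at h2
    rw [Matrix.sub_mul, Matrix.mul_assoc, Matrix.mul_assoc, Gm_cr, h2, ← Matrix.mul_assoc, h1,
      Matrix.mul_sub, ← Matrix.mul_assoc, Gm_cr, Matrix.sub_mul, Matrix.smul_mul, Matrix.mul_smul,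
      Matrix.one_mul, Matrix.mul_one, Matrix.neg_mul, Matrix.mul_sub, Matrix.mul_assoc,
      Matrix.mul_assoc]
    change (ξ ᵥ* g) j • Gm g - _ - _ = _
    abel

theorem Gm_one : Gm (1 : Matrix ι ι ℂ) = 1 := by
  refine eq_Gm (one_mulVec _) fun j => ?_
  rw [Matrix.one_mul, Matrix.mul_one, ← wdg_single]
  exact congrArg wdg (funext fun k => by rw [one_apply, Pi.single_apply])

theorem Gm_mul (g h : Matrix ι ι ℂ) : Gm (g * h) = Gm g * Gm h := by
  refine eq_Gm (by rw [← mulVec_mulVec, Gm_empty, Gm_empty]) fun j => ?_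
  rw [Matrix.mul_assoc, Gm_cr, ← Matrix.mul_assoc, Gm_wdg, Matrix.mul_assoc]
  rfl

theorem Gm_star (g : Matrix ι ι ℂ) : Gm gᴴ = (Gm g)ᴴ := by
  refine eq_Gm ?_ fun j => ?_
  · ext J
    have h1 : ((Gm g)ᴴ *ᵥ e ∅) J = star ((Gm g *ᵥ e J) ∅) := by simp [e]
    rw [h1]
    rcases J.eq_empty_or_nonempty with rfl | ⟨j, hj⟩
    · rw [Gm_empty]
      simp [e]
    · have h2 : ∀ M : Matrix (Finset ι) (Finset ι) ℂ, (wdg (fun k => g k j) * M) ∅ ∅ = 0 := by
        intro M
        simp [mul_apply, wdg, Matrix.sum_apply, cr_apply, (Finset.insert_ne_empty _ _).symm]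
      rw [Gm_e, ← Finset.insert_erase hj, P_insert g j _ (Finset.notMem_erase _ _)]
      simp [e, h2]
  · have h1 := congrArg conjTranspose (ctr_Gm g (Pi.single j 1))
    rw [conjTranspose_mul, conjTranspose_mul, ctr_single, single_one_vecMul] at h1
    rw [cr, h1]
    simp [ctr, wdg, cr, conjTranspose_sum]

theorem Gm_inv {g : Matrix ι ι ℂ} (hg : IsUnit g.det) : Gm g⁻¹ = (Gm g)⁻¹ ∧ IsUnit (Gm g).det := by
  have h : Gm g⁻¹ * Gm g = 1 := by rw [← Gm_mul, nonsing_inv_mul g hg, Gm_one]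
  exact ⟨(inv_eq_left_inv h).symm, isUnit_det_of_left_inverse h⟩

end Vale.Agent.P299
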