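import Vale.Agent.P299.FockA

/-! P299: degrees and explicit formulas in the Fock space. -/

open MeasureTheory Set Filter Topology Matrix
open scoped ContDiff ENNReal ComplexConjugate ComplexOrder

noncomputable section

namespace Vale.Agent.P299

variable {ι : Type} [Fintype ι] [LinearOrder ι]

omit [Fintype ι] in
theorem FockB_sg_sq (j : ι) (I : Finset ι) : sg j I * sg j I = 1 := by
  rw [sg, ← mul_pow, neg_mul_neg, one_mul, one_pow]

omit [Fintype ι] in
theorem FockB_cr (j : ι) (I J : Finset ι) :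
    cr j I J = if j ∉ J ∧ I = insert j J then sg j J else 0 := by
  simp only [cr, conjTranspose_apply, an, of_apply]
  split_ifs <;> simp [sg]

theorem FockB_wdg (ξ : ι → ℂ) (I J : Finset ι) : wdg ξ I J = ∑ j, ξ j * cr j I J := by
  simp only [wdg, Matrix.sum_apply, Matrix.smul_apply, smul_eq_mul]

theorem FockB_ctr (ξ : ι → ℂ) (I J : Finset ι) : ctr ξ I J = ∑ j, ξ j * an j I J := by
  simp only [ctr, Matrix.sum_apply, Matrix.smul_apply, smul_eq_mul]

theorem FockB_wdg_single (j : ι) (c : ℂ) : wdg (Pi.single j c) = c • cr j := by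
  rw [wdg, Finset.sum_eq_single j (fun k _ hk => by rw [Pi.single_eq_of_ne hk, zero_smul])
    (fun h => (h (Finset.mem_univ j)).elim), Pi.single_eq_same]

theorem FockB_cr_left (g : Matrix ι ι ℂ) (j : ι) : Gm g * cr j = wdg (fun k => g k j) * Gm g := by
  have h := Gm_wdg g (Pi.single j 1)
  rw [FockB_wdg_single, one_smul, mulVec_single_one] at h
  exact h

theorem FockB_empty (g : Matrix ι ι ℂ) (I : Finset ι) :
    Gm g I ∅ = if I = ∅ then 1 else 0 := by
  simp [Gm, one_apply]

theorem FockB_insert (g : Matrix ι ι ℂ) (I : Finset ι) {j : ι} {J : Finset ι} (hj : j ∉ J) :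
    Gm g I (insert j J) = sg j J * ∑ K, wdg (fun k => g k j) I K * Gm g K J := by
  have h := congrFun (congrFun (FockB_cr_left g j) I) J
  rw [mul_apply, mul_apply, Finset.sum_eq_single (insert j J)
    (fun K _ hK => by rw [FockB_cr, if_neg fun h => hK h.2, mul_zero])
    (fun h => (h (Finset.mem_univ _)).elim), FockB_cr, if_pos ⟨hj, rfl⟩] at h
  rw [← h, mul_left_comm, FockB_sg_sq, mul_one]

theorem Gm_diag (d : ι → ℂ) : Gm (diagonal d) = diagonal fun I => ∏ i ∈ I, d i := by
  ext I J
  induction J using Finset.induction_on generalizing I with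
  | empty =>
    rw [FockB_empty, diagonal_apply]
    split_ifs with h
    · rw [h, Finset.prod_empty]
    · rfl
  | insert j J hj ih =>
    have h1 : (fun k => diagonal d k j) = Pi.single j (d j) := by
      funext k
      by_cases h : k = j
      · rw [h, diagonal_apply_eq, Pi.single_eq_same]
      · rw [diagonal_apply_ne _ h, Pi.single_eq_of_ne h]
    rw [FockB_insert _ _ hj, h1, FockB_wdg_single, Finset.sum_eq_single J
      (fun K _ hK => by rw [ih, diagonal_apply_ne _ hK, mul_zero])
      (fun h => (h (Finset.mem_univ _)).elim), ih, diagonal_apply_eq, Matrix.smul_apply, FockB_cr,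
      diagonal_apply]
    by_cases h : I = insert j J
    · rw [if_pos ⟨hj, h⟩, if_pos h, h, Finset.prod_insert hj, smul_eq_mul]
      linear_combination (d j * ∏ i ∈ J, d i) * FockB_sg_sq j J
    · rw [if_neg fun h' => h h'.2, if_neg h, smul_zero, zero_mul, mul_zero]

theorem FockB_smul (c : ℂ) (g : Matrix ι ι ℂ) (I J : Finset ι) :
    Gm (c • g) I J = c ^ J.card * Gm g I J := by
  induction J using Finset.induction_on generalizing I with
  | empty => rw [FockB_empty, FockB_empty, Finset.card_empty, pow_zero, one_mul]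
  | insert j J hj ih =>
    rw [FockB_insert _ _ hj, FockB_insert _ _ hj, Finset.card_insert_of_notMem hj, mul_left_comm,
      Finset.mul_sum _ _ (c ^ _)]
    refine congrArg _ (Finset.sum_congr rfl fun K _ => ?_)
    rw [ih, FockB_wdg, FockB_wdg, Finset.sum_mul, Finset.sum_mul, Finset.mul_sum]
    refine Finset.sum_congr rfl fun k _ => ?_
    rw [Matrix.smul_apply, smul_eq_mul]
    ring

theorem Gm_smul (c : ℂ) (g : Matrix ι ι ℂ) {q : ℕ} {v : W ι} (hv : Dg q v) :
    Gm (c • g) *ᵥ v = c ^ q • (Gm g *ᵥ v) := by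
  funext I
  simp only [mulVec, dotProduct, Pi.smul_apply, smul_eq_mul, Finset.mul_sum]
  refine Finset.sum_congr rfl fun J _ => ?_
  by_cases h : J.card = q
  · rw [FockB_smul, h, mul_assoc]
  · rw [hv J h, mul_zero, mul_zero, mul_zero]

theorem Gm_poly (I J : Finset ι) : ∃ p : MvPolynomial (ι × ι) ℂ,
    ∀ g : Matrix ι ι ℂ, Gm g I J = MvPolynomial.eval (fun e => g e.1 e.2) p := by
  induction J using Finset.induction_on generalizing I with
  | empty =>
    exact ⟨MvPolynomial.C (if I = ∅ then 1 else 0), fun g => by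
      rw [FockB_empty, MvPolynomial.eval_C]⟩
  | insert j J hj ih =>
    choose p hp using ih
    refine ⟨MvPolynomial.C (sg j J) * ∑ K, (∑ k, MvPolynomial.X (k, j) *
      MvPolynomial.C (cr k I K)) * p K, fun g => ?_⟩
    simp only [FockB_insert _ _ hj, FockB_wdg, hp, map_mul, map_sum, MvPolynomial.eval_C,
      MvPolynomial.eval_X]

theorem FockB_wdg_ne (ξ : ι → ℂ) {I J : Finset ι} (h : I.card ≠ J.card + 1) : wdg ξ I J = 0 := by
  rw [FockB_wdg]
  refine Finset.sum_eq_zero fun j _ => ?_
  rw [FockB_cr, if_neg fun h' => h (by rw [h'.2, Finset.card_insert_of_notMem h'.1]), mul_zero]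

theorem FockB_ctr_ne (ξ : ι → ℂ) {I J : Finset ι} (h : J.card ≠ I.card + 1) : ctr ξ I J = 0 := by
  rw [FockB_ctr]
  refine Finset.sum_eq_zero fun j _ => ?_
  rw [an, of_apply, if_neg fun h' => h (by rw [h'.2, Finset.card_insert_of_notMem h'.1]), mul_zero]

theorem FockB_deg (g : Matrix ι ι ℂ) {I J : Finset ι} (h : I.card ≠ J.card) : Gm g I J = 0 := by
  induction J using Finset.induction_on generalizing I with
  | empty => rw [FockB_empty, if_neg fun h' => h (by rw [h'])]
  | insert j J hj ih =>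
    rw [FockB_insert _ _ hj, Finset.sum_eq_zero fun K _ => ?_, mul_zero]
    by_cases hK : K.card = J.card
    · rw [FockB_wdg_ne _ (by rwa [hK, ← Finset.card_insert_of_notMem hj]), zero_mul]
    · rw [ih hK, mul_zero]

theorem FockB_congr {g h : Matrix ι ι ℂ} (I : Finset ι) {J : Finset ι}
    (e : ∀ j ∈ J, ∀ k, g k j = h k j) : Gm g I J = Gm h I J := by
  simp only [Gm, of_apply]
  rw [List.map_congr_left fun j hj => congrArg wdg (funext (e j ((Finset.mem_sort _).1 hj)))]

theorem Gm_top (g : Matrix ι ι ℂ) : Gm g Finset.univ Finset.univ = g.det := by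
  refine diagonal_transvection_induction (fun g => Gm g Finset.univ Finset.univ = g.det) g
    (fun d _ => ?_) (fun t => ?_) fun a b ha hb => ?_
  · rw [Gm_diag, diagonal_apply_eq, det_diagonal]
  · obtain ⟨i, j, hij, c⟩ := t
    have h1 : ∀ K, Gm (transvection i j c) K (Finset.univ.erase j) =
        (1 : Matrix (Finset ι) (Finset ι) ℂ) K (Finset.univ.erase j) := fun K => by
      rw [← Gm_one]
      refine FockB_congr K fun l hl k => ?_
      rw [transvection, Matrix.add_apply, single_apply_of_col_ne _ _ (Finset.ne_of_mem_erase hl).symm,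
        add_zero]
    have h2 := FockB_insert (transvection i j c) Finset.univ (Finset.notMem_erase j Finset.univ)
    rw [Finset.insert_erase (Finset.mem_univ j)] at h2
    rw [TransvectionStruct.toMatrix_mk, det_transvection_of_ne _ _ hij, h2]
    simp only [h1]
    rw [← mul_apply, mul_one, FockB_wdg, Finset.sum_eq_single j
      (fun k _ hk => by
        rw [FockB_cr, if_neg fun h => h.1 (Finset.mem_erase.2 ⟨hk, Finset.mem_univ k⟩), mul_zero])
      (fun h => (h (Finset.mem_univ _)).elim), FockB_cr,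
      if_pos ⟨Finset.notMem_erase _ _, (Finset.insert_erase (Finset.mem_univ j)).symm⟩,
      transvection, Matrix.add_apply, one_apply_eq, single_apply_of_row_ne hij, add_zero, one_mul,
      FockB_sg_sq]
  · rw [Gm_mul, det_mul, mul_apply, Finset.sum_eq_single Finset.univ
      (fun K _ hK => by rw [FockB_deg b fun h => hK (Finset.eq_univ_of_card _ h), mul_zero])
      (fun h => (h (Finset.mem_univ _)).elim), ha, hb]

theorem Dg.gm {q : ℕ} {v : W ι} (hv : Dg q v) (g : Matrix ι ι ℂ) : Dg q (Gm g *ᵥ v) := by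
  refine fun I hI => Finset.sum_eq_zero fun J _ => ?_
  by_cases h : J.card = q
  · exact mul_eq_zero_of_left (FockB_deg g (by rwa [h])) _
  · exact mul_eq_zero_of_right _ (hv J h)

theorem Dg.wdg {q : ℕ} {v : W ι} (hv : Dg q v) (ξ : ι → ℂ) : Dg (q + 1) (wdg ξ *ᵥ v) := by
  refine fun I hI => Finset.sum_eq_zero fun J _ => ?_
  by_cases h : J.card = q
  · exact mul_eq_zero_of_left (FockB_wdg_ne ξ (by rwa [h])) _
  · exact mul_eq_zero_of_right _ (hv J h)

theorem Dg.ctr {q : ℕ} {v : W ι} (hv : Dg (q + 1) v) (ξ : ι → ℂ) : Dg q (ctr ξ *ᵥ v) := by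
  refine fun I hI => Finset.sum_eq_zero fun J _ => ?_
  by_cases h : J.card = q + 1
  · exact mul_eq_zero_of_left (FockB_ctr_ne ξ (by omega)) _
  · exact mul_eq_zero_of_right _ (hv J h)

theorem Dg.ctr_zero {v : W ι} (hv : Dg 0 v) (ξ : ι → ℂ) : P299.ctr ξ *ᵥ v = 0 := by
  refine funext fun I => Finset.sum_eq_zero fun J _ => ?_
  by_cases h : J.card = 0
  · exact mul_eq_zero_of_left (FockB_ctr_ne ξ (by omega)) _
  · exact mul_eq_zero_of_right _ (hv J h)

theorem Dg.q2_zero {v : W ι} (hv : Dg 0 v) (g : Matrix ι ι ℂ) : q2 (Gm g) v = ‖v ∅‖ ^ 2 := by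
  have h0 : ∀ K : Finset ι, K ≠ ∅ → v K = 0 := fun K hK => hv K (mt Finset.card_eq_zero.1 hK)
  rw [q2, dotProduct, Finset.sum_eq_single ∅
    (fun K _ hK => by rw [Pi.star_apply, h0 K hK, star_zero, zero_mul])
    (fun h => (h (Finset.mem_univ _)).elim), mulVec, dotProduct, Finset.sum_eq_single ∅
    (fun K _ hK => by rw [h0 K hK, mul_zero]) (fun h => (h (Finset.mem_univ _)).elim),
    FockB_empty, if_pos rfl, one_mul, Pi.star_apply, Complex.star_def, Complex.conj_mul',
    ← Complex.ofReal_pow, Complex.ofReal_re]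

theorem FockB_cr_an (j : ι) :
    cr j * an j = diagonal fun I : Finset ι => if j ∈ I then (1 : ℂ) else 0 := by
  ext I J
  rw [mul_apply, diagonal_apply]
  by_cases hj : j ∈ I
  · rw [Finset.sum_eq_single (I.erase j) (fun K _ hK => by
      rw [FockB_cr, if_neg fun h => hK (by rw [h.2, Finset.erase_insert h.1]), zero_mul])
      (fun h => (h (Finset.mem_univ _)).elim), FockB_cr,
      if_pos ⟨Finset.notMem_erase _ _, (Finset.insert_erase hj).symm⟩, an, of_apply,
      Finset.insert_erase hj, if_pos hj]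
    by_cases h : I = J
    · rw [if_pos h, if_pos ⟨Finset.notMem_erase _ _, h.symm⟩, FockB_sg_sq]
    · rw [if_neg h, if_neg fun h' => h h'.2.symm, mul_zero]
  · rw [if_neg hj, ite_self]
    refine Finset.sum_eq_zero fun K _ => ?_
    rw [FockB_cr, if_neg fun h => hj (by rw [h.2]; exact Finset.mem_insert_self _ _), zero_mul]

theorem Dg.num {q : ℕ} {v : W ι} (hv : Dg q v) : dG 1 *ᵥ v = (q : ℂ) • v := by
  have h1 : ∀ j : ι, ∑ k, (1 : Matrix ι ι ℂ) j k • (cr j * an k) = cr j * an j := fun j => by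
    rw [Finset.sum_eq_single j (fun k _ hk => by rw [one_apply_ne' hk, zero_smul])
      (fun h => (h (Finset.mem_univ _)).elim), one_apply_eq, one_smul]
  funext I
  simp only [dG, h1, FockB_cr_an, Matrix.sum_mulVec, Finset.sum_apply, mulVec_diagonal,
    Pi.smul_apply, smul_eq_mul, ← Finset.sum_mul]
  by_cases h : I.card = q
  · rw [Finset.sum_ite_mem, Finset.univ_inter, Finset.sum_const, h, nsmul_eq_mul, mul_one]
  · rw [hv I h, mul_zero, mul_zero]

theorem Gm_dG (g h : Matrix ι ι ℂ) (v : W ι) :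
    star v ⬝ᵥ (Gm g * dG h) *ᵥ v =
      ∑ j, ∑ k, (g * h) j k * (star (an j *ᵥ v) ⬝ᵥ Gm g *ᵥ an k *ᵥ v) := by
  have h1 : Gm g * dG h = ∑ j, ∑ k, (g * h) j k • (cr j * Gm g * an k) := by
    simp only [dG, Finset.mul_sum, mul_smul_comm, ← mul_assoc, FockB_cr_left, wdg, Finset.sum_mul,
      smul_mul_assoc, Finset.smul_sum, smul_smul, mul_apply, Finset.sum_smul]
    rw [Finset.sum_comm, Finset.sum_comm_cycle]
    refine Finset.sum_congr rfl fun j _ => Finset.sum_congr rfl fun k _ =>
      Finset.sum_congr rfl fun l _ => ?_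
    rw [mul_comm]
  simp only [h1, Matrix.sum_mulVec, dotProduct_sum, smul_mulVec, dotProduct_smul, smul_eq_mul,
    ← mulVec_mulVec, star_mulVec, cr, dotProduct_mulVec (star v)]

end Vale.Agent.P299
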