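import Vale.Agent.P299.GDefs
import Vale.Agent.P299.G3

/-! P299, part G: a projectively normal polarisation. -/

open MeasureTheory Set Filter Topology Matrix
open scoped ContDiff ENNReal ComplexConjugate ComplexOrder

noncomputable section

namespace Vale.Agent.P299

open Vale.Agent.P271 Vale.Agent.P272

variable {n : ℕ} {X : Type} [TopologicalSpace X] [T2Space X] [CompactSpace X] [ConnectedSpace X]
  {A : Atl n X}

omit [T2Space X] [CompactSpace X] [ConnectedSpace X] in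
theorem G4_imm {u : A.ι → X → ℂ} {ι κ : Type} {s : ι → X → ℂ} {t : κ → X → ℂ} (hs : A.Imm u s)
    (ht : ∀ k, t k ∈ A.H0 u) (h : ∀ i, ∃ k, t k = s i) : A.Imm u t := by
  choose f hf using h
  refine ⟨ht, fun p => ?_, fun a z hz ξ hξ => ?_⟩
  · obtain ⟨i, hi⟩ := hs.bpf p
    exact ⟨f i, by rwa [hf]⟩
  · obtain ⟨i, j, hij⟩ := hs.imm a z hz ξ hξ
    exact ⟨f i, f j, by rwa [hf, hf]⟩

omit [TopologicalSpace X] [T2Space X] [CompactSpace X] [ConnectedSpace X] in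
theorem G4_sep {ι κ : Type} {s : ι → X → ℂ} {t : κ → X → ℂ}
    (hs : ∀ p q, p ≠ q → ∃ i j, s i p * s j q ≠ s j p * s i q) (h : ∀ i, ∃ k, t k = s i) :
    ∀ p q, p ≠ q → ∃ i j, t i p * t j q ≠ t j p * t i q := by
  choose f hf using h
  intro p q hpq
  obtain ⟨i, j, hij⟩ := hs p q hpq
  exact ⟨f i, f j, by rwa [hf, hf]⟩

omit [TopologicalSpace X] [T2Space X] [CompactSpace X] [ConnectedSpace X] in
theorem G4_span {ι κ : Type} {s : ι → X → ℂ} {t : κ → X → ℂ} (h : ∀ i, ∃ k, t k = s i) (l : ℕ) :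
    Submodule.span ℂ (range s) ^ l ≤ Submodule.span ℂ (range t) ^ l :=
  pow_le_pow_left' (Submodule.span_mono (range_subset_iff.2 fun i => mem_range.2 (h i))) l

omit [TopologicalSpace X] [T2Space X] [CompactSpace X] [ConnectedSpace X] in
/-- The products of degree `l + 1` separate points. -/
theorem G4_sep_pow {ι : Type} {s : ι → X → ℂ} (hb : ∀ p, ∃ i, s i p ≠ 0)
    (hs : ∀ p q, p ≠ q → ∃ i j, s i p * s j q ≠ s j p * s i q) (l : ℕ) (p q : X) (hpq : p ≠ q) :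
    ∃ i j : ι × ι, (s i.1 ^ l * s i.2) p * (s j.1 ^ l * s j.2) q ≠
      (s j.1 ^ l * s j.2) p * (s i.1 ^ l * s i.2) q := by
  by_contra h
  push Not at h
  simp only [Pi.mul_apply, Pi.pow_apply] at h
  obtain ⟨i, j, hij⟩ := hs p q hpq
  obtain ⟨a, ha⟩ := hb p
  obtain ⟨b, hb⟩ := hb q
  have h1 := h (a, a) (b, b)
  have h2 : s a q ≠ 0 := by
    intro h0
    rw [h0, mul_zero, mul_zero] at h1
    exact mul_ne_zero (mul_ne_zero (pow_ne_zero _ ha) ha) (mul_ne_zero (pow_ne_zero _ hb) hb) h1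
  have h3 := h (a, i) (a, j)
  refine hij (mul_left_cancel₀ (mul_ne_zero (pow_ne_zero l ha) (pow_ne_zero l h2)) ?_)
  linear_combination h3

theorem G4_pow (P₀ : Pol A) : ∃ (v : A.ι → X → ℂ) (r : ℕ) (s : Fin r → X → ℂ),
    A.IsGauge v ∧ A.Imm v s ∧ (∀ p q, p ≠ q → ∃ i j, s i p * s j q ≠ s j p * s i q) ∧
      ∀ l, A.H0 (v ^ l) ≤ Submodule.span ℂ (range s) ^ l := by
  set v0 := P₀.u ^ P₀.k0 with hv0
  have hg : A.IsGauge v0 := P₀.gauge.pow _
  obtain ⟨l1, hl⟩ := G3_gen hg P₀.imm P₀.sep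
  set W := Submodule.span ℂ (range P₀.s) with hW
  have hWle : W ≤ A.H0 v0 := Submodule.span_le.2 (range_subset_iff.2 P₀.imm.mem)
  set H := A.H0 (v0 ^ (l1 + 1)) with hH
  have h1 : ∀ j, A.H0 (v0 ^ (l1 + 1 + j)) ≤ W ^ j * H := by
    intro j
    induction j with
    | zero => rw [pow_zero, one_mul]
    | succ j ih =>
      refine (hl (l1 + 1 + j) (by omega)).trans ?_
      rw [pow_succ', mul_assoc]
      exact mul_le_mul' le_rfl ih
  have h2 : ∀ l, A.H0 ((v0 ^ (l1 + 1)) ^ l) ≤ H ^ l := by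
    intro l
    cases l with
    | zero => simpa only [pow_zero] using G3_const hg P₀.imm
    | succ l =>
      rw [← pow_mul, mul_add, mul_one, add_comm _ (l1 + 1), pow_succ H]
      refine (h1 _).trans (mul_le_mul' ?_ le_rfl)
      rw [pow_mul]
      exact pow_le_pow_left' (intA_pow_le hWle _) l
  have := finDim A (hg.pow (l1 + 1))
  obtain ⟨r, b, hb⟩ := Submodule.fg_iff_exists_fin_generating_family.1
    (Module.Finite.iff_fg.1 this)
  have h3 : A.Imm (v0 ^ (l1 + 1)) fun q : Fin P₀.N × Fin P₀.N => P₀.s q.1 ^ l1 * P₀.s q.2 := by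
    rw [pow_succ]
    refine P₀.imm.mul hg (hg.pow l1) (fun k => Atl.pow_mem_H0 (P₀.imm.mem k) l1) fun p => ?_
    obtain ⟨i, hi⟩ := P₀.imm.bpf p
    exact ⟨i, pow_ne_zero _ hi⟩
  let e := Fintype.equivFin ((Fin P₀.N × Fin P₀.N) ⊕ Fin r)
  let t : (Fin P₀.N × Fin P₀.N) ⊕ Fin r → X → ℂ :=
    Sum.elim (fun q => P₀.s q.1 ^ l1 * P₀.s q.2) b
  have h4 : ∀ q : Fin P₀.N × Fin P₀.N, ∃ k, t (e.symm k) = P₀.s q.1 ^ l1 * P₀.s q.2 := fun q =>
    ⟨e (Sum.inl q), by rw [e.symm_apply_apply]; rfl⟩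
  refine ⟨v0 ^ (l1 + 1), _, fun k => t (e.symm k), hg.pow _, G4_imm h3 (fun k => ?_) h4,
    G4_sep (G4_sep_pow P₀.imm.bpf P₀.sep l1) h4, fun l => (h2 l).trans ?_⟩
  · rcases e.symm k with q | i
    · exact h3.mem q
    · rw [← hb]
      exact Submodule.subset_span ⟨i, rfl⟩
  · rw [hH, ← hb]
    exact G4_span (fun i => ⟨e (Sum.inr i), by rw [e.symm_apply_apply]; rfl⟩) l

theorem G4_norm {v : A.ι → X → ℂ} (hv : A.IsGauge v) {N : ℕ} {s : Fin (N + 1) → X → ℂ}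
    (hs : A.Imm v s) (sep : ∀ p q, p ≠ q → ∃ i j, s i p * s j q ≠ s j p * s i q)
    (gen : ∀ l, A.H0 (v ^ l) ≤ Submodule.span ℂ (range s) ^ l) {c : Fin n → Fin (N + 1)}
    {D : MvPolynomial (Fin n) ℂ} (hp : Proj A v (s 0) (fun l => s (c l)) D) :
    ∃ (P : Pol A) (e : Fin (N + 1) ≃ Fin P.N), GP P e c D := by
  set S : X → ℝ := fun p => ∑ i, ‖s i p‖ ^ 2 with hS
  have hpos : ∀ p, 0 < S p := fun p => by
    obtain ⟨i, hi⟩ := hs.bpf p
    exact Finset.sum_pos' (fun _ _ => sq_nonneg _)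
      ⟨i, Finset.mem_univ _, pow_pos (norm_pos_iff.2 hi) 2⟩
  set ν : X → ℂ := fun p => (Real.sqrt (S p) : ℝ) with hν
  have h0 : ∀ p, ν p ≠ 0 := fun p => Complex.ofReal_ne_zero.2 (Real.sqrt_pos.2 (hpos p)).ne'
  have hn : ∀ p, ‖ν p‖ ^ 2 = S p := fun p => by
    rw [hν, Complex.norm_real, Real.norm_eq_abs, sq_abs, Real.sq_sqrt (hpos p).le]
  set u : A.ι → X → ℂ := fun a p => ν p * v a p with hu
  have hg : A.IsGauge u := by
    refine ⟨fun a p hp => mul_ne_zero (h0 p) (hv.ne a p hp), fun a b => ?_, fun a => ?_⟩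
    · have e : (fun p => u a p / u b p) = fun p => v a p / v b p :=
        funext fun p => mul_div_mul_left _ _ (h0 p)
      rw [e]
      exact hv.hol a b
    · have h1 : ContDiffOn ℝ ∞ _ _ := (ContDiffOn.sum (s := Finset.univ) fun i _ =>
        Atl.sm_normSq hv (Atl.H0_le_Sec (hs.mem i)) a).mul (hv.sm a)
      refine h1.congr fun z _ => ?_
      simp only [Atl.loc, hu, norm_mul, mul_pow, hn, hS]
  have e1 : ∀ a (t : X → ℂ), (fun p => u a p * (ν⁻¹ * t) p) = fun p => v a p * t p := by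
    intro a t
    funext p
    simp only [hu, Pi.mul_apply, Pi.inv_apply]
    field_simp [h0 p]
  have hm : ∀ t ∈ A.H0 v, ν⁻¹ * t ∈ A.H0 u := fun t ht a => by
    rw [e1]
    exact ht a
  have e2 : ∀ (t t' : X → ℂ) p, (ν⁻¹ * t) p / (ν⁻¹ * t') p = t p / t' p := fun t t' p =>
    mul_div_mul_left _ _ (inv_ne_zero (h0 p))
  have e3 : ∀ (t : X → ℂ) p, (ν⁻¹ * t) p = 0 ↔ t p = 0 := fun t p =>
    mul_eq_zero_iff_left (inv_ne_zero (h0 p))
  refine ⟨
    { u := u, gauge := hg, k0 := 1, k0_pos := one_pos, N := N + 1, s := fun i => ν⁻¹ * s i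
      imm := ?_, norm := fun p => ?_, sep := fun p q hpq => ?_ }, Equiv.refl _, rfl, ?_,
    fun l t ht => ?_⟩
  · rw [pow_one]
    refine ⟨fun i => hm _ (hs.mem i), fun p => ?_, fun a z hz ξ hξ => ?_⟩
    · simpa only [ne_eq, e3] using hs.bpf p
    · simpa only [e1] using hs.imm a z hz ξ hξ
  · simp only [Pi.mul_apply, Pi.inv_apply, norm_mul, mul_pow, norm_inv, inv_pow, hn,
      ← Finset.mul_sum]
    exact inv_mul_cancel₀ (hpos p).ne'
  · obtain ⟨i, j, hij⟩ := sep p q hpq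
    refine ⟨i, j, fun h => hij ?_⟩
    simp only [Pi.mul_apply, Pi.inv_apply] at h
    refine mul_left_cancel₀ (mul_ne_zero (inv_ne_zero (h0 p)) (inv_ne_zero (h0 q))) ?_
    linear_combination h
  · refine ⟨hm _ hp.σ_mem, fun l => hm _ (hp.w_mem l), ?_, ?_, ?_⟩
    · simpa only [Equiv.refl_apply, ne_eq, e3] using hp.bpf
    · simpa only [Equiv.refl_apply, ne_eq, e3, e2] using hp.ne
    · simpa only [Equiv.refl_apply, ne_eq, e3, e2] using hp.inj
  · have h1 : ν ^ l * t ∈ A.H0 (v ^ l) := fun a => by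
      have e : (fun p => (v ^ l) a p * (ν ^ l * t) p) = fun p => (u ^ l) a p * t p := by
        funext p
        simp only [hu, Pi.mul_apply, Pi.pow_apply, mul_pow]
        ring
      rw [e]
      exact ht a
    have h2 : Submodule.span ℂ (range fun i => ν⁻¹ * s i) =
        (Submodule.span ℂ (range s)).map (LinearMap.mulLeft ℂ ν⁻¹) := by
      rw [Submodule.map_span, ← range_comp]
      rfl
    show t ∈ Submodule.span ℂ (range fun i => ν⁻¹ * s i) ^ l
    rw [h2, map_mulLeft_pow]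
    refine ⟨_, gen l h1, funext fun p => ?_⟩
    simp only [LinearMap.mulLeft_apply, Pi.mul_apply, Pi.pow_apply, Pi.inv_apply]
    rw [← mul_assoc, ← mul_pow, inv_mul_cancel₀ (h0 p), one_pow, one_mul]

theorem exists_gp (P₀ : Pol A) : ∃ (P : Pol A) (N : ℕ) (e : Fin (N + 1) ≃ Fin P.N)
    (c : Fin n → Fin (N + 1)) (D : MvPolynomial (Fin n) ℂ), GP P e c D := by
  obtain ⟨v, r, s, hv, hs, sep, gen⟩ := G4_pow P₀
  obtain ⟨σ, w, D, -, -, hp⟩ := exists_proj hv hs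
  let t : Fin (n + r + 1) → X → ℂ := Fin.cons σ (Fin.append w s)
  have h1 : ∀ i, ∃ k, t k = s i := fun i => ⟨(Fin.natAdd n i).succ, by simp [t]⟩
  have h2 : ∀ k, t k ∈ A.H0 v := by
    intro k
    refine Fin.cases hp.σ_mem (fun k => ?_) k
    refine Fin.addCases (fun i => ?_) (fun i => ?_) k
    · simpa [t] using hp.w_mem i
    · simpa [t] using hs.mem i
  obtain ⟨P, e, h⟩ := G4_norm hv (G4_imm hs h2 h1) (G4_sep sep h1)
    (fun l => (gen l).trans (G4_span h1 l)) (c := fun l => (Fin.castAdd r l).succ) (D := D)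
    (by simpa [t] using hp)
  exact ⟨P, _, e, _, D, h⟩

end Vale.Agent.P299
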