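import Vale.Agent.P299.GDefs
import Vale.Agent.P271A.CovB

/-! P299, part G: the Riemann domain over the complement of the discriminant.

Hints. Copy the proof of `P271A.exists_cov` (CovB) with `I = (e 0, fun l => e (c l))`,
`Z = σ * F`, where `σ = P.s (e 0)` and `F ∈ H0 (P.u ^ d)` is `exists_homogenize` of `D`
(`d = D.totalDegree`, `intA_pow_le`), so `Z p ≠ 0 ↔ σ p ≠ 0 ∧ D (w / σ) ≠ 0`. On this set
`W I p ≠ 0` since the determinant in `exists_jac` is nonzero by `Proj.inj`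
(`LinearMap.det_eq_zero_iff_ker_ne_bot`). `K.t q = σ (K.π q)` from `K.t_pow` and `P.k0 = 1`. For the
exhaustion use `covb_rho`, `covb_closed`, `covb_ne`, `covb_le` for the single family
`Option.elim j Z fun j => P.s j ^ (d + 1)` of sections of `P.u ^ (d + 1)` with `i = none`. -/

open MeasureTheory Set Filter Topology Matrix
open scoped ContDiff ENNReal ComplexConjugate ComplexOrder

noncomputable section

namespace Vale.Agent.P299

open Vale.Agent.P271 Vale.Agent.P272 Vale.Agent.P271A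

variable {n : ℕ} {X : Type} [TopologicalSpace X] [T2Space X] [CompactSpace X] [ConnectedSpace X]
  [MeasurableSpace X] [BorelSpace X] {M : Model n X} {N : ℕ} {P : Pol M.toAtl}
  {e : Fin (N + 1) ≃ Fin P.N} {c : Fin n → Fin (N + 1)} {D : MvPolynomial (Fin n) ℂ}

theorem exists_gc (h : GP P e c D) : ∃ C : P271A.Cov M P, (∀ q, C.t q = P.s (e 0) (C.π q)) ∧
    range C.π = {p | P.s (e 0) p ≠ 0 ∧
      MvPolynomial.eval (fun l => P.s (e (c l)) p / P.s (e 0) p) D ≠ 0} := by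
  obtain ⟨W, hW, -, hWd⟩ := exists_jac M P
  obtain ⟨I, hI⟩ : ∃ I : Fin P.N × (Fin n → Fin P.N), I = (e 0, fun l => e (c l)) := ⟨_, rfl⟩
  have hI1 : e 0 = I.1 := by rw [hI]
  have hI2 : ∀ l, e (c l) = I.2 l := fun l => by rw [hI]
  have hproj := h.proj
  simp only [hI1, hI2] at hproj ⊢
  have hgu : M.IsGauge (P.u ^ P.k0) := P.gauge.pow _
  have hgW : M.IsGauge (M.k * P.u ^ (2 * n * P.k0)) := M.k_gauge.mul (P.gauge.pow _)
  obtain ⟨F, hF, hFe⟩ := exists_homogenize (W := M.H0 (P.u ^ P.k0)) (P.imm.mem I.1)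
    (fun l => P.imm.mem (I.2 l)) (le_refl D.totalDegree)
  have hG := hgu.pow (D.totalDegree + 1)
  have hZ : F * P.s I.1 ∈ M.H0 ((P.u ^ P.k0) ^ (D.totalDegree + 1)) := by
    rw [pow_succ]
    exact Atl.mul_mem_H0 (intA_pow_le le_rfl _ hF) (P.imm.mem I.1)
  have hO := Atl.isOpen_ne_zero hG (Atl.H0_le_Sec hZ)
  have hO1 : ∀ p ∈ {p | (F * P.s I.1) p ≠ 0}, P.s I.1 p ≠ 0 := fun p hp => right_ne_zero_of_mul hp
  have hOe : {p | (F * P.s I.1) p ≠ 0} = {p | P.s I.1 p ≠ 0 ∧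
      MvPolynomial.eval (fun l => P.s (I.2 l) p / P.s I.1 p) D ≠ 0} := by
    ext p
    refine ⟨fun hp => ⟨hO1 p hp, fun h0 => left_ne_zero_of_mul hp ?_⟩, fun hp => ?_⟩
    · rw [hFe p (hO1 p hp), h0, mul_zero]
    · refine mul_ne_zero ?_ hp.1
      rw [hFe p hp.1]
      exact mul_ne_zero (pow_ne_zero _ hp.1) hp.2
  obtain ⟨K⟩ := exists_kum M P.gauge P.k0_pos (P.imm.mem I.1) hO hO1
  have hK : ∀ q, K.π q ∈ {p | (F * P.s I.1) p ≠ 0} := fun q =>
    K.range_π.subset (mem_range_self q)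
  have hπ := K.lh.continuous
  let ms : MeasurableSpace K.Y := borel K.Y
  have bs : BorelSpace K.Y := ⟨rfl⟩
  set pr0 : X → Cn n := fun p l => P.s (I.2 l) p / P.s I.1 p with hpr0
  have han : ∀ a, ∀ p ∈ {p | (F * P.s I.1) p ≠ 0}, p ∈ (M.e a).source →
      AnalyticAt ℂ (M.loc a pr0) (M.e a p) ∧ (fderiv ℂ (M.loc a pr0) (M.e a p)).det ≠ 0 := by
    intro a p hp ha
    refine ⟨analyticAt_pi_iff.2 fun l => Atl.analyticAt_div hgu (P.imm.mem (I.2 l))
      (P.imm.mem I.1) ((M.e a).map_source ha) (by rw [(M.e a).left_inv ha]; exact hO1 p hp), ?_⟩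
    have hi := hproj.inj a _ ((M.e a).map_source ha)
      (by rw [(M.e a).left_inv ha]; exact hO1 p hp)
      (by rw [M.loc_e a _ ha]; exact (hOe.subset hp).2)
    intro h0
    exact LinearMap.det_eq_zero_iff_ker_ne_bot.1 h0 (LinearMap.ker_eq_bot.2 hi)
  have hΩ : ∀ p ∈ {p | (F * P.s I.1) p ≠ 0}, W I p / P.s I.1 p ^ (2 * n) ≠ 0 := fun p hp => by
    obtain ⟨a, ha⟩ := M.cover p
    have h1 := (han a p hp ha).2
    rw [hpr0, ← hWd I a p ha (hO1 p hp)] at h1
    exact right_ne_zero_of_mul h1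
  have lh : IsLocalHomeomorph (pr0 ∘ K.π) :=
    isLocalHomeomorph_iff_isLocalHomeomorphOn_univ.2
      ((covb_lh han).comp K.lh.isLocalHomeomorphOn fun q _ => hK q)
  obtain ⟨R, hR⟩ := exists_RD _ lh
  have hpr : ∀ q, R.pr q = pr0 (K.π q) := fun q => by rw [hR]; rfl
  have hT : ∀ a q, K.π q ∈ (M.e a).source →
      AnalyticAt ℂ (fun z => M.e a (K.π (R.sec q z))) (R.pr q) := fun a q hq =>
    covb_T hπ hpr hq (han a _ (hK q) hq).1 (han a _ (hK q) hq).2
  obtain ⟨S, hS0, hS1⟩ : ∃ S : Option (Fin P.N) → X → ℂ, S none = F * P.s I.1 ∧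
      ∀ j, S (some j) = P.s j ^ (D.totalDegree + 1) :=
    ⟨fun o => o.elim (F * P.s I.1) fun j => P.s j ^ (D.totalDegree + 1), rfl, fun _ => rfl⟩
  have hS : ∀ o, S o ∈ M.H0 ((P.u ^ P.k0) ^ (D.totalDegree + 1)) := by
    rintro (_ | j)
    · rw [hS0]; exact hZ
    · rw [hS1]; exact Atl.pow_mem_H0 (P.imm.mem j) _
  have hSK : ∀ q, S none (K.π q) ≠ 0 := fun q => by rw [hS0]; exact hK q
  obtain ⟨r1, r2⟩ := covb_rho (D := R) hπ hG hS none hSK hT
  refine ⟨{
    Y := K.Y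
    D := R
    π := K.π
    lh := K.lh
    G := _
    hG := hG
    Z := _
    hZ := hZ
    Z_ne := fun h0 => ?_
    range_π := K.range_π
    τ := K.τ
    π_τ := K.π_τ
    τ_per := K.τ_per
    fiber := K.fiber
    free := K.free
    pr0 := pr0
    hpr := hpr
    Ω := fun p => W I p / P.s I.1 p ^ (2 * n)
    Ω_ne := fun q => hΩ _ (hK q)
    Ω_meas := ?_
    pr0_an := fun a q hq => (han a _ (hK q) hq).1
    Ω_det := fun a q hq => hWd I a _ hq (hO1 _ (hK q))
    T_an := hT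
    Ω_an := fun a q hq => covb_pull hπ hq (hT a q hq)
      (f := fun p => M.k a p * (W I p / P.s I.1 p ^ (2 * n))) ?_
    t := K.t
    t_ne := K.t_ne
    t_an := fun a q hq => ?_
    ρ := _
    ρ_sm := r1
    ρ_cpt := fun r => ?_
    ρ_psh := r2 }, fun q => ?_, K.range_π.trans hOe⟩
  · obtain ⟨p, hp⟩ := hproj.ne
    exact hOe.symm.subset hp (congrFun h0 p)
  · simp only [norm_div, norm_pow]
    exact (Atl.continuous_norm_of_mem hgW (Atl.H0_le_Sec (hW I))).measurable.div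
      ((Atl.continuous_norm_of_mem hgu (Atl.H0_le_Sec (P.imm.mem I.1))).measurable.pow_const _)
  · have h1 := hW I a _ ((M.e a).map_source hq)
    have h2 := P.imm.mem I.1 a _ ((M.e a).map_source hq)
    have h3 := h1.div (h2.pow (2 * n)) (pow_ne_zero _ (by
      rw [M.loc_e a _ hq]
      exact mul_ne_zero (hgu.ne a _ hq) (hO1 _ (hK q))))
    refine h3.congr ?_
    filter_upwards [(M.e a).open_target.mem_nhds ((M.e a).map_source hq)] with z hz
    have h4 := pow_ne_zero (2 * n * P.k0) (P.gauge.ne a _ ((M.e a).map_target hz))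
    simp only [Atl.loc, Pi.div_apply, Pi.mul_apply, Pi.pow_apply, mul_pow, ← pow_mul]
    rw [mul_comm P.k0, mul_comm (M.k a _), mul_assoc, mul_div_mul_left _ _ h4, mul_div_assoc]
  · have hs : R.sec q (R.pr q) = q := R.sec_pr (R.mem_ch q)
    refine analyticAt_root P.k0_pos ?_ (covb_pull hπ hq (hT a q hq)
      (f := fun p => (P.u ^ P.k0) a p * P.s I.1 p) (P.imm.mem I.1 a _ ((M.e a).map_source hq)))
      ?_ (Eventually.of_forall fun z => ?_)
    · refine ContinuousAt.comp (f := R.sec q) (g := fun q => P.u a (K.π q) * K.t q) ?_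
        (covb_sec R q)
      rw [hs]
      exact (K.cont a).continuousAt (((M.e a).open_source.preimage hπ).mem_nhds hq)
    · rw [hs]
      exact mul_ne_zero (hgu.ne a _ hq) (hO1 _ (hK q))
    · rw [mul_pow, K.t_pow]
      rfl
  · have hc := (covb_closed hG hS none (Real.exp r)).isCompact
    refine (K.proper _ hc fun p hp => ?_).of_isClosed_subset
      (isClosed_le r1.continuous continuous_const) fun q hq =>
        covb_le (fun o => S o (K.π q)) none (hSK q) hq
    obtain ⟨j, hj⟩ := P.imm.bpf p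
    have h1 := covb_ne (fun o => S o p) none ⟨some j, by rw [hS1]; exact pow_ne_zero _ hj⟩ hp
    rwa [hS0] at h1
  · have h1 : ∀ x : ℂ, x ^ P.k0 = x := fun x => by rw [h.k0, pow_one]
    exact (h1 _).symm.trans (K.t_pow q)

end Vale.Agent.P299
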