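import Vale.Agent.P299.Gb
import Vale.Agent.P271A.Jac
import Vale.Agent.P272.KJet

/-! P299, part G: twists of multiples of the canonical bundle are generated by sections.

Hints. `G6_pos`: `M.wt (M.k⁻¹ * P.u) 0 a` agrees on the target with `(fsF P + -th M) a`
(`Real.log_mul`, `Real.log_inv`), which is Kaehler by `kae_fsF`, `Kae.add_nn`; `posDef_LM_iff`,
`LM_congr`, `Lev_eq_LM`. `G6_neg`: for `x`, `kjet` gives `m` and a section `s` of
`(k⁻¹ * u) ^ (m + 1)` with `s x ≠ 0` (`α = 1`). At `p` with `s p ≠ 0` and for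
`d ≥ m + 1 + 2 * n * m` the product `s * W I ^ m * P.s i ^ (d - ..)` (`P271A.exists_jac`) is a section
of `k⁻¹ * u ^ d` (`Atl.H0_congr`) that does not vanish at `p`. Finite subcover of the open sets
`s ≠ 0` (`Atl.isOpen_ne_zero`), maximum of the degrees. `G6_bpf`: powers of these sections for
`m ≥ 0`, powers of the `W I` for `m < 0`. `G6_fam`: finite subcover, then the continuous positive
function `∑ ‖w i p‖ ^ 2` is bounded below (`IsCompact.exists_forall_le'`). -/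

open MeasureTheory Set Filter Topology Matrix
open scoped ContDiff ENNReal ComplexConjugate ComplexOrder

noncomputable section

namespace Vale.Agent.P299

open Vale.Agent.P271 Vale.Agent.P272

variable {n : ℕ} {X : Type} [TopologicalSpace X] [T2Space X] [CompactSpace X] [ConnectedSpace X]
  [MeasurableSpace X] [BorelSpace X] {M : Model n X} {P : Pol M.toAtl}

theorem G6_pos (hM : NnF M.toAtl (-th M)) (hk : P.k0 = 1) : M.Pos (M.k⁻¹ * P.u) 0 := by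
  refine ⟨fun _ => contDiffOn_const, fun a z hz ξ hξ => ?_⟩
  have hK := (kae_fsF hk).add_nn (isF_th M).neg hM
  have e : M.wt (M.k⁻¹ * P.u) 0 a =ᶠ[𝓝 z] (fsF P + -th M) a := by
    filter_upwards [(M.e a).open_target.mem_nhds hz] with y hy
    have hp := (M.e a).map_target hy
    have h1 := pow_ne_zero 2 (norm_ne_zero_iff.2 (M.k_gauge.ne a _ hp))
    have h2 := pow_ne_zero 2 (norm_ne_zero_iff.2 (P.gauge.ne a _ hp))
    simp only [Atl.wt, Atl.loc, fsF, th, Pi.add_apply, Pi.neg_apply, Pi.mul_apply, Pi.inv_apply,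
      Pi.zero_apply, norm_mul, norm_inv, mul_pow, inv_pow]
    rw [Real.log_mul (inv_ne_zero h1) h2, Real.log_inv]
    ring
  rw [P271A.Lev_congr e]
  exact (posDef_LM_iff (hK.1.smAt hz)).1 (hK.2 a z hz) ξ hξ

theorem G6_neg (hM : NnF M.toAtl (-th M)) (hk : P.k0 = 1) :
    ∃ d : ℕ, ∀ p, ∃ s ∈ M.H0 (M.k⁻¹ * P.u ^ d), s p ≠ 0 := by
  have hv : M.IsGauge (M.k⁻¹ * P.u) := M.k_gauge.inv.mul P.gauge
  have h : ∀ x, ∃ (m : ℕ) (s : X → ℂ), s ∈ M.H0 ((M.k⁻¹ * P.u) ^ (m + 1)) ∧ s x ≠ 0 := fun x => by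
    obtain ⟨a, hx⟩ := M.cover x
    obtain ⟨m, hm⟩ := kjet hv (G6_pos hM hk) hx
    obtain ⟨s, hs, h1, -⟩ := hm (m + 1) (Nat.le_succ m) 1 0
    refine ⟨m, s, hs, fun h0 => ?_⟩
    have h2 : ((M.k⁻¹ * P.u) ^ (m + 1)) a x * s x = 1 :=
      (M.loc_e a (fun p => ((M.k⁻¹ * P.u) ^ (m + 1)) a p * s p) hx).symm.trans h1
    rw [h0, mul_zero] at h2
    exact zero_ne_one h2
  choose m s hs h0 using h
  obtain ⟨t, ht⟩ := isCompact_univ.elim_finite_subcover (fun x => {p | s x p ≠ 0})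
    (fun x => Atl.isOpen_ne_zero (hv.pow _) (Atl.H0_le_Sec (hs x)))
    fun x _ => mem_iUnion.2 ⟨x, h0 x⟩
  obtain ⟨W, hW, hW0, -⟩ := P271A.exists_jac M P
  refine ⟨t.sup fun x => m x + 1 + 2 * n * m x, fun p => ?_⟩
  obtain ⟨x, hx, hp⟩ := mem_iUnion₂.1 (ht (mem_univ p))
  obtain ⟨r, hr⟩ := Nat.exists_eq_add_of_le
    (Finset.le_sup (f := fun x => m x + 1 + 2 * n * m x) hx)
  obtain ⟨I, h1, h2⟩ := hW0 p
  have hm := Atl.mul_mem_H0 (Atl.mul_mem_H0 (hs x) (Atl.pow_mem_H0 (hW I) (m x)))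
    (Atl.pow_mem_H0 (P.imm.mem I.1) r)
  refine ⟨_, (Atl.H0_congr fun a q hq => ?_).le hm,
    mul_ne_zero (mul_ne_zero hp (pow_ne_zero _ h2)) (pow_ne_zero _ h1)⟩
  have h3 := M.k_gauge.ne a q hq
  rw [hr, hk]
  simp only [Pi.mul_apply, Pi.pow_apply, Pi.inv_apply, mul_pow, inv_pow]
  field_simp
  ring

theorem G6_bpf (hM : NnF M.toAtl (-th M)) (hk : P.k0 = 1) (m : ℤ) :
    ∃ d : ℕ, ∀ p, ∃ s ∈ M.H0 (M.k⁻¹ ^ m * P.u ^ d), s p ≠ 0 := by
  cases m with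
  | ofNat j =>
    obtain ⟨d, hd⟩ := G6_neg hM hk
    refine ⟨d * j, fun p => ?_⟩
    obtain ⟨s, hs, h0⟩ := hd p
    refine ⟨s ^ j, ?_, pow_ne_zero _ h0⟩
    rw [Int.ofNat_eq_natCast, zpow_natCast, pow_mul, ← mul_pow]
    exact Atl.pow_mem_H0 hs j
  | negSucc j =>
    obtain ⟨W, hW, hW0, -⟩ := P271A.exists_jac M P
    refine ⟨2 * n * P.k0 * (j + 1), fun p => ?_⟩
    obtain ⟨I, -, h0⟩ := hW0 p
    refine ⟨W I ^ (j + 1), ?_, pow_ne_zero _ h0⟩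
    rw [zpow_negSucc, inv_pow, inv_inv, pow_mul, ← mul_pow]
    exact Atl.pow_mem_H0 (hW I) (j + 1)

theorem G6_fam {G : M.ι → X → ℂ} (hG : M.IsGauge G) (h : ∀ p, ∃ s ∈ M.H0 G, s p ≠ 0) :
    ∃ (r : ℕ) (w : Fin r → X → ℂ) (c : ℝ), 0 < c ∧ (∀ i, w i ∈ M.H0 G) ∧
      ∀ p, c ≤ ∑ i, ‖w i p‖ ^ 2 := by
  choose s hs h0 using h
  obtain ⟨t, ht⟩ := isCompact_univ.elim_finite_subcover (fun x => {p | s x p ≠ 0})
    (fun x => Atl.isOpen_ne_zero hG (Atl.H0_le_Sec (hs x))) fun x _ => mem_iUnion.2 ⟨x, h0 x⟩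
  let e := t.equivFin.symm
  have hc : Continuous fun p => ∑ i, ‖s (e i) p‖ ^ 2 := continuous_finsetSum _ fun i _ =>
    (Atl.continuous_norm_of_mem hG (Atl.H0_le_Sec (hs _))).pow 2
  obtain ⟨c, hc0, hc1⟩ := isCompact_univ.exists_forall_le' hc.continuousOn (a := 0) fun p _ => by
    obtain ⟨x, hx, hp⟩ := mem_iUnion₂.1 (ht (mem_univ p))
    refine Finset.sum_pos' (fun i _ => sq_nonneg _) ⟨e.symm ⟨x, hx⟩, Finset.mem_univ _, ?_⟩
    rw [e.apply_symm_apply]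
    exact pow_pos (norm_pos_iff.2 hp) 2
  exact ⟨_, fun i => s (e i), c, hc0, fun i => hs _, fun p => hc1 p (mem_univ p)⟩

end Vale.Agent.P299
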