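import Vale.Agent.P299.Gb

/-! P299, part G: the metric properties of the affine model.

Hints. `q2_LMd` (M1a) turns `levi` into `q2 (LMd ..)`; `Real.LM_φ`, `Real.LM_ρ` (with `u = 0`,
`ddc 0 = 0`), `Tr_det`, `kae_fsF` (Ga); `Matrix.PosSemidef.conjTranspose_mul_mul_same`,
`Matrix.PosDef.conjTranspose_mul_mul_same`; `exists_le`, `dt_eq`, `dt_pos`, `sm_dt`, `det_conj`
(P272 Api, Mat): `dV A.D A.ρ q = dt M (fsF P) (C.π q) * exp (-A.φ q)`. Smoothness:
`P271A.Cov.Frame.smR` with `ψ = 0` for the frames `C.frame_k.inv`, `C.frame_t` (`Real.nx`);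
`Gb_hol`. Integrability: `P271A.Cov.integral_pull` with `θ = 1`. -/

open MeasureTheory Set Filter Topology Matrix
open scoped ContDiff ENNReal ComplexConjugate ComplexOrder

noncomputable section

namespace Vale.Agent.P299

open Vale.Agent.P271 Vale.Agent.P272

variable {n : ℕ} {X : Type} [TopologicalSpace X] [T2Space X] [CompactSpace X] [ConnectedSpace X]
  [MeasurableSpace X] [BorelSpace X] {M : Model n X} {N : ℕ} {P : Pol M.toAtl}
  {C : P271A.Cov M P} {A : AD n N C.Y}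

theorem G7_LM (h : Real C A) {a : M.ι} {q : C.Y} (hq : C.π q ∈ (M.e a).source) :
    LMd A.D A.ρ q = (DM (Tr C a q) (C.D.pr q))ᴴ * LM (fsF P a) (M.e a (C.π q)) *
      DM (Tr C a q) (C.D.pr q) := by
  have h1 := h.LM_ρ (u := fun _ => 0) (fun _ => contDiffOn_const) hq
  have h2 : ddc M.toAtl (fun _ => 0) = 0 := rfl
  simpa only [h2, add_zero] using h1

theorem G7_det (C : P271A.Cov M P) {a : M.ι} {q : C.Y} (hq : C.π q ∈ (M.e a).source) :
    (DM (Tr C a q) (C.D.pr q)).det ≠ 0 := left_ne_zero_of_mul_eq_one (Tr_det C hq)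

theorem G7_exp (h : Real C A) (q : C.Y) : Real.exp (-A.φ q) = (‖C.Ω (C.π q)‖ ^ 2)⁻¹ := by
  rw [h.hφ, Real.exp_neg, Real.exp_log (pow_pos (norm_pos_iff.2 (C.Ω_ne q)) 2)]

theorem G7_dV (h : Real C A) (q : C.Y) :
    dV A.D A.ρ q = dt M (fsF P) (C.π q) * Real.exp (-A.φ q) := by
  obtain ⟨a, hq⟩ := M.cover (C.π q)
  have h1 := congrArg (fun z : ℂ => ‖z‖ ^ 2) (Tr_det C hq)
  simp only [norm_mul, mul_pow, norm_one, one_pow] at h1
  rw [dV, G7_LM h hq, det_conj, dt_eq Ga_isF hq, G7_exp h, Complex.re_ofReal_mul,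
    eq_inv_of_mul_eq_one_left h1, mul_inv]
  ring

theorem Real.g_hx (h : Real C A) (i : Fin (N + 1)) : A.D.Hol (A.x i) := by
  obtain ⟨e, he⟩ := h.hx
  have h1 := P.imm.mem (e i)
  rw [h.k0, pow_one] at h1
  rw [h.hD, funext (he i)]
  exact Gb_hol P.gauge C.frame_t h1

theorem Real.g_hφ (h : Real C A) : A.D.SmR A.φ := by
  have h1 := (C.frame_k.inv M.k_gauge).smR M.k_gauge.inv (ψ := fun _ => 0)
    fun _ => contDiffOn_const
  simp only [norm_inv, inv_pow, Real.log_inv, sub_neg_eq_add, zero_add] at h1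
  rw [h.hD, funext h.hφ]
  exact h1

theorem Real.g_psh (h : Real C A) (hM : NnF M.toAtl (-th M)) (y : C.Y) (v : Cn n) :
    0 ≤ A.D.levi A.φ y v := by
  obtain ⟨a, hq⟩ := M.cover (C.π y)
  refine (LMd_psd h.g_hφ).1 ?_ v
  rw [h.LM_φ hq]
  exact (hM a _ ((M.e a).map_source hq)).conjTranspose_mul_mul_same _

theorem Real.g_pos (h : Real C A) : Kah A.D A.ρ := by
  refine ⟨?_, fun y => ?_⟩
  · have h1 := C.frame_t.smR P.gauge (ψ := fun _ => 0) fun _ => contDiffOn_const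
    have h2 : A.ρ = fun q => 0 - Real.log (‖C.t q‖ ^ 2) := funext fun q => by
      have h3 : A.ρ q = Real.log (A.nx q) := rfl
      rw [h3, h.nx, Real.log_inv, zero_sub]
    rw [h.hD, h2]
    exact h1
  · obtain ⟨a, hq⟩ := M.cover (C.π y)
    rw [G7_LM h hq]
    exact ((kae_fsF h.k0).2 a _ ((M.e a).map_source hq)).conjTranspose_mul_mul_same
      (mulVec_injective_of_isUnit ((isUnit_iff_isUnit_det _).2 (G7_det C hq).isUnit))

theorem Real.g_vol (h : Real C A) : ∃ c : ℝ, 0 < c ∧ ∀ y,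
    c * Real.exp (-A.φ y) ≤ dV A.D A.ρ y ∧ dV A.D A.ρ y ≤ c⁻¹ * Real.exp (-A.φ y) := by
  have hc : Continuous (dt M (fsF P)) := (sm_dt Ga_isF).continuous
  have hp := dt_pos (kae_fsF (M := M) h.k0)
  obtain ⟨p, -, h1⟩ := isCompact_univ.exists_isMinOn univ_nonempty hc.continuousOn
  obtain ⟨p', -, h2⟩ := isCompact_univ.exists_isMaxOn univ_nonempty hc.continuousOn
  have h0 : 0 < min (dt M (fsF P) p) (dt M (fsF P) p')⁻¹ := lt_min (hp p) (inv_pos.2 (hp p'))
  refine ⟨_, h0, fun y => ?_⟩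
  rw [G7_dV h]
  refine ⟨mul_le_mul_of_nonneg_right ((min_le_left _ _).trans (h1 (mem_univ _)))
    (Real.exp_pos _).le, mul_le_mul_of_nonneg_right ?_ (Real.exp_pos _).le⟩
  exact le_trans (h2 (mem_univ _)) ((le_inv_comm₀ (hp p') h0).2 (min_le_right _ _))

theorem Real.g_th (h : Real C A) :
    ∃ B : ℝ, ∀ y v, A.D.levi A.φ y v ≤ B * A.D.levi A.ρ y v := by
  obtain ⟨B, -, h1, -⟩ := exists_le (kae_fsF (M := M) h.k0) (isF_th M).neg
  refine ⟨B, fun y v => ?_⟩
  obtain ⟨a, hq⟩ := M.cover (C.π y)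
  have hz := (M.e a).map_source hq
  have h2 := Fock_q2_nonneg
    ((h1 a _ hz).posSemidef.conjTranspose_mul_mul_same (DM (Tr C a y) (C.D.pr y))) v
  rw [Pi.sub_apply, LM_sub (((Ga_isF.smul B).smAt hz)) ((isF_th M).neg.smAt hz), Pi.smul_apply,
    LM_smul (Ga_isF.smAt hz), Matrix.mul_sub, Matrix.sub_mul, Matrix.mul_smul, Matrix.smul_mul,
    ← G7_LM h hq, ← h.LM_φ hq] at h2
  rw [← q2_LMd, ← q2_LMd]
  simp only [q2, sub_mulVec, smul_mulVec, dotProduct_sub, dotProduct_smul, smul_eq_mul,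
    Complex.sub_re, Complex.re_ofReal_mul] at h2 ⊢
  linarith

theorem Real.g_fin (h : Real C A) : Integrable (fun y => Real.exp (-A.φ y)) A.D.μ := by
  have h1 := (C.integral_pull (θ := fun _ => 1) continuous_const fun _ => zero_le_one).1
  simp only [one_mul] at h1
  rw [h.hD, funext (G7_exp h)]
  exact h1

end Vale.Agent.P299
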