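import Vale.Agent.P299.G6
import Vale.Agent.P271.Sieg

/-! P299, part G: the spaces of sections of the affine model.

Hints. All from `Real.mem_S`, `Gb_wt`, `Gb_gauge` (Gb). `g_conn`: if `U` is clopen, its indicator
function is holomorphic (locally constant, `P271A.RD.hol_of_rep`) and bounded, so it comes from
`w ∈ H0`; `C.Z * (w * (1 - w)) = 0` and `Atl.eq_zero_or_eq_zero` give `w = 0` or `w = 1`
(`isConnected_univ`, `isClopen_iff` converse: `isPreconnected_iff_subset_of_disjoint`); nonempty by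
`C.Z_ne`. `g_fd`: `A.S m l` is contained in the image of `H0` (`finDim`) under a linear map.
`g_ext`: copy the first half of the proof of `Real.mem_S`; the integral of `‖H0 p‖ ^ 2` is computed
by `P271A.Cov.lintegral_pull` (measurable by `P271A.ext_meas`, see `P271A.Cov.push` in HormX).
`g_bpf`: `G6_bpf`, `G6_fam`. -/

open MeasureTheory Set Filter Topology Matrix
open scoped ContDiff ENNReal ComplexConjugate ComplexOrder

noncomputable section

namespace Vale.Agent.P299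

open Vale.Agent.P271 Vale.Agent.P272

variable {n : ℕ} {X : Type} [TopologicalSpace X] [T2Space X] [CompactSpace X] [ConnectedSpace X]
  [MeasurableSpace X] [BorelSpace X] {M : Model n X} {N : ℕ} {P : Pol M.toAtl}
  {C : P271A.Cov M P} {A : AD n N C.Y}

theorem Real.g_conn (h : Real C A) : IsConnected (univ : Set C.Y) := by
  classical
  have hne : Nonempty C.Y := by
    obtain ⟨p, hp⟩ := Function.ne_iff.1 C.Z_ne
    have hr : p ∈ range C.π := by rw [C.range_π]; exact hp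
    obtain ⟨q, -⟩ := hr
    exact ⟨q⟩
  have hG : M.IsGauge (M.k⁻¹ ^ (0 : ℤ) * P.u ^ 0) :=
    (Gb_gauge M.k_gauge.inv 0).mul (P.gauge.pow 0)
  have key : ∀ U : Set C.Y, IsClopen U → U = ∅ ∨ U = univ := by
    intro U hU
    have hf : U.indicator (fun _ => (1 : ℂ)) ∈ A.S 0 0 := by
      refine ⟨P271A.RD.hol_of_rep fun y => ?_, 1, fun y => ?_⟩
      · by_cases hy : y ∈ U
        · refine ⟨fun _ => 1, differentiableAt_const _, ?_⟩
          filter_upwards [hU.isOpen.mem_nhds hy] with z hz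
          simp [hz]
        · refine ⟨fun _ => 0, differentiableAt_const _, ?_⟩
          filter_upwards [hU.compl.isOpen.mem_nhds hy] with z hz
          have : z ∉ U := hz
          simp [this]
      · by_cases hy : y ∈ U <;> simp [hy]
    obtain ⟨w, hw, hfw⟩ := (h.mem_S 0 0).1 hf
    simp only [zpow_zero, pow_zero, mul_one, div_one] at hfw
    have h1 : (1 : X → ℂ) ∈ M.H0 (M.k⁻¹ ^ (0 : ℤ) * P.u ^ 0) := by
      rw [zpow_zero, pow_zero, mul_one]
      exact Atl.one_mem_H0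
    have h2 : 1 - w ∈ M.H0 (M.k⁻¹ ^ (0 : ℤ) * P.u ^ 0) := Submodule.sub_mem _ h1 hw
    have h3 : C.Z * (w * (1 - w)) = 0 := by
      funext p
      by_cases hp : C.Z p = 0
      · simp [hp]
      · have hr : p ∈ range C.π := by rw [C.range_π]; exact hp
        obtain ⟨q, rfl⟩ := hr
        simp only [Pi.mul_apply, Pi.sub_apply, Pi.one_apply, Pi.zero_apply, ← hfw q]
        by_cases hq : q ∈ U <;> simp [hq]
    rcases Atl.eq_zero_or_eq_zero C.hG (hG.mul hG) C.hZ (Atl.mul_mem_H0 hw h2) h3 with h4 | h4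
    · exact (C.Z_ne h4).elim
    rcases Atl.eq_zero_or_eq_zero hG hG hw h2 h4 with h5 | h5
    · left
      refine eq_empty_of_forall_notMem fun q hq => ?_
      have := hfw q
      rw [h5] at this
      simp [hq] at this
    · right
      refine eq_univ_of_forall fun q => ?_
      by_contra hq
      have h6 := hfw q
      have h7 := congrFun h5 (C.π q)
      simp only [Pi.sub_apply, Pi.one_apply, Pi.zero_apply, ← h6] at h7
      simp [hq] at h7
  refine ⟨univ_nonempty, ?_⟩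
  have : PreconnectedSpace C.Y := by
    by_contra hc
    obtain ⟨U, hU, h1, h2⟩ : ∃ U : Set C.Y, IsClopen U ∧ U.Nonempty ∧ Uᶜ.Nonempty := by
      by_contra hn
      refine hc ⟨isPreconnected_of_forall_constant fun f hf x _ y _ => ?_⟩
      by_contra hxy
      have hfc : Continuous f := continuousOn_univ.1 hf
      exact hn ⟨f ⁻¹' {f x}, (isClopen_discrete _).preimage hfc, ⟨x, rfl⟩,
        ⟨y, fun hy => hxy (Eq.symm hy)⟩⟩
    rcases key U hU with h3 | h3
    · exact h1.ne_empty h3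
    · rw [h3, compl_univ] at h2
      exact not_nonempty_empty h2
  exact isPreconnected_univ

theorem Real.g_fd (h : Real C A) (m : ℤ) (l : ℕ) : FiniteDimensional ℂ (A.S m l) := by
  have hG : M.IsGauge (M.k⁻¹ ^ m * P.u ^ l) := (Gb_gauge M.k_gauge.inv m).mul (P.gauge.pow l)
  have := finDim M.toAtl hG
  let L : (X → ℂ) →ₗ[ℂ] (C.Y → ℂ) :=
    { toFun := fun w q => w (C.π q) * C.Ω (C.π q) ^ m / C.t q ^ l
      map_add' := fun w w' => by funext q; simp only [Pi.add_apply]; ring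
      map_smul' := fun c w => by
        funext q; simp only [Pi.smul_apply, smul_eq_mul, RingHom.id_apply]; ring }
  have hle : A.S m l ≤ (M.H0 (M.k⁻¹ ^ m * P.u ^ l)).map L := by
    intro f hf
    obtain ⟨w, hw, hfw⟩ := (h.mem_S m l).1 hf
    exact ⟨w, hw, (funext hfw).symm⟩
  exact Submodule.finiteDimensional_of_le hle

theorem Real.g_ext (h : Real C A) (m : ℤ) (l : ℕ) (F : C.Y → ℂ) (hF : A.D.Hol F)
    (h2 : nO A.D (fun y => (m + 1) * A.φ y + l * A.ρ y) F < ⊤) : F ∈ A.S m l := by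
  have hG : M.IsGauge (M.k⁻¹ ^ m * P.u ^ l) := (Gb_gauge M.k_gauge.inv m).mul (P.gauge.pow l)
  have he : C.Frame (M.k⁻¹ ^ m * P.u ^ l) fun q => (C.Ω (C.π q))⁻¹ ^ m * C.t q ^ l :=
    (Gb_frame M.k_gauge.inv (C.frame_k.inv M.k_gauge) m).mul (C.frame_t.pow l)
  have hwt := Gb_wt h m l
  rw [nO, h.hD] at h2
  rw [h.hD] at hF
  obtain ⟨H0, hH0, hH0z⟩ := C.hx_trace fun q => F q * ((C.Ω (C.π q))⁻¹ ^ m * C.t q ^ l)
  have han := C.hx_analytic he hF hH0
  simp only [h.k0, Nat.cast_one, inv_one, one_mul, Finset.range_one, Finset.sum_singleton,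
    Function.iterate_zero, id] at hH0
  have hO := Atl.isOpen_ne_zero C.hG (Atl.H0_le_Sec C.hZ)
  have hm : Measurable fun p => ‖H0 p‖ := by
    refine P271A.ext_meas hO (fun p hp => ?_) fun p hp => by rw [hH0z p (not_not.1 hp), norm_zero]
    obtain ⟨a, ha⟩ := M.cover p
    exact P271A.hx_contAt hG ha (han a p ha hp).continuousAt
  have hp := C.lintegral_pull (G := fun p => ENNReal.ofReal (‖H0 p‖ ^ 2))
    (hm.pow_const 2).ennreal_ofReal
  rw [h.k0, Nat.cast_one, one_mul] at hp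
  have hL : ∫⁻ p, ENNReal.ofReal (‖H0 p‖ ^ 2) ∂M.μ < ⊤ := by
    rw [← hp]
    refine lt_of_eq_of_lt (lintegral_congr fun q => ?_) h2
    rw [← ENNReal.ofReal_mul (by positivity), hH0]
    congr 1
    have h1 : 0 < ‖C.Ω (C.π q)‖ ^ 2 := pow_pos (norm_pos_iff.2 (C.Ω_ne q)) 2
    have h3 : 0 < A.nx q := by
      rw [h.nx]
      exact inv_pos.2 (pow_pos (norm_pos_iff.2 (C.t_ne q)) 2)
    have h4 : A.ρ q = Real.log (A.nx q) := rfl
    have h5 : Real.exp (-((m + 1) * A.φ q + l * A.ρ q)) =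
        (Real.exp (m * A.φ q) * A.nx q ^ l)⁻¹ * (‖C.Ω (C.π q)‖ ^ 2)⁻¹ := by
      rw [Real.exp_neg, add_mul, one_mul, Real.exp_add, Real.exp_add, h4, ← Real.log_pow,
        Real.exp_log (pow_pos h3 l), ← mul_inv, h.hφ, Real.exp_log h1]
      congr 1
      ring
    rw [h5, hwt, inv_inv, norm_mul (F q), mul_pow, mul_assoc]
  obtain ⟨H, hH, hHe⟩ := P271A.extendX M C.hG hG C.hZ C.Z_ne han hH0z hL
  refine (h.mem_S m l).2 ⟨H, hH, fun q => ?_⟩
  have hr : C.π q ∈ range C.π := mem_range_self q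
  rw [C.range_π] at hr
  have h6 := C.Ω_ne q
  have h7 := C.t_ne q
  have h8 : C.Ω (C.π q) ^ m ≠ 0 := zpow_ne_zero m h6
  rw [hHe _ hr, hH0, _root_.inv_zpow]
  field_simp

theorem Real.g_bpf (h : Real C A) (hM : NnF M.toAtl (-th M)) (m : ℤ) :
    ∃ (d r : ℕ) (e : Fin r → C.Y → ℂ) (c : ℝ), 0 < c ∧ (∀ i, e i ∈ A.S m d) ∧
      ∀ y, c * (Real.exp (m * A.φ y) * A.nx y ^ d) ≤ ∑ i, ‖e i y‖ ^ 2 := by
  obtain ⟨d, hd⟩ := G6_bpf hM h.k0 m
  have hG : M.IsGauge (M.k⁻¹ ^ m * P.u ^ d) := (Gb_gauge M.k_gauge.inv m).mul (P.gauge.pow d)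
  obtain ⟨r, w, c, hc, hw, hb⟩ := G6_fam hG hd
  refine ⟨d, r, fun i q => w i (C.π q) * C.Ω (C.π q) ^ m / C.t q ^ d, c, hc,
    fun i => (h.mem_S m d).2 ⟨w i, hw i, fun _ => rfl⟩, fun y => ?_⟩
  have hdiv : ∀ a : ℂ, a * C.Ω (C.π y) ^ m / C.t y ^ d =
      a / ((C.Ω (C.π y))⁻¹ ^ m * C.t y ^ d) := fun a => by
    rw [_root_.inv_zpow, ← div_div, div_inv_eq_mul]
  simp only [hdiv, norm_div, div_pow]
  rw [Gb_wt h m d, ← Finset.sum_div, div_eq_mul_inv]
  exact mul_le_mul_of_nonneg_right (hb _) (by positivity)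

end Vale.Agent.P299
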