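import Vale.Agent.P299.GDefs
import Vale.Agent.P299.G1
import Vale.Agent.P299.G2

/-! P299, part G: the algebraic properties of the affine model.

Hints. `σ = P.s (e 0)`, `A.ev (rename c Q) q = eval (fun l => P.s (e (c l)) (π q) / σ (π q)) Q`
(`MvPolynomial.eval_rename`). `g_gen`: `Real.mem_S` with `m = 0` gives `w ∈ H0 (P.u ^ l)`, so
`w ∈ span (range P.s) ^ l`; the `w` with `∃ p, p.totalDegree ≤ l ∧ ∀ q, w (π q) / σ (π q) ^ l =
A.ev p q` contain this power (`Submodule.pow_induction_on_left'`, or `SetB_span_pow`, or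
`mem_lin_pow_iff`). `g_cpt`: with `F = exists_homogenize D` the set is the preimage of the closed
set `δ ≤ ‖σ p * F p‖ ^ 2`, contained in `range π` (`Real.nx`); `π` is an open embedding
(`Real.inj`, `C.lh`, `IsLocalHomeomorph.isOpenEmbedding_of_injective`),
`Topology.IsInducing.isCompact_preimage'`. `g_pts`: `y0 = z ∘ c`, `F` the fibre
(`IntC_finite`), contained in `range π`. If no point has coordinates `z`, `G2_form` gives `a` with
`∑ a i * (z i - P.s (e i) p / σ p) ≠ 0` on `F`; `ϑ = ∑ a i • P.s (e i)`, `L` from `G1_chi`;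
`MvPolynomial.aeval (Fin.cons (∑ i, C (a i) * X i) fun l => X (c l)) L` is a relation, so it
vanishes at `z`, a contradiction. -/

open MeasureTheory Set Filter Topology Matrix
open scoped ContDiff ENNReal ComplexConjugate ComplexOrder

noncomputable section

namespace Vale.Agent.P299

open Vale.Agent.P271 Vale.Agent.P272

variable {n : ℕ} {X : Type} [TopologicalSpace X] [T2Space X] [CompactSpace X] [ConnectedSpace X]
  [MeasurableSpace X] [BorelSpace X] {M : Model n X} {N : ℕ} {P : Pol M.toAtl}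
  {C : P271A.Cov M P} {A : AD n N C.Y} {e : Fin (N + 1) ≃ Fin P.N} {c : Fin n → Fin (N + 1)}
  {D : MvPolynomial (Fin n) ℂ}

set_option linter.unusedSectionVars false

theorem G9_ev (h : GR C A e c D) (Q : MvPolynomial (Fin n) ℂ) (q : C.Y) :
    A.ev (MvPolynomial.rename c Q) q =
      MvPolynomial.eval (fun l => P.s (e (c l)) (C.π q) / P.s (e 0) (C.π q)) Q := by
  rw [AD.ev, MvPolynomial.eval_rename]
  congr 2
  funext l
  exact h.x _ q

theorem G9_mem (h : GR C A e c D) (q : C.Y) : P.s (e 0) (C.π q) ≠ 0 ∧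
    MvPolynomial.eval (fun l => P.s (e (c l)) (C.π q) / P.s (e 0) (C.π q)) D ≠ 0 :=
  h.rng.subset (mem_range_self q)

theorem G9_s (h : GR C A e c D) (i : Fin P.N) : P.s i ∈ M.H0 P.u := by
  have h1 := P.imm.mem i
  rwa [h.gp.k0, pow_one] at h1

theorem GR.g_gen (h : GR C A e c D) (l : ℕ) (f : C.Y → ℂ) (hf : f ∈ A.S 0 l) :
    ∃ p : MvPolynomial (Fin (N + 1)) ℂ, p.totalDegree ≤ l ∧ f = A.ev p := by
  obtain ⟨w, hw, hf⟩ := (h.real.mem_S 0 l).1 hf
  rw [zpow_zero, one_mul] at hw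
  let φ : (X → ℂ) →ₐ[ℂ] (C.Y → ℂ) := AlgHom.pi fun q => Pi.evalAlgHom ℂ _ (C.π q)
  have h1 : φ w ∈ (Submodule.span ℂ (range P.s)).map φ.toLinearMap ^ l := by
    rw [← Submodule.map_pow]
    exact Submodule.mem_map_of_mem (h.gp.gen l hw)
  have h2 : (fun q => (C.t q)⁻¹) ^ l * φ w ∈ (((Submodule.span ℂ (range P.s)).map
      φ.toLinearMap).map (LinearMap.mulLeft ℂ fun q => (C.t q)⁻¹)) ^ l := by
    rw [map_mulLeft_pow]
    exact Submodule.mem_map_of_mem h1
  have h3 : ((Submodule.span ℂ (range P.s)).map φ.toLinearMap).map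
      (LinearMap.mulLeft ℂ fun q => (C.t q)⁻¹) ≤ lin A.x := by
    rw [Submodule.map_le_iff_le_comap, Submodule.map_le_iff_le_comap, Submodule.span_le]
    rintro _ ⟨j, rfl⟩
    have h4 : (fun q => (C.t q)⁻¹) * φ (P.s j) = A.x (e.symm j) := by
      funext q
      rw [h.x, e.apply_symm_apply, ← h.t, div_eq_inv_mul]
      rfl
    have h5 := FInt_mem_lin A.x (e.symm j)
    rw [← h4] at h5
    exact h5
  obtain ⟨p, hp, he⟩ := mem_lin_pow_iff.1 (FInt_pow_le_pow h3 l h2)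
  refine ⟨p, hp, funext fun q => ?_⟩
  have h5 := congrFun he q
  rw [intA_aeval] at h5
  rw [hf, AD.ev, h5, zpow_zero, mul_one, div_eq_inv_mul, ← inv_pow]
  rfl

theorem GR.g_ne0 (h : GR C A e c D) (y : C.Y) : A.ev A.p0 y ≠ 0 := by
  rw [h.p0, G9_ev h]
  exact (G9_mem h y).2

theorem GR.g_cpt (h : GR C A e c D) (δ : ℝ) (hδ : 0 < δ) :
    IsCompact {y | δ * A.nx y ^ A.l0 ≤ ‖A.ev A.p0 y‖ ^ 2} := by
  obtain ⟨F, hF, hFe⟩ := exists_homogenize (W := M.H0 P.u) (G9_s h (e 0))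
    (fun l => G9_s h (e (c l))) (P := D) le_rfl
  have hZ := Atl.mul_mem_H0 (G9_s h (e 0)) (intA_pow_le le_rfl _ hF)
  have hc : IsClosed {p | δ ≤ ‖(P.s (e 0) * F) p‖ ^ 2} := isClosed_le continuous_const
    ((Atl.continuous_norm_of_mem (P.gauge.mul (P.gauge.pow _)) (Atl.H0_le_Sec hZ)).pow 2)
  have hs : {p | δ ≤ ‖(P.s (e 0) * F) p‖ ^ 2} ⊆ range C.π := by
    intro p hp
    have h1 : P.s (e 0) p * F p ≠ 0 := fun h2 => by
      have h3 : δ ≤ ‖P.s (e 0) p * F p‖ ^ 2 := hp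
      rw [h2, norm_zero, zero_pow two_ne_zero] at h3
      exact absurd h3 hδ.not_ge
    have h2 := left_ne_zero_of_mul h1
    rw [h.rng]
    refine ⟨h2, fun h3 => right_ne_zero_of_mul h1 ?_⟩
    rw [hFe p h2, h3, mul_zero]
  have hk := (C.lh.isOpenEmbedding_of_injective h.real.inj).isInducing.isCompact_preimage'
    hc.isCompact hs
  refine (congrArg IsCompact (Set.ext fun q => ?_)).mpr hk
  have h1 := (G9_mem h q).1
  have h2 : 0 < ‖P.s (e 0) (C.π q)‖ ^ 2 := pow_pos (norm_pos_iff.2 h1) 2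
  simp only [mem_preimage, mem_ofPred_eq, Pi.mul_apply]
  rw [h.real.nx, h.t, h.l0, h.p0, G9_ev h, hFe _ h1, inv_pow, ← div_eq_mul_inv,
    div_le_iff₀ (pow_pos h2 _), norm_mul, norm_mul, norm_pow]
  refine Eq.to_iff (congrArg _ ?_)
  ring

theorem GR.g_pts (h : GR C A e c D) (z : Fin (N + 1) → ℂ)
    (hz : ∀ p, A.ev p = 0 → MvPolynomial.eval z p = 0) (h0 : MvPolynomial.eval z A.p0 ≠ 0) :
    ∃ y, ∀ i, A.x i y = z i := by
  by_contra hc
  rw [h.p0, MvPolynomial.eval_rename] at h0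
  have hp := h.gp.proj
  have hfin := IntC_finite P.gauge hp h0
  obtain ⟨a, ha⟩ := G2_form hfin.toFinset (fun p i => z i - P.s (e i) p / P.s (e 0) p)
    fun p h1 h2 => by
      have h3 := hfin.mem_toFinset.1 h1
      have h4 := IntC_ne hp h3
      obtain ⟨q, rfl⟩ : p ∈ range C.π := by
        rw [h.rng]
        exact ⟨h4, by rw [(IntC_mem h4).1 h3]; exact h0⟩
      exact hc ⟨q, fun i => by rw [h.x]; exact (sub_eq_zero.1 (congrFun h2 i)).symm⟩
  have hϑ : ∑ i, a i • P.s (e i) ∈ M.H0 P.u :=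
    Submodule.sum_mem _ fun i _ => Submodule.smul_mem _ _ (G9_s h _)
  have hϑe : ∀ p, (∑ i, a i • P.s (e i)) p / P.s (e 0) p =
      ∑ i, a i * (P.s (e i) p / P.s (e 0) p) := fun p => by
    simp only [Finset.sum_apply, Pi.smul_apply, smul_eq_mul, Finset.sum_div, mul_div_assoc]
  obtain ⟨L, hL⟩ := G1_chi P.gauge hp hϑ
  have hev : ∀ x : Fin (N + 1) → ℂ, MvPolynomial.eval x (MvPolynomial.aeval (Fin.cons
      (∑ i, MvPolynomial.C (a i) * MvPolynomial.X i) fun l => MvPolynomial.X (c l) :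
        Fin (n + 1) → MvPolynomial (Fin (N + 1)) ℂ) L) =
      MvPolynomial.eval (Fin.cons (∑ i, a i * x i) (x ∘ c)) L := fun x => by
    rw [← MvPolynomial.coe_aeval_eq_eval, ← MvPolynomial.coe_aeval_eq_eval]
    change MvPolynomial.aeval x (MvPolynomial.aeval _ L) = MvPolynomial.aeval _ L
    rw [← AlgHom.comp_apply, MvPolynomial.comp_aeval]
    congr 2
    funext j
    refine Fin.cases ?_ (fun l => ?_) j <;> simp
  have h1 := hz _ (funext fun q => by
    have h2 := G9_mem h q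
    have h3 : ((fun i => A.x i q) ∘ c) = fun l => P.s (e (c l)) (C.π q) / P.s (e 0) (C.π q) :=
      funext fun l => h.x _ q
    have h4 := IntC_finite P.gauge hp h2.2
    rw [AD.ev, hev, h3, hL _ _ h2.2 h4.toFinset h4.coe_toFinset]
    refine Finset.prod_eq_zero (h4.mem_toFinset.2 ((IntC_mem h2.1).2 rfl)) ?_
    rw [hϑe]
    simp only [h.x, sub_self])
  rw [hev, hL _ _ h0 hfin.toFinset hfin.coe_toFinset] at h1
  obtain ⟨p, h2, h3⟩ := Finset.prod_eq_zero_iff.1 h1
  refine ha p h2 ?_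
  rw [hϑe, ← Finset.sum_sub_distrib] at h3
  simp only [mul_sub]
  exact h3

end Vale.Agent.P299
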