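import Vale.Agent.P299.Gb
import Vale.Agent.P271.IntD

/-! P299, part G: the data of a projectively normal embedding with a finite projection. -/

open MeasureTheory Set Filter Topology Matrix
open scoped ContDiff ENNReal ComplexConjugate ComplexOrder

noncomputable section

namespace Vale.Agent.P299

open Vale.Agent.P271 Vale.Agent.P272

variable {n : ℕ} {X : Type} [TopologicalSpace X]

/-- A projectively normal embedding; some of the coordinates give a finite projection. -/
structure GP {A : Atl n X} (P : Pol A) {N : ℕ} (e : Fin (N + 1) ≃ Fin P.N)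
    (c : Fin n → Fin (N + 1)) (D : MvPolynomial (Fin n) ℂ) : Prop where
  k0 : P.k0 = 1
  proj : Proj A P.u (P.s (e 0)) (fun l => P.s (e (c l))) D
  gen : ∀ l, A.H0 (P.u ^ l) ≤ Submodule.span ℂ (range P.s) ^ l

/-- The affine model on the open set where the projection is finite and unramified. -/
structure GR [MeasurableSpace X] {M : Model n X} {P : Pol M.toAtl} (C : P271A.Cov M P) {N : ℕ}
    (A : AD n N C.Y) (e : Fin (N + 1) ≃ Fin P.N) (c : Fin n → Fin (N + 1))
    (D : MvPolynomial (Fin n) ℂ) : Prop where
  gp : GP P e c D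
  real : Real C A
  x : ∀ i q, A.x i q = P.s (e i) (C.π q) / P.s (e 0) (C.π q)
  t : ∀ q, C.t q = P.s (e 0) (C.π q)
  rng : range C.π = {p | P.s (e 0) p ≠ 0 ∧
    MvPolynomial.eval (fun l => P.s (e (c l)) p / P.s (e 0) p) D ≠ 0}
  p0 : A.p0 = MvPolynomial.rename c D
  l0 : A.l0 = D.totalDegree + 1

end Vale.Agent.P299
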