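import Vale.Agent.P299.Ga
import Vale.Agent.P271A.HormX

/-! P299: sections and bounded functions. -/

open MeasureTheory Set Filter Topology Matrix
open scoped ContDiff ENNReal ComplexConjugate ComplexOrder

noncomputable section

namespace Vale.Agent.P299

open Vale.Agent.P271 Vale.Agent.P272

variable {n : ℕ} {X : Type} [TopologicalSpace X] [T2Space X] [CompactSpace X] [ConnectedSpace X]
  [MeasurableSpace X] [BorelSpace X] {M : Model n X} {N : ℕ} {P : Pol M.toAtl} {C : P271A.Cov M P} {A : AD n N C.Y}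

omit [T2Space X] [CompactSpace X] [ConnectedSpace X] [BorelSpace X] in
theorem Gb_gauge {u : M.ι → X → ℂ} (hu : M.IsGauge u) (m : ℤ) : M.IsGauge (u ^ m) := by
  cases m with
  | ofNat k => rw [Int.ofNat_eq_natCast, zpow_natCast]; exact hu.pow k
  | negSucc k => rw [zpow_negSucc]; exact (hu.pow (k + 1)).inv

omit [T2Space X] [CompactSpace X] [ConnectedSpace X] [BorelSpace X] in
theorem Gb_frame {u : M.ι → X → ℂ} (hu : M.IsGauge u) {e : C.Y → ℂ} (he : C.Frame u e) (m : ℤ) :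
    C.Frame (u ^ m) fun q => e q ^ m := by
  cases m with
  | ofNat k => simp only [Int.ofNat_eq_natCast, zpow_natCast]; exact he.pow k
  | negSucc k => simp only [zpow_negSucc]; exact (he.pow (k + 1)).inv (hu.pow (k + 1))

omit [T2Space X] [CompactSpace X] [ConnectedSpace X] [BorelSpace X] in
theorem Gb_hol {F : M.ι → X → ℂ} (hF : M.IsGauge F) {e : C.Y → ℂ} (he : C.Frame F e) {w : X → ℂ}
    (hw : w ∈ M.H0 F) : C.D.Hol fun q => w (C.π q) / e q := by
  refine P271A.RD.hol_of_rep fun q => ?_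
  obtain ⟨a, hq⟩ := M.cover (C.π q)
  refine ⟨_, ?_, P271A.Cov.Frame.pull_div hF w e hq⟩
  have h1 : AnalyticAt ℂ (M.loc a fun p => F a p * w p) (M.e a (C.π (C.D.sec q (C.D.pr q)))) := by
    rw [P271A.pull_sec]
    exact hw a _ ((M.e a).map_source hq)
  exact ((AnalyticAt.comp (f := fun z => M.e a (C.π (C.D.sec q z))) h1 (C.T_an a q hq)).mul
    ((he.an a q hq).inv (he.pull_ne hF hq))).differentiableAt

theorem Gb_wt (h : Real C A) (m : ℤ) (l : ℕ) (q : C.Y) :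
    Real.exp (m * A.φ q) * A.nx q ^ l = (‖(C.Ω (C.π q))⁻¹ ^ m * C.t q ^ l‖ ^ 2)⁻¹ := by
  have h1 : 0 < ‖C.Ω (C.π q)‖ ^ 2 := pow_pos (norm_pos_iff.2 (C.Ω_ne q)) 2
  rw [h.hφ, h.nx, ← Real.log_zpow, Real.exp_log (zpow_pos h1 m), norm_mul, norm_zpow, norm_inv,
    norm_pow, mul_pow, mul_inv, _root_.inv_zpow, inv_pow, inv_pow, inv_inv, ← pow_mul, ← pow_mul,
    mul_comm 2 l, sq, sq, _root_.mul_zpow]

/-- Sections on the manifold and bounded functions on the model. -/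
theorem Real.mem_S (h : Real C A) (m : ℤ) (l : ℕ) {f : C.Y → ℂ} :
    f ∈ A.S m l ↔ ∃ w ∈ M.H0 (M.k⁻¹ ^ m * P.u ^ l),
      ∀ q, f q = w (C.π q) * C.Ω (C.π q) ^ m / C.t q ^ l := by
  have hG : M.IsGauge (M.k⁻¹ ^ m * P.u ^ l) := (Gb_gauge M.k_gauge.inv m).mul (P.gauge.pow l)
  have he : C.Frame (M.k⁻¹ ^ m * P.u ^ l) fun q => (C.Ω (C.π q))⁻¹ ^ m * C.t q ^ l :=
    (Gb_frame M.k_gauge.inv (C.frame_k.inv M.k_gauge) m).mul (C.frame_t.pow l)
  have hdiv : ∀ (c : ℂ) q, c * C.Ω (C.π q) ^ m / C.t q ^ l =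
      c / ((C.Ω (C.π q))⁻¹ ^ m * C.t q ^ l) := fun c q => by
    rw [_root_.inv_zpow, ← div_div, div_inv_eq_mul]
  have hwt := Gb_wt h m l
  simp only [hdiv]
  refine ⟨fun ⟨hf, B, hB⟩ => ?_, fun ⟨w, hw, hf⟩ => ⟨?_, ?_⟩⟩
  · rw [h.hD] at hf
    obtain ⟨H0, hH0, hH0z⟩ := C.hx_trace fun q => f q * ((C.Ω (C.π q))⁻¹ ^ m * C.t q ^ l)
    have han := C.hx_analytic he hf hH0
    simp only [h.k0, Nat.cast_one, inv_one, one_mul, Finset.range_one, Finset.sum_singleton,
      Function.iterate_zero, id] at hH0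
    have hle : ∀ p, ENNReal.ofReal (‖H0 p‖ ^ 2) ≤ ENNReal.ofReal B := by
      intro p
      by_cases hp : C.Z p = 0
      · simp [hH0z p hp]
      · have hr : p ∈ range C.π := by rw [C.range_π]; exact hp
        obtain ⟨q, rfl⟩ := hr
        have h1 := hB q
        rw [hwt, ← div_eq_mul_inv, le_div_iff₀ (pow_pos (norm_pos_iff.2 (he.ne q)) 2)] at h1
        rw [hH0, norm_mul, mul_pow]
        exact ENNReal.ofReal_le_ofReal h1
    obtain ⟨H, hH, hHe⟩ := P271A.extendX M C.hG hG C.hZ C.Z_ne han hH0z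
      ((lintegral_mono hle).trans_lt (by
        rw [lintegral_const]
        exact ENNReal.mul_lt_top ENNReal.ofReal_lt_top (measure_lt_top _ _)))
    refine ⟨H, hH, fun q => ?_⟩
    have hr : C.π q ∈ range C.π := mem_range_self q
    rw [C.range_π] at hr
    rw [hHe _ hr, hH0, mul_div_cancel_right₀ _ (he.ne q)]
  · rw [h.hD, funext hf]
    exact Gb_hol hG he hw
  · obtain ⟨B, hB0, hB⟩ := Atl.exists_bound hG (Atl.H0_le_Sec hw)
    refine ⟨B ^ 2, fun q => ?_⟩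
    rw [hwt, hf, norm_div, div_pow, div_eq_mul_inv]
    exact mul_le_mul_of_nonneg_right (pow_le_pow_left₀ (norm_nonneg _) (hB _) 2) (by positivity)

end Vale.Agent.P299
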