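import Vale.Agent.P299.HDefs

/-! P299 HA: proper affine isometric actions have polynomial growth.
`one`: `mul 1 1`. `diff`: `b γ' = ρ γ (b (γ⁻¹ * γ')) + b γ`. `pow`: induction, `Set.mem_pow` or `pow_succ`, `Set.mem_mul`.
`card`: packing. The real balls `ball (b γ) 1`, `γ ∈ T`, lie in `ball 0 (R + 1)` and a point lies in at most `N` of them, `N` the
number of `δ` with `‖b δ‖ ≤ 2` (`diff`, inject by `γ' ↦ γ⁻¹ * γ'`); integrate indicators for an additive Haar measure
(`borelize E`, `Measure.addHaar`, `Measure.addHaar_ball`, `addHaar_ball_center`), `D = finrank ℝ E`. -/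

open MeasureTheory Set Filter Topology Matrix Metric
open scoped ContDiff ENNReal ComplexConjugate ComplexOrder Pointwise

noncomputable section

namespace Vale.Agent.P299

open Vale.Agent.P271 Vale.Agent.P272

variable {Γ E : Type} [Group Γ] [NormedAddCommGroup E] [InnerProductSpace ℂ E]
  [FiniteDimensional ℂ E] {ρ : Γ →* Module.End ℂ E} {b : Γ → E}

theorem Cry.one (h : Cry ρ b) : b 1 = 0 := by
  have h1 := h.mul 1 1
  rw [mul_one, map_one, Module.End.one_apply] at h1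
  exact left_eq_add.1 h1

theorem Cry.diff (h : Cry ρ b) (γ γ' : Γ) : ‖b (γ⁻¹ * γ')‖ = ‖b γ' - b γ‖ := by
  have h1 := h.mul γ (γ⁻¹ * γ')
  rw [mul_inv_cancel_left] at h1
  rw [h1, add_sub_cancel_right, h.iso]

theorem Cry.pow (h : Cry ρ b) {S : Set Γ} {L : ℝ} (hL : ∀ s ∈ S, ‖b s‖ ≤ L) (m : ℕ) :
    ∀ γ ∈ S ^ m, ‖b γ‖ ≤ m * L := by
  induction m with
  | zero =>
    intro γ hγ
    rw [pow_zero, Set.mem_one] at hγ
    rw [hγ, h.one]
    simp
  | succ m ih =>
    intro γ hγ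
    rw [pow_succ] at hγ
    obtain ⟨x, hx, s, hs, rfl⟩ := Set.mem_mul.1 hγ
    rw [h.mul]
    refine (norm_add_le _ _).trans ?_
    rw [h.iso]
    push_cast
    linarith [ih x hx, hL s hs]

theorem HA_pt (h : Cry ρ b) {R : ℝ} {T : Finset Γ} (hT : ∀ γ ∈ T, ‖b γ‖ ≤ R) (x : E) :
    ∑ γ ∈ T, (ball (b γ) 1).indicator (fun _ => (1 : ℝ≥0∞)) x ≤
      (ball (0 : E) (R + 1)).indicator (fun _ => ((h.fin 2).toFinset.card : ℝ≥0∞)) x := by
  classical
  have e1 : ∑ γ ∈ T, (ball (b γ) 1).indicator (fun _ => (1 : ℝ≥0∞)) x =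
      ((T.filter fun γ => x ∈ ball (b γ) 1).card : ℝ≥0∞) := by
    simp only [Set.indicator_apply, Finset.sum_boole]
  rw [e1]
  rcases (T.filter fun γ => x ∈ ball (b γ) 1).eq_empty_or_nonempty with h0 | ⟨γ₀, h0⟩
  · rw [h0]; simp
  · obtain ⟨h1, h2⟩ := Finset.mem_filter.1 h0
    rw [mem_ball, dist_eq_norm] at h2
    have h3 : x ∈ ball (0 : E) (R + 1) := by
      rw [mem_ball_zero_iff]
      have := norm_add_le (x - b γ₀) (b γ₀)
      rw [sub_add_cancel] at this
      linarith [hT γ₀ h1]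
    rw [Set.indicator_of_mem h3]
    refine Nat.cast_le.2 (Finset.card_le_card_of_injOn (fun γ => γ₀⁻¹ * γ) (fun γ hγ => ?_)
      fun _ _ _ _ hh => mul_left_cancel hh)
    have h4 := (Finset.mem_filter.1 (Finset.mem_coe.1 hγ)).2
    rw [mem_ball, dist_eq_norm] at h4
    rw [Finset.mem_coe, Set.Finite.mem_toFinset, mem_setOf_eq, h.diff]
    have h5 := norm_sub_le (x - b γ₀) (x - b γ)
    rw [sub_sub_sub_cancel_left] at h5
    linarith

theorem Cry.card (h : Cry ρ b) : ∃ (D : ℕ) (C : ℝ), ∀ R : ℝ, 0 ≤ R →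
    ({γ | ‖b γ‖ ≤ R}.ncard : ℝ) ≤ C * (R + 1) ^ D := by
  haveI : ProperSpace E := FiniteDimensional.proper ℂ E
  borelize E
  obtain ⟨μ, hμ⟩ : ∃ μ : Measure E, μ.IsAddHaarMeasure := ⟨Measure.addHaar, inferInstance⟩
  refine ⟨Module.finrank ℝ E, (h.fin 2).toFinset.card, fun R hR => ?_⟩
  have h1 := lintegral_mono (μ := μ) (HA_pt h (T := (h.fin R).toFinset) (R := R) fun γ hγ => by
    simpa using hγ)
  rw [lintegral_finset_sum _ fun γ _ => measurable_const.indicator measurableSet_ball,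
    lintegral_indicator_const measurableSet_ball,
    Measure.addHaar_ball_of_pos μ _ (show 0 < R + 1 by linarith)] at h1
  simp only [lintegral_indicator_const measurableSet_ball, one_mul,
    Measure.addHaar_ball_center μ, Finset.sum_const, nsmul_eq_mul] at h1
  rw [← mul_assoc] at h1
  have h2 := (ENNReal.mul_le_mul_iff_left (measure_ball_pos μ (0 : E) one_pos).ne'
    measure_ball_lt_top.ne).1 h1
  have h3 := ENNReal.toReal_mono (ENNReal.mul_ne_top (ENNReal.natCast_ne_top _)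
    ENNReal.ofReal_ne_top) h2
  rw [ENNReal.toReal_mul, ENNReal.toReal_natCast, ENNReal.toReal_natCast,
    ENNReal.toReal_ofReal (by positivity)] at h3
  rw [Set.ncard_eq_toFinset_card _ (h.fin R)]
  exact h3

theorem Cry.pg (h : Cry ρ b) : ∃ D, P188.PG Γ D := by
  obtain ⟨D, C, hC⟩ := h.card
  have hC0 : 0 ≤ C := by
    have h1 := (Nat.cast_nonneg _).trans (hC 0 le_rfl)
    simpa using h1
  refine ⟨D, fun S hS => ?_⟩
  obtain ⟨L, hL⟩ := (hS.image fun s => ‖b s‖).bddAbove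
  have hL' : ∀ s ∈ S, ‖b s‖ ≤ max L 1 := fun s hs =>
    (hL (mem_image_of_mem _ hs)).trans (le_max_left _ _)
  have h1 : 1 ≤ max L 1 := le_max_right _ _
  refine ⟨C * max L 1 ^ D, fun m => ?_⟩
  have h2 : (S ^ m).ncard ≤ {γ | ‖b γ‖ ≤ m * max L 1}.ncard :=
    Set.ncard_le_ncard (h.pow hL' m) (h.fin _)
  refine (Nat.cast_le.2 h2).trans ((hC _ (by positivity)).trans ?_)
  rw [mul_assoc, ← mul_pow]
  refine mul_le_mul_of_nonneg_left (pow_le_pow_left₀ (by positivity) ?_ D) hC0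
  linarith

end Vale.Agent.P299
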