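import Vale.Agent.P299.HA
import Vale.Agent.P188.GAShD

/-! P299 HB: the first Bieberbach theorem.
`fix`: `H` acts by conjugation on the translations `{τ | ρ τ = 1}`, `b (γ * τ * γ⁻¹) = ρ γ (b τ)`, so it permutes each finite set
`{τ | ρ τ = 1 ∧ ‖b τ‖ ≤ r}`. The span of `b '' {τ | ρ τ = 1}` is spanned by finitely many `b τ` (`exists_linearIndependent`, or
`Submodule.FG`, `Submodule.mem_span_finite_of_mem_span`). For one `τ` the centraliser of `τ` has finite index because the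
conjugacy class is finite (`MulAction.stabilizer (ConjAct Γ)`, or the fibres of `γ ↦ γ * τ * γ⁻¹`); intersect finitely many
(`Subgroup.finiteIndex_iInf`).
`coc_sub`: finitely many coset representatives. `bieb`: `P188.shalom` (with `Cry.pg`; `Bdd` from `iso`) gives `H₁` with commuting
linear parts, `H = H₁ ⊓ H₂` with `H₂` from `fix`. Let `W` be the span of the `b τ`, `P` the orthogonal projection on `Wᗮ`
(`Submodule.starProjection`). For `γ, δ ∈ H`, `γ δ = τ δ γ` with `ρ τ = 1`, hence `A (δ x) = ρ δ (A x) + b τ` for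
`A x = ρ γ x + b γ - x`; `ρ δ` fixes `W` and is an isometry, so `‖P (A (δ x))‖ = ‖P (A x)‖` (one may also use `infDist (A x) W`).
By `coc_sub` `P (A x)` is bounded, so `P (ρ γ x - x) = 0`, `u = ρ γ x - x ∈ W`, and
`⟪u, u⟫ = ⟪ρ γ x, ρ γ u⟫ - ⟪x, u⟫ = 0`. -/

open MeasureTheory Set Filter Topology Matrix Metric
open scoped ContDiff ENNReal ComplexConjugate ComplexOrder

noncomputable section

namespace Vale.Agent.P299

open Vale.Agent.P271 Vale.Agent.P272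

variable {Γ E : Type} [Group Γ] [NormedAddCommGroup E] [InnerProductSpace ℂ E]
  [FiniteDimensional ℂ E] {ρ : Γ →* Module.End ℂ E} {b : Γ → E}

theorem HB_conj (h : Cry ρ b) (γ : Γ) {τ : Γ} (hτ : ρ τ = 1) :
    b (γ * τ * γ⁻¹) = ρ γ (b τ) := by
  have h1 := h.mul γ γ⁻¹
  rw [mul_inv_cancel, h.one] at h1
  rw [h.mul, h.mul, map_mul, hτ, mul_one]
  rw [add_comm (ρ γ (b τ)), ← add_assoc, ← h1, zero_add]

omit [FiniteDimensional ℂ E] in
theorem HB_act (h : Cry ρ b) (γ δ : Γ) (x : E) :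
    ρ (γ * δ) x + b (γ * δ) = ρ γ (ρ δ x + b δ) + b γ := by
  rw [h.mul, map_mul, map_add, Module.End.mul_apply, add_assoc]


theorem Cry.fix (h : Cry ρ b) : ∃ H : Subgroup Γ, H.FiniteIndex ∧
    ∀ γ ∈ H, ∀ τ, ρ τ = 1 → ρ γ (b τ) = b τ := by
  let _ : MulAction Γ E := MulAction.compHom E ρ
  obtain ⟨s, hs, hsp, hli⟩ := exists_linearIndependent ℂ (b '' {τ | ρ τ = 1})
  have hfin : s.Finite := hli.setFinite
  have : Finite s := hfin
  have hst : ∀ v : s, (MulAction.stabilizer Γ (v : E)).FiniteIndex := by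
    rintro ⟨v, hv⟩
    obtain ⟨τ, hτ, rfl⟩ := hs hv
    refine ⟨?_⟩
    rw [MulAction.index_stabilizer]
    have hf : (MulAction.orbit Γ (b τ)).Finite := by
      refine ((h.fin ‖b τ‖).image b).subset ?_
      rintro _ ⟨γ, rfl⟩
      refine ⟨γ * τ * γ⁻¹, ?_, HB_conj h γ hτ⟩
      show ‖b (γ * τ * γ⁻¹)‖ ≤ ‖b τ‖
      rw [HB_conj h γ hτ, h.iso]
    exact ((Set.ncard_pos hf).2 ⟨_, MulAction.mem_orbit_self _⟩).ne'
  refine ⟨⨅ v : s, MulAction.stabilizer Γ (v : E), Subgroup.finiteIndex_iInf hst, ?_⟩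
  intro γ hγ τ hτ
  have hm : b τ ∈ Submodule.span ℂ s := by
    rw [hsp]; exact Submodule.subset_span ⟨τ, hτ, rfl⟩
  have key : Set.EqOn (ρ γ) (LinearMap.id : E →ₗ[ℂ] E) s := fun v hv =>
    (Subgroup.mem_iInf.1 hγ ⟨v, hv⟩ : γ ∈ MulAction.stabilizer Γ v)
  exact LinearMap.eqOn_span key hm

theorem Cry.coc_sub (h : Cry ρ b) (hc : ∃ R : ℝ, ∀ x, ∃ γ, ‖ρ γ x + b γ‖ ≤ R) (H : Subgroup Γ)
    [H.FiniteIndex] : ∃ R : ℝ, ∀ x, ∃ γ ∈ H, ‖ρ γ x + b γ‖ ≤ R := by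
  obtain ⟨R, hR⟩ := hc
  obtain ⟨M, hM⟩ := (Set.finite_range fun q : Γ ⧸ H => ‖b (q.out)⁻¹‖).bddAbove
  refine ⟨R + M, fun x => ?_⟩
  obtain ⟨γ, hγ⟩ := hR x
  refine ⟨((γ : Γ ⧸ H).out)⁻¹ * γ, QuotientGroup.eq.1 (QuotientGroup.out_eq' _), ?_⟩
  rw [HB_act h]
  refine (norm_add_le _ _).trans (add_le_add ?_ (hM ⟨_, rfl⟩))
  rwa [h.iso]

theorem Cry.bieb [Group.FG Γ] (h : Cry ρ b) (hc : ∃ R : ℝ, ∀ x, ∃ γ, ‖ρ γ x + b γ‖ ≤ R) :
    ∃ H : Subgroup Γ, H.FiniteIndex ∧ ∀ γ ∈ H, ρ γ = 1 := by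
  obtain ⟨D, hD⟩ := h.pg
  have hb : P188.Bdd ρ := fun v φ => ⟨‖LinearMap.toContinuousLinearMap φ‖ * ‖v‖, fun g => by
    rw [← h.iso g v]
    exact (LinearMap.toContinuousLinearMap φ).le_opNorm _⟩
  obtain ⟨H₁, hH₁, hc₁⟩ := P188.shalom hD ρ hb
  obtain ⟨H₂, hH₂, hf₂⟩ := h.fix
  refine ⟨H₁ ⊓ H₂, inferInstance, fun γ hγ => ?_⟩
  obtain ⟨R, hR⟩ := h.coc_sub hc (H₁ ⊓ H₂)
  have key : ∀ x, ‖ρ γ x - x‖ ≤ 2 * R + 2 * ‖b γ‖ := by
    intro x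
    obtain ⟨δ, hδ, hx⟩ := hR x
    have hu : ρ (δ * γ) * ρ (δ * γ)⁻¹ = 1 := by rw [← map_mul, mul_inv_cancel, map_one]
    have hτ : ρ (γ * δ * (δ * γ)⁻¹) = 1 := by
      rw [map_mul, map_mul, hc₁ γ hγ.1 δ hδ.1, ← map_mul, hu]
    set τ := γ * δ * (δ * γ)⁻¹ with hτd
    have e : γ * δ = τ * (δ * γ) := by rw [hτd, inv_mul_cancel_right]
    have e1 : ρ γ (ρ δ x + b δ) + b γ = ρ δ (ρ γ x + b γ) + b δ + b τ := by
      rw [← HB_act h γ δ, e, HB_act h τ, HB_act h δ γ, hτ, Module.End.one_apply]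
    have e2 : ρ δ (ρ γ x - x + b τ + b γ) = ρ γ (ρ δ x + b δ) + b γ - (ρ δ x + b δ) := by
      rw [e1]
      simp only [map_add, map_sub, hf₂ δ hδ.2 τ hτ]
      abel
    have e3 : ‖ρ γ x - x + b τ + b γ‖ ≤ 2 * R + ‖b γ‖ := by
      rw [← h.iso δ, e2]
      have a1 := norm_sub_le (ρ γ (ρ δ x + b δ) + b γ) (ρ δ x + b δ)
      have a2 := norm_add_le (ρ γ (ρ δ x + b δ)) (b γ)
      rw [h.iso] at a2
      linarith
    have e4 : ‖ρ γ x - x + b τ‖ ≤ 2 * R + 2 * ‖b γ‖ := by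
      have a1 := norm_sub_le (ρ γ x - x + b τ + b γ) (b γ)
      rw [add_sub_cancel_right] at a1
      linarith
    have e5 : inner ℂ (ρ γ x - x) (b τ) = 0 := by
      have a1 := (LinearIsometry.mk (ρ γ) (h.iso γ)).inner_map_map x (b τ)
      have a2 : inner ℂ (ρ γ x) (ρ γ (b τ)) = inner ℂ x (b τ) := a1
      rw [hf₂ γ hγ.2 τ hτ] at a2
      rw [inner_sub_left, a2, sub_self]
    have e6 := norm_add_sq_eq_norm_sq_add_norm_sq_of_inner_eq_zero _ _ e5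
    refine le_trans ?_ e4
    refine abs_le_of_sq_le_sq' ?_ (norm_nonneg _) |>.2
    nlinarith [mul_self_nonneg ‖b τ‖]
  ext x
  rw [Module.End.one_apply, ← sub_eq_zero, ← norm_le_zero_iff]
  by_contra hne
  push Not at hne
  obtain ⟨n, hn⟩ := exists_nat_gt ((2 * R + 2 * ‖b γ‖) / ‖ρ γ x - x‖)
  have a := key ((n : ℂ) • x)
  rw [map_smul, ← smul_sub, norm_smul, Complex.norm_natCast] at a
  rw [div_lt_iff₀ hne] at hn
  linarith

end Vale.Agent.P299
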