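import Vale.Agent.P299.HDefs

/-! P299 HC: the action on the flat factor.
`ρ γ x = toLp (γ • ofLp x - γ • 0)` is linear (`aff`), multiplicative by `mul_smul`; `‖U *ᵥ x‖² = star x ⬝ᵥ (Uᴴ * U) *ᵥ x`
(`EuclideanSpace.norm_sq_eq`, `inner_self_eq_norm_sq_to_K`, `EuclideanSpace.inner_eq_star_dotProduct`). `fin`: `tp.prop` for the compact set
`closedBall 0 r ×ˢ univ ×ˢ univ` and a point `(0, y, z)` (simply connected spaces are nonempty; the sup norm is below the Euclidean norm,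
`PiLp.norm_apply_le`). Cocompactness: the continuous function `m ↦ ‖toLp m.1‖` is bounded on the compact set of `tp.coc`. -/

open MeasureTheory Set Filter Topology Matrix Metric
open scoped ContDiff ENNReal ComplexConjugate ComplexOrder

noncomputable section

namespace Vale.Agent.P299

open Vale.Agent.P271 Vale.Agent.P272

variable {n : ℕ} {X : Type} [TopologicalSpace X] [MeasurableSpace X] {M : Model n X}
  {η : Frm M.toAtl} {B : EF M.toAtl}

theorem HC_norm {q : ℕ} (U : Matrix (Fin q) (Fin q) ℂ) (hU : U ∈ Matrix.unitaryGroup (Fin q) ℂ)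
    (x : Cn q) : ‖(WithLp.toLp 2 (U *ᵥ x) : EuclideanSpace ℂ (Fin q))‖ =
      ‖(WithLp.toLp 2 x : EuclideanSpace ℂ (Fin q))‖ := by
  have h1 : star U * U = 1 := (Matrix.mem_unitaryGroup_iff').1 hU
  have h2 : inner ℂ (WithLp.toLp 2 (U *ᵥ x) : EuclideanSpace ℂ (Fin q)) (WithLp.toLp 2 (U *ᵥ x)) =
      inner ℂ (WithLp.toLp 2 x : EuclideanSpace ℂ (Fin q)) (WithLp.toLp 2 x) := by
    rw [EuclideanSpace.inner_toLp_toLp, EuclideanSpace.inner_toLp_toLp, Matrix.star_mulVec,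
      dotProduct_comm, Matrix.dotProduct_mulVec, Matrix.vecMul_vecMul, ← Matrix.star_eq_conjTranspose,
      h1, Matrix.vecMul_one, dotProduct_comm]
  rw [@norm_eq_sqrt_re_inner ℂ, @norm_eq_sqrt_re_inner ℂ, h2]

/-- The linear map of a matrix on Euclidean space. -/
def HC_lin {q : ℕ} (U : Matrix (Fin q) (Fin q) ℂ) : Module.End ℂ (EuclideanSpace ℂ (Fin q)) where
  toFun x := WithLp.toLp 2 (U *ᵥ WithLp.ofLp x)
  map_add' x y := by
    rw [WithLp.ofLp_add, Matrix.mulVec_add, WithLp.toLp_add]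
  map_smul' c x := by
    rw [WithLp.ofLp_smul, Matrix.mulVec_smul, WithLp.toLp_smul, RingHom.id_apply]

theorem HC_lin_apply {q : ℕ} (U : Matrix (Fin q) (Fin q) ℂ) (x : EuclideanSpace ℂ (Fin q)) :
    HC_lin U x = WithLp.toLp 2 (U *ᵥ WithLp.ofLp x) := rfl

theorem HC_sup {q : ℕ} (x : Cn q) : ‖x‖ ≤ ‖(WithLp.toLp 2 x : EuclideanSpace ℂ (Fin q))‖ :=
  (pi_norm_le_iff_of_nonneg (norm_nonneg _)).2 fun i =>
    PiLp.norm_apply_le (WithLp.toLp 2 x : EuclideanSpace ℂ (Fin q)) i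

theorem Spl.cry (S : Spl M η B) [CompactSpace S.Y] [CompactSpace S.Z] :
    ∃ (ρ : S.Γ →* Module.End ℂ (EuclideanSpace ℂ (Fin S.q))) (b : S.Γ → EuclideanSpace ℂ (Fin S.q)),
      Cry ρ b ∧ (∃ R : ℝ, ∀ x, ∃ γ, ‖ρ γ x + b γ‖ ≤ R) ∧
      ∀ γ (x : Cn S.q), WithLp.toLp 2 (γ • x) = ρ γ (WithLp.toLp 2 x) + b γ := by
  choose U hU b hb using S.aff
  have hb0 : ∀ γ : S.Γ, γ • (0 : Cn S.q) = b γ := fun γ => by
    rw [hb, Matrix.mulVec_zero, zero_add]
  have hb1 : b 1 = 0 := by rw [← hb0, one_smul]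
  have hU1 : ∀ x : Cn S.q, U 1 *ᵥ x = x := fun x => by
    have := hb 1 x
    rw [one_smul, hb1, add_zero] at this
    exact this.symm
  have hbm : ∀ γ δ : S.Γ, b (γ * δ) = U γ *ᵥ b δ + b γ := fun γ δ => by
    rw [← hb0, mul_smul, hb0, hb]
  have hUm : ∀ (γ δ : S.Γ) (x : Cn S.q), U (γ * δ) *ᵥ x = U γ *ᵥ (U δ *ᵥ x) := fun γ δ x => by
    have := hb (γ * δ) x
    rw [mul_smul, hb δ, hb γ, hbm, Matrix.mulVec_add, add_assoc] at this
    exact (add_right_cancel this).symm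
  let ρ : S.Γ →* Module.End ℂ (EuclideanSpace ℂ (Fin S.q)) :=
    { toFun := fun γ => HC_lin (U γ)
      map_one' := LinearMap.ext fun x => by
        rw [HC_lin_apply, hU1, Module.End.one_apply]
      map_mul' := fun γ δ => LinearMap.ext fun x => by
        rw [Module.End.mul_apply, HC_lin_apply, HC_lin_apply, HC_lin_apply, hUm] }
  have hρ : ∀ γ x, ρ γ x = WithLp.toLp 2 (U γ *ᵥ WithLp.ofLp x) := fun γ x => rfl
  have key : ∀ γ (x : Cn S.q), (WithLp.toLp 2 (γ • x) : EuclideanSpace ℂ (Fin S.q)) =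
      ρ γ (WithLp.toLp 2 x) + WithLp.toLp 2 (b γ) := fun γ x => by
    rw [hρ, hb, WithLp.toLp_add]
  obtain ⟨y⟩ : Nonempty S.Y := inferInstance
  obtain ⟨z⟩ : Nonempty S.Z := inferInstance
  refine ⟨ρ, fun γ => WithLp.toLp 2 (b γ), ⟨fun γ x => ?_, fun γ δ => ?_, fun r => ?_⟩, ?_, key⟩
  · rw [hρ, HC_norm _ (hU γ)]
  · rw [hρ, hbm, WithLp.toLp_add]
  · have hK : IsCompact (closedBall (0 : Cn S.q) r ×ˢ (univ : Set S.Y) ×ˢ (univ : Set S.Z)) :=
      (isCompact_closedBall _ _).prod (isCompact_univ.prod isCompact_univ)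
    refine (S.tp.prop _ hK).subset fun γ hγ => ?_
    have hγ' : ‖(WithLp.toLp 2 (b γ) : EuclideanSpace ℂ (Fin S.q))‖ ≤ r := hγ
    refine ⟨(0, y, z), ⟨?_, mem_univ _, mem_univ _⟩, ?_, mem_univ _, mem_univ _⟩
    · exact mem_closedBall_self ((norm_nonneg _).trans hγ')
    · change γ • (0 : Cn S.q) ∈ closedBall (0 : Cn S.q) r
      rw [hb0, mem_closedBall_zero_iff]
      exact (HC_sup _).trans hγ'
  · obtain ⟨K, hK, hc⟩ := S.tp.coc
    have hf : Continuous fun m : Cn S.q × S.Y × S.Z =>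
        (WithLp.toLp 2 m.1 : EuclideanSpace ℂ (Fin S.q)) :=
      (PiLp.continuous_toLp 2 _).comp continuous_fst
    obtain ⟨R, hR⟩ := hK.exists_bound_of_continuousOn hf.continuousOn
    refine ⟨R, fun x => ?_⟩
    obtain ⟨γ, hγ⟩ := hc (WithLp.ofLp x, y, z)
    refine ⟨γ, ?_⟩
    have h := hR _ hγ
    have e : (γ • ((WithLp.ofLp x, y, z) : Cn S.q × S.Y × S.Z)).1 = γ • WithLp.ofLp x := rfl
    rw [e, key] at h
    exact h

end Vale.Agent.P299
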