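import Vale.Agent.P299.HDefs

/-! P299 HD: the deck group acts on the second factor by holomorphic isometries.
`an_of_comp`: `ContDiffAt.toOpenPartialHomeomorph` or `ContDiffAt.to_localInverse` with `n = ω`, `ContinuousLinearEquiv.ofBijective`
(or `LinearEquiv.ofBijective`, `toContinuousLinearEquiv`); `Φ = localInverse ∘ T` near `w₀` by `eventually_left_inverse`.
`Spl.T S a y z` is the chart map. `hmet`: entries `gY y w j k = star (DT (0, e_j, 0)) ⬝ᵥ LM (η a) (T w) *ᵥ DT (0, e_k, 0)` by `met` at the points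
`(0, w, cZ z z)` for `w` near `w₀` (the condition `π (pt ..) ∈ source` is open), `contDiffAt_LM`, `AnalyticAt.fderiv`; positivity from
`PosF` and injectivity of `DT`. `hiso`: `Φ w = (γ • w.1, cY.loc y y' (γ • ·) w.2.1, cZ.loc z (γ • z) (γ • ·) w.2.2)` satisfies
`T a y' (γ • z) (Φ w) = T a y z w` near `(0, cY y p, cZ z z)` because `π (γ • m) = π m` (`IsQuotientCoveringMap.map_smul`); differentiate
`u ↦ Φ (0, u, cZ z z)` and use `met` twice. -/

open MeasureTheory Set Filter Topology Matrix Metric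
open scoped ContDiff ENNReal ComplexConjugate ComplexOrder

noncomputable section

namespace Vale.Agent.P299

open Vale.Agent.P271 Vale.Agent.P272

theorem an_of_comp {E F G : Type} [NormedAddCommGroup E] [NormedSpace ℂ E] [NormedAddCommGroup F]
    [NormedSpace ℂ F] [NormedAddCommGroup G] [NormedSpace ℂ G] [FiniteDimensional ℂ F]
    [FiniteDimensional ℂ G] {T : E → G} {T' : F → G} {Φ : E → F} {w₀ : E}
    (hT : AnalyticAt ℂ T w₀) (hT' : AnalyticAt ℂ T' (Φ w₀))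
    (hb : Function.Bijective (fderiv ℂ T' (Φ w₀))) (hΦ : ContinuousAt Φ w₀)
    (h : ∀ᶠ w in 𝓝 w₀, T' (Φ w) = T w) : AnalyticAt ℂ Φ w₀ := by
  have : CompleteSpace F := FiniteDimensional.complete ℂ F
  have : CompleteSpace G := FiniteDimensional.complete ℂ G
  let e : F ≃L[ℂ] G :=
    (LinearEquiv.ofBijective (fderiv ℂ T' (Φ w₀) : F →ₗ[ℂ] G) hb).toContinuousLinearEquiv
  have he : HasFDerivAt T' (e : F →L[ℂ] G) (Φ w₀) := by
    have : (e : F →L[ℂ] G) = fderiv ℂ T' (Φ w₀) := by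
      ext
      rfl
    rw [this]
    exact hT'.differentiableAt.hasFDerivAt
  have hc : ContDiffAt ℂ ω T' (Φ w₀) := hT'.contDiffAt
  have hn : (ω : WithTop ℕ∞) ≠ 0 := by simp
  have h1 : AnalyticAt ℂ (hc.localInverse he hn) (T w₀) := by
    rw [← h.self_of_nhds]
    exact (hc.to_localInverse he hn).analyticAt
  have h2 : ∀ᶠ x in 𝓝 (Φ w₀), hc.localInverse he hn (T' x) = x :=
    (hc.hasStrictFDerivAt' he hn).eventually_left_inverse
  refine (h1.comp hT).congr ?_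
  filter_upwards [hΦ.eventually h2, h] with w a b
  show hc.localInverse he hn (T w) = Φ w
  rw [← b, a]

theorem HD_form {ι : Type} [TopologicalSpace ι] {m : ℕ} {x : ι} {A C : ι → Cn m} {L : ι → Mx m}
    (hA : ContinuousAt A x) (hL : ContinuousAt L x) (hC : ContinuousAt C x) :
    ContinuousAt (fun w => star (A w) ⬝ᵥ L w *ᵥ C w) x := by
  have h : Continuous fun p : Cn m × Mx m × Cn m => star p.1 ⬝ᵥ p.2.1 *ᵥ p.2.2 :=
    (continuous_star.comp continuous_fst).dotProduct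
      (continuous_snd.fst.matrix_mulVec continuous_snd.snd)
  exact ContinuousAt.comp (f := fun w => (A w, L w, C w)) h.continuousAt
    (hA.prodMk (hL.prodMk hC))

theorem HD_chain {q d₁ d₂ m : ℕ} {T : Cn q × Cn d₁ × Cn d₂ → Cn m} {L : Cn d₁ → Cn d₁} {x : Cn q}
    {c : Cn d₂} {u : Cn d₁} (hT : DifferentiableAt ℂ T (x, L u, c))
    (hL : DifferentiableAt ℂ L u) (v : Cn d₁) :
    fderiv ℂ (fun u => T (x, L u, c)) u v = fderiv ℂ T (x, L u, c) (0, fderiv ℂ L u v, 0) := by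
  have h1 := (hasFDerivAt_const (𝕜 := ℂ) x u).prodMk
    (hL.hasFDerivAt.prodMk (hasFDerivAt_const (𝕜 := ℂ) c u))
  have h2 := HasFDerivAt.comp (f := fun u => (x, L u, c)) u hT.hasFDerivAt h1
  have h3 : fderiv ℂ (fun u => T (x, L u, c)) u = _ := h2.fderiv
  rw [h3]
  rfl

variable {n : ℕ} {X : Type} [TopologicalSpace X] [MeasurableSpace X] {M : Model n X}
  {η : Frm M.toAtl} {B : EF M.toAtl}

/-- The chart map. -/
abbrev Spl.T (S : Spl M η B) (a : M.ι) (y : S.Y) (z : S.Z) :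
    Cn S.q × Cn S.d₁ × Cn S.d₂ → Cn n := fun w => M.e a (S.π (pt S.cY S.cZ y z w))

theorem Spl.pt_eq (S : Spl M η B) {y p : S.Y} {z r : S.Z} (hp : p ∈ (S.cY.c y).source)
    (hr : r ∈ (S.cZ.c z).source) (x : Cn S.q) :
    pt S.cY S.cZ y z (x, S.cY.c y p, S.cZ.c z r) = (x, p, r) := by
  show (x, (S.cY.c y).symm (S.cY.c y p), (S.cZ.c z).symm (S.cZ.c z r)) = (x, p, r)
  rw [(S.cY.c y).left_inv hp, (S.cZ.c z).left_inv hr]

theorem Spl.contAt_pt (S : Spl M η B) {y : S.Y} {z : S.Z} {w : Cn S.q × Cn S.d₁ × Cn S.d₂}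
    (h1 : w.2.1 ∈ (S.cY.c y).target) (h2 : w.2.2 ∈ (S.cZ.c z).target) :
    ContinuousAt (pt S.cY S.cZ y z) w :=
  continuousAt_fst.prodMk
    ((ContinuousAt.comp (f := fun w : Cn S.q × Cn S.d₁ × Cn S.d₂ => w.2.1)
      ((S.cY.c y).continuousAt_symm h1) continuous_snd.fst.continuousAt).prodMk
    (ContinuousAt.comp (f := fun w : Cn S.q × Cn S.d₁ × Cn S.d₂ => w.2.2)
      ((S.cZ.c z).continuousAt_symm h2) continuous_snd.snd.continuousAt))

theorem HD_cont (S : Spl M η B) (γ : S.Γ) : Continuous fun m : Cn S.q × S.Y × S.Z => γ • m :=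
  S.tp.cov.continuous_const_smul γ

theorem HD_contQ (S : Spl M η B) (γ : S.Γ) : Continuous fun x : Cn S.q => γ • x := by
  obtain ⟨y⟩ : Nonempty S.Y := inferInstance
  obtain ⟨z⟩ : Nonempty S.Z := inferInstance
  exact ((HD_cont S γ).comp (continuous_id.prodMk (continuous_const (y := (y, z))))).fst

theorem Spl.contY (S : Spl M η B) (γ : S.Γ) : Continuous fun y : S.Y => γ • y := by
  obtain ⟨z⟩ : Nonempty S.Z := inferInstance
  exact ((HD_cont S γ).comp ((continuous_const (y := (0 : Cn S.q))).prodMk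
    (continuous_id.prodMk (continuous_const (y := z))))).snd.fst

theorem Spl.contZ (S : Spl M η B) (γ : S.Γ) : Continuous fun z : S.Z => γ • z := by
  obtain ⟨y⟩ : Nonempty S.Y := inferInstance
  exact ((HD_cont S γ).comp ((continuous_const (y := (0 : Cn S.q))).prodMk
    ((continuous_const (y := y)).prodMk continuous_id))).snd.snd

theorem Spl.q2_T (S : Spl M η B) {a : M.ι} {y : S.Y} {z : S.Z} {w : Cn S.q × Cn S.d₁ × Cn S.d₂}
    (h1 : w.2.1 ∈ (S.cY.c y).target) (h2 : w.2.2 ∈ (S.cZ.c z).target)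
    (h3 : S.π (pt S.cY S.cZ y z w) ∈ (M.e a).source) (v : Cn S.d₁) :
    q2 (LM (η a) (S.T a y z w)) (fderiv ℂ (S.T a y z) w (0, v, 0)) = q2 (S.gY y w.2.1) v := by
  unfold q2
  rw [S.met a y z w h1 h2 h3 (0, v, 0) (0, v, 0)]
  simp

theorem Spl.hmet (S : Spl M η B) (hη : Kae M.toAtl η) : HMet S.cY S.gY := by
  obtain ⟨z⟩ : Nonempty S.Z := inferInstance
  have hz : S.cZ.c z z ∈ (S.cZ.c z).target := (S.cZ.c z).map_source (S.cZ.mem z)
  refine ⟨fun y w₀ hw => ContinuousAt.continuousWithinAt ?_, fun y w hw v hv => ?_⟩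
  · obtain ⟨a, ha⟩ := M.cover (S.π (pt S.cY S.cZ y z (0, w₀, S.cZ.c z z)))
    have hι : Continuous fun w : Cn S.d₁ => ((0 : Cn S.q), w, S.cZ.c z z) :=
      continuous_const.prodMk (continuous_id.prodMk continuous_const)
    have hT : AnalyticAt ℂ (S.T a y z) (0, w₀, S.cZ.c z z) := (S.an a y z _ hw hz ha).1
    have hp : ContinuousAt (fun w : Cn S.d₁ => S.π (pt S.cY S.cZ y z (0, w, S.cZ.c z z))) w₀ :=
      S.lh.continuous.continuousAt.comp (ContinuousAt.comp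
        (f := fun w : Cn S.d₁ => ((0 : Cn S.q), w, S.cZ.c z z)) (S.contAt_pt hw hz)
        hι.continuousAt)
    have hD : ContinuousAt (fun w : Cn S.d₁ => fderiv ℂ (S.T a y z) (0, w, S.cZ.c z z)) w₀ :=
      ContinuousAt.comp (f := fun w : Cn S.d₁ => ((0 : Cn S.q), w, S.cZ.c z z))
        hT.fderiv.continuousAt hι.continuousAt
    have hT0 : ContinuousAt (fun w : Cn S.d₁ => S.T a y z (0, w, S.cZ.c z z)) w₀ :=
      ContinuousAt.comp (f := fun w : Cn S.d₁ => ((0 : Cn S.q), w, S.cZ.c z z))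
        hT.continuousAt hι.continuousAt
    have hL : ContinuousAt (fun w : Cn S.d₁ => LM (η a) (S.T a y z (0, w, S.cZ.c z z))) w₀ :=
      continuousAt_pi.2 fun j => continuousAt_pi.2 fun k =>
        ContinuousAt.comp (f := fun w : Cn S.d₁ => S.T a y z (0, w, S.cZ.c z z))
          (contDiffAt_LM (hη.1.smAt ((M.e a).map_source ha)) j k).continuousAt hT0
    refine continuousAt_pi.2 fun j => continuousAt_pi.2 fun k => ?_
    refine (HD_form (hD.clm_apply (continuousAt_const (y := (0, Pi.single j 1, 0)))) hL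
      (hD.clm_apply (continuousAt_const (y := (0, Pi.single k 1, 0))))).congr ?_
    filter_upwards [(S.cY.c y).open_target.mem_nhds hw,
      hp.eventually ((M.e a).open_source.mem_nhds ha)] with w h1 h2
    rw [S.met a y z (0, w, S.cZ.c z z) h1 hz h2]
    simp
  · obtain ⟨a, ha⟩ := M.cover (S.π (pt S.cY S.cZ y z (0, w, S.cZ.c z z)))
    rw [← S.q2_T (w := (0, w, S.cZ.c z z)) hw hz ha v]
    refine (hη.2 a _ ((M.e a).map_source ha)).re_dotProduct_pos fun h0 => hv ?_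
    have h1 := (S.an a y z (0, w, S.cZ.c z z) hw hz ha).2.1 (h0.trans (map_zero _).symm)
    exact congrArg (fun t => t.2.1) h1

/-- The deck transformation in product charts. -/
def HD_Phi (S : Spl M η B) (γ : S.Γ) (y y' : S.Y) (z : S.Z) (w : Cn S.q × Cn S.d₁ × Cn S.d₂) :
    Cn S.q × Cn S.d₁ × Cn S.d₂ :=
  (γ • w.1, S.cY.loc y y' (fun y => γ • y) w.2.1, S.cZ.loc z (γ • z) (fun z => γ • z) w.2.2)

theorem HD_core (S : Spl M η B) (γ : S.Γ) {y y' p : S.Y} (hp : p ∈ (S.cY.c y).source)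
    (hp' : γ • p ∈ (S.cY.c y').source) :
    AnalyticAt ℂ (S.cY.loc y y' fun y => γ • y) (S.cY.c y p) ∧ ∀ v,
      q2 (S.gY y' (S.cY.c y' (γ • p))) (fderiv ℂ (S.cY.loc y y' fun y => γ • y) (S.cY.c y p) v) =
        q2 (S.gY y (S.cY.c y p)) v := by
  obtain ⟨z⟩ : Nonempty S.Z := inferInstance
  have hz : S.cZ.c z z ∈ (S.cZ.c z).target := (S.cZ.c z).map_source (S.cZ.mem z)
  have hy : S.cY.c y p ∈ (S.cY.c y).target := (S.cY.c y).map_source hp
  obtain ⟨a, ha⟩ := M.cover (S.π (pt S.cY S.cZ y z (0, S.cY.c y p, S.cZ.c z z)))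
  have hpt := S.contAt_pt (w := (0, S.cY.c y p, S.cZ.c z z)) hy hz
  have e0 := S.pt_eq hp (S.cZ.mem z) 0
  have c1 : ContinuousAt (fun w : Cn S.q × Cn S.d₁ × Cn S.d₂ => γ • (S.cY.c y).symm w.2.1)
      (0, S.cY.c y p, S.cZ.c z z) := (S.contY γ).continuousAt.comp hpt.snd.fst
  have c2 : ContinuousAt (fun w : Cn S.q × Cn S.d₁ × Cn S.d₂ => γ • (S.cZ.c z).symm w.2.2)
      (0, S.cY.c y p, S.cZ.c z z) := (S.contZ γ).continuousAt.comp hpt.snd.snd
  have m1 : γ • (S.cY.c y).symm (S.cY.c y p) ∈ (S.cY.c y').source := by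
    rwa [(S.cY.c y).left_inv hp]
  have m2 : γ • (S.cZ.c z).symm (S.cZ.c z z) ∈ (S.cZ.c (γ • z)).source := by
    rw [(S.cZ.c z).left_inv (S.cZ.mem z)]
    exact S.cZ.mem _
  have hev : ∀ᶠ w in 𝓝 ((0, S.cY.c y p, S.cZ.c z z) : Cn S.q × Cn S.d₁ × Cn S.d₂),
      S.π (pt S.cY S.cZ y' (γ • z) (HD_Phi S γ y y' z w)) = S.π (pt S.cY S.cZ y z w) := by
    filter_upwards [c1.eventually ((S.cY.c y').open_source.mem_nhds m1),
      c2.eventually ((S.cZ.c (γ • z)).open_source.mem_nhds m2)] with w h1 h2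
    rw [← S.tp.cov.map_smul γ (e := pt S.cY S.cZ y z w)]
    exact congrArg S.π (S.pt_eq h1 h2 _)
  have hΦ : ContinuousAt (HD_Phi S γ y y' z) (0, S.cY.c y p, S.cZ.c z z) :=
    ((HD_contQ S γ).comp continuous_fst).continuousAt.prodMk
      ((ContinuousAt.comp
        (f := fun w : Cn S.q × Cn S.d₁ × Cn S.d₂ => γ • (S.cY.c y).symm w.2.1)
        ((S.cY.c y').continuousAt m1) c1).prodMk
      (ContinuousAt.comp
        (f := fun w : Cn S.q × Cn S.d₁ × Cn S.d₂ => γ • (S.cZ.c z).symm w.2.2)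
        ((S.cZ.c (γ • z)).continuousAt m2) c2))
  have t1 : (HD_Phi S γ y y' z (0, S.cY.c y p, S.cZ.c z z)).2.1 ∈ (S.cY.c y').target :=
    (S.cY.c y').map_source m1
  have t2 : (HD_Phi S γ y y' z (0, S.cY.c y p, S.cZ.c z z)).2.2 ∈ (S.cZ.c (γ • z)).target :=
    (S.cZ.c (γ • z)).map_source m2
  have t3 : S.π (pt S.cY S.cZ y' (γ • z) (HD_Phi S γ y y' z (0, S.cY.c y p, S.cZ.c z z))) ∈
      (M.e a).source := by
    rw [hev.self_of_nhds]
    exact ha
  have hT : AnalyticAt ℂ (S.T a y z) (0, S.cY.c y p, S.cZ.c z z) := (S.an a y z _ hy hz ha).1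
  have hT' := S.an a y' (γ • z) _ t1 t2 t3
  have hev' : ∀ᶠ w in 𝓝 ((0, S.cY.c y p, S.cZ.c z z) : Cn S.q × Cn S.d₁ × Cn S.d₂),
      S.T a y' (γ • z) (HD_Phi S γ y y' z w) = S.T a y z w :=
    hev.mono fun w hw => congrArg (M.e a) hw
  have hA := an_of_comp (T' := S.T a y' (γ • z)) hT hT'.1 hT'.2 hΦ hev'
  have hι : AnalyticAt ℂ (fun u : Cn S.d₁ => ((0 : Cn S.q), u, S.cZ.c z z)) (S.cY.c y p) :=
    analyticAt_const.prod (analyticAt_id.prod analyticAt_const)
  have hA2 := AnalyticAt.comp (f := fun u : Cn S.d₁ => ((0 : Cn S.q), u, S.cZ.c z z)) hA hι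
  have hL : AnalyticAt ℂ (S.cY.loc y y' fun y => γ • y) (S.cY.c y p) :=
    analyticAt_fst.comp (analyticAt_snd.comp hA2)
  refine ⟨hL, fun v => ?_⟩
  have k1 := HD_chain (T := S.T a y' (γ • z)) (L := S.cY.loc y y' fun y => γ • y)
    (x := γ • (0 : Cn S.q)) (c := S.cZ.loc z (γ • z) (fun z => γ • z) (S.cZ.c z z))
    hT'.1.differentiableAt hL.differentiableAt v
  have k2 := HD_chain (T := S.T a y z) (L := fun u => u) (x := (0 : Cn S.q)) (c := S.cZ.c z z)
    (u := S.cY.c y p) hT.differentiableAt differentiableAt_id v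
  have k3 : (fun u => S.T a y' (γ • z) (γ • (0 : Cn S.q), S.cY.loc y y' (fun y => γ • y) u,
      S.cZ.loc z (γ • z) (fun z => γ • z) (S.cZ.c z z))) =ᶠ[𝓝 (S.cY.c y p)]
      fun u => S.T a y z (0, u, S.cZ.c z z) := hι.continuousAt.eventually hev'
  rw [k3.fderiv_eq, k2, fderiv_fun_id, ContinuousLinearMap.id_apply] at k1
  have q1 := S.q2_T t1 t2 t3 (fderiv ℂ (S.cY.loc y y' fun y => γ • y) (S.cY.c y p) v)
  have q2' := S.q2_T (w := (0, S.cY.c y p, S.cZ.c z z)) hy hz ha v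
  have e1 : (HD_Phi S γ y y' z (0, S.cY.c y p, S.cZ.c z z)).2.1 = S.cY.c y' (γ • p) := by
    show S.cY.c y' (γ • (S.cY.c y).symm (S.cY.c y p)) = S.cY.c y' (γ • p)
    rw [(S.cY.c y).left_inv hp]
  rw [e1, hev'.self_of_nhds] at q1
  rw [← q1, ← q2', k1]
  rfl

theorem Spl.hiso (S : Spl M η B) (γ : S.Γ) : HIso S.cY S.gY fun y => γ • y :=
  ⟨⟨S.contY γ, fun _ _ _ hp hp' => (HD_core S γ hp hp').1⟩,
    fun _ _ _ hp hp' => (HD_core S γ hp hp').2⟩

end Vale.Agent.P299
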