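import Vale.Agent.P299.Defs2

/-! P299, part H: definitions. -/

open MeasureTheory Set Filter Topology Matrix Metric
open scoped ContDiff ENNReal ComplexConjugate ComplexOrder

noncomputable section

namespace Vale.Agent.P299

open Vale.Agent.P271 Vale.Agent.P272

/-- A proper action `x ↦ ρ γ x + b γ` by affine isometries. -/
structure Cry {Γ E : Type} [Group Γ] [NormedAddCommGroup E] [InnerProductSpace ℂ E]
    (ρ : Γ →* Module.End ℂ E) (b : Γ → E) : Prop where
  iso : ∀ γ x, ‖ρ γ x‖ = ‖x‖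
  mul : ∀ γ δ, b (γ * δ) = ρ γ (b δ) + b γ
  fin : ∀ r : ℝ, {γ | ‖b γ‖ ≤ r}.Finite

variable {d : ℕ} {Y : Type} [TopologicalSpace Y] {c : CA d Y} {g : Y → Cn d → Mx d}

/-- The map `f` in the charts at `y` and `y'`. -/
def CA.loc (c : CA d Y) (y y' : Y) (f : Y → Y) (w : Cn d) : Cn d := c.c y' (f ((c.c y).symm w))

/-- Holomorphic vector fields: `ξ y p` is the value at `p` in the chart at `y`. -/
structure HVF (c : CA d Y) (ξ : Y → Y → Cn d) : Prop where
  compat : ∀ y y' p, p ∈ (c.c y).source → p ∈ (c.c y').source →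
    ξ y' p = fderiv ℂ (c.loc y y' id) (c.c y p) (ξ y p)
  hol : ∀ y p, p ∈ (c.c y).source → AnalyticAt ℂ (fun w => ξ y ((c.c y).symm w)) (c.c y p)

/-- Continuous metrics in all charts. -/
structure HMet (c : CA d Y) (g : Y → Cn d → Mx d) : Prop where
  cont : ∀ y, ContinuousOn (g y) (c.c y).target
  pos : ∀ y, ∀ w ∈ (c.c y).target, ∀ v, v ≠ 0 → 0 < q2 (g y w) v

/-- Holomorphic self maps. -/
structure HMap (c : CA d Y) (f : Y → Y) : Prop where
  cont : Continuous f
  hol : ∀ y y' p, p ∈ (c.c y).source → f p ∈ (c.c y').source →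
    AnalyticAt ℂ (c.loc y y' f) (c.c y p)

/-- Holomorphic isometries. -/
structure HIso (c : CA d Y) (g : Y → Cn d → Mx d) (f : Y → Y) : Prop extends HMap c f where
  iso : ∀ y y' p, p ∈ (c.c y).source → f p ∈ (c.c y').source → ∀ v,
    q2 (g y' (c.c y' (f p))) (fderiv ℂ (c.loc y y' f) (c.c y p) v) = q2 (g y (c.c y p)) v

/-- A finite cover by coordinate balls. -/
structure FC (c : CA d Y) where
  N : ℕ
  y : Fin N → Y
  r : Fin N → ℝ
  pos : ∀ i, 0 < r i
  sub : ∀ i, closedBall (c.c (y i) (y i)) (2 * r i) ⊆ (c.c (y i)).target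
  cov : ∀ p, ∃ i, p ∈ (c.c (y i)).source ∧ c.c (y i) p ∈ ball (c.c (y i) (y i)) (r i)

/-- `f` is close to the identity in the charts of the cover. -/
def FC.Cl (F : FC c) (ε : ℝ) (f : Y → Y) : Prop :=
  ∀ i, ∀ w ∈ closedBall (c.c (F.y i) (F.y i)) (2 * F.r i),
    f ((c.c (F.y i)).symm w) ∈ (c.c (F.y i)).source ∧ ‖c.loc (F.y i) (F.y i) f w - w‖ ≤ ε

end Vale.Agent.P299
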