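import Vale.Agent.P299.HDefs

/-! P299 HE: isometries are equicontinuous.
`exists_fc`: `CompactSpace.elim_nhds_subcover`, `Finset.equivFin`. `HMet.bound`: `(w, v) ↦ q2 (g y w) v` is continuous on `K ×ˢ sphere 0 1`, homogeneity.
`stay`: `IsClosed.Icc_subset_of_forall_mem_nhdsWithin` for `{t | f t ∈ e.symm '' closedBall a (2 r) ∧ ‖e (f t) - e (f 0)‖ ≤ 2 L t}`
(the image is compact, hence closed, and lies in the source); the step uses `HasDerivAt.isLittleO` or `hasDerivAt_iff_tendsto_slope`.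
`equi`: `C` an upper bound of `g p` on a closed ball around `c p p`, `κ` a lower bound of all `g (y j)` on the big balls, `L₀ = √(C / κ)`. If `f p` lies in the
small ball `j`, apply `stay` to `t ↦ f ((c p).symm (c p p + t • (w - c p p)))` with `L = L₀ ‖w - c p p‖`; the maps `(c (y j)).symm` are uniformly continuous on the
big balls (`IsCompact.uniformContinuousOn_of_continuous`). -/

open MeasureTheory Set Filter Topology Matrix Metric
open scoped ContDiff ENNReal ComplexConjugate ComplexOrder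

noncomputable section

namespace Vale.Agent.P299

open Vale.Agent.P271 Vale.Agent.P272

variable {d : ℕ} {Y : Type} [MetricSpace Y] [CompactSpace Y] {c : CA d Y} {g : Y → Cn d → Mx d}

omit [CompactSpace Y] in
theorem HE_ball (c : CA d Y) (y : Y) : ∃ r > 0, closedBall (c.c y y) r ⊆ (c.c y).target :=
  nhds_basis_closedBall.mem_iff.1 ((c.c y).open_target.mem_nhds ((c.c y).map_source (c.mem y)))

theorem exists_fc (c : CA d Y) : Nonempty (FC c) := by
  choose r hr hs using HE_ball c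
  have hU : ∀ y, (c.c y).source ∩ c.c y ⁻¹' ball (c.c y y) (r y / 2) ∈ 𝓝 y := fun y =>
    inter_mem ((c.c y).open_source.mem_nhds (c.mem y))
      ((c.c y).continuousAt (c.mem y) (ball_mem_nhds _ (half_pos (hr y))))
  obtain ⟨t, ht⟩ := CompactSpace.elim_nhds_subcover _ hU
  refine ⟨⟨t.card, fun i => (t.equivFin.symm i).1, fun i => r (t.equivFin.symm i).1 / 2,
    fun i => half_pos (hr _), fun i => ?_, fun p => ?_⟩⟩
  · rw [mul_div_cancel₀ _ (two_ne_zero' ℝ)]
    exact hs _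
  · have hp : p ∈ ⋃ y ∈ t, (c.c y).source ∩ c.c y ⁻¹' ball (c.c y y) (r y / 2) := by
      rw [ht]; trivial
    obtain ⟨y, hy, h⟩ := mem_iUnion₂.1 hp
    refine ⟨t.equivFin ⟨y, hy⟩, ?_⟩
    rw [Equiv.symm_apply_apply]
    exact h

theorem HE_cont : Continuous fun p : Mx d × Cn d => q2 p.1 p.2 :=
  Complex.continuous_re.comp
    (continuous_snd.star.dotProduct (continuous_fst.matrix_mulVec continuous_snd))

theorem HE_smul (H : Mx d) (t : ℝ) (v : Cn d) : q2 H (t • v) = t ^ 2 * q2 H v := by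
  rw [q2, q2, star_smul, star_trivial, mulVec_smul, smul_dotProduct, dotProduct_smul,
    Complex.smul_re, Complex.smul_re, smul_eq_mul, smul_eq_mul]
  ring

theorem HMet.bound (h : HMet c g) (y : Y) {K : Set (Cn d)} (hK : IsCompact K)
    (hs : K ⊆ (c.c y).target) : ∃ κ C : ℝ, 0 < κ ∧ 0 < C ∧ ∀ w ∈ K, ∀ v,
      κ * ‖v‖ ^ 2 ≤ q2 (g y w) v ∧ q2 (g y w) v ≤ C * ‖v‖ ^ 2 := by
  have hc : IsCompact (K ×ˢ sphere (0 : Cn d) 1) := hK.prod (isCompact_sphere _ _)
  have hg : ContinuousOn (fun p : Cn d × Cn d => g y p.1) (K ×ˢ sphere (0 : Cn d) 1) :=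
    ((h.cont y).mono hs).comp continuousOn_fst fun p hp => hp.1
  have hf : ContinuousOn (fun p : Cn d × Cn d => q2 (g y p.1) p.2) (K ×ˢ sphere (0 : Cn d) 1) :=
    Continuous.comp_continuousOn (g := fun p : Mx d × Cn d => q2 p.1 p.2)
      (f := fun p : Cn d × Cn d => (g y p.1, p.2)) HE_cont (hg.prodMk continuousOn_snd)
  obtain ⟨κ, hκ, h1⟩ := hc.exists_forall_le' hf (a := 0) fun p hp =>
    h.pos y p.1 (hs hp.1) p.2 (ne_zero_of_mem_unit_sphere ⟨p.2, hp.2⟩)
  obtain ⟨C, h2⟩ := hc.exists_bound_of_continuousOn hf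
  refine ⟨κ, |C| + 1, hκ, by positivity, fun w hw v => ?_⟩
  by_cases hv : v = 0
  · simp [hv, q2]
  have hn : 0 < ‖v‖ := norm_pos_iff.2 hv
  have hu : ‖v‖⁻¹ • v ∈ sphere (0 : Cn d) 1 := by
    rw [mem_sphere_zero_iff_norm, norm_smul, norm_inv, norm_norm, inv_mul_cancel₀ hn.ne']
  have e : q2 (g y w) v = ‖v‖ ^ 2 * q2 (g y w) (‖v‖⁻¹ • v) := by
    rw [← HE_smul, smul_inv_smul₀ hn.ne']
  have h3 : κ ≤ q2 (g y w) (‖v‖⁻¹ • v) := h1 (w, ‖v‖⁻¹ • v) ⟨hw, hu⟩
  have h4 : q2 (g y w) (‖v‖⁻¹ • v) ≤ |C| + 1 := by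
    have h5 : |q2 (g y w) (‖v‖⁻¹ • v)| ≤ C := h2 (w, ‖v‖⁻¹ • v) ⟨hw, hu⟩
    have h6 := le_abs_self (q2 (g y w) (‖v‖⁻¹ • v))
    have h7 := le_abs_self C
    linarith
  rw [e, mul_comm κ, mul_comm (|C| + 1)]
  exact ⟨mul_le_mul_of_nonneg_left h3 (sq_nonneg _), mul_le_mul_of_nonneg_left h4 (sq_nonneg _)⟩

theorem HE_step {φ : ℝ → Cn d} {v : Cn d} {t L : ℝ} (h : HasDerivAt φ v t) (hv : ‖v‖ ≤ L)
    (hL : 0 < L) : ∀ᶠ s in 𝓝[>] t, ‖φ s - φ t‖ ≤ 2 * L * (s - t) := by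
  filter_upwards [mem_nhdsWithin_of_mem_nhds (h.isLittleO.def hL), self_mem_nhdsWithin] with s h1 h2
  have h3 : 0 < s - t := sub_pos.2 h2
  have h4 : ‖φ s - φ t‖ ≤ ‖φ s - φ t - (s - t) • v‖ + ‖(s - t) • v‖ := norm_le_norm_sub_add _ _
  rw [norm_smul, Real.norm_of_nonneg h3.le] at h4
  have h5 : ‖φ s - φ t - (s - t) • v‖ ≤ L * ‖s - t‖ := h1
  rw [Real.norm_of_nonneg h3.le] at h5
  have h6 := mul_le_mul_of_nonneg_left hv h3.le
  linarith

theorem stay (e : OpenPartialHomeomorph Y (Cn d)) {f : ℝ → Y} (hf : ContinuousOn f (Icc 0 1))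
    {a : Cn d} {r L : ℝ} (hs : closedBall a (2 * r) ⊆ e.target) (h0 : f 0 ∈ e.source)
    (ha : e (f 0) ∈ ball a r) (hL : 0 < L) (hr : 2 * L ≤ r)
    (hd : ∀ t ∈ Ico (0 : ℝ) 1, f t ∈ e.source → e (f t) ∈ closedBall a (2 * r) →
      ∃ v, HasDerivAt (fun s => e (f s)) v t ∧ ‖v‖ ≤ L) :
    f 1 ∈ e.source ∧ ‖e (f 1) - e (f 0)‖ ≤ 2 * L := by
  have hQ : IsCompact (e.symm '' closedBall a (2 * r)) :=
    (isCompact_closedBall a (2 * r)).image_of_continuousOn (e.continuousOn_symm.mono hs)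
  have hQs : e.symm '' closedBall a (2 * r) ⊆ e.source := by
    rintro _ ⟨w, hw, rfl⟩
    exact e.map_target (hs hw)
  have hin : ∀ p ∈ e.source, ‖e p - e (f 0)‖ ≤ 2 * L → p ∈ e.symm '' closedBall a (2 * r) := by
    intro p hp h
    refine ⟨e p, ?_, e.left_inv hp⟩
    rw [mem_closedBall_iff_norm]
    have h1 := mem_ball_iff_norm.1 ha
    have h2 := norm_sub_le_norm_sub_add_norm_sub (e p) (e (f 0)) a
    linarith
  have hA : IsClosed (Icc (0 : ℝ) 1 ∩ f ⁻¹' (e.symm '' closedBall a (2 * r))) :=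
    hf.preimage_isClosed_of_isClosed isClosed_Icc hQ.isClosed
  have hB := hA.isClosed_le (f := fun t => ‖e (f t) - e (f 0)‖) (g := fun t => 2 * L * t)
    (((e.continuousOn.comp (hf.mono inter_subset_left) fun t ht => hQs ht.2).sub
      continuousOn_const).norm) (continuous_const.mul continuous_id).continuousOn
  have key : Icc (0 : ℝ) 1 ⊆
      {t | f t ∈ e.symm '' closedBall a (2 * r) ∧ ‖e (f t) - e (f 0)‖ ≤ 2 * L * t} := by
    refine IsClosed.Icc_subset_of_forall_mem_nhdsWithin ?_ ?_ ?_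
    · have e1 : {t | f t ∈ e.symm '' closedBall a (2 * r) ∧ ‖e (f t) - e (f 0)‖ ≤ 2 * L * t} ∩
          Icc (0 : ℝ) 1 = {t ∈ Icc (0 : ℝ) 1 ∩ f ⁻¹' (e.symm '' closedBall a (2 * r)) |
            ‖e (f t) - e (f 0)‖ ≤ 2 * L * t} :=
        Set.ext fun t => ⟨fun h => ⟨⟨h.2, h.1.1⟩, h.1.2⟩, fun h => ⟨⟨h.1.2, h.2⟩, h.1.1⟩⟩
      rw [e1]
      exact hB
    · exact ⟨hin _ h0 (by rw [sub_self, norm_zero]; positivity), by simp⟩
    · rintro t ⟨⟨h1, h2⟩, ht⟩
      have h3 : e (f t) ∈ closedBall a (2 * r) := by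
        obtain ⟨w, hw, e2⟩ := h1
        rw [← e2, e.right_inv (hs hw)]
        exact hw
      obtain ⟨v, hv, hvL⟩ := hd t ht (hQs h1) h3
      have h4 : Icc (0 : ℝ) 1 ∈ 𝓝[>] t := Icc_mem_nhdsGT_of_mem ht
      have h5 : ∀ᶠ s in 𝓝[>] t, f s ∈ e.source :=
        ((hf t (Ico_subset_Icc_self ht)).mono_of_mem_nhdsWithin h4)
          (e.open_source.mem_nhds (hQs h1))
      filter_upwards [h4, h5, HE_step hv hvL hL] with s h6 h7 h8
      have h9 := norm_sub_le_norm_sub_add_norm_sub (e (f s)) (e (f t)) (e (f 0))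
      have h10 : ‖e (f s) - e (f 0)‖ ≤ 2 * L * s := by linarith
      exact ⟨hin _ h7 (h10.trans (mul_le_of_le_one_right (by positivity) h6.2)), h10⟩
  have h1 := key (right_mem_Icc.2 zero_le_one)
  exact ⟨hQs h1.1, by simpa using h1.2⟩

theorem equi (h : HMet c g) (p : Y) {ε : ℝ} (hε : 0 < ε) :
    ∃ δ > 0, ∀ f, HIso c g f → ∀ p', dist p' p < δ → dist (f p') (f p) < ε := by
  obtain ⟨F⟩ := exists_fc c
  obtain ⟨ρ, hρ, hs⟩ := HE_ball c p
  obtain ⟨-, C, -, -, hC⟩ : ∃ κ C : ℝ, 0 < κ ∧ 0 < C ∧ ∀ w ∈ closedBall (c.c p p) ρ, ∀ v,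
      q2 (g p w) v ≤ C * ‖v‖ ^ 2 := by
    obtain ⟨κ, C, h1, h2, h3⟩ := h.bound p (isCompact_closedBall _ _) hs
    exact ⟨κ, C, h1, h2, fun w hw v => (h3 w hw v).2⟩
  choose κ C' hκ _ hκ' using fun j => h.bound (F.y j) (isCompact_closedBall _ _) (F.sub j)
  choose δ hδ hδ' using fun j => Metric.uniformContinuousOn_iff.1
    ((isCompact_closedBall _ _).uniformContinuousOn_of_continuous
      ((c.c (F.y j)).continuousOn_symm.mono (F.sub j))) ε hε
  have hL : ∀ j, ∃ L > 0, 2 * L ≤ F.r j ∧ 2 * L < δ j := fun j =>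
    ⟨min (F.r j / 2) (δ j / 4), lt_min (half_pos (F.pos j)) (by have := hδ j; positivity),
      by have := min_le_left (F.r j / 2) (δ j / 4); linarith,
      by have := min_le_right (F.r j / 2) (δ j / 4); have := hδ j; linarith⟩
  choose L hL hLr hLδ using hL
  have hc := (c.c p).continuousAt (c.mem p)
  have h1 : ∀ᶠ p' in 𝓝 p, p' ∈ (c.c p).source := (c.c p).open_source.mem_nhds (c.mem p)
  have h2 : ∀ᶠ p' in 𝓝 p, c.c p p' ∈ closedBall (c.c p p) ρ := hc (closedBall_mem_nhds _ hρ)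
  have h3 : ∀ᶠ p' in 𝓝 p, ∀ j, C * ‖c.c p p' - c.c p p‖ ^ 2 < κ j * L j ^ 2 := by
    refine eventually_all.2 fun j => ?_
    have h4 : ContinuousAt (fun p' => C * ‖c.c p p' - c.c p p‖ ^ 2) p :=
      continuousAt_const.mul ((hc.sub continuousAt_const).norm.pow 2)
    refine h4.eventually_lt continuousAt_const ?_
    have := hκ j
    have := hL j
    simp only [sub_self, norm_zero]
    rw [zero_pow two_ne_zero, mul_zero]
    positivity
  obtain ⟨η, hη, h4⟩ := Metric.eventually_nhds_iff.1 (h1.and (h2.and h3))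
  refine ⟨η, hη, fun f hf p' hp' => ?_⟩
  obtain ⟨h5, h6, h7⟩ := h4 hp'
  obtain ⟨j, hj, hj'⟩ := F.cov (f p)
  have hγ : ∀ t ∈ Icc (0 : ℝ) 1, c.c p p + t • (c.c p p' - c.c p p) ∈ closedBall (c.c p p) ρ :=
    fun t ht => (convex_closedBall _ _).add_smul_sub_mem (mem_closedBall_self hρ.le) h6 ht
  have e0 : (c.c p).symm (c.c p p + (0 : ℝ) • (c.c p p' - c.c p p)) = p := by
    rw [zero_smul, add_zero, (c.c p).left_inv (c.mem p)]
  have e1 : (c.c p).symm (c.c p p + (1 : ℝ) • (c.c p p' - c.c p p)) = p' := by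
    rw [one_smul, add_sub_cancel, (c.c p).left_inv h5]
  have key := stay (c.c (F.y j))
    (f := fun t : ℝ => f ((c.c p).symm (c.c p p + t • (c.c p p' - c.c p p))))
    (hf.cont.comp_continuousOn ((c.c p).continuousOn_symm.comp
      (continuous_const.add (continuous_id.smul continuous_const)).continuousOn
      fun t ht => hs (hγ t ht))) (F.sub j) (by simpa only [e0] using hj)
    (by simpa only [e0] using hj') (hL j) (hLr j) ?_
  · simp only [e0, e1] at key
    have h8 : c.c (F.y j) (f p) ∈ closedBall (c.c (F.y j) (F.y j)) (2 * F.r j) :=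
      closedBall_subset_closedBall (by have := F.pos j; linarith) (ball_subset_closedBall hj')
    have h9 : c.c (F.y j) (f p') ∈ closedBall (c.c (F.y j) (F.y j)) (2 * F.r j) := by
      rw [mem_closedBall_iff_norm]
      have h10 := mem_ball_iff_norm.1 hj'
      have h11 := norm_sub_le_norm_sub_add_norm_sub (c.c (F.y j) (f p')) (c.c (F.y j) (f p))
        (c.c (F.y j) (F.y j))
      have h12 := hLr j
      linarith [key.2]
    have h10 := hδ' j _ h9 _ h8 (by rw [dist_eq_norm]; exact key.2.trans_lt (hLδ j))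
    rwa [(c.c (F.y j)).left_inv key.1, (c.c (F.y j)).left_inv hj] at h10
  · intro t ht h8 h9
    have h10 := hγ t (Ico_subset_Icc_self ht)
    have h11 := (c.c p).map_target (hs h10)
    have h12 := hf.hol p (F.y j) _ h11 h8
    have h13 := hf.iso p (F.y j) _ h11 h8 (c.c p p' - c.c p p)
    rw [(c.c p).right_inv (hs h10)] at h12 h13
    have h14 : HasDerivAt (fun t : ℝ => c.c p p + t • (c.c p p' - c.c p p))
        (c.c p p' - c.c p p) t := by
      simpa using ((hasDerivAt_id t).smul_const (c.c p p' - c.c p p)).const_add (c.c p p)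
    have h17 := (h12.differentiableAt.hasFDerivAt.restrictScalars ℝ).comp_hasDerivAt t h14
    refine ⟨_, h17, ?_⟩
    have h15 := (hκ' j _ h9 (fderiv ℂ (c.loc p (F.y j) f) (c.c p p + t • (c.c p p' - c.c p p))
      (c.c p p' - c.c p p))).1
    rw [h13] at h15
    have h16 := lt_of_mul_lt_mul_left ((h15.trans (hC _ h10 _)).trans_lt (h7 j)) (hκ j).le
    exact (lt_of_pow_lt_pow_left₀ 2 (hL j).le h16).le

end Vale.Agent.P299
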