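import Vale.Agent.P299.HDefs

/-! P299 HF: an infinite equicontinuous group accumulates at the identity.
`acc`: cover `Y` by finitely many balls `ball p (δ p)` (for `ε / 4`) and by finitely many balls of radius `ε / 8`; the map sending `γ` to the cells of the
points `γ • p` has values in a finite type. If the kernel `(MulAction.toPermHom Γ Y).ker` has infinite index, two elements `γ, γ'` of different cosets
(`Finite.exists_ne_map_eq_of_infinite` on the quotient with `Quotient.out`) have the same cells, and `γ' * γ⁻¹` moves every point by at most `ε`.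
`cl`: the images of the closed balls are compact subsets of the sources; `IsCompact.exists_cthickening_subset_open` and
`IsCompact.uniformContinuousAt_of_continuousAt`, minimum over the finite index set. -/

open MeasureTheory Set Filter Topology Matrix Metric
open scoped ContDiff ENNReal ComplexConjugate ComplexOrder

noncomputable section

namespace Vale.Agent.P299

open Vale.Agent.P271 Vale.Agent.P272

variable {d : ℕ} {Y : Type} [MetricSpace Y] [CompactSpace Y] {c : CA d Y} {g : Y → Cn d → Mx d}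

theorem acc {Γ : Type} [Group Γ] [MulAction Γ Y]
    (h : ∀ (p : Y) (ε : ℝ), 0 < ε → ∃ δ > 0, ∀ (γ : Γ) p', dist p' p < δ → dist (γ • p') (γ • p) < ε)
    (hn : ¬∃ H : Subgroup Γ, H.FiniteIndex ∧ ∀ γ ∈ H, ∀ y : Y, γ • y = y) {ε : ℝ} (hε : 0 < ε) :
    ∃ γ : Γ, (∃ p : Y, γ • p ≠ p) ∧ ∀ p : Y, dist (γ • p) p ≤ ε := by
  choose δ h0 h1 using fun p => h p (ε / 4) (by positivity)
  obtain ⟨s, hs⟩ := CompactSpace.elim_nhds_subcover (fun p : Y => ball p (δ p))
    fun p => ball_mem_nhds p (h0 p)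
  obtain ⟨t, ht⟩ := CompactSpace.elim_nhds_subcover (fun p : Y => ball p (ε / 8))
    fun p => ball_mem_nhds p (by positivity)
  have h2 : ∀ p : Y, ∃ k : t, dist p k < ε / 8 := fun p => by
    obtain ⟨k, hk, hp⟩ := mem_iUnion₂.1 (ht.ge (mem_univ p))
    exact ⟨⟨k, hk⟩, hp⟩
  choose k hk using h2
  have hi : Infinite (Γ ⧸ (MulAction.toPermHom Γ Y).ker) := not_finite_iff_infinite.1 fun hf =>
    hn ⟨(MulAction.toPermHom Γ Y).ker, Subgroup.finiteIndex_of_finite_quotient, fun γ hγ y =>
      congrArg (fun e : Equiv.Perm Y => e y) (MonoidHom.mem_ker.1 hγ)⟩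
  obtain ⟨q, q', h3, h4⟩ := Finite.exists_ne_map_eq_of_infinite
    fun (q : Γ ⧸ (MulAction.toPermHom Γ Y).ker) (p : s) => k (q.out • (p : Y))
  refine ⟨q'.out * q.out⁻¹, not_forall.1 fun h5 => h3 ?_, fun y => ?_⟩
  · rw [← q.out_eq, ← q'.out_eq]
    refine QuotientGroup.eq.2 (MonoidHom.mem_ker.2 (Equiv.ext fun x => ?_))
    have := h5 (q.out • x)
    rw [mul_smul, inv_smul_smul] at this
    change (q.out⁻¹ * q'.out) • x = x
    rw [mul_smul, this, inv_smul_smul]
  · obtain ⟨p, hp, hy⟩ := mem_iUnion₂.1 (hs.ge (mem_univ (q.out⁻¹ • y)))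
    have a1 := h1 p q.out _ hy
    have a2 := h1 p q'.out _ hy
    have a3 := hk (q.out • p)
    have a4 := hk (q'.out • p)
    rw [← show k (q.out • p) = k (q'.out • p) from congrFun h4 ⟨p, hp⟩] at a4
    rw [smul_inv_smul] at a1
    rw [mul_smul]
    linarith [dist_triangle_right (q'.out • p) (q.out • p) (k (q.out • p)),
      dist_triangle (q'.out • q.out⁻¹ • y) (q'.out • p) (q.out • p),
      dist_triangle_right (q'.out • q.out⁻¹ • y) y (q.out • p)]

theorem FC.cl (F : FC c) {ε : ℝ} (hε : 0 < ε) :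
    ∃ δ > 0, ∀ f : Y → Y, (∀ p, dist (f p) p ≤ δ) → F.Cl ε f := by
  have key : ∀ i, ∀ᶠ δ in 𝓝[>] (0 : ℝ), ∀ w ∈ closedBall (c.c (F.y i) (F.y i)) (2 * F.r i), ∀ p,
      dist p ((c.c (F.y i)).symm w) ≤ δ →
        p ∈ (c.c (F.y i)).source ∧ ‖c.c (F.y i) p - w‖ ≤ ε := fun i => by
    have hK := (isCompact_closedBall _ _).image_of_continuousOn
      ((c.c (F.y i)).continuousOn_symm.mono (F.sub i))
    have hs : (c.c (F.y i)).symm '' closedBall (c.c (F.y i) (F.y i)) (2 * F.r i) ⊆
        (c.c (F.y i)).source := by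
      rintro _ ⟨w, hw, rfl⟩
      exact (c.c (F.y i)).map_target (F.sub i hw)
    obtain ⟨a, a0, a1⟩ := hK.exists_cthickening_subset_open (c.c (F.y i)).open_source hs
    obtain ⟨b, b0, b1⟩ := mem_uniformity_dist.1 (hK.uniformContinuousAt_of_continuousAt
      (c.c (F.y i)) (fun p hp => (c.c (F.y i)).continuousAt (hs hp)) (dist_mem_uniformity hε))
    filter_upwards [Ioo_mem_nhdsGT (lt_min a0 b0)] with δ hδ w hw p hp
    refine ⟨a1 (mem_cthickening_of_dist_le p _ a _ (mem_image_of_mem _ hw)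
      (hp.trans (hδ.2.le.trans (min_le_left _ _)))), ?_⟩
    have h1 : dist (c.c (F.y i) ((c.c (F.y i)).symm w)) (c.c (F.y i) p) < ε :=
      b1 ((dist_comm _ _).trans_lt (hp.trans_lt (hδ.2.trans_le (min_le_right _ _))))
        (mem_image_of_mem _ hw)
    rw [(c.c (F.y i)).right_inv (F.sub i hw), dist_comm, dist_eq_norm] at h1
    exact h1.le
  obtain ⟨δ, h1, h2⟩ := ((eventually_all.2 key).and self_mem_nhdsWithin).exists
  exact ⟨δ, h2, fun f hf i w hw => h1 i w hw _ (hf _)⟩

end Vale.Agent.P299
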