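import Vale.Agent.P299.HG

/-! P299 HH: a holomorphic vector field from maps that converge to the identity. -/

open MeasureTheory Set Filter Topology Matrix Metric
open scoped ContDiff ENNReal ComplexConjugate ComplexOrder

noncomputable section

namespace Vale.Agent.P299

open Vale.Agent.P271 Vale.Agent.P272

variable {d : ℕ} {Y : Type} [TopologicalSpace Y] {c : CA d Y} {g : Y → Cn d → Mx d}

theorem HH_app {E F G : Type} [NormedAddCommGroup E] [NormedSpace ℂ E] [NormedAddCommGroup F]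
    [NormedSpace ℂ F] [NormedAddCommGroup G] [NormedSpace ℂ G] {L : E → F →L[ℂ] G} {u : E → F}
    {x : E} (hL : AnalyticAt ℂ L x) (hu : AnalyticAt ℂ u x) : AnalyticAt ℂ (fun z => L z (u z)) x :=
  ((ContinuousLinearMap.id ℂ (F →L[ℂ] G)).analyticAt_bilinear (L x, u x)).comp₂ hL hu

theorem HH_tr {y y' p : Y} (hp : p ∈ (c.c y).source) : c.loc y y' id (c.c y p) = c.c y' p := by
  simp [CA.loc, (c.c y).left_inv hp]

theorem HH_back {ι : Type} {l : Filter ι} (e : OpenPartialHomeomorph Y (Cn d)) {q : ι → Y}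
    {w : Cn d} (hw : w ∈ e.target) (h1 : ∀ᶠ k in l, q k ∈ e.source)
    (h2 : Tendsto (fun k => e (q k)) l (𝓝 w)) : Tendsto q l (𝓝 (e.symm w)) :=
  ((e.continuousAt_symm hw).tendsto.comp h2).congr' (h1.mono fun _ hk => e.left_inv hk)

theorem HH_change {ι : Type} {l : Filter ι} {δ : ι → ℝ} (h0 : ∀ k, 0 < δ k) (hδ : Tendsto δ l (𝓝 0))
    {y y' p : Y} (hp : p ∈ (c.c y).source) (hp' : p ∈ (c.c y').source) {q : ι → Y}
    (hq : Tendsto q l (𝓝 p)) {v : Cn d}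
    (h : Tendsto (fun k => ((δ k : ℂ))⁻¹ • (c.c y (q k) - c.c y p)) l (𝓝 v)) :
    Tendsto (fun k => ((δ k : ℂ))⁻¹ • (c.c y' (q k) - c.c y' p)) l
      (𝓝 (fderiv ℂ (c.loc y y' id) (c.c y p) v)) := by
  refine (quot_lim (τ := c.loc y y' id) (c.hol y y' p hp hp').differentiableAt h0 hδ h).congr' ?_
  filter_upwards [hq ((c.c y).open_source.mem_nhds hp)] with k hk
  rw [HH_tr hk, HH_tr hp]

theorem HH_norm {δ : ℝ} (h : 0 < δ) (v : Cn d) : ‖((δ : ℂ))⁻¹ • v‖ = ‖v‖ / δ := by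
  rw [norm_smul, norm_inv, Complex.norm_real, Real.norm_eq_abs, abs_of_pos h, inv_mul_eq_div]

theorem HH_near {ι : Type} {l : Filter ι} {δ : ι → ℝ} (hδ : Tendsto δ l (𝓝 0)) {a b : ι → Cn d}
    {w : Cn d} (hb : Tendsto b l (𝓝 w)) (h : ∀ᶠ k in l, ‖a k - b k‖ ≤ δ k) : Tendsto a l (𝓝 w) := by
  have := (squeeze_zero_norm' h hδ).add hb
  simpa using this


theorem exists_hvf (F : FC c) (h : ∀ ε > 0, ∃ f, HMap c f ∧ F.Cl ε f ∧ ∃ p, f p ≠ p) :
    ∃ ξ, HVF c ξ ∧ ∃ y p, p ∈ (c.c y).source ∧ ξ y p ≠ 0 := by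
  have h' : ∀ k : ℕ, ∃ f δ, HMap c f ∧ 0 < δ ∧ δ ≤ 1 / ((k : ℝ) + 1) ∧ F.Cl δ f ∧ ∃ i,
      ∃ w ∈ closedBall (c.c (F.y i) (F.y i)) (2 * F.r i),
        ‖c.loc (F.y i) (F.y i) f w - w‖ = δ := fun k => by
    obtain ⟨f, h1, h2, h3⟩ := h _ (Nat.one_div_pos_of_nat (n := k))
    obtain ⟨δ, h4⟩ := F.disp h1 h2 h3
    exact ⟨f, δ, h1, h4⟩
  choose f δ hf h0 h1 hcl i w hw hwδ using h'
  let 𝒰 : Ultrafilter ℕ := Ultrafilter.of atTop
  have hδ : Tendsto δ 𝒰 (𝓝 0) := (squeeze_zero (fun k => (h0 k).le) h1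
    tendsto_one_div_add_atTop_nhds_zero_nat).mono_left (Ultrafilter.of_le _)
  have hu := fun j => montel_u 𝒰 (U := ball (c.c (F.y j) (F.y j)) (2 * F.r j)) (C := 1)
    (f := fun k z => ((δ k : ℂ))⁻¹ • (c.loc (F.y j) (F.y j) (f k) z - z)) isOpen_ball
    (fun k z hz => by
      have hz' := F.sub j (ball_subset_closedBall hz)
      have := (hf k).hol (F.y j) (F.y j) _ ((c.c _).map_target hz')
        (hcl k j z (ball_subset_closedBall hz)).1
      rw [(c.c _).right_inv hz'] at this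
      exact ((this.differentiableAt.fun_sub differentiableAt_id).fun_const_smul
        ((δ k : ℂ))⁻¹).differentiableWithinAt)
    (fun k z hz => by
      rw [HH_norm (h0 k), div_le_one (h0 k)]
      exact (hcl k j z (ball_subset_closedBall hz)).2)
  choose u hu1 hu2 using hu
  have hb : ∀ j z, z ∈ ball (c.c (F.y j) (F.y j)) (F.r j) →
      z ∈ ball (c.c (F.y j) (F.y j)) (2 * F.r j) := fun j z hz =>
    ball_subset_ball (by linarith [F.pos j]) hz
  have hA : ∀ j p, p ∈ (c.c (F.y j)).source → c.c (F.y j) p ∈ ball (c.c (F.y j) (F.y j)) (F.r j) →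
      Tendsto (fun k => f k p) 𝒰 (𝓝 p) ∧ Tendsto (fun k => ((δ k : ℂ))⁻¹ •
        (c.c (F.y j) (f k p) - c.c (F.y j) p)) 𝒰 (𝓝 (u j (c.c (F.y j) p))) := fun j p hp hp' => by
    have a1 := fun k => hcl k j _ (ball_subset_closedBall (hb j _ hp'))
    have a2 := hu2 j _ (hb j _ hp') _ tendsto_const_nhds
    simp only [CA.loc, (c.c _).left_inv hp] at a1 a2
    refine ⟨?_, a2⟩
    have := HH_back (c.c (F.y j)) ((c.c _).map_source hp) (Eventually.of_forall fun k => (a1 k).1)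
      (HH_near hδ tendsto_const_nhds (Eventually.of_forall fun k => (a1 k).2))
    rwa [(c.c _).left_inv hp] at this
  let ξ : Y → Y → Cn d := fun y p =>
    limUnder 𝒰 fun k => ((δ k : ℂ))⁻¹ • (c.c y (f k p) - c.c y p)
  have hB : ∀ y p, p ∈ (c.c y).source → Tendsto (fun k => f k p) 𝒰 (𝓝 p) ∧
      Tendsto (fun k => ((δ k : ℂ))⁻¹ • (c.c y (f k p) - c.c y p)) 𝒰 (𝓝 (ξ y p)) :=
    fun y p hp => by
      obtain ⟨j, a1, a2⟩ := F.cov p
      exact ⟨(hA j p a1 a2).1, tendsto_nhds_limUnder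
        ⟨_, HH_change h0 hδ a1 hp (hA j p a1 a2).1 (hA j p a1 a2).2⟩⟩
  have hC : ∀ y y' p, p ∈ (c.c y).source → p ∈ (c.c y').source →
      ξ y' p = fderiv ℂ (c.loc y y' id) (c.c y p) (ξ y p) := fun y y' p hp hp' =>
    tendsto_nhds_unique (hB y' p hp').2 (HH_change h0 hδ hp hp' (hB y p hp).1 (hB y p hp).2)
  have hD : ∀ j p, p ∈ (c.c (F.y j)).source → c.c (F.y j) p ∈ ball (c.c (F.y j) (F.y j)) (F.r j) →
      ξ (F.y j) p = u j (c.c (F.y j) p) := fun j p hp hp' =>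
    tendsto_nhds_unique (hB _ p hp).2 (hA j p hp hp').2
  refine ⟨ξ, ⟨hC, fun y p hp => ?_⟩, ?_⟩
  · obtain ⟨j, a1, a2⟩ := F.cov p
    have b1 : AnalyticAt ℂ (c.loc y (F.y j) id) (c.c y p) := c.hol y _ p hp a1
    have b2 : AnalyticAt ℂ (c.loc (F.y j) y id) (c.c (F.y j) p) := c.hol _ y p a1 hp
    have b3 := hu1 j _ (hb j _ a2)
    rw [← HH_tr (y' := F.y j) hp] at b2 b3 a2
    refine (HH_app (b2.fderiv.comp b1) (b3.comp b1)).congr ?_
    have b4 : ContinuousAt (c.c y).symm (c.c y p) := (c.c y).continuousAt_symm ((c.c y).map_source hp)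
    filter_upwards [(c.c y).open_target.mem_nhds ((c.c y).map_source hp),
      b4 ((c.c (F.y j)).open_source.mem_nhds (by rwa [(c.c y).left_inv hp])),
      b1.continuousAt (isOpen_ball.mem_nhds a2)] with z z1 z2 z3
    rw [hC (F.y j) y _ z2 ((c.c y).map_target z1), hD j _ z2 z3]
    rfl
  · obtain ⟨i₀, hi⟩ := Ultrafilter.eq_pure_of_finite (𝒰.map i)
    have hi' : ∀ᶠ k in 𝒰, i k = i₀ := by
      have : {i₀} ∈ 𝒰.map i := by rw [hi]; simp
      exact this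
    have a0 : ∀ᶠ k in 𝒰, w k ∈ closedBall (c.c (F.y i₀) (F.y i₀)) (2 * F.r i₀) ∧
        ‖c.loc (F.y i₀) (F.y i₀) (f k) (w k) - w k‖ = δ k :=
      hi'.mono fun k hk => hk ▸ ⟨hw k, hwδ k⟩
    obtain ⟨w₀, a1, a2⟩ := (isCompact_closedBall (c.c (F.y i₀) (F.y i₀)) (2 * F.r i₀)).ultrafilter_le_nhds
      (𝒰.map w) (le_principal_iff.2 (a0.mono fun k hk => hk.1))
    have a3 : Tendsto w 𝒰 (𝓝 w₀) := a2
    have a4 := F.sub i₀ a1
    set e := c.c (F.y i₀) with he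
    have b1 : Tendsto (fun k => e.symm (w k)) 𝒰 (𝓝 (e.symm w₀)) :=
      (e.continuousAt_symm a4).tendsto.comp a3
    have b2 : Tendsto (fun k => f k (e.symm (w k))) 𝒰 (𝓝 (e.symm w₀)) :=
      HH_back e a4 (a0.mono fun k hk => (hcl k i₀ _ hk.1).1)
        (HH_near hδ a3 (a0.mono fun k hk => hk.2.le))
    obtain ⟨j, c1, c2⟩ := F.cov (e.symm w₀)
    refine ⟨F.y j, _, c1, fun h0' => ?_⟩
    have c3 := ((c.c (F.y j)).continuousAt c1).tendsto
    obtain ⟨K, s, hs, hK⟩ := (c.hol (F.y j) (F.y i₀) _ c1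
      (e.map_target a4)).hasStrictFDerivAt.exists_lipschitzOnWith
    have c4 := (hu2 j _ (hb j _ c2) _ (c3.comp b1)).norm.const_mul (K : ℝ)
    rw [← hD j _ c1 c2, h0', norm_zero, mul_zero] at c4
    have hs1 := (c.c (F.y j)).open_source.mem_nhds c1
    refine absurd (ge_of_tendsto c4 (b := 1) ?_) (by norm_num)
    filter_upwards [a0, b1 hs1, b2 hs1, c3.comp b1 hs, c3.comp b2 hs] with k k0 k1 k2 k3 k4
    have k5 := hK.norm_sub_le k4 k3
    simp only [Function.comp, (c.c (F.y j)).left_inv k1, (c.c (F.y j)).left_inv k2, ← he,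
      e.right_inv (F.sub i₀ k0.1)] at k5
    rw [HH_norm (h0 k), ← mul_div_assoc, one_le_div (h0 k), ← k0.2]
    simpa only [CA.loc, Function.comp, (c.c (F.y j)).left_inv k1] using k5

end Vale.Agent.P299
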