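import Vale.Agent.P299.HD
import Vale.Agent.P299.HH
import Vale.Agent.P299.PartB

/-! P299 HI: the second factor has no holomorphic vector fields. -/

open MeasureTheory Set Filter Topology Matrix Metric
open scoped ContDiff ENNReal ComplexConjugate ComplexOrder

noncomputable section

namespace Vale.Agent.P299

open Vale.Agent.P271 Vale.Agent.P272

variable {n : ℕ} {X : Type} [TopologicalSpace X] [MeasurableSpace X] {M : Model n X}
  {η : Frm M.toAtl} {B : EF M.toAtl}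

omit [MeasurableSpace X] in
theorem HI_lf {V : Type} [TopologicalSpace V] {π : V → X} (lh : IsLocalHomeomorph π) (m : V) :
    ContinuousAt (lf lh m) (π m) ∧ (∀ᶠ x in 𝓝 (π m), π (lf lh m x) = x) ∧
      ∀ᶠ m' in 𝓝 m, lf lh m (π m') = m' := by
  obtain ⟨h1, h2⟩ := (lh m).choose_spec
  unfold lf
  generalize (lh m).choose = e at h1 h2
  subst h2
  exact ⟨e.continuousAt_symm (e.map_source h1), e.eventually_right_inverse (e.map_source h1),
    e.eventually_left_inverse h1⟩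

theorem HI_comp {E F G : Type} [NormedAddCommGroup E] [NormedSpace ℂ E] [NormedAddCommGroup F]
    [NormedSpace ℂ F] [NormedAddCommGroup G] [NormedSpace ℂ G] {g : F → G} {f : E → F}
    {g' : F →L[ℂ] G} {f' : E →L[ℂ] F} {y : F} (hg : HasFDerivAt g g' y) (x : E)
    (hf : HasFDerivAt f f' x) (h : y = f x) : HasFDerivAt (g ∘ f) (g'.comp f') x := by
  subst h
  exact hg.comp x hf

theorem HI_sm {G : Cn n → Mx n} {v : Cn n → Cn n} {z : Cn n}
    (hG : ∀ j k, ContDiffAt ℝ ∞ (fun w => G w j k) z) (hv : AnalyticAt ℂ v z) :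
    ContDiffAt ℝ ∞ (fun w => q2 (G w) (v w)) z := by
  have h1 : ∀ j, ContDiffAt ℝ ∞ (fun w => v w j) z := fun j =>
    contDiffAt_pi.1 (hv.contDiffAt.restrict_scalars ℝ) j
  refine Complex.reCLM.contDiff.contDiffAt.comp z (ContDiffAt.sum fun j _ =>
    (Complex.conjCLE.contDiff.contDiffAt.comp z (h1 j)).mul
      (ContDiffAt.sum (s := Finset.univ) fun k _ => (hG j k).mul (h1 k)))

theorem HI_q2 {α : Type} [TopologicalSpace α] {d : ℕ} {G : α → Mx d} {v : α → Cn d} {x : α}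
    (hG : ContinuousAt G x) (hv : ContinuousAt v x) : ContinuousAt (fun w => q2 (G w) (v w)) x := by
  have : Continuous fun p : Mx d × Cn d => q2 p.1 p.2 := Complex.continuous_re.comp
    (continuous_snd.star.dotProduct (continuous_fst.matrix_mulVec continuous_snd))
  exact this.continuousAt.comp (f := fun w => (G w, v w)) (hG.prodMk hv)

variable (S : Spl M η B)

/-- Product coordinates. -/
def Spl.hco (y : S.Y) (z : S.Z) (m : Cn S.q × S.Y × S.Z) : Cn S.q × Cn S.d₁ × Cn S.d₂ :=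
  (m.1, S.cY.c y m.2.1, S.cZ.c z m.2.2)

/-- The lift of a vector field on the second factor. -/
def Spl.lift (ξ : S.Y → S.Y → Cn S.d₁) (a : M.ι) (m : Cn S.q × S.Y × S.Z) : Cn n :=
  fderiv ℂ (S.T a m.2.1 m.2.2) (S.hco m.2.1 m.2.2 m) (0, ξ m.2.1 m.2.1, 0)

variable {S} {ξ : S.Y → S.Y → Cn S.d₁} {a : M.ι} {y : S.Y} {z : S.Z} {m : Cn S.q × S.Y × S.Z}

theorem HI_pt (h1 : m.2.1 ∈ (S.cY.c y).source) (h2 : m.2.2 ∈ (S.cZ.c z).source) :
    pt S.cY S.cZ y z (S.hco y z m) = m := S.pt_eq h1 h2 _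

theorem HI_src (h1 : m.2.1 ∈ (S.cY.c y).source) (h2 : m.2.2 ∈ (S.cZ.c z).source)
    (h : S.π m ∈ (M.e a).source) : S.π (pt S.cY S.cZ y z (S.hco y z m)) ∈ (M.e a).source := by
  rwa [HI_pt h1 h2]

theorem HI_an (h1 : m.2.1 ∈ (S.cY.c y).source) (h2 : m.2.2 ∈ (S.cZ.c z).source)
    (h : S.π m ∈ (M.e a).source) : AnalyticAt ℂ (S.T a y z) (S.hco y z m) ∧
      Function.Bijective (fderiv ℂ (S.T a y z) (S.hco y z m)) :=
  S.an a y z _ ((S.cY.c y).map_source h1) ((S.cZ.c z).map_source h2) (HI_src h1 h2 h)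

theorem HI_dir (h1 : m.2.1 ∈ (S.cY.c y).source) (h2 : m.2.2 ∈ (S.cZ.c z).source)
    (h : S.π m ∈ (M.e a).source) : HasFDerivAt (fun w => M.e a (S.π (m.1, (S.cY.c y).symm w, m.2.2)))
      ((fderiv ℂ (S.T a y z) (S.hco y z m)).comp ((ContinuousLinearMap.inr ℂ _ _).comp
        (ContinuousLinearMap.inl ℂ _ _))) (S.cY.c y m.2.1) := by
  have h3 : HasFDerivAt (fun w : Cn S.d₁ => (m.1, w, S.cZ.c z m.2.2))
      ((ContinuousLinearMap.inr ℂ (Cn S.q) _).comp (ContinuousLinearMap.inl ℂ _ (Cn S.d₂)))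
      (S.cY.c y m.2.1) :=
    (hasFDerivAt_prodMk_right m.1 _).comp _ (hasFDerivAt_prodMk_left _ _)
  have h4 := (HI_an h1 h2 h).1.differentiableAt.hasFDerivAt.comp (S.cY.c y m.2.1) h3
  simpa only [Function.comp_def, Spl.T, pt, (S.cZ.c z).left_inv h2] using h4

theorem HI_lift (hξ : HVF S.cY ξ) (h1 : m.2.1 ∈ (S.cY.c y).source)
    (h2 : m.2.2 ∈ (S.cZ.c z).source) (h : S.π m ∈ (M.e a).source) :
    S.lift ξ a m = fderiv ℂ (S.T a y z) (S.hco y z m) (0, ξ y m.2.1, 0) := by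
  have h3 := HI_comp (HI_dir (S.cY.mem _) (S.cZ.mem _) h) (S.cY.c y m.2.1)
    (S.cY.hol y _ _ h1 (S.cY.mem _)).differentiableAt.hasFDerivAt (by rw [(S.cY.c y).left_inv h1])
  have h4 := (HI_dir h1 h2 h).unique (h3.congr_of_eventuallyEq (by
    have := (S.cY.c y).continuousAt_symm ((S.cY.c y).map_source h1)
    filter_upwards [this ((S.cY.c m.2.1).open_source.mem_nhds
      (by rw [(S.cY.c y).left_inv h1]; exact S.cY.mem _))] with w hw
    rw [Function.comp, (S.cY.c m.2.1).left_inv hw]))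
  have h5 := congrArg (fun L => L (ξ y m.2.1)) h4
  rw [Spl.lift, hξ.compat y _ _ h1 (S.cY.mem _)]
  exact h5.symm

theorem HI_compat {b : M.ι} (h : S.π m ∈ (M.e a).source) (h' : S.π m ∈ (M.e b).source) :
    S.lift ξ b m = DM (M.tr a b) (M.e a (S.π m)) *ᵥ S.lift ξ a m := by
  have h1 := S.cY.mem m.2.1
  have h2 := S.cZ.mem m.2.2
  have h3 : M.e a (S.π m) ∈ M.ov a b := ⟨(M.e a).map_source h, by
    rw [mem_preimage, (M.e a).left_inv h]; exact h'⟩
  have h4 := HI_comp (M.analyticOnNhd_tr a b _ h3).differentiableAt.hasFDerivAt _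
    (HI_an h1 h2 h).1.differentiableAt.hasFDerivAt (by rw [Spl.T, HI_pt h1 h2])
  have h5 : S.T b m.2.1 m.2.2 =ᶠ[𝓝 (S.hco m.2.1 m.2.2 m)] M.tr a b ∘ S.T a m.2.1 m.2.2 := by
    have := S.lh.continuous.continuousAt.comp
      (S.contAt_pt (w := S.hco m.2.1 m.2.2 m) ((S.cY.c _).map_source h1) ((S.cZ.c _).map_source h2))
    filter_upwards [this ((M.e a).open_source.mem_nhds (HI_src h1 h2 h))] with w hw
    exact congrArg (M.e b) ((M.e a).left_inv hw).symm
  rw [DM_mulVec, Spl.lift, Spl.lift, (h4.congr_of_eventuallyEq h5).fderiv]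
  rfl

theorem HI_sec (h : S.π m ∈ (M.e a).source) :
    Tendsto (fun w => lf S.lh m ((M.e a).symm w)) (𝓝 (M.e a (S.π m))) (𝓝 m) ∧
      ∀ᶠ w in 𝓝 (M.e a (S.π m)), w ∈ (M.e a).target ∧
        S.π (lf S.lh m ((M.e a).symm w)) = (M.e a).symm w := by
  obtain ⟨h1, h2, h3⟩ := HI_lf S.lh m
  have h4 : Tendsto (M.e a).symm (𝓝 (M.e a (S.π m))) (𝓝 (S.π m)) := (M.e a).tendsto_symm h
  have h5 := h1.tendsto.comp h4
  rw [h3.self_of_nhds] at h5
  exact ⟨h5, ((M.e a).open_target.eventually_mem ((M.e a).map_source h)).and (h4.eventually h2)⟩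

theorem HI_hol (hξ : HVF S.cY ξ) (h : S.π m ∈ (M.e a).source) :
    AnalyticAt ℂ (fun w => S.lift ξ a (lf S.lh m ((M.e a).symm w))) (M.e a (S.π m)) := by
  obtain ⟨h1, h2⟩ := HI_sec h
  have k1 := S.cY.mem m.2.1
  have k2 := S.cZ.mem m.2.2
  have e0 : lf S.lh m ((M.e a).symm (M.e a (S.π m))) = m := by
    rw [(M.e a).left_inv h, (HI_lf S.lh m).2.2.self_of_nhds]
  have c1 := (continuous_fst.comp continuous_snd).continuousAt.tendsto.comp h1
  have c2 := (continuous_snd.comp continuous_snd).continuousAt.tendsto.comp h1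
  have d1 := c1 ((S.cY.c _).open_source.mem_nhds k1)
  have d2 := c2 ((S.cZ.c _).open_source.mem_nhds k2)
  obtain ⟨a1, a2⟩ := HI_an k1 k2 h
  have a3 : AnalyticAt ℂ (fun w => S.hco m.2.1 m.2.2 (lf S.lh m ((M.e a).symm w)))
      (M.e a (S.π m)) := by
    refine an_of_comp (T := id) (T' := S.T a m.2.1 m.2.2) analyticAt_id (by rwa [e0]) (by rwa [e0])
      ?_ ?_
    · rw [ContinuousAt, e0]
      exact (continuous_fst.continuousAt.tendsto.comp h1).prodMk_nhds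
        ((((S.cY.c _).continuousAt k1).tendsto.comp c1).prodMk_nhds
          (((S.cZ.c _).continuousAt k2).tendsto.comp c2))
    · filter_upwards [h2, d1, d2] with w w0 w1 w2
      rw [Spl.T, HI_pt w1 w2, w0.2, (M.e a).right_inv w0.1, id]
  have a4 : AnalyticAt ℂ (fun w => (S.hco m.2.1 m.2.2 (lf S.lh m ((M.e a).symm w))).2.1)
      (M.e a (S.π m)) := analyticAt_fst.comp (analyticAt_snd.comp a3)
  have a5 := (hξ.hol _ _ k1).comp_of_eq a4 (by rw [e0]; rfl)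
  refine (HH_app (a1.fderiv.comp_of_eq a3 (by rw [e0])) ((analyticAt_const (v := 0)).prod
    (a5.prod (analyticAt_const (v := 0))))).congr ?_
  filter_upwards [h2, d1, d2] with w w0 w1 w2
  rw [HI_lift hξ w1 w2 (by rw [w0.2]; exact (M.e a).map_target w0.1)]
  exact congrArg (fun p => fderiv ℂ (S.T a m.2.1 m.2.2) (S.hco m.2.1 m.2.2 _) (0, ξ m.2.1 p, 0))
    ((S.cY.c _).left_inv w1)

theorem HI_norm (hξ : HVF S.cY ξ) (h1 : m.2.1 ∈ (S.cY.c y).source) (h : S.π m ∈ (M.e a).source) :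
    q2 (LM (η a) (M.e a (S.π m))) (S.lift ξ a m) = q2 (S.gY y (S.cY.c y m.2.1)) (ξ y m.2.1) := by
  have h2 := S.cZ.mem m.2.2
  have := S.q2_T (w := S.hco y m.2.2 m) ((S.cY.c y).map_source h1) ((S.cZ.c _).map_source h2)
    (HI_src h1 h2 h) (ξ y m.2.1)
  rwa [← HI_lift hξ h1 h2 h, Spl.T, HI_pt h1 h2] at this

theorem HI_blk (h : S.π m ∈ (M.e a).source) :
    S.Q 0 a (M.e a (S.π m)) *ᵥ S.lift ξ a m = 0 ∧
      S.Q 1 a (M.e a (S.π m)) *ᵥ S.lift ξ a m = S.lift ξ a m := by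
  have h1 := S.cY.mem m.2.1
  have h2 := S.cZ.mem m.2.2
  have h3 := fun i => S.blk a _ _ (S.hco m.2.1 m.2.2 m) ((S.cY.c _).map_source h1)
    ((S.cZ.c _).map_source h2) (HI_src h1 h2 h) i (0, ξ m.2.1 m.2.1, 0)
  rw [HI_pt h1 h2] at h3
  exact ⟨(h3 0).trans (map_zero _), h3 1⟩

theorem HI_ric (hη : KY M η) (h : S.π m ∈ (M.e a).source) :
    LM (fun w => Real.log (LM (η a) w).det.re) (M.e a (S.π m)) *ᵥ S.lift ξ a m = 0 := by
  obtain ⟨c, hc⟩ := hη.det
  have ht := (M.e a).map_source h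
  have e : ddc M.toAtl (fun p => Real.log (dt M η p)) a = fun _ => Real.log c := by
    funext w
    simp [ddc, Atl.loc, hc]
  rw [← LM_ricci hη.kae ht, Pi.add_apply, e, LM_add ((isF_th M).smAt ht) contDiffAt_const, LM_const,
    add_zero, ← (HI_blk h).2, mulVec_mulVec, S.prj.ric 1 (by decide) a _ ht, zero_mulVec]

theorem HI_loc (hη : KY M η) (hξ : HVF S.cY ξ) {N : S.Y → ℝ}
    (hN : ∀ p, N p = q2 (S.gY p (S.cY.c p p)) (ξ p p)) (hm : ∀ p, N p ≤ N m.2.1)
    (h : S.π m ∈ (M.e a).source) : (∀ᶠ m' in 𝓝 m, N m'.2.1 = N m.2.1) ∧ AnalyticAt ℂ (fun w =>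
      star (LM (η a) w *ᵥ S.lift ξ a (lf S.lh m ((M.e a).symm w)))) (M.e a (S.π m)) := by
  obtain ⟨U, h1, hU, h2⟩ := _root_.eventually_nhds_iff.1
    ((HI_sec h).2.and (HI_hol hξ h).eventually_analyticAt)
  have hs : U ⊆ (M.e a).target := fun w hw => (h1 w hw).1.1
  have h3 : ∀ w ∈ U, S.π (lf S.lh m ((M.e a).symm w)) ∈ (M.e a).source ∧
      M.e a (S.π (lf S.lh m ((M.e a).symm w))) = w := fun w hw => by
    rw [(h1 w hw).1.2]
    exact ⟨(M.e a).map_target (hs hw), (M.e a).right_inv (hs hw)⟩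
  have h4 : ∀ w ∈ U, q2 (LM (η a) w) (S.lift ξ a (lf S.lh m ((M.e a).symm w))) =
      N (lf S.lh m ((M.e a).symm w)).2.1 := fun w hw => by
    rw [hN, ← HI_norm hξ (S.cY.mem _) (h3 w hw).1, (h3 w hw).2]
  have hp := fun w hw => hη.kae.2 a w (hs hw)
  have hc := fun w hw => contDiffAt_LM (hη.kae.1.smAt (hs (a := w) hw))
  obtain ⟨b1, b2⟩ := boch_hol hU ((hη.kae.1.sm a).mono hs) hp (fun w hw => (h1 w hw).2)
    fun w hw => by simpa only [(h3 w hw).2] using HI_ric (ξ := ξ) hη (h3 w hw).1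
  have e0 : lf S.lh m ((M.e a).symm (M.e a (S.π m))) = m := by
    rw [(M.e a).left_inv h, (HI_lf S.lh m).2.2.self_of_nhds]
  have b3 := smp hU (fun w hw => (continuousAt_pi.2 fun j => continuousAt_pi.2 fun k =>
      (hc w hw j k).continuousAt).continuousWithinAt) hp
    (fun w hw => (HI_sm (hc w hw) (h1 w hw).2).contDiffWithinAt) b1 h2
    fun w hw => by rw [h4 w hw, h4 _ h2, e0]; exact hm _
  refine ⟨?_, b2 _ h2 b3⟩
  have b4 : Tendsto (fun m' => M.e a (S.π m')) (𝓝 m) (𝓝 (M.e a (S.π m))) :=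
    ((M.e a).continuousAt h).tendsto.comp S.lh.continuous.continuousAt
  filter_upwards [b4.eventually b3, b4 (hU.mem_nhds h2), (HI_lf S.lh m).2.2,
    S.lh.continuous.continuousAt ((M.e a).open_source.mem_nhds h)] with m' c1 c2 c3 c4
  rwa [h4 _ c2, h4 _ h2, e0, (M.e a).left_inv c4, c3] at c1

theorem Spl.no_hvf (S : Spl M η B) (hη : KY M η) [CompactSpace S.Y] {ξ : S.Y → S.Y → Cn S.d₁}
    (h : HVF S.cY ξ) {y p : S.Y} (hp : p ∈ (S.cY.c y).source) : ξ y p = 0 := by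
  obtain ⟨z⟩ : Nonempty S.Z := inferInstance
  obtain ⟨N, hN⟩ : ∃ N : S.Y → ℝ, ∀ p, N p = q2 (S.gY p (S.cY.c p p)) (ξ p p) := ⟨_, fun _ => rfl⟩
  have hc : Continuous N := continuous_iff_continuousAt.2 fun p => by
    have k := S.cY.mem p
    have k' := (S.cY.c p).map_source k
    have h1 := (HI_q2 (((S.hmet hη.kae).cont p).continuousAt ((S.cY.c p).open_target.mem_nhds k'))
      (h.hol p p k).continuousAt).comp ((S.cY.c p).continuousAt k)
    refine h1.congr ?_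
    filter_upwards [(S.cY.c p).open_source.mem_nhds k] with p' hp'
    obtain ⟨a, ha⟩ := M.cover (S.π (0, p', z))
    rw [hN, ← HI_norm (m := (0, p', z)) h (S.cY.mem p') ha, HI_norm (m := (0, p', z)) h hp' ha,
      Function.comp, (S.cY.c p).left_inv hp']
  obtain ⟨p₀, -, h0⟩ := isCompact_univ.exists_isMaxOn ⟨p, mem_univ _⟩ hc.continuousOn
  have hA : IsClopen {m : Cn S.q × S.Y × S.Z | N m.2.1 = N p₀} :=
    ⟨isClosed_eq (by fun_prop) continuous_const, isOpen_iff_mem_nhds.2 fun m hm => by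
      obtain ⟨a, ha⟩ := M.cover (S.π m)
      have := (HI_loc hη h hN (fun p => (h0 (mem_univ p)).trans_eq hm.symm) ha).1
      exact this.mono fun m' hm' => hm'.trans hm⟩
  have hB := hA.eq_univ ⟨(0, p₀, z), rfl⟩
  have hC : ∀ m : Cn S.q × S.Y × S.Z, N m.2.1 = N p₀ := fun m => eq_univ_iff_forall.1 hB m
  have hP : PF M.toAtl η S.lh (S.lift ξ) := ⟨fun a b m => HI_compat, fun a m => HI_hol h,
    fun a m ha => (HI_loc hη h hN (fun p => (h0 (mem_univ p)).trans_eq (hC m).symm) ha).2⟩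
  obtain ⟨a, ha⟩ := M.cover (S.π (0, p, z))
  have h1 := S.max _ hP a _ ha
  rw [(HI_blk ha).1, HI_lift (m := (0, p, z)) h hp (S.cZ.mem z) ha,
    ← map_zero (fderiv ℂ (S.T a y z) (S.hco y z (0, p, z)))] at h1
  exact (congrArg (fun v => v.2.1) ((HI_an (m := (0, p, z)) hp (S.cZ.mem z) ha).2.1 h1)).symm

end Vale.Agent.P299
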