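import Vale.Agent.P299.KDefs

/-! P299, part K: local inverses of the covering and the Laplacian on the cover. -/

open MeasureTheory Set Filter Topology Matrix
open scoped ContDiff ENNReal ComplexConjugate ComplexOrder

noncomputable section

namespace Vale.Agent.P299

open Vale.Agent.P271 Vale.Agent.P272

variable {n : ℕ} {X : Type} [TopologicalSpace X] {V : Type} [TopologicalSpace V] {π : V → X}
  {A : Atl n X} {η : Frm A} {lh : IsLocalHomeomorph π} {f g : V → ℝ} {a : A.ι} {m : V}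

theorem KA_src (lh : IsLocalHomeomorph π) (m : V) : m ∈ (lh m).choose.source :=
  (lh m).choose_spec.1

theorem KA_eq (lh : IsLocalHomeomorph π) (m x : V) : (lh m).choose x = π x :=
  (congrFun (lh m).choose_spec.2 x).symm

theorem KA_tgt (lh : IsLocalHomeomorph π) (m : V) : (lh m).choose.target ∈ 𝓝 (π m) := by
  rw [← KA_eq lh m m]
  exact (lh m).choose.open_target.mem_nhds ((lh m).choose.map_source (KA_src lh m))

theorem lf_left (lh : IsLocalHomeomorph π) (m : V) : ∀ᶠ x in 𝓝 m, lf lh m (π x) = x := by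
  filter_upwards [(lh m).choose.open_source.mem_nhds (KA_src lh m)] with x hx
  rw [← KA_eq lh m x]
  exact (lh m).choose.left_inv hx

theorem lf_self (lh : IsLocalHomeomorph π) (m : V) : lf lh m (π m) = m :=
  (lf_left lh m).self_of_nhds

theorem lf_right (lh : IsLocalHomeomorph π) (m : V) : ∀ᶠ p in 𝓝 (π m), π (lf lh m p) = p := by
  filter_upwards [KA_tgt lh m] with p hp
  rw [← KA_eq lh m]
  exact (lh m).choose.right_inv hp

theorem lf_contE (lh : IsLocalHomeomorph π) (m : V) :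
    ∀ᶠ p in 𝓝 (π m), ContinuousAt (lf lh m) p := by
  filter_upwards [KA_tgt lh m] with p hp
  exact (lh m).choose.continuousAt_symm hp

theorem lf_cont (lh : IsLocalHomeomorph π) (m : V) : ContinuousAt (lf lh m) (π m) :=
  (lf_contE lh m).self_of_nhds

theorem lf_tend (lh : IsLocalHomeomorph π) (m : V) : Tendsto (lf lh m) (𝓝 (π m)) (𝓝 m) := by
  have h := lf_cont lh m
  rwa [ContinuousAt, lf_self] at h

theorem lf_unique (lh : IsLocalHomeomorph π) {s : X → V} (hs : Tendsto s (𝓝 (π m)) (𝓝 m))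
    (h : ∀ᶠ p in 𝓝 (π m), π (s p) = p) : s =ᶠ[𝓝 (π m)] lf lh m := by
  filter_upwards [h, hs.eventually (lf_left lh m)] with p h1 h2
  rw [← h2, h1]

theorem lf_near (lh : IsLocalHomeomorph π) (m : V) :
    ∀ᶠ x in 𝓝 m, lf lh m =ᶠ[𝓝 (π x)] lf lh x := by
  have h1 := (lh.continuous.tendsto m).eventually (lf_contE lh m)
  have h2 := (lh.continuous.tendsto m).eventually (lf_right lh m).eventually_nhds
  filter_upwards [h1, h2, lf_left lh m] with x h3 h4 h5
  refine lf_unique lh ?_ h4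
  rwa [ContinuousAt, h5] at h3

theorem KA_symm {p : X} (hp : p ∈ (A.e a).source) :
    Tendsto (A.e a).symm (𝓝 (A.e a p)) (𝓝 p) := (A.e a).tendsto_symm hp

/-- The point of the cover with chart coordinate `z` tends to `m`. -/
theorem lc_tend (lh : IsLocalHomeomorph π) (hm : π m ∈ (A.e a).source) :
    Tendsto (fun z => lf lh m ((A.e a).symm z)) (𝓝 (A.e a (π m))) (𝓝 m) :=
  (lf_tend lh m).comp (KA_symm hm)

theorem lc_right (lh : IsLocalHomeomorph π) (hm : π m ∈ (A.e a).source) :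
    ∀ᶠ z in 𝓝 (A.e a (π m)), z ∈ (A.e a).target ∧
      π (lf lh m ((A.e a).symm z)) = (A.e a).symm z ∧
      π (lf lh m ((A.e a).symm z)) ∈ (A.e a).source ∧
      A.e a (π (lf lh m ((A.e a).symm z))) = z := by
  filter_upwards [(KA_symm hm).eventually (lf_right lh m),
    (A.e a).open_target.mem_nhds ((A.e a).map_source hm)] with z h1 h2
  refine ⟨h2, h1, ?_, ?_⟩ <;> rw [h1]
  · exact (A.e a).map_target h2
  · exact (A.e a).right_inv h2

theorem lc_self (f : V → ℝ) (hm : π m ∈ (A.e a).source) :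
    lc A lh f a m (A.e a (π m)) = f m := by
  rw [lc, (A.e a).left_inv hm, lf_self]

theorem lc_near (f : V → ℝ) (hm : π m ∈ (A.e a).source) : ∀ᶠ x in 𝓝 m,
    π x ∈ (A.e a).source ∧ lc A lh f a m =ᶠ[𝓝 (A.e a (π x))] lc A lh f a x := by
  filter_upwards [lf_near lh m,
    (lh.continuous.tendsto m).eventually ((A.e a).open_source.mem_nhds hm)] with x h1 h2
  refine ⟨h2, ?_⟩
  filter_upwards [(KA_symm h2).eventually h1] with z hz
  rw [lc, lc, hz]

/-- The same, for all functions at once. -/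
theorem lc_near' (lh : IsLocalHomeomorph π) (hm : π m ∈ (A.e a).source) : ∀ᶠ x in 𝓝 m,
    π x ∈ (A.e a).source ∧ ∀ f, lc A lh f a m =ᶠ[𝓝 (A.e a (π x))] lc A lh f a x := by
  filter_upwards [lf_near lh m,
    (lh.continuous.tendsto m).eventually ((A.e a).open_source.mem_nhds hm)] with x h1 h2
  refine ⟨h2, fun f => ?_⟩
  filter_upwards [(KA_symm h2).eventually h1] with z hz
  rw [lc, lc, hz]

theorem lc_congr (hm : π m ∈ (A.e a).source) (h : f =ᶠ[𝓝 m] g) :
    lc A lh f a m =ᶠ[𝓝 (A.e a (π m))] lc A lh g a m := (lc_tend lh hm).eventually h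

theorem lc_pull (u : X → ℝ) (hm : π m ∈ (A.e a).source) :
    lc A lh (fun x => u (π x)) a m =ᶠ[𝓝 (A.e a (π m))] A.loc a u := by
  filter_upwards [lc_right lh hm] with z hz
  rw [lc, hz.2.1, Atl.loc]

theorem lc_tr (f : V → ℝ) {b : A.ι} (ha : π m ∈ (A.e a).source) (hb : π m ∈ (A.e b).source) :
    lc A lh f a m =ᶠ[𝓝 (A.e a (π m))] fun z => lc A lh f b m (A.tr a b z) := by
  filter_upwards [(KA_symm ha).eventually ((A.e b).open_source.mem_nhds hb)] with z hz
  rw [lc, lc, Atl.tr, (A.e b).left_inv hz]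

theorem KA_ov {b : A.ι} {p : X} (ha : p ∈ (A.e a).source) (hb : p ∈ (A.e b).source) :
    A.e a p ∈ A.ov a b ∧ A.tr a b (A.e a p) = A.e b p :=
  ⟨⟨(A.e a).map_source ha, by rwa [mem_preimage, (A.e a).left_inv ha]⟩, by
    rw [Atl.tr, (A.e a).left_inv ha]⟩

theorem smV_of_local (h : ∀ m, ∃ a, π m ∈ (A.e a).source ∧
    ContDiffAt ℝ ∞ (lc A lh f a m) (A.e a (π m))) : SmV A lh f := fun b m hb => by
  obtain ⟨a, ha, h1⟩ := h m
  rw [← (KA_ov hb ha).2] at h1
  exact (h1.comp _ (A.api_contDiffAt_tr b a (KA_ov hb ha).1)).congr_of_eventuallyEq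
    (lc_tr f hb ha)

theorem SmV.continuous (h : SmV A lh f) : Continuous f := by
  refine continuous_iff_continuousAt.2 fun m => ?_
  obtain ⟨a, ha⟩ := A.cover (π m)
  have h1 : ContinuousAt (fun x => lc A lh f a m (A.e a (π x))) m :=
    ContinuousAt.comp (g := lc A lh f a m) (f := fun x => A.e a (π x)) (h a m ha).continuousAt
      (ContinuousAt.comp (g := A.e a) ((A.e a).continuousAt ha) lh.continuous.continuousAt)
  refine h1.congr ?_
  filter_upwards [lc_near (lh := lh) f ha] with x hx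
  rw [hx.2.self_of_nhds, lc_self f hx.1]

theorem SmV.ev (h : SmV A lh f) (hm : π m ∈ (A.e a).source) :
    ∀ᶠ z in 𝓝 (A.e a (π m)), ContDiffAt ℝ ∞ (lc A lh f a m) z := by
  filter_upwards [lc_right lh hm, (lc_tend lh hm).eventually (lc_near (lh := lh) f hm)]
    with z h1 h2
  have h3 := (h a _ h2.1).congr_of_eventuallyEq h2.2
  rwa [h1.2.2.2] at h3

theorem smV_pull {u : X → ℝ} (hu : A.Sm u) : SmV A lh fun x => u (π x) := fun a _ hm =>
  ((hu a).contDiffAt ((A.e a).open_target.mem_nhds ((A.e a).map_source hm))).congr_of_eventuallyEq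
    (lc_pull u hm)

theorem smV_const (t : ℝ) : SmV A lh fun _ => t := fun _ _ _ => contDiffAt_const

theorem SmV.add (hf : SmV A lh f) (hg : SmV A lh g) : SmV A lh fun x => f x + g x :=
  fun a m hm => (hf a m hm).add (hg a m hm)

theorem SmV.sub (hf : SmV A lh f) (hg : SmV A lh g) : SmV A lh fun x => f x - g x :=
  fun a m hm => (hf a m hm).sub (hg a m hm)

theorem SmV.mul (hf : SmV A lh f) (hg : SmV A lh g) : SmV A lh fun x => f x * g x :=
  fun a m hm => (hf a m hm).mul (hg a m hm)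

theorem lapV_def (f : V → ℝ) (m : V) : LapV A η lh f m = ((GM A η (π m))⁻¹ *
    LM (lc A lh f (ch A (π m)) m) (A.e (ch A (π m)) (π m))).trace.re := rfl

theorem KA_LM {b : A.ι} {p : X} (ha : p ∈ (A.e a).source) (hb : p ∈ (A.e b).source)
    {φ ψ : Cn n → ℝ} (hψ : ContDiffAt ℝ ∞ ψ (A.e b p))
    (h : φ =ᶠ[𝓝 (A.e a p)] fun z => ψ (A.tr a b z)) : LM φ (A.e a p) =
      (DM (A.tr a b) (A.e a p))ᴴ * LM ψ (A.e b p) * DM (A.tr a b) (A.e a p) := by
  rw [← (KA_ov ha hb).2] at hψ ⊢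
  exact (LM_congr h).trans (LM_comp_hol hψ (A.analyticOnNhd_tr _ _ _ (KA_ov ha hb).1))

theorem lapV_eq (hf : SmV A lh f) (hη : Kae A η) (hm : π m ∈ (A.e a).source) :
    LapV A η lh f m =
      ((LM (η a) (A.e a (π m)))⁻¹ * LM (lc A lh f a m) (A.e a (π m))).trace.re := by
  have hb := ch_mem A (π m)
  have h2 := KA_LM hm hb (hf _ m hb) (lc_tr f hm hb)
  rw [lapV_def, ApiA_rep hη.1 hm, h2, trace_conj (ApiA_det_ne hm)]

theorem lapV_congr (h : f =ᶠ[𝓝 m] g) : LapV A η lh f m = LapV A η lh g m :=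
  congrArg (fun H => ((GM A η (π m))⁻¹ * H).trace.re) (LM_congr (lc_congr (ch_mem A (π m)) h))

theorem lapV_pull (u : X → ℝ) (m : V) :
    LapV A η lh (fun x => u (π x)) m = trF A η (ddc A u) (π m) :=
  congrArg (fun H => ((GM A η (π m))⁻¹ * H).trace.re) (LM_congr (lc_pull u (ch_mem A (π m))))

theorem lapV_lin (hf : SmV A lh f) (hg : SmV A lh g) (s t : ℝ) (m : V) :
    LapV A η lh (fun x => s * f x + t * g x) m = s * LapV A η lh f m + t * LapV A η lh g m :=
  Ba_lin (hf _ m (ch_mem A (π m))) (hg _ m (ch_mem A (π m))) _ s t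

theorem lapV_add (hf : SmV A lh f) (hg : SmV A lh g) (m : V) :
    LapV A η lh (fun x => f x + g x) m = LapV A η lh f m + LapV A η lh g m := by
  simpa using lapV_lin (η := η) hf hg 1 1 m

theorem lapV_sub (hf : SmV A lh f) (hg : SmV A lh g) (m : V) :
    LapV A η lh (fun x => f x - g x) m = LapV A η lh f m - LapV A η lh g m := by
  simpa [sub_eq_add_neg] using lapV_lin (η := η) hf hg 1 (-1) m

theorem lapV_const (t : ℝ) (m : V) : LapV A η lh (fun _ => t) m = 0 := by
  have h : LM (lc A lh (fun _ => t) (ch A (π m)) m) (A.e (ch A (π m)) (π m)) = 0 := LM_const _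
  change ((GM A η (π m))⁻¹ * LM (lc A lh (fun _ => t) (ch A (π m)) m) _).trace.re = 0
  rw [h, Matrix.mul_zero, trace_zero, Complex.zero_re]

theorem lapV_max (hf : SmV A lh f) (hη : Kae A η) (h : ∀ᶠ x in 𝓝 m, f x ≤ f m) :
    LapV A η lh f m ≤ 0 := by
  have hb := ch_mem A (π m)
  have h1 : IsLocalMax (lc A lh f (ch A (π m)) m) (A.e (ch A (π m)) (π m)) := by
    filter_upwards [(lc_tend lh hb).eventually h] with z hz
    rwa [lc_self f hb]
  have h2 := trace_mul_nonneg (hη.2 _ _ (ApiA_ch A (π m))).inv.posSemidef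
    (LM_of_isLocalMax (hf _ m hb) h1)
  rw [Matrix.mul_neg, trace_neg, Complex.neg_re] at h2
  rw [lapV_eq hf hη hb]
  linarith

section Group
variable {Γ : Type} [Group Γ] [MulAction Γ V]

theorem Top.pi_smul (tp : Top Γ π) (γ : Γ) (m : V) : π (γ • m) = π m := tp.cov.map_smul γ

theorem Top.cont (tp : Top Γ π) (γ : Γ) : Continuous fun x : V => γ • x :=
  tp.cov.continuous_const_smul γ

theorem lf_smul (lh : IsLocalHomeomorph π) (tp : Top Γ π) (γ : Γ) (m : V) :
    (fun p => γ • lf lh m p) =ᶠ[𝓝 (π m)] lf lh (γ • m) := by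
  have h := lf_unique lh (m := γ • m) (s := fun p => γ • lf lh m p)
  rw [tp.pi_smul] at h
  refine h (((tp.cont γ).tendsto m).comp (lf_tend lh m)) ?_
  filter_upwards [lf_right lh m] with p hp
  rw [tp.pi_smul, hp]

theorem lc_smul (tp : Top Γ π) (γ : Γ) (f : V → ℝ) (hm : π m ∈ (A.e a).source) :
    lc A lh (fun x => f (γ • x)) a m =ᶠ[𝓝 (A.e a (π m))] lc A lh f a (γ • m) := by
  filter_upwards [(KA_symm hm).eventually (lf_smul lh tp γ m)] with z hz
  rw [lc, lc, ← hz]

theorem SmV.smul (hf : SmV A lh f) (tp : Top Γ π) (γ : Γ) : SmV A lh fun x => f (γ • x) :=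
  fun a m hm => by
    have h := hf a (γ • m) (by rwa [tp.pi_smul])
    rw [tp.pi_smul] at h
    exact h.congr_of_eventuallyEq (lc_smul tp γ f hm)

theorem lapV_smul (tp : Top Γ π) (γ : Γ) (f : V → ℝ) (m : V) :
    LapV A η lh (fun x => f (γ • x)) m = LapV A η lh f (γ • m) := by
  have h := LM_congr (lc_smul (lh := lh) tp γ f (ch_mem A (π m)))
  rw [LapV, LapV, tp.pi_smul]
  exact congrArg (fun H => ((GM A η (π m))⁻¹ * H).trace.re) h

end Group

/-- The maximum principle on the cover. -/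
theorem maxV (hη : Kae A η) {F : V → ℝ} (hF : SmV A lh F) (hp : Prp F) {C : ℝ}
    (hC : ∀ m, LapV A η lh F m ≤ C) (hg : SmV A lh g) {b : ℝ} (hb : ∀ m, g m ≤ b) {lam s : ℝ}
    (hl : 0 < lam) (h : ∀ m, lam * (g m - s) ≤ LapV A η lh g m) (m : V) : g m ≤ s := by
  obtain ⟨D, hD⟩ : ∃ D, ∀ x, D ≤ F x := by
    obtain ⟨K, hK, h1⟩ := hp 0
    obtain ⟨D, hD⟩ := (hK.image hF.continuous).bddBelow
    refine ⟨min D 0, fun x => ?_⟩
    by_cases hx : F x ≤ 0
    · exact (min_le_left _ _).trans (hD ⟨x, h1 x hx, rfl⟩)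
    · exact (min_le_right _ _).trans (not_le.1 hx).le
  have key : ∀ ε, 0 < ε → g m ≤ s + ε * (C / lam + F m - D) := fun ε hε => by
    have hs : SmV A lh fun x => 1 * g x + -ε * F x :=
      ((smV_const 1).mul hg).add ((smV_const (-ε)).mul hF)
    obtain ⟨K, hK, h1⟩ := hp (F m + (b - g m) / ε)
    have hm : m ∈ K := h1 m (le_add_of_nonneg_right (div_nonneg (sub_nonneg.2 (hb m)) hε.le))
    obtain ⟨x, -, hx⟩ := hK.exists_isMaxOn ⟨m, hm⟩ hs.continuous.continuousOn
    have h2 : 1 * g m + -ε * F m ≤ 1 * g x + -ε * F x := hx hm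
    have h3 : ∀ y, 1 * g y + -ε * F y ≤ 1 * g x + -ε * F x := fun y => by
      by_cases hy : F y ≤ F m + (b - g m) / ε
      · exact hx (h1 y hy)
      · have h4 : ε * (F m + (b - g m) / ε) ≤ ε * F y :=
          mul_le_mul_of_nonneg_left (not_le.1 hy).le hε.le
        rw [mul_add, mul_div_cancel₀ _ hε.ne'] at h4
        linarith [hb y]
    have h4 := lapV_max hs hη (m := x) (Eventually.of_forall h3)
    rw [lapV_lin hg hF] at h4
    have h5 : lam * (g x - s) ≤ ε * C := by nlinarith [h x, hC x]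
    have h6 : g x - s ≤ ε * (C / lam) := by
      rw [← mul_div_assoc, le_div_iff₀ hl]
      linarith
    nlinarith [hD x]
  refine le_of_forall_pos_le_add fun δ hδ => ?_
  have hT : 0 < |C / lam + F m - D| + 1 := by positivity
  refine (key (δ / (|C / lam + F m - D| + 1)) (div_pos hδ hT)).trans ?_
  have h7 : δ / (|C / lam + F m - D| + 1) * (C / lam + F m - D) ≤
      δ / (|C / lam + F m - D| + 1) * (|C / lam + F m - D| + 1) :=
    mul_le_mul_of_nonneg_left (by linarith [le_abs_self (C / lam + F m - D)]) (div_pos hδ hT).le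
  rw [div_mul_cancel₀ _ hT.ne'] at h7
  linarith

end Vale.Agent.P299
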