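import Vale.Agent.P299.KDefs

/-! P299, part K: calculus of uniformly bounded families of germs. -/

open MeasureTheory Set Filter Topology Matrix
open scoped ContDiff ENNReal ComplexConjugate ComplexOrder

noncomputable section

namespace Vale.Agent.P299

open Vale.Agent.P271 Vale.Agent.P272

variable {I E F G : Type} [NormedAddCommGroup E] [NormedSpace ℝ E] [NormedAddCommGroup F]
  [NormedSpace ℝ F] [NormedAddCommGroup G] [NormedSpace ℝ G] {w v : I → E → F} {z₀ : E}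

theorem KB_le (j : ℕ) : (j : WithTop ℕ∞) ≤ ((⊤ : ℕ∞) : WithTop ℕ∞) := by exact_mod_cast le_top

theorem LC.bdd (h : LC w z₀) : ∃ C : ℝ, ∀ᶠ z in 𝓝 z₀, ∀ i, ‖w i z‖ ≤ C := by
  obtain ⟨C, hC⟩ := h.2 0
  exact ⟨C, hC.mono fun z hz i => by simpa using hz i⟩

theorem LC.idx (h : LC w z₀) {J : Type} (σ : J → I) : LC (fun j => w (σ j)) z₀ := by
  refine ⟨h.1.mono fun z hz j => hz _, fun j => ?_⟩
  obtain ⟨C, hC⟩ := h.2 j
  exact ⟨C, hC.mono fun z hz j => hz _⟩

/-- Use `eventually_nhds` and `Filter.EventuallyEq.iteratedFDeriv`. -/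
theorem LC.congr (h : LC w z₀) (e : ∀ᶠ z in 𝓝 z₀, ∀ i, v i z = w i z) : LC v z₀ := by
  have e' : ∀ᶠ z in 𝓝 z₀, ∀ i, v i =ᶠ[𝓝 z] w i :=
    e.eventually_nhds.mono fun z hz i => hz.mono fun y hy => hy i
  refine ⟨(h.1.and e').mono fun z hz i => (hz.1 i).congr_of_eventuallyEq (hz.2 i), fun j => ?_⟩
  obtain ⟨C, hC⟩ := h.2 j
  refine ⟨C, (hC.and e').mono fun z hz i => ?_⟩
  rw [((hz.2 i).iteratedFDeriv ℝ j).self_of_nhds]
  exact hz.1 i

/-- One function: the derivatives are continuous at `z₀`. -/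
theorem lc_single (I : Type) {φ : E → F} (h : ∀ᶠ z in 𝓝 z₀, ContDiffAt ℝ ∞ φ z) :
    LC (fun _ : I => φ) z₀ := by
  refine ⟨h.mono fun z hz _ => hz, fun j => ⟨‖iteratedFDeriv ℝ j φ z₀‖ + 1, ?_⟩⟩
  exact ((h.self_of_nhds.continuousAt_iteratedFDeriv (KB_le j)).norm.eventually_le_const
    (lt_add_one _)).mono fun z hz _ => hz

theorem lc_const {c : I → F} {C : ℝ} (h : ∀ i, ‖c i‖ ≤ C) (z₀ : E) :
    LC (fun i (_ : E) => c i) z₀ := by
  refine ⟨Eventually.of_forall fun z i => contDiffAt_const, fun j => ?_⟩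
  rcases eq_or_ne j 0 with rfl | hj
  · exact ⟨C, Eventually.of_forall fun z i => by simpa using h i⟩
  · exact ⟨0, Eventually.of_forall fun z i => by simp [iteratedFDeriv_const_of_ne hj]⟩

theorem LC.add (h : LC w z₀) (h' : LC v z₀) : LC (fun i z => w i z + v i z) z₀ := by
  refine ⟨(h.1.and h'.1).mono fun z hz i => (hz.1 i).add (hz.2 i), fun j => ?_⟩
  obtain ⟨C, hC⟩ := h.2 j
  obtain ⟨C', hC'⟩ := h'.2 j
  refine ⟨C + C', ?_⟩
  filter_upwards [h.1, h'.1, hC, hC'] with z h1 h2 h3 h4 i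
  have e := iteratedFDeriv_add_apply ((h1 i).of_le (KB_le j)) ((h2 i).of_le (KB_le j))
  exact (congrArg norm e).trans_le ((norm_add_le _ _).trans (add_le_add (h3 i) (h4 i)))

theorem LC.clm (h : LC w z₀) (L : F →L[ℝ] G) : LC (fun i z => L (w i z)) z₀ := by
  refine ⟨h.1.mono fun z hz i => L.contDiff.contDiffAt.comp z (hz i), fun j => ?_⟩
  obtain ⟨C, hC⟩ := h.2 j
  refine ⟨‖L‖ * C, ?_⟩
  filter_upwards [h.1, hC] with z h1 h2 i
  exact (L.norm_iteratedFDeriv_comp_left (h1 i) (KB_le j)).trans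
    (mul_le_mul_of_nonneg_left (h2 i) (norm_nonneg _))

theorem LC.sub (h : LC w z₀) (h' : LC v z₀) : LC (fun i z => w i z - v i z) z₀ := by
  simpa [sub_eq_add_neg] using h.add (h'.clm (-ContinuousLinearMap.id ℝ F))

theorem LC.sum {κ : Type} (s : Finset κ) {u : κ → I → E → F} (h : ∀ k ∈ s, LC (u k) z₀) :
    LC (fun i z => ∑ k ∈ s, u k i z) z₀ := by
  classical
  induction s using Finset.induction_on with
  | empty => simpa using lc_const (I := I) (c := fun _ => (0 : F)) (C := 0) (fun _ => by simp) z₀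
  | insert a s ha ih =>
    simp only [Finset.sum_insert ha]
    exact (h a (Finset.mem_insert_self a s)).add (ih fun k hk => h k (Finset.mem_insert_of_mem hk))

/-- Leibniz: `ContinuousLinearMap.norm_iteratedFDerivWithin_le_of_bilinear` on an open set on
which all members are smooth (`iteratedFDerivWithin_of_isOpen`). -/
theorem LC.bil {H : Type} [NormedAddCommGroup H] [NormedSpace ℝ H] (B : F →L[ℝ] G →L[ℝ] H)
    (h : LC w z₀) {u : I → E → G} (h' : LC u z₀) : LC (fun i z => B (w i z) (u i z)) z₀ := by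
  refine ⟨(h.1.and h'.1).mono fun z hz i =>
    (B.contDiff.contDiffAt.comp z (hz.1 i)).clm_apply (hz.2 i), fun j => ?_⟩
  choose C hC using h.2
  choose C' hC' using h'.2
  obtain ⟨U, hU, hUo, hz₀⟩ := eventually_nhds_iff.1 (h.1.and h'.1)
  refine ⟨‖B‖ * ∑ k ∈ Finset.range (j + 1), (j.choose k : ℝ) * C k * C' (j - k), ?_⟩
  filter_upwards [hUo.mem_nhds hz₀, (eventually_all_finset (Finset.range (j + 1))).2
    fun k _ => (hC k).and (hC' (j - k))] with z hz h1 i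
  have h2 := B.norm_iteratedFDerivWithin_le_of_bilinear (f := w i) (g := u i) (s := U)
    (fun y hy => ((hU y hy).1 i).contDiffWithinAt) (fun y hy => ((hU y hy).2 i).contDiffWithinAt)
    hUo.uniqueDiffOn hz (KB_le j)
  simp only [iteratedFDerivWithin_of_isOpen _ hUo hz] at h2
  refine h2.trans (mul_le_mul_of_nonneg_left (Finset.sum_le_sum fun k hk => ?_) B.opNorm_nonneg)
  have h3 := (h1 k hk).1 i
  exact mul_le_mul (mul_le_mul_of_nonneg_left h3 (Nat.cast_nonneg _)) ((h1 k hk).2 i)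
    (norm_nonneg _) (mul_nonneg (Nat.cast_nonneg _) ((norm_nonneg _).trans h3))

theorem LC.mul {w v : I → E → ℝ} (h : LC w z₀) (h' : LC v z₀) :
    LC (fun i z => w i z * v i z) z₀ := by
  exact LC.bil (ContinuousLinearMap.mul ℝ ℝ) h h'

theorem LC.mulC {w v : I → E → ℂ} (h : LC w z₀) (h' : LC v z₀) :
    LC (fun i z => w i z * v i z) z₀ := by
  exact LC.bil (ContinuousLinearMap.mul ℝ ℂ) h h'

/-- `norm_iteratedFDeriv_fderiv`. -/
theorem LC.fd (h : LC w z₀) : LC (fun i => fderiv ℝ (w i)) z₀ := by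
  refine ⟨h.1.mono fun z hz i => (hz i).fderiv_right (by simp), fun j => ?_⟩
  obtain ⟨C, hC⟩ := h.2 (j + 1)
  exact ⟨C, hC.mono fun z hz i => by rw [norm_iteratedFDeriv_fderiv]; exact hz i⟩

variable {n : ℕ}

theorem KB_cm {w : I → E → ℂ} {z₀ : E} (h : LC w z₀) (c : ℂ) : LC (fun i z => c * w i z) z₀ :=
  (lc_const (c := fun _ : I => c) (fun _ => le_rfl) z₀).mulC h

theorem KB_dz {w : I → Cn n → ℂ} {z₀ : Cn n} (h : LC w z₀) (ξ : Cn n) :
    LC (fun i => dz ξ (w i)) z₀ := by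
  refine (KB_cm ((h.fd.clm (ContinuousLinearMap.apply ℝ ℂ ξ)).sub (KB_cm
    (h.fd.clm (ContinuousLinearMap.apply ℝ ℂ (Complex.I • ξ))) Complex.I)) 2⁻¹).congr
    (Eventually.of_forall fun z i => ?_)
  simp only [dz, ContinuousLinearMap.apply_apply, div_eq_inv_mul]

theorem KB_dzb {w : I → Cn n → ℂ} {z₀ : Cn n} (h : LC w z₀) (ξ : Cn n) :
    LC (fun i => dzb ξ (w i)) z₀ := by
  refine (KB_cm ((h.fd.clm (ContinuousLinearMap.apply ℝ ℂ ξ)).add (KB_cm
    (h.fd.clm (ContinuousLinearMap.apply ℝ ℂ (Complex.I • ξ))) Complex.I)) 2⁻¹).congr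
    (Eventually.of_forall fun z i => ?_)
  simp only [dzb, ContinuousLinearMap.apply_apply, div_eq_inv_mul]

/-- Unfold `LM`, `lev`, `dz`, `dzb`; use `LC.fd`, `LC.clm` (evaluation at a vector is
`ContinuousLinearMap.apply`), `LC.mulC`, `lc_const`. -/
theorem LC.lm {w : I → Cn n → ℝ} {z₀ : Cn n} (h : LC w z₀) (j k : Fin n) :
    LC (fun i z => LM (w i) z j k) z₀ := by
  exact KB_dz (KB_dzb (h.clm Complex.ofRealCLM) (Pi.single j 1)) (Pi.single k 1)

theorem LC.db {w : I → Cn n → ℝ} {z₀ : Cn n} (h : LC w z₀) (j : Fin n) :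
    LC (fun i z => dbK (w i) z j) z₀ := by
  exact KB_dzb (h.clm Complex.ofRealCLM) (Pi.single j 1)

theorem LC.tr {w : I → Cn n → ℝ} {z₀ : Cn n} (h : LC w z₀) {P : Cn n → Mx n}
    (hP : ∀ᶠ z in 𝓝 z₀, ∀ j k, ContDiffAt ℝ ∞ (fun y => P y j k) z) :
    LC (fun i z => (P z * LM (w i) z).trace.re) z₀ := by
  have h1 := (LC.sum Finset.univ fun j _ => LC.sum Finset.univ fun k _ =>
    (lc_single I (hP.mono fun z hz => hz j k)).mulC (h.lm k j)).clm Complex.reCLM
  exact h1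

end Vale.Agent.P299
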