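import Vale.Agent.P299.KB
import Vale.Agent.P292E.Reg
import Vale.Agent.P292E.Ell
import Vale.Agent.P292E.Sys

/-! P299, part K: the interior estimate for families in real coordinates. -/

open MeasureTheory Set Filter Topology Metric
open scoped ContDiff

noncomputable section

namespace Vale.Agent.P299

open Vale.Agent.P292E

variable {N : ℕ} {I : Type}

theorem KI_alg (a φ2 X Y Z W : Fin N → Fin N → ℂ) (φ1 du : Fin N → ℂ) (u φ k : ℂ) :
    u * (∑ p, ∑ q, a p q * φ2 p q + ∑ p, (∑ q, (X p q + Y q p)) * φ1 p +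
      (∑ p, ∑ q, Z p q - k) * φ) = (∑ p, ∑ q, a p q * W p q - k * u) * φ +
      ∑ p, ∑ q, ((φ2 p q * (a p q * u) + φ1 q * (Y p q * u + a p q * du p)) -
        (φ1 q * (a p q * du p) + φ * (X p q * du p + a p q * W p q)) +
        (φ1 p * (X p q * u) + φ * (Z p q * u + X p q * du p))) := by
  have e1 : ∑ p, (∑ q, (X p q + Y q p)) * φ1 p =
      ∑ p, ∑ q, X p q * φ1 p + ∑ p, ∑ q, Y p q * φ1 q := by
    simp only [Finset.sum_mul, add_mul, Finset.sum_add_distrib]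
    rw [Finset.sum_comm (f := fun p q => Y q p * φ1 p)]
  have e2 : ∑ p, ∑ q, ((φ2 p q * (a p q * u) + φ1 q * (Y p q * u + a p q * du p)) -
        (φ1 q * (a p q * du p) + φ * (X p q * du p + a p q * W p q)) +
        (φ1 p * (X p q * u) + φ * (Z p q * u + X p q * du p))) =
      ∑ p, ∑ q, (u * (a p q * φ2 p q) + u * (X p q * φ1 p) + u * (Y p q * φ1 q) +
        u * φ * Z p q - φ * (a p q * W p q)) :=
    Finset.sum_congr rfl fun p _ => Finset.sum_congr rfl fun q _ => by ring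
  rw [e1, e2]
  simp only [Finset.sum_add_distrib, Finset.sum_sub_distrib, ← Finset.mul_sum]
  ring

theorem KI_weak {U : Set (V N)} (hO : IsOpen U) {a : Fin N → Fin N → V N → ℂ} {u f : V N → ℂ}
    {k : ℂ} (ha : ∀ p q, ContDiffOn ℝ ∞ (a p q) U) (hu : ContDiffOn ℝ ∞ u U)
    (hf : ContDiffOn ℝ ∞ f U)
    (h : ∀ x ∈ U, ∑ p, ∑ q, a p q x * pd q (pd p u) x - k * u x = f x) :
    Weak U a (fun p x => ∑ q, (pd q (a p q) x + pd q (a q p) x))
      (fun x => ∑ p, ∑ q, pd p (pd q (a p q)) x - k) u f 0 := by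
  intro φ hφ
  have hu1 := fun p => contDiffOn_pd hO hu p
  have ha1 := fun p q r => contDiffOn_pd hO (ha p q) r
  have t1 : ∀ p q, Tst U fun y => pd q φ y * (a p q y * u y) :=
    fun p q => cut_contDiff hO (hφ.pd q).1 ((ha p q).mul hu)
  have t2 : ∀ p q, Tst U fun y => φ y * (a p q y * pd p u y) :=
    fun p q => cut_contDiff hO hφ ((ha p q).mul (hu1 p))
  have t3 : ∀ p q, Tst U fun y => φ y * (pd q (a p q) y * u y) :=
    fun p q => cut_contDiff hO hφ ((ha1 p q q).mul hu)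
  have hd : ∀ {f : V N → ℂ}, ContDiffOn ℝ ∞ f U → ∀ x ∈ U, DifferentiableAt ℝ f x :=
    fun hf x hx => (hf.contDiffAt (hO.mem_nhds hx)).differentiableAt (by simp)
  have h1 : ∀ x, u x * Qop a (fun p x => ∑ q, (pd q (a p q) x + pd q (a q p) x))
      (fun x => ∑ p, ∑ q, pd p (pd q (a p q)) x - k) φ x = φ x * f x +
        ∑ p, ∑ q, (pd p (fun y => pd q φ y * (a p q y * u y)) x -
          pd q (fun y => φ y * (a p q y * pd p u y)) x +
          pd p (fun y => φ y * (pd q (a p q) y * u y)) x) := by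
    intro x
    by_cases hx : x ∈ U
    · rw [← h x hx, mul_comm (φ x)]
      refine (KI_alg (fun p q => a p q x) (fun p q => pd p (pd q φ) x)
        (fun p q => pd q (a p q) x) (fun p q => pd p (a p q) x) (fun p q => pd p (pd q (a p q)) x)
        (fun p q => pd q (pd p u) x) (fun p => pd p φ x) (fun p => pd p u x) (u x) (φ x) k).trans ?_
      refine congrArg _ (Finset.sum_congr rfl fun p _ => Finset.sum_congr rfl fun q _ => ?_)
      rw [sys_pd_mul (hd (hφ.pd q).1.1.contDiffOn x hx) (hd ((ha p q).mul hu) x hx),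
        sys_pd_mul (hd hφ.1.contDiffOn x hx) (hd ((ha p q).mul (hu1 p)) x hx),
        sys_pd_mul (hd hφ.1.contDiffOn x hx) (hd ((ha1 p q q).mul hu) x hx),
        sys_pd_mul (hd (ha p q) x hx) (hd hu x hx),
        sys_pd_mul (hd (ha p q) x hx) (hd (hu1 p) x hx),
        sys_pd_mul (hd (ha1 p q q) x hx) (hd hu x hx)]
    · have h0 : ∀ {ψ : V N → ℂ}, Tst U ψ → ψ x = 0 := fun hψ =>
        image_eq_zero_of_notMem_tsupport fun h => hx (hψ.2.2 h)
      simp only [Qop, h0 hφ, fun q => h0 (hφ.pd q).1, fun p q => h0 ((hφ.pd q).1.pd p).1,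
        fun p q => h0 ((t1 p q).pd p).1, fun p q => h0 ((t2 p q).pd q).1,
        fun p q => h0 ((t3 p q).pd p).1, mul_zero, Finset.sum_const_zero, zero_mul, add_zero,
        sub_zero]
  have i1 := fun p q => sys_int ((t1 p q).pd p).1
  have i2 := fun p q => sys_int ((t2 p q).pd q).1
  have i3 := fun p q => sys_int ((t3 p q).pd p).1
  have i12 : ∀ p q, Integrable fun x => pd p (fun y => pd q φ y * (a p q y * u y)) x -
      pd q (fun y => φ y * (a p q y * pd p u y)) x := fun p q => (i1 p q).sub (i2 p q)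
  have i4 : ∀ p q, Integrable fun x => pd p (fun y => pd q φ y * (a p q y * u y)) x -
      pd q (fun y => φ y * (a p q y * pd p u y)) x +
      pd p (fun y => φ y * (pd q (a p q) y * u y)) x := fun p q => (i12 p q).add (i3 p q)
  simp only [h1, Pi.zero_apply, zero_mul, Finset.sum_const_zero, add_zero]
  rw [integral_add (sys_int (cut_contDiff hO hφ hf))
    (integrable_finsetSum _ fun p _ => integrable_finsetSum _ fun q _ => i4 p q),
    integral_finsetSum _ fun p _ => integrable_finsetSum _ fun q _ => i4 p q]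
  have z : ∀ p, ∫ x, ∑ q, (pd p (fun y => pd q φ y * (a p q y * u y)) x -
      pd q (fun y => φ y * (a p q y * pd p u y)) x +
      pd p (fun y => φ y * (pd q (a p q) y * u y)) x) = 0 := fun p => by
    rw [integral_finsetSum _ fun q _ => i4 p q]
    refine Finset.sum_eq_zero fun q _ => ?_
    rw [integral_add (i12 p q) (i3 p q), integral_sub (i1 p q) (i2 p q),
      sys_ibp (t1 p q), sys_ibp (t2 p q), sys_ibp (t3 p q)]
    simp
  simp only [z, Finset.sum_const_zero, add_zero]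
  simp only [mul_comm]

theorem KI_small (M : ℕ) {U : Set (V N)} (hO : IsOpen U) {a : V N → ℂ} (ha : ContDiffOn ℝ ∞ a U)
    {x₀ : V N} (hx : x₀ ∈ U) {ε : ℝ} (hε : 0 < ε) :
    ∀ᶠ ρ in 𝓝[>] (0 : ℝ), Bd M (fun y => a (x₀ + ρ • y) - a x₀) (ball 0 3) ε := by
  obtain ⟨C, ρ₀, hC, hρ₀, -, hB⟩ := Bd_scale M 1 (f := fun x => a x - a x₀) hO
    (ha.sub contDiffOn_const) hx (fun n hn => by
      obtain rfl : n = 0 := by omega
      ext m
      simp)
  filter_upwards [Ioc_mem_nhdsGT (lt_min hρ₀ (div_pos hε (by positivity : 0 < C + 1)))]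
    with ρ hρ
  refine (hB ρ hρ.1 (hρ.2.trans (min_le_left _ _))).2.mono le_rfl le_rfl ?_
  have := (le_div_iff₀ (by positivity : 0 < C + 1)).1 (hρ.2.trans (min_le_right _ _))
  nlinarith [hρ.1]

theorem KI_back {u w : V N → ℂ} {x₀ x : V N} {ρ B : ℝ} {j : ℕ} (hρ0 : 0 < ρ)
    (sv : ContDiffOn ℝ ∞ (fun y => u (x₀ + ρ • y)) (ball 0 3)) (hw1 : Continuous w)
    (hw2 : ∀ᵐ y, y ∈ ball (0 : V N) 1 → u (x₀ + ρ • y) = w y) (hw3 : Bd j w univ B)
    (hxb : x ∈ ball x₀ ρ) : ‖iteratedFDeriv ℝ j u x‖ ≤ ρ⁻¹ ^ j * B := by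
  have hsub : ball (0 : V N) 1 ⊆ ball 0 3 := ball_subset_ball (by norm_num)
  have heq : EqOn (fun y => u (x₀ + ρ • y)) w (ball 0 1) :=
    Measure.eqOn_open_of_ae_eq (μ := volume) ((ae_restrict_iff' measurableSet_ball).2 hw2)
      isOpen_ball (sv.continuousOn.mono hsub) hw1.continuousOn
  have hy : -(ρ⁻¹ • x₀) + ρ⁻¹ • x ∈ ball (0 : V N) 1 := by
    rw [mem_ball_zero_iff, neg_add_eq_sub, ← smul_sub, norm_smul, norm_inv,
      Real.norm_of_nonneg hρ0.le, inv_mul_lt_iff₀ hρ0, mul_one]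
    rwa [mem_ball, dist_eq_norm] at hxb
  have h1 := BdC_scale (-(ρ⁻¹ • x₀)) (inv_nonneg.2 hρ0.le) isOpen_ball (sv.mono hsub) hy j
  have e3 : (fun y => u (x₀ + ρ • (-(ρ⁻¹ • x₀) + ρ⁻¹ • y))) = u := funext fun y => by
    rw [smul_add, smul_neg, smul_inv_smul₀ hρ0.ne', smul_inv_smul₀ hρ0.ne', add_neg_cancel_left]
  rw [e3] at h1
  exact h1.trans (mul_le_mul_of_nonneg_left
    (((hw3.mono le_rfl (subset_univ _) le_rfl).congr isOpen_ball heq) j le_rfl _ hy)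
    (by positivity))

theorem KI_l1 {v : V N → ℂ} {C : ℝ} (sv : ContinuousOn v (ball 0 3))
    (hv : ∀ y ∈ ball (0 : V N) 3, ‖v y‖ ≤ C) : IntegrableOn v (ball 0 3) ∧
      ∫ y in ball 0 3, ‖v y‖ ≤ C * volume.real (ball (0 : V N) 3) := by
  have : IsFiniteMeasure (volume.restrict (ball (0 : V N) 3)) :=
    isFiniteMeasure_restrict.2 measure_ball_lt_top.ne
  exact ⟨Integrable.of_bound (sv.aestronglyMeasurable measurableSet_ball) C
    (ae_restrict_of_forall_mem measurableSet_ball hv),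
    (le_abs_self _).trans (norm_setIntegral_le_of_norm_le_const (f := fun y => ‖v y‖)
      measure_ball_lt_top fun y hy => by simpa using hv y hy)⟩

theorem KI_rhs {U : Set (V N)} (hO : IsOpen U) {f : V N → ℂ} (hf : ContDiffOn ℝ ∞ f U)
    {x₀ : V N} {ρ B : ℝ} {M : ℕ} (hρ0 : 0 < ρ) (hρ1 : ρ ≤ 1) (hU : closedBall x₀ (3 * ρ) ⊆ U)
    (hB : Bd M f (closedBall x₀ (3 * ρ)) B) :
    Bd M (fun y => (ρ : ℂ) ^ 2 * f (x₀ + ρ • y)) (ball 0 3) (2 ^ M * 1 * B) := by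
  have hρ2 : ‖(ρ : ℂ) ^ 2‖ ≤ 1 := by
    rw [norm_pow, Complex.norm_real, Real.norm_of_nonneg hρ0.le]
    exact pow_le_one₀ hρ0.le hρ1
  have sf : ContDiffOn ℝ ∞ (fun y => f (x₀ + ρ • y)) (ball 0 3) := by
    simpa using (Reg_bd M hO hf hρ0 hU 1).1
  refine Bd.mul isOpen_ball contDiffOn_const sf ((Bd_const M _ _).mono le_rfl le_rfl hρ2)
    fun m hm y hy => ?_
  have h1 := Reg_mem (x₀ := x₀) hρ0 (ball_subset_closedBall hy)
  exact (BdC_scale x₀ hρ0.le hO hf (hU h1) m).trans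
    ((mul_le_of_le_one_left (norm_nonneg _) (pow_le_one₀ hρ0.le hρ1)).trans (hB m hm _ h1))

theorem KI_zero {U : Set (V N)} (hO : IsOpen U) {c : V N → ℂ} (hc : ContDiffOn ℝ ∞ c U)
    {x₀ : V N} {ρ K : ℝ} {M : ℕ} (hρ0 : 0 < ρ) (hρ1 : ρ ≤ 1) (hU : closedBall x₀ (3 * ρ) ⊆ U)
    (hK : Bd M (fun y => (ρ : ℂ) ^ 2 * c (x₀ + ρ • y)) (ball 0 3) K) {k : ℂ} (hk : ‖k‖ ≤ 1) :
    Bd M (fun y => (ρ : ℂ) ^ 2 * (c (x₀ + ρ • y) - k)) (ball 0 3) (K + 1) := by
  have h1 : ‖-((ρ : ℂ) ^ 2 * k)‖ ≤ 1 := by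
    rw [norm_neg, norm_mul, norm_pow, Complex.norm_real, Real.norm_of_nonneg hρ0.le]
    exact mul_le_one₀ (pow_le_one₀ hρ0.le hρ1) (norm_nonneg _) hk
  refine (Bd.add isOpen_ball (Reg_bd M hO hc hρ0 hU _).1 contDiffOn_const hK
    ((Bd_const M _ _).mono le_rfl le_rfl h1)).congr isOpen_ball fun y _ => ?_
  ring

theorem KI_real {U : Set (V N)} (hO : IsOpen U) {a : Fin N → Fin N → V N → ℂ}
    (ha : ∀ p q, ContDiffOn ℝ ∞ (a p q) U) {x₀ : V N} (hx : x₀ ∈ U) {κ : ℝ} (hκ : 0 < κ)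
    (hs : ∀ ξ, κ * ‖ξ‖ ^ 2 ≤ symb (fun p q => a p q x₀) ξ) {u f : I → V N → ℂ} {k : I → ℂ}
    (hk : ∀ i, ‖k i‖ ≤ 1) (hu : ∀ i, ContDiffOn ℝ ∞ (u i) U) (hf : ∀ i, ContDiffOn ℝ ∞ (f i) U)
    {C : ℝ} (h0 : ∀ i, ∀ x ∈ U, ‖u i x‖ ≤ C) (hb : LC f x₀)
    (h : ∀ i, ∀ x ∈ U, ∑ p, ∑ q, a p q x * pd q (pd p (u i)) x - k i * u i x = f i x) :
    LC u x₀ := by
  refine ⟨mem_of_superset (hO.mem_nhds hx) fun x hx i => (hu i).contDiffAt (hO.mem_nhds hx),
    fun j => ?_⟩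
  obtain ⟨M, hM⟩ := ellS N j
  obtain ⟨ε, hε, hK⟩ := hM κ hκ
  choose B hB using hb.2
  have e2 : ∀ᶠ x in 𝓝 x₀, ∀ m ∈ Finset.range (M + 1), ∀ i, ‖iteratedFDeriv ℝ m (f i) x‖ ≤ B m :=
    (eventually_all_finset _).2 fun m _ => hB m
  obtain ⟨δ, hδ, hδU⟩ := nhds_basis_closedBall.mem_iff.1 (inter_mem (hO.mem_nhds hx) e2)
  obtain ⟨ρ, hρa, hρ⟩ := ((eventually_all.2 fun p => eventually_all.2 fun q =>
    KI_small M hO (ha p q) hx hε).and
    (Ioc_mem_nhdsGT (lt_min (by positivity : 0 < δ / 3) one_pos))).exists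
  have hρ0 := hρ.1
  have hρ1 : ρ ≤ 1 := hρ.2.trans (min_le_right _ _)
  have hU' := (closedBall_subset_closedBall (x := x₀)
    (by linarith [hρ.2.trans (min_le_left _ _)] : 3 * ρ ≤ δ)).trans hδU
  have hU : closedBall x₀ (3 * ρ) ⊆ U := fun x hx => (hU' hx).1
  have sb : ∀ p, ContDiffOn ℝ ∞ (fun x => ∑ q, (pd q (a p q) x + pd q (a q p) x)) U := fun p =>
    ContDiffOn.sum fun q _ => (contDiffOn_pd hO (ha p q) q).add (contDiffOn_pd hO (ha q p) q)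
  have sc : ContDiffOn ℝ ∞ (fun x => ∑ p, ∑ q, pd p (pd q (a p q)) x) U :=
    ContDiffOn.sum fun p _ => ContDiffOn.sum fun q _ =>
      contDiffOn_pd hO (contDiffOn_pd hO (ha p q) q) p
  obtain ⟨K, k1, k2, k3⟩ := ((eventually_all.2 fun p => eventually_all.2 fun q =>
      eventually_ge_atTop ‖a p q x₀‖).and
    ((eventually_all.2 fun p => (Reg_bd M hO (sb p) hρ0 hU (ρ : ℂ)).2).and
    (Reg_bd M hO sc hρ0 hU ((ρ : ℂ) ^ 2)).2)).exists
  obtain ⟨C', hC⟩ := hK (K + 1)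
  obtain ⟨B₀, hB0, hB₀⟩ : ∃ B₀ : ℝ, 0 ≤ B₀ ∧ ∀ i, Bd M (f i) (closedBall x₀ (3 * ρ)) B₀ :=
    ⟨∑ m ∈ Finset.range (M + 1), |B m|, Finset.sum_nonneg fun _ _ => abs_nonneg _,
      fun i m hm x hx => ((hU' hx).2 m (Finset.mem_range.2 (by omega)) i).trans
        ((le_abs_self _).trans (Finset.single_le_sum (f := fun m => |B m|)
          (fun _ _ => abs_nonneg _) (Finset.mem_range.2 (by omega))))⟩
  refine ⟨ρ⁻¹ ^ j * (C' * (C * volume.real (ball (0 : V N) 3) + 2 ^ M * 1 * B₀)),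
    mem_of_superset (ball_mem_nhds x₀ hρ0) fun x hxb i => ?_⟩
  have sv : ContDiffOn ℝ ∞ (fun y => u i (x₀ + ρ • y)) (ball 0 3) := by
    simpa using (Reg_bd M hO (hu i) hρ0 hU 1).1
  obtain ⟨hi, hi'⟩ := KI_l1 sv.continuousOn fun y hy =>
    h0 i _ (hU (Reg_mem hρ0 (ball_subset_closedBall hy)))
  have sa : ∀ p q, ContDiffOn ℝ ∞ (fun y => a p q (x₀ + ρ • y)) (ball 0 3) := fun p q => by
    simpa using (Reg_bd M hO (ha p q) hρ0 hU 1).1
  have g0 : Bd M (fun _ : V N => (0 : ℂ)) (ball 0 3) (2 ^ M * 1 * B₀) :=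
    (Bd_const M (0 : ℂ) _).mono le_rfl le_rfl (by
      rw [norm_zero]
      positivity)
  have hK1 : K ≤ K + 1 := by linarith
  have r1 := Reg_weak hρ0 hU (KI_weak hO ha (hu i) (hf i) (h i))
  have r2 := KI_zero hO sc hρ0 hρ1 hU k3 (hk i)
  have r3 := KI_rhs hO (hf i) hρ0 hρ1 hU (hB₀ i)
  have r4 := (Reg_bd M hO (sc.sub (contDiffOn_const (c := k i))) hρ0 hU ((ρ : ℂ) ^ 2)).1
  have r5 := (Reg_bd M hO (hf i) hρ0 hU ((ρ : ℂ) ^ 2)).1
  have r6 := fun p => (Reg_bd M hO (sb p) hρ0 hU (ρ : ℂ)).1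
  have r7 := fun p => (k2 p).mono le_rfl le_rfl hK1
  obtain ⟨w, hw1, hw2, hw3⟩ := hC (fun p q => a p q x₀) _ _ _ _ _ (fun _ _ => 0) _ _ hs
    (fun p q => (k1 p q).trans hK1) sa r6 r4 r5 (fun _ => contDiffOn_const) hρa r7 r2 r3
    (fun _ => g0) hi hi' r1
  exact KI_back hρ0 sv hw1.continuous hw2 hw3 hxb

end Vale.Agent.P299
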