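import Vale.Agent.P299.KB
import Vale.Agent.P292E.Reg
import Vale.Agent.P292E.Ell
import Vale.Agent.P299.KIX1

/-! P299, part K: the interior estimate for families. -/

open MeasureTheory Set Filter Topology Matrix
open scoped ContDiff ENNReal ComplexConjugate ComplexOrder

noncomputable section

namespace Vale.Agent.P299

open Vale.Agent.P271 Vale.Agent.P272

variable {n : ℕ} {I : Type}

section aux
open Vale.Agent.P292E Vale.Agent.P271A
variable {N : ℕ}

theorem KI_comp {E E' F : Type} [NormedAddCommGroup E] [NormedSpace ℝ E] [NormedAddCommGroup E']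
    [NormedSpace ℝ E'] [NormedAddCommGroup F] [NormedSpace ℝ F] (e : E' ≃L[ℝ] E) {w : I → E → F}
    {x₀ : E'} (h : LC w (e x₀)) : LC (fun i x => w i (e x)) x₀ := by
  have ht : Tendsto e (𝓝 x₀) (𝓝 (e x₀)) := e.continuous.continuousAt
  refine ⟨(ht.eventually h.1).mono fun x hx i => (hx i).comp x e.contDiff.contDiffAt, fun j => ?_⟩
  obtain ⟨C, hC⟩ := h.2 j
  refine ⟨C * ∏ _ : Fin j, ‖(e : E' →L[ℝ] E)‖, (ht.eventually hC).mono fun x hx i => ?_⟩
  have h1 := e.iteratedFDerivWithin_comp_right (w i) uniqueDiffOn_univ (mem_univ (e x)) j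
  rw [preimage_univ, iteratedFDerivWithin_univ, iteratedFDerivWithin_univ] at h1
  refine (congrArg norm h1).trans_le
    ((ContinuousMultilinearMap.norm_compContinuousLinearMap_le _ _).trans ?_)
  exact mul_le_mul_of_nonneg_right (hx i) (Finset.prod_nonneg fun _ _ => norm_nonneg _)

theorem KI_smul (a : Fin N → Fin N → ℂ) (t : ℝ) (ξ : V N) :
    symb a (t • ξ) = t ^ 2 * symb a ξ := by
  rw [symb, symb, ← Complex.re_ofReal_mul, Finset.mul_sum]
  refine congrArg _ (Finset.sum_congr rfl fun p _ => ?_)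
  rw [Finset.mul_sum]
  refine Finset.sum_congr rfl fun q _ => ?_
  simp only [PiLp.smul_apply, smul_eq_mul]
  push_cast
  ring

theorem KI_pos {a : Fin N → Fin N → ℂ} (h : ∀ ξ ≠ 0, 0 < symb a ξ) :
    ∃ κ : ℝ, 0 < κ ∧ ∀ ξ, κ * ‖ξ‖ ^ 2 ≤ symb a ξ := by
  have hc : Continuous (symb a) := by
    unfold symb
    fun_prop
  obtain ⟨κ, hκ, hκ'⟩ := (isCompact_sphere (0 : V N) 1).exists_forall_le' hc.continuousOn
    (a := 0) fun ξ hξ => h ξ (by
      rintro rfl
      simp at hξ)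
  refine ⟨κ, hκ, fun ξ => ?_⟩
  rcases eq_or_ne ξ 0 with rfl | h0
  · simp [symb]
  · have h1 := norm_pos_iff.2 h0
    have h2 := hκ' (‖ξ‖⁻¹ • ξ) (by simp [norm_smul, h1.ne'])
    rw [KI_smul, inv_pow, ← div_eq_inv_mul, le_div_iff₀ (by positivity)] at h2
    exact h2

theorem KI_swap {α β : Type} [Fintype α] [Fintype β] (F : α → α → β → β → ℂ) :
    ∑ j, ∑ k, ∑ p, ∑ q, F j k p q = ∑ p, ∑ q, ∑ j, ∑ k, F j k p q :=
  (Finset.sum_congr rfl fun _ _ => Finset.sum_comm).trans (Finset.sum_comm.trans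
    (Finset.sum_congr rfl fun _ _ =>
      (Finset.sum_congr rfl fun _ _ => Finset.sum_comm).trans Finset.sum_comm))

variable (e : Cn n ≃L[ℝ] V N)

theorem KI_pd {w : Cn n → ℝ} {z : Cn n} (hw : ContDiffAt ℝ ∞ w z) (p q : Fin N) :
    pd q (pd p fun y => (w (e.symm y) : ℂ)) (e z) =
      (fderiv ℝ (fderiv ℝ w) z (e.symm (ee q)) (e.symm (ee p)) : ℝ) := by
  have ht : Tendsto e.symm (𝓝 (e z)) (𝓝 z) := by
    simpa using (e.symm.continuous.continuousAt (x := e z)).tendsto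
  have h1 : (pd p fun y => (w (e.symm y) : ℂ)) =ᶠ[𝓝 (e z)]
      fun y => ((fderiv ℝ w (e.symm y) (e.symm (ee p)) : ℝ) : ℂ) := by
    filter_upwards [ht.eventually (Brid_ev hw)] with y hy
    exact congrArg (fun L : V N →L[ℝ] ℂ => L (ee p)) (Complex.ofRealCLM.hasFDerivAt.comp y
      (hy.hasFDerivAt.comp y e.symm.hasFDerivAt)).fderiv
  have h2 : HasFDerivAt (fderiv ℝ w) (fderiv ℝ (fderiv ℝ w) z) (e.symm (e z)) := by
    rw [e.symm_apply_apply]
    exact ((hw.fderiv_right (m := ∞) (by simp)).differentiableAt (by simp)).hasFDerivAt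
  rw [pd, h1.fderiv_eq]
  exact congrArg (fun L : V N →L[ℝ] ℂ => L (ee q)) (Complex.ofRealCLM.hasFDerivAt.comp (e z)
    ((ContinuousLinearMap.apply ℝ ℝ (e.symm (ee p))).hasFDerivAt.comp (e z)
      (h2.comp (e z) e.symm.hasFDerivAt))).fderiv

theorem KI_vec (η : Cn n) : η = ∑ q, e η q • e.symm (ee q) := by
  have h := congrArg e.symm ((EuclideanSpace.basisFun (Fin N) ℝ).sum_repr (e η))
  rw [e.symm_apply_apply, map_sum] at h
  refine h.symm.trans (Finset.sum_congr rfl fun q _ => ?_)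
  rw [map_smul, EuclideanSpace.basisFun_repr, EuclideanSpace.basisFun_apply]
  rfl

theorem KI_exp (D : Cn n →L[ℝ] Cn n →L[ℝ] ℝ) (η ξ : Cn n) :
    D η ξ = ∑ p, ∑ q, e η q * e ξ p * D (e.symm (ee q)) (e.symm (ee p)) := by
  conv_lhs => rw [KI_vec e ξ, map_sum]
  refine Finset.sum_congr rfl fun p _ => ?_
  conv_lhs => rw [KI_vec e η, map_sum, ContinuousLinearMap.sum_apply]
  refine Finset.sum_congr rfl fun q _ => ?_
  simp only [map_smul, ContinuousLinearMap.smul_apply, smul_eq_mul]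
  ring

/-- The coefficients of the Cauchy-Riemann operators. -/
def KI_b (k : Fin n) (p : Fin N) : ℂ :=
  ((e (Pi.single k 1) p : ℝ) + Complex.I * (e (Complex.I • Pi.single k 1) p : ℝ)) / 2

/-- The coefficients of the operator. -/
def KI_a (P : Mx n) (p q : Fin N) : ℂ := ∑ j, ∑ k, P j k * (conj (KI_b e j q) * KI_b e k p)

theorem KI_lev {w : Cn n → ℝ} {z : Cn n} (hw : ContDiffAt ℝ ∞ w z) (j k : Fin n) :
    LM w z k j = ∑ p, ∑ q, conj (KI_b e j q) * KI_b e k p *
      (fderiv ℝ (fderiv ℝ w) z (e.symm (ee q)) (e.symm (ee p)) : ℝ) := by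
  rw [LM, of_apply, Loc_lev hw, KI_exp e _ (Pi.single j 1) (Pi.single k 1),
    KI_exp e _ (Complex.I • Pi.single j 1) (Complex.I • Pi.single k 1),
    KI_exp e _ (Pi.single j 1) (Complex.I • Pi.single k 1),
    KI_exp e _ (Complex.I • Pi.single j 1) (Pi.single k 1)]
  simp only [Complex.ofReal_sum, Complex.ofReal_mul, ← Finset.sum_sub_distrib, Finset.mul_sum,
    ← Finset.sum_add_distrib, Finset.sum_div]
  refine Finset.sum_congr rfl fun p _ => Finset.sum_congr rfl fun q _ => ?_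
  simp only [KI_b, map_div₀, map_add, map_mul, Complex.conj_ofReal, Complex.conj_I, map_ofNat]
  linear_combination ((e (Complex.I • Pi.single j 1) q : ℝ) * (e (Complex.I • Pi.single k 1) p : ℝ) *
    (fderiv ℝ (fderiv ℝ w) z (e.symm (ee q)) (e.symm (ee p)) : ℝ) / 4 : ℂ) * Complex.I_mul_I

theorem KI_tr (P : Mx n) {w : Cn n → ℝ} {z : Cn n} (hw : ContDiffAt ℝ ∞ w z) :
    (((P * LM w z).trace.re : ℝ) : ℂ) = ∑ p, ∑ q, ((KI_a e P p q).re : ℂ) *
      pd q (pd p fun y => (w (e.symm y) : ℂ)) (e z) := by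
  have h1 : (P * LM w z).trace = ∑ p, ∑ q, KI_a e P p q *
      (fderiv ℝ (fderiv ℝ w) z (e.symm (ee q)) (e.symm (ee p)) : ℝ) := by
    simp only [trace, diag_apply, mul_apply, KI_lev e hw, KI_a, Finset.mul_sum, Finset.sum_mul]
    rw [KI_swap]
    simp only [mul_assoc]
  simp only [h1, KI_pd e hw, Complex.re_sum, Complex.re_mul_ofReal, Complex.ofReal_sum,
    Complex.ofReal_mul]

theorem KI_symb {P : Mx n} (hp : P.PosDef) {ξ : V N} (hξ : ξ ≠ 0) :
    0 < symb (fun p q => ((KI_a e P p q).re : ℂ)) ξ := by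
  have h1 : star (fun k => ∑ p, KI_b e k p * ξ p) ⬝ᵥ P *ᵥ (fun k => ∑ p, KI_b e k p * ξ p) =
      ∑ p, ∑ q, KI_a e P p q * (ξ p * ξ q : ℝ) := by
    simp only [dotProduct, mulVec, Pi.star_apply, RCLike.star_def, map_sum, map_mul,
      Complex.conj_ofReal, KI_a, Finset.mul_sum, Finset.sum_mul, Complex.ofReal_mul]
    rw [KI_swap]
    exact Finset.sum_congr rfl fun p _ => Finset.sum_congr rfl fun q _ =>
      Finset.sum_congr rfl fun j _ => Finset.sum_congr rfl fun k _ => by ring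
  have h2 : (fun k => ∑ p, KI_b e k p * ξ p) ≠ 0 := fun h0 => hξ (by
    set L : Cn n →L[ℝ] ℂ := Complex.ofRealCLM ∘L innerSL ℝ ξ ∘L (e : Cn n →L[ℝ] V N) with hL
    have hL' : ∀ η, L η = ((∑ p, e η p * ξ p : ℝ) : ℂ) := fun η => by
      simp [hL, PiLp.inner_apply]
    have h3 : ∀ k, L (Pi.single k 1) = 0 ∧ L (Complex.I • Pi.single k 1) = 0 := fun k => by
      have h4 : ((∑ p, e (Pi.single k 1) p * ξ p : ℝ) : ℂ) +
          (∑ p, e (Complex.I • Pi.single k 1) p * ξ p : ℝ) * Complex.I = 0 := by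
        have h5 := congrArg (2 * ·) (congrFun h0 k)
        simp only [Pi.zero_apply, mul_zero, Finset.mul_sum] at h5
        rw [← h5]
        simp only [Complex.ofReal_sum, Complex.ofReal_mul, Finset.sum_mul,
          ← Finset.sum_add_distrib, KI_b]
        exact Finset.sum_congr rfl fun p _ => by ring
      have h6 := congrArg Complex.re h4
      have h7 := congrArg Complex.im h4
      simp only [Complex.add_re, Complex.ofReal_re, Complex.mul_I_re, Complex.ofReal_im, neg_zero,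
        add_zero, Complex.zero_re, Complex.add_im, Complex.mul_I_im, zero_add,
        Complex.zero_im] at h6 h7
      rw [hL', hL', h6, h7]
      exact ⟨rfl, rfl⟩
    have h8 : L (e.symm ξ) = 0 := by
      rw [Brid_expand (e.symm ξ), map_sum]
      exact Finset.sum_eq_zero fun k _ => by rw [Brid_L_smul, (h3 k).1, (h3 k).2]; simp
    simpa [hL] using h8)
  have h9 := hp.re_dotProduct_pos h2
  rw [h1] at h9
  refine h9.trans_eq ?_
  simp only [symb, mul_assoc, ← Complex.ofReal_mul, RCLike.re_to_complex, Complex.re_sum,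
    Complex.re_mul_ofReal, Complex.ofReal_re]

end aux

open Vale.Agent.P292E in
/-- Pass to real coordinates, rescale around `z₀` as in `P292E.Reg_loc`, write the equation in
the weak form (two integrations by parts) and apply `P292E.ellS`. -/
theorem int_loc {P : Cn n → Mx n} {z₀ : Cn n}
    (hP : ∀ᶠ z in 𝓝 z₀, ∀ j k, ContDiffAt ℝ ∞ (fun y => P y j k) z) (hp : (P z₀).PosDef)
    {w : I → Cn n → ℝ} (hw : ∀ᶠ z in 𝓝 z₀, ∀ i, ContDiffAt ℝ ∞ (w i) z) {C : ℝ}
    (h0 : ∀ᶠ z in 𝓝 z₀, ∀ i, |w i z| ≤ C) {c : I → ℝ} (hc : ∀ i, |c i| ≤ 1)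
    (h : LC (fun i z => (P z * LM (w i) z).trace.re - c i * w i z) z₀) : LC w z₀ := by
  obtain ⟨N, ⟨e⟩⟩ : ∃ N, Nonempty (Cn n ≃L[ℝ] V N) := ⟨_, ⟨toEuclidean⟩⟩
  obtain ⟨t, ht, hto, hz⟩ := eventually_nhds_iff.1 (hP.and (hw.and (h0.and h.1)))
  have hO : IsOpen (e.symm ⁻¹' t) := hto.preimage e.symm.continuous
  have tr : ∀ {g : Cn n → ℝ}, (∀ z ∈ t, ContDiffAt ℝ ∞ g z) →
      ContDiffOn ℝ ∞ (fun y => (g (e.symm y) : ℂ)) (e.symm ⁻¹' t) := fun hg y hy =>
    (Complex.ofRealCLM.contDiff.contDiffAt.comp y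
      ((hg _ hy).comp y e.symm.contDiff.contDiffAt)).contDiffWithinAt
  obtain ⟨κ, hκ, hs⟩ := KI_pos fun ξ hξ => KI_symb e hp (ξ := ξ) hξ
  have h1 : LC (fun i z => (P z * LM (w i) z).trace.re - c i * w i z) (e.symm (e z₀)) := by
    rwa [e.symm_apply_apply]
  have h2 := KI_real hO (a := fun p q y => ((KI_a e (P (e.symm y)) p q).re : ℂ))
    (fun p q => tr (g := fun z => (KI_a e (P z) p q).re) fun z hz =>
      Complex.reCLM.contDiff.contDiffAt.comp z (ContDiffAt.sum fun j _ => ContDiffAt.sum fun k _ =>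
        ((ht z hz).1 j k).mul contDiffAt_const))
    (x₀ := e z₀) (by simpa using hz) hκ (by simpa only [e.symm_apply_apply] using hs)
    (u := fun i y => (w i (e.symm y) : ℂ)) (k := fun i => (c i : ℂ))
    (fun i => by simpa using hc i) (fun i => tr fun z hz => (ht z hz).2.1 i)
    (fun i => tr fun z hz => (ht z hz).2.2.2 i) (C := C)
    (fun i y hy => by simpa using (ht _ hy).2.2.1 i) ((KI_comp e.symm h1).clm Complex.ofRealCLM)
    fun i y hy => by
      have h3 := KI_tr e (P (e.symm y)) ((ht _ hy).2.1 i)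
      rw [e.apply_symm_apply] at h3
      rw [← h3, Complex.ofReal_sub, Complex.ofReal_mul]
  simpa using (KI_comp e h2).clm Complex.reCLM

end Vale.Agent.P299
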