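import Vale.Agent.P299.KB

/-! P299, part K: limits of uniformly bounded families of germs. -/

open MeasureTheory Set Filter Topology Matrix
open scoped ContDiff ENNReal ComplexConjugate ComplexOrder

noncomputable section

namespace Vale.Agent.P299

open Vale.Agent.P271 Vale.Agent.P272

variable {E F : Type} [NormedAddCommGroup E] [NormedSpace ℝ E] [FiniteDimensional ℝ E]
  [NormedAddCommGroup F] [NormedSpace ℝ F] [FiniteDimensional ℝ F] {w : ℕ → E → F} {u : E → F}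
  {z₀ : E}

theorem KL_lip {I E F : Type} [NormedAddCommGroup E] [NormedSpace ℝ E] [NormedAddCommGroup F]
    [NormedSpace ℝ F] {w : I → E → F} {z₀ : E} (h : LC w z₀) : ∃ r C : ℝ, 0 < r ∧
      ∀ i, ∀ x ∈ Metric.ball z₀ r, ∀ y ∈ Metric.ball z₀ r, ‖w i y - w i x‖ ≤ C * ‖y - x‖ := by
  obtain ⟨C, hC⟩ := h.fd.bdd
  obtain ⟨r, hr, hb⟩ := Metric.eventually_nhds_iff_ball.1 (h.1.and hC)
  refine ⟨r, C, hr, fun i x hx y hy => ?_⟩
  exact (convex_ball z₀ r).norm_image_sub_le_of_norm_fderiv_le (𝕜 := ℝ)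
    (fun z hz => ((hb z hz).1 i).differentiableAt (by simp)) (fun z hz => (hb z hz).2 i) hx hy

/-- On a ball the second derivatives are bounded, so the Taylor remainder of order one is
uniformly quadratic; the first derivatives have limits along the ultrafilter (bounded sets in
finite dimension); pass to the limit in the Taylor estimate. -/
theorem LC.lim1 (h : LC w z₀) (hu : ∀ᶠ z in 𝓝 z₀, Tendsto (fun k => w k z) UK (𝓝 (u z))) :
    ∀ᶠ z in 𝓝 z₀, DifferentiableAt ℝ u z ∧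
      Tendsto (fun k => fderiv ℝ (w k) z) UK (𝓝 (fderiv ℝ u z)) := by
  obtain ⟨r, C, hr, hL⟩ := KL_lip h.fd
  obtain ⟨C₀, hC₀⟩ := h.fd.bdd
  have : ProperSpace (E →L[ℝ] F) := FiniteDimensional.proper ℝ _
  filter_upwards [hu.eventually_nhds, h.1.eventually_nhds, hC₀,
    Metric.ball_mem_nhds z₀ hr] with z h1 h2 h3 h4
  obtain ⟨L, -, hl⟩ := (isCompact_closedBall (0 : E →L[ℝ] F) C₀).ultrafilter_le_nhds
    ((hyperfilter ℕ).map fun k => fderiv ℝ (w k) z) (by
      rw [le_principal_iff, Ultrafilter.coe_map, mem_map]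
      exact Eventually.of_forall fun k => by simpa using h3 k)
  have hl' : Tendsto (fun k => fderiv ℝ (w k) z) UK (𝓝 L) := hl
  have hd : HasFDerivAt u L z := by
    refine hasFDerivAt_of_tendstoUniformlyOnFilter (l := UK) (f := w)
      (f' := fun k y => fderiv ℝ (w k) y) (g' := fun _ => L) ?_ ?_ h1
    · rw [Metric.tendstoUniformlyOnFilter_iff]
      intro ε hε
      have t1 : Tendsto (fun q : ℕ × E => ‖fderiv ℝ (w q.1) z - L‖ + C * ‖q.2 - z‖) (UK ×ˢ 𝓝 z)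
          (𝓝 (0 + C * 0)) :=
        ((tendsto_iff_norm_sub_tendsto_zero.1 hl').comp tendsto_fst).add
          (((tendsto_iff_norm_sub_tendsto_zero.1 tendsto_id).comp tendsto_snd).const_mul C)
      have t2 : ∀ᶠ q : ℕ × E in UK ×ˢ 𝓝 z, q.2 ∈ Metric.ball z₀ r :=
        tendsto_snd.eventually (Metric.isOpen_ball.mem_nhds h4)
      filter_upwards [t1.eventually (gt_mem_nhds (by simpa using hε)), t2] with q k1 k2
      have k3 := hL q.1 z h4 q.2 k2
      have k4 := dist_triangle L (fderiv ℝ (w q.1) z) (fderiv ℝ (w q.1) q.2)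
      rw [dist_eq_norm' L (fderiv ℝ (w q.1) z), dist_eq_norm' (fderiv ℝ (w q.1) z)] at k4
      linarith
    · filter_upwards [tendsto_snd.eventually h2] with q hq
      exact ((hq q.1).differentiableAt (by simp)).hasFDerivAt
  exact ⟨hd.differentiableAt, hd.fderiv ▸ hl'⟩

/-- The family is uniformly Lipschitz near `z₀`. -/
theorem LC.lim_mov (h : LC w z₀) {y : F} (hu : Tendsto (fun k => w k z₀) UK (𝓝 y))
    {z : ℕ → E} (hz : Tendsto z UK (𝓝 z₀)) : Tendsto (fun k => w k (z k)) UK (𝓝 y) := by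
  obtain ⟨r, C, hr, hL⟩ := KL_lip h
  have t1 : Tendsto (fun k => C * ‖z k - z₀‖) UK (𝓝 0) := by
    simpa using (tendsto_iff_norm_sub_tendsto_zero.1 hz).const_mul C
  have t2 : Tendsto (fun k => w k (z k) - w k z₀) UK (𝓝 0) := by
    refine squeeze_zero_norm' ?_ t1
    filter_upwards [hz.eventually (Metric.ball_mem_nhds z₀ hr)] with k hk
    exact hL k z₀ (Metric.mem_ball_self hr) _ hk
  simpa using t2.add hu

theorem KL_sm (m : ℕ) : ∀ {F : Type} [NormedAddCommGroup F] [NormedSpace ℝ F]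
    [FiniteDimensional ℝ F] {w : ℕ → E → F} {u : E → F}, LC w z₀ →
    (∀ᶠ z in 𝓝 z₀, Tendsto (fun k => w k z) UK (𝓝 (u z))) → ContDiffAt ℝ m u z₀ := by
  induction m with
  | zero =>
    intro F _ _ _ w u h hu
    exact contDiffAt_zero.2 ⟨_, h.lim1 hu, fun z hz => hz.1.continuousAt.continuousWithinAt⟩
  | succ m ih =>
    intro F _ _ _ w u h hu
    have h1 := h.lim1 hu
    exact contDiffAt_succ_iff_hasFDerivAt.2 ⟨fderiv ℝ u, ⟨_, h1, fun z hz => hz.1.hasFDerivAt⟩,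
      ih h.fd (h1.mono fun z hz => hz.2)⟩

/-- Induction on the order, generalising the target space (`LC.fd`, `LC.lim1`,
`contDiffAt_succ_iff_hasFDerivAt`, `contDiffAt_infty`). -/
theorem LC.lim_sm (h : LC w z₀) (hu : ∀ᶠ z in 𝓝 z₀, Tendsto (fun k => w k z) UK (𝓝 (u z))) :
    ContDiffAt ℝ ∞ u z₀ :=
  contDiffAt_infty.2 fun m => KL_sm m h hu

theorem KL_ev {n : ℕ} {A : ℕ → Cn n →L[ℝ] ℂ} {B : Cn n →L[ℝ] ℂ} (h : Tendsto A UK (𝓝 B))
    (ξ : Cn n) : Tendsto (fun k => A k ξ) UK (𝓝 (B ξ)) :=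
  ((ContinuousLinearMap.apply ℝ ℂ ξ).continuous.tendsto B).comp h

/-- Apply `LC.lim1` twice. -/
theorem LC.lim_lm {n : ℕ} {w : ℕ → Cn n → ℝ} {u : Cn n → ℝ} {z₀ : Cn n} (h : LC w z₀)
    (hu : ∀ᶠ z in 𝓝 z₀, Tendsto (fun k => w k z) UK (𝓝 (u z))) (j l : Fin n) :
    Tendsto (fun k => LM (w k) z₀ j l) UK (𝓝 (LM u z₀ j l)) := by
  have a1 : LC (fun k z => (w k z : ℂ)) z₀ := h.clm Complex.ofRealCLM
  have a2 : ∀ᶠ z in 𝓝 z₀, Tendsto (fun k => (w k z : ℂ)) UK (𝓝 (u z : ℂ)) :=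
    hu.mono fun z hz => (Complex.continuous_ofReal.tendsto _).comp hz
  have a3 := a1.lim1 (u := fun z => (u z : ℂ)) a2
  have b1 : LC (fun k => dzb (Pi.single j 1) fun z => (w k z : ℂ)) z₀ := h.db j
  have b2 : ∀ᶠ z in 𝓝 z₀, Tendsto (fun k => dzb (Pi.single j 1) (fun z => (w k z : ℂ)) z) UK
      (𝓝 (dzb (Pi.single j 1) (fun z => (u z : ℂ)) z)) :=
    a3.mono fun z hz => ((KL_ev hz.2 _).add ((KL_ev hz.2 _).const_mul _)).div_const _
  have b3 := (b1.lim1 b2).self_of_nhds.2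
  exact ((KL_ev b3 _).sub ((KL_ev b3 _).const_mul _)).div_const _

end Vale.Agent.P299
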