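import Vale.Agent.P299.KA
import Vale.Agent.P299.KI
import Vale.Agent.P299.KL

/-! P299, part K: bounded families on the cover. -/

open MeasureTheory Set Filter Topology Matrix
open scoped ContDiff ENNReal ComplexConjugate ComplexOrder

noncomputable section

namespace Vale.Agent.P299

open Vale.Agent.P271 Vale.Agent.P272

variable {n : ℕ} {X : Type} [TopologicalSpace X] {V : Type} [TopologicalSpace V] {π : V → X}
  {A : Atl n X} {η : Frm A} {lh : IsLocalHomeomorph π} {f g : V → ℝ} {a : A.ι} {m : V}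
  {I : Type} {w v : I → V → ℝ}

theorem LB.sm (h : LB A lh w) (i : I) : SmV A lh (w i) :=
  fun a m hm => (h a m hm).1.self_of_nhds i

theorem LB.lb0 (h : LB A lh w) : LB0 w := fun m => by
  obtain ⟨a, ha⟩ := A.cover (π m)
  obtain ⟨C, hC⟩ := (h a m ha).bdd
  have h1 : ContinuousAt (fun x => A.e a (π x)) m :=
    ContinuousAt.comp (g := A.e a) ((A.e a).continuousAt ha) lh.continuous.continuousAt
  refine ⟨C, ?_⟩
  filter_upwards [h1.eventually hC, lc_near' lh ha] with x h2 h3 i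
  have h4 := h2 i
  rwa [(h3.2 (w i)).self_of_nhds, lc_self (w i) h3.1, Real.norm_eq_abs] at h4

theorem LB.idx (h : LB A lh w) {J : Type} (σ : J → I) : LB A lh fun j => w (σ j) :=
  fun a m hm => (h a m hm).idx σ

theorem lb_const {c : I → ℝ} {C : ℝ} (h : ∀ i, |c i| ≤ C) : LB A lh fun i (_ : V) => c i :=
  fun _ _ _ => lc_const (c := c) (C := C) h _

theorem LB.add (h : LB A lh w) (h' : LB A lh v) : LB A lh fun i x => w i x + v i x :=
  fun a m hm => (h a m hm).add (h' a m hm)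

theorem LB.mul (h : LB A lh w) (h' : LB A lh v) : LB A lh fun i x => w i x * v i x :=
  fun a m hm => (h a m hm).mul (h' a m hm)

theorem LB0.cpt (h : LB0 w) {K : Set V} (hK : IsCompact K) :
    ∃ C, ∀ i, ∀ x ∈ K, |w i x| ≤ C := by
  refine hK.induction_on (p := fun s => ∃ C, ∀ i, ∀ x ∈ s, |w i x| ≤ C)
    ⟨0, fun _ _ hx => hx.elim⟩ (fun s t hst ⟨C, hC⟩ => ⟨C, fun i x hx => hC i x (hst hx)⟩)
    (fun s t ⟨C, hC⟩ ⟨D, hD⟩ => ⟨max C D, fun i x hx => hx.elim
      (fun h1 => (hC i x h1).trans (le_max_left _ _))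
      (fun h1 => (hD i x h1).trans (le_max_right _ _))⟩) fun x _ => ?_
  obtain ⟨C, hC⟩ := h x
  exact ⟨_, mem_nhdsWithin_of_mem_nhds hC, C, fun i y hy => hy i⟩

/-- The chart expression of the Laplacian, for all smooth functions at once. -/
theorem lc_lap (hη : Kae A η) (lh : IsLocalHomeomorph π) (hm : π m ∈ (A.e a).source) :
    ∀ᶠ z in 𝓝 (A.e a (π m)), ∀ f, SmV A lh f → lc A lh (LapV A η lh f) a m z =
      ((LM (η a) z)⁻¹ * LM (lc A lh f a m) z).trace.re := by
  filter_upwards [lc_right lh hm, (lc_tend lh hm).eventually (lc_near' lh hm)] with z h1 h2 f hf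
  have h3 := lapV_eq hf hη h2.1
  rw [← LM_congr (h2.2 f), h1.2.2.2] at h3
  exact h3

theorem KC_inv (hη : Kae A η) {p : X} (hp : p ∈ (A.e a).source) : ∀ᶠ z in 𝓝 (A.e a p),
    ∀ j k, ContDiffAt ℝ ∞ (fun y => (LM (η a) y)⁻¹ j k) z := by
  filter_upwards [(A.e a).open_target.mem_nhds ((A.e a).map_source hp)] with z hz
  exact ApiA_inv (contDiffAt_LM (hη.1.smAt hz)) (hη.2 _ _ hz).det_pos.ne'

theorem LB.lap (h : LB A lh w) (hη : Kae A η) : LB A lh fun i => LapV A η lh (w i) :=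
  fun a m hm => ((h a m hm).tr (KC_inv hη hm)).congr
    ((lc_lap hη lh hm).mono fun _ hz i => hz _ (h.sm i))

theorem intV (hη : Kae A η) (hw : ∀ i, SmV A lh (w i)) (h0 : LB0 w) {c : I → ℝ}
    (hc : ∀ i, |c i| ≤ 1) (h : LB A lh fun i x => LapV A η lh (w i) x - c i * w i x) :
    LB A lh w := fun a m hm => by
  obtain ⟨C, hC⟩ := h0 m
  refine int_loc (C := C) (KC_inv hη hm) (hη.2 _ _ ((A.e a).map_source hm)).inv ?_
    ((lc_tend lh hm).eventually hC) hc ((h a m hm).congr ?_)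
  · filter_upwards [lc_right lh hm, (lc_tend lh hm).eventually (lc_near' lh hm)] with z h1 h2 i
    have h3 := (hw i a _ h2.1).congr_of_eventuallyEq (h2.2 (w i))
    rwa [h1.2.2.2] at h3
  · filter_upwards [lc_lap hη lh hm] with z hz i
    rw [← hz _ (hw i)]
    rfl

theorem limV (hη : Kae A η) {w : ℕ → V → ℝ} (h : LB A lh w) : ∃ u, SmV A lh u ∧
    (∀ m, Tendsto (fun k => LapV A η lh (w k) m) UK (𝓝 (LapV A η lh u m))) ∧ Cv1 A lh w u := by
  have _ := hη
  have h1 : ∀ m, ∃ y, Tendsto (fun k => w k m) UK (𝓝 y) := fun m => by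
    obtain ⟨C, hC⟩ := h.lb0 m
    obtain ⟨y, -, hy⟩ := (isCompact_Icc (a := -C) (b := C)).ultrafilter_le_nhds
      ((hyperfilter ℕ).map fun k => w k m) (le_principal_iff.2 (mem_map.2
        (Eventually.of_forall fun k => abs_le.1 (hC.self_of_nhds k))))
    exact ⟨y, hy⟩
  choose u hu using h1
  have h2 : ∀ a m, ∀ᶠ z in 𝓝 (A.e a (π m)),
      Tendsto (fun k => lc A lh (w k) a m z) UK (𝓝 (lc A lh u a m z)) :=
    fun a m => Eventually.of_forall fun z => hu _
  refine ⟨u, fun a m hm => (h a m hm).lim_sm (h2 a m), fun m => ?_, fun a m hm z hz =>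
    (h a m hm).fd.lim_mov ((h a m hm).lim1 (h2 a m)).self_of_nhds.2 hz⟩
  simp only [lapV_def, trace, diag_apply, mul_apply]
  exact (Complex.continuous_re.tendsto _).comp (tendsto_finsetSum _ fun i _ =>
    tendsto_finsetSum _ fun j _ =>
      ((h _ m (ch_mem A (π m))).lim_lm (h2 _ m) j i).const_mul _)

end Vale.Agent.P299
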