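import Vale.Agent.P299.KA
import Vale.Agent.P299.KB
import Vale.Agent.P299.Fock

/-! P299, part K: the projected gradient. -/

open MeasureTheory Set Filter Topology Matrix
open scoped ContDiff ENNReal ComplexConjugate ComplexOrder

noncomputable section

namespace Vale.Agent.P299

open Vale.Agent.P271 Vale.Agent.P272

variable {n : ℕ} {X : Type} [TopologicalSpace X] {V : Type} [TopologicalSpace V] {π : V → X}
  {A : Atl n X} {η : Frm A} {lh : IsLocalHomeomorph π} {f g : V → ℝ} {a : A.ι} {m : V}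
  {Q : EF A}

theorem he_one (hη : Kae A η) : HE A η fun _ _ => 1 := by
  refine ⟨fun _ _ _ => analyticOnNhd_const, fun _ _ _ _ => ?_, fun a z hz => ?_⟩
  · rw [Matrix.mul_one, Matrix.one_mul]
  · rw [Matrix.mul_one]
    exact (hη.2 a z hz).1

theorem HE.one_sub (hQ : HE A η Q) (hη : Kae A η) : HE A η fun a z => 1 - Q a z := by
  refine ⟨fun a i j => analyticOnNhd_const.sub (hQ.hol a i j), fun a b z hz => ?_,
    fun a z hz => ?_⟩
  · rw [Matrix.mul_sub, Matrix.sub_mul, hQ.compat a b z hz, Matrix.mul_one, Matrix.one_mul]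
  · rw [Matrix.mul_sub, Matrix.mul_one]
    exact (hη.2 a z hz).1.sub (hQ.herm a z hz)

/-- `dbK φ z j = (fderiv φ z e_j + I * fderiv φ z (I • e_j)) / 2`. -/
theorem dbK_eq {φ : Cn n → ℝ} {z : Cn n} (h : DifferentiableAt ℝ φ z) (j : Fin n) :
    dbK φ z j = ((fderiv ℝ φ z (Pi.single j 1) : ℝ) +
      Complex.I * (fderiv ℝ φ z (Complex.I • Pi.single j 1) : ℝ)) / 2 := by
  rw [dbK, dzb, Loc_fderiv_ofReal h, Loc_fderiv_ofReal h]

theorem dbK_congr {φ ψ : Cn n → ℝ} {z : Cn n} (h : φ =ᶠ[𝓝 z] ψ) : dbK φ z = dbK ψ z := by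
  exact funext fun j => P271A.dzb_congr (h.mono fun w hw => congrArg _ hw)

theorem KD_dzb (φ : Cn n → ℝ) (z v : Cn n) :
    dzb v (fun w => (φ w : ℂ)) z = star v ⬝ᵥ dbK φ z := by
  rw [P271A.dzb_eq_sum]
  exact Finset.sum_congr rfl fun j _ => by rw [P271A.Brid_bv, mul_comm]; rfl

/-- The real differential in terms of `dbK`. -/
theorem fderiv_dbK {φ : Cn n → ℝ} {z : Cn n} (h : DifferentiableAt ℝ φ z) (v : Cn n) :
    fderiv ℝ φ z v = 2 * (star v ⬝ᵥ dbK φ z).re := by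
  rw [← KD_dzb, dzb, Loc_fderiv_ofReal h, Loc_fderiv_ofReal h]
  simp
  ring

theorem dbK_comp {φ : Cn n → ℝ} {S : Cn n → Cn n} {z : Cn n} (h : DifferentiableAt ℝ φ (S z))
    (hS : AnalyticAt ℂ S z) : dbK (fun y => φ (S y)) z = (DM S z)ᴴ *ᵥ dbK φ (S z) := by
  funext j
  rw [dbK, P271A.dzb_comp_hol (F := fun w => (φ w : ℂ))
    (Complex.ofRealCLM.differentiableAt.comp _ h) hS.differentiableAt, KD_dzb]
  rfl

theorem gr_compat (hη : Kae A η) (hQ : HE A η Q) (hf : SmV A lh f) {b : A.ι}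
    (ha : π m ∈ (A.e a).source) (hb : π m ∈ (A.e b).source) :
    grV A η Q lh f b m = DM (A.tr a b) (A.e a (π m)) *ᵥ grV A η Q lh f a m := by
  obtain ⟨h1, h2⟩ := KA_ov ha hb
  have h3 : IsUnit (DM (A.tr a b) (A.e a (π m))).det := by
    rw [DM_det]
    exact (A.det_tr_ne a b h1).isUnit
  have h4 : IsUnit (DM (A.tr a b) (A.e a (π m)))ᴴ.det := by
    rw [det_conjTranspose]
    exact h3.star
  have h5 := (hf b m hb).differentiableAt (by simp)
  rw [← h2] at h5
  rw [grV, grV, dbK_congr (lc_tr f ha hb), dbK_comp h5 (A.analyticOnNhd_tr a b _ h1),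
    hη.1.compat a b _ h1, mulVec_mulVec, mulVec_mulVec, ← Matrix.mul_assoc, hQ.compat a b _ h1, h2,
    Matrix.mul_inv_rev, Matrix.mul_inv_rev]
  simp only [Matrix.mul_assoc, mul_nonsing_inv_cancel_left _ _ h3, nonsing_inv_mul _ h4,
    Matrix.mul_one]

theorem KD_conj (G T : Mx n) (v : Cn n) : q2 (Tᴴ * G * T) v = q2 G (T *ᵥ v) := by
  rw [q2, q2, star_mulVec, ← dotProduct_mulVec, mulVec_mulVec, mulVec_mulVec]

theorem gn_chart (hη : Kae A η) (hQ : HE A η Q) (hf : SmV A lh f) (ha : π m ∈ (A.e a).source) :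
    gnV A η Q lh f m = q2 (LM (η a) (A.e a (π m))) (grV A η Q lh f a m) := by
  rw [gnV, gr_compat hη hQ hf ha (ch_mem A (π m)), ApiA_rep hη.1 ha, KD_conj]

theorem gr_near (η : Frm A) (Q : EF A) (lh : IsLocalHomeomorph π) (hm : π m ∈ (A.e a).source) :
    ∀ᶠ z in 𝓝 (A.e a (π m)), ∀ f, grV A η Q lh f a (lf lh m ((A.e a).symm z)) =
      (Q a z * (LM (η a) z)⁻¹) *ᵥ dbK (lc A lh f a m) z := by
  filter_upwards [lc_right lh hm, (lc_tend lh hm).eventually (lc_near' lh hm)] with z h1 h2 f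
  rw [grV, ← dbK_congr (h2.2 f), h1.2.2.2]

theorem lc_gn (hη : Kae A η) (hQ : HE A η Q) (lh : IsLocalHomeomorph π)
    (hm : π m ∈ (A.e a).source) : ∀ᶠ z in 𝓝 (A.e a (π m)), ∀ f, SmV A lh f →
      lc A lh (gnV A η Q lh f) a m z =
        q2 (LM (η a) z) ((Q a z * (LM (η a) z)⁻¹) *ᵥ dbK (lc A lh f a m) z) := by
  filter_upwards [lc_right lh hm, gr_near η Q lh hm] with z h1 h2 f hf
  rw [lc, gn_chart hη hQ hf h1.2.2.1, h2, h1.2.2.2]

theorem gn_nonneg (hη : Kae A η) (Q : EF A) (f : V → ℝ) (m : V) : 0 ≤ gnV A η Q lh f m := by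
  exact (Complex.nonneg_iff.1
    ((hη.2 _ _ (ApiA_ch A (π m))).posSemidef.dotProduct_mulVec_nonneg _)).1

theorem gn_sub (hf : SmV A lh f) (c : ℝ) (m : V) :
    gnV A η Q lh (fun x => f x - c) m = gnV A η Q lh f m := by
  have h := (hf _ m (ch_mem A (π m))).differentiableAt (by simp)
  have h1 : dbK (lc A lh (fun x => f x - c) (ch A (π m)) m) (A.e (ch A (π m)) (π m)) =
      dbK (lc A lh f (ch A (π m)) m) (A.e (ch A (π m)) (π m)) := by
    funext j
    rw [dbK_eq h, ← fderiv_sub_const c]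
    exact dbK_eq (h.sub_const c) j
  rw [gnV, gnV, grV, grV, h1]

theorem gn_smul {Γ : Type} [Group Γ] [MulAction Γ V] (tp : Top Γ π) (γ : Γ) (f : V → ℝ) (m : V) :
    gnV A η Q lh (fun x => f (γ • x)) m = gnV A η Q lh f (γ • m) := by
  rw [gnV, gnV, grV, grV, tp.pi_smul, dbK_congr (lc_smul tp γ f (ch_mem A (π m)))]

theorem KD_mul {M N : Cn n → Mx n} {z : Cn n} (hM : ∀ j k, ContDiffAt ℝ ∞ (fun y => M y j k) z)
    (hN : ∀ j k, ContDiffAt ℝ ∞ (fun y => N y j k) z) (j k : Fin n) :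
    ContDiffAt ℝ ∞ (fun y => (M y * N y) j k) z := by
  simp only [mul_apply]
  exact ContDiffAt.sum fun l _ => (hM j l).mul (hN l k)

theorem KD_sm (hη : Kae A η) (hQ : HE A η Q) {z : Cn n} (hz : z ∈ (A.e a).target) (j k : Fin n) :
    ContDiffAt ℝ ∞ (fun y => ((Q a y * (LM (η a) y)⁻¹)ᴴ * LM (η a) y *
      (Q a y * (LM (η a) y)⁻¹)) j k) z := by
  have h1 := contDiffAt_LM (hη.1.smAt hz)
  have h2 := KD_mul (fun j k => ((hQ.hol a j k z hz).contDiffAt (n := ∞)).restrict_scalars ℝ)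
    (ApiA_inv h1 (hη.2 a z hz).det_pos.ne')
  exact KD_mul (KD_mul (fun j k => Complex.conjCLE.contDiff.contDiffAt.comp z (h2 k j)) h1) h2 j k

theorem KD_q2 (N : Mx n) (d : Cn n) : q2 N d = (∑ j, ∑ k, conj (d j) * (N j k * d k)).re := by
  simp only [q2, dotProduct, mulVec, Finset.mul_sum, Pi.star_apply, Complex.star_def]

/-- Expand `q2`, the products and use the calculus of `LC`. -/
theorem LB.gn (hη : Kae A η) (hQ : HE A η Q) {I : Type} {w : I → V → ℝ} (h : LB A lh w) :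
    LB A lh fun i => gnV A η Q lh (w i) := by
  intro a m hm
  have hs : ∀ i, SmV A lh (w i) := fun i b x hx => (h b x hx).1.self_of_nhds i
  have hd := (h a m hm).db
  have hN := fun j k => lc_single I (Filter.mem_of_superset
    ((A.e a).open_target.mem_nhds ((A.e a).map_source hm)) fun z hz => KD_sm hη hQ hz j k)
  refine ((LC.sum Finset.univ fun j _ => LC.sum Finset.univ fun k _ =>
    ((hd j).clm (Complex.conjCLE : ℂ →L[ℝ] ℂ)).mulC ((hN j k).mulC (hd k))).clm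
      Complex.reCLM).congr ?_
  filter_upwards [lc_gn hη hQ lh hm] with z hz i
  rw [hz _ (hs i), ← KD_conj, KD_q2]
  rfl

theorem SmV.gn (hη : Kae A η) (hQ : HE A η Q) (hf : SmV A lh f) :
    SmV A lh (gnV A η Q lh f) := by
  have h : LB A lh fun _ : Unit => f := fun a m hm => lc_single Unit (hf.ev hm)
  exact fun a m hm => (h.gn hη hQ a m hm).1.self_of_nhds ()

/-- With `z k = A.e a (π (x k))`, eventually `x k = lf lh m ((A.e a).symm (z k))`; use `lc_gn`,
`dbK_eq` and continuity. -/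
theorem gn_lim (hη : Kae A η) (hQ : HE A η Q) {w : ℕ → V → ℝ} {u : V → ℝ}
    (hw : ∀ k, SmV A lh (w k)) (hu : SmV A lh u) (h : Cv1 A lh w u) {x : ℕ → V}
    (hx : Tendsto x UK (𝓝 m)) :
    Tendsto (fun k => gnV A η Q lh (w k) (x k)) UK (𝓝 (gnV A η Q lh u m)) := by
  obtain ⟨a, hm⟩ := A.cover (π m)
  have hz : Tendsto (fun k => A.e a (π (x k))) UK (𝓝 (A.e a (π m))) :=
    ((A.e a).continuousAt hm).tendsto.comp ((lh.continuous.tendsto m).comp hx)
  have h1 := h a m hm _ hz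
  have h2 : ∀ v, Tendsto (fun k => ((fderiv ℝ (lc A lh (w k) a m) (A.e a (π (x k))) v : ℝ) : ℂ)) UK
      (𝓝 (fderiv ℝ (lc A lh u a m) (A.e a (π m)) v : ℝ)) := fun v =>
    (Complex.continuous_ofReal.tendsto _).comp
      (((ContinuousLinearMap.apply ℝ ℝ v).continuous.tendsto _).comp h1)
  have hd : ∀ j, Tendsto (fun k => dbK (lc A lh (w k) a m) (A.e a (π (x k))) j) UK
      (𝓝 (dbK (lc A lh u a m) (A.e a (π m)) j)) := fun j => by
    rw [dbK_eq ((hu a m hm).differentiableAt (by simp))]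
    refine (((h2 _).add ((h2 _).const_mul _)).div_const 2).congr' ?_
    filter_upwards [hx.eventually (lc_near' lh hm)] with k hk
    exact (dbK_eq (((hw k a _ hk.1).congr_of_eventuallyEq (hk.2 _)).differentiableAt
      (by simp)) j).symm
  have hN := fun j k => (KD_sm hη hQ ((A.e a).map_source hm) j k).continuousAt.tendsto.comp hz
  rw [gn_chart hη hQ hu hm, grV, ← KD_conj, KD_q2]
  refine ((Complex.continuous_re.tendsto _).comp (tendsto_finsetSum _ fun j _ =>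
    tendsto_finsetSum _ fun k _ => ((Complex.continuous_conj.tendsto _).comp (hd j)).mul
      ((hN j k).mul (hd k)))).congr' ?_
  filter_upwards [hx.eventually (lc_near' lh hm)] with k hk
  rw [gn_chart hη hQ (hw k) hk.1, grV, ← KD_conj, KD_q2, ← dbK_congr (hk.2 _)]
  rfl

/-- Cauchy-Schwarz. -/
theorem fderiv_gn (hη : Kae A η) (hQ : HE A η Q) (hf : SmV A lh f) (ha : π m ∈ (A.e a).source)
    (v : Cn n) : |fderiv ℝ (lc A lh f a m) (A.e a (π m)) (Q a (A.e a (π m)) *ᵥ v)| ≤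
      2 * √(gnV A η Q lh f m) * √(q2 (LM (η a) (A.e a (π m))) v) := by
  have ht := (A.e a).map_source ha
  have hG := hη.2 a _ ht
  have hu := (isUnit_iff_isUnit_det _).1 hG.isUnit
  have h1 := (hQ.herm a _ ht).eq
  rw [conjTranspose_mul, hG.1.eq] at h1
  rw [fderiv_dbK ((hf a m ha).differentiableAt (by simp)), gn_chart hη hQ hf ha, grV]
  generalize LM (η a) (A.e a (π m)) = G at *
  generalize Q a (A.e a (π m)) = P at *
  generalize dbK (lc A lh f a m) (A.e a (π m)) = d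
  have h2 : Pᴴ *ᵥ d = G *ᵥ (P * G⁻¹) *ᵥ d := by
    rw [mulVec_mulVec, ← Matrix.mul_assoc, ← h1, mul_nonsing_inv_cancel_right _ _ hu]
  rw [star_mulVec, ← dotProduct_mulVec, h2]
  generalize (P * G⁻¹) *ᵥ d = y
  have h3 : q2 G⁻¹ (G *ᵥ y) = q2 G y := by
    rw [← KD_conj, hG.1.eq, mul_nonsing_inv _ hu, Matrix.one_mul]
  obtain ⟨h4, h5⟩ := (q2_inv_le hG (G *ᵥ y)).1 h3.le
  have h6 : ‖star v ⬝ᵥ G *ᵥ y‖ ≤ √(q2 G y * q2 G v) := by
    rw [← norm_star, ← star_dotProduct_star, star_star, dotProduct_comm]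
    rw [← dotProduct_comm]
    exact Real.le_sqrt_of_sq_le (h5 v)
  rw [abs_mul, abs_two, mul_assoc, ← Real.sqrt_mul h4]
  exact mul_le_mul_of_nonneg_left ((Complex.abs_re_le_norm _).trans h6) zero_le_two

theorem lp_of_gn (hη : Kae A η) (hf : SmV A lh f) {s : ℝ}
    (h : ∀ m, gnV A η (fun _ _ => 1) lh f m ≤ s) : Lp A η lh (2 * √s) f := by
  refine fun a m ha => ⟨(hf a m ha).differentiableAt (by simp), fun v => ?_⟩
  have h1 := fderiv_gn hη (he_one hη) hf ha v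
  rw [one_mulVec] at h1
  refine h1.trans ?_
  gcongr
  exact h m

end Vale.Agent.P299
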