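import Vale.Agent.P299.PartB

/-! P299, part K: functions on a covering space. -/

open MeasureTheory Set Filter Topology Matrix
open scoped ContDiff ENNReal ComplexConjugate ComplexOrder

noncomputable section

namespace Vale.Agent.P299

open Vale.Agent.P271 Vale.Agent.P272

variable {n : ℕ} {X : Type} [TopologicalSpace X] {V : Type} [TopologicalSpace V] {π : V → X}

/-- The expression near `m` of a function on the cover in the chart `a`. -/
def lc (A : Atl n X) (lh : IsLocalHomeomorph π) (f : V → ℝ) (a : A.ι) (m : V) : Cn n → ℝ :=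
  fun z => f (lf lh m ((A.e a).symm z))

/-- Smooth functions on the cover. -/
def SmV (A : Atl n X) (lh : IsLocalHomeomorph π) (f : V → ℝ) : Prop :=
  ∀ a m, π m ∈ (A.e a).source → ContDiffAt ℝ ∞ (lc A lh f a m) (A.e a (π m))

/-- The Laplacian on the cover. -/
def LapV (A : Atl n X) (η : Frm A) (lh : IsLocalHomeomorph π) (f : V → ℝ) (m : V) : ℝ :=
  trF A η (ddc A fun p => f (lf lh m p)) (π m)

/-- The antiholomorphic differential. -/
def dbK (f : Cn n → ℝ) (z : Cn n) : Cn n :=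
  fun j => dzb (Pi.single j 1) (fun w => (f w : ℂ)) z

/-- The projected gradient in the chart `a`. -/
def grV (A : Atl n X) (η : Frm A) (Q : EF A) (lh : IsLocalHomeomorph π) (f : V → ℝ) (a : A.ι)
    (m : V) : Cn n :=
  (Q a (A.e a (π m)) * (LM (η a) (A.e a (π m)))⁻¹) *ᵥ dbK (lc A lh f a m) (A.e a (π m))

/-- The squared length of the projected gradient. -/
def gnV (A : Atl n X) (η : Frm A) (Q : EF A) (lh : IsLocalHomeomorph π) (f : V → ℝ) (m : V) : ℝ :=
  q2 (GM A η (π m)) (grV A η Q lh f (ch A (π m)) m)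

/-- Proper functions. -/
def Prp (F : V → ℝ) : Prop := ∀ R : ℝ, ∃ K, IsCompact K ∧ ∀ m, F m ≤ R → m ∈ K

/-- Differentiable functions with differential bounded by `s`. -/
def Lp (A : Atl n X) (η : Frm A) (lh : IsLocalHomeomorph π) (s : ℝ) (φ : V → ℝ) : Prop :=
  ∀ a m, π m ∈ (A.e a).source → DifferentiableAt ℝ (lc A lh φ a m) (A.e a (π m)) ∧
    ∀ v, |fderiv ℝ (lc A lh φ a m) (A.e a (π m)) v| ≤ s * √(q2 (LM (η a) (A.e a (π m))) v)

/-- Symmetric subadditive proper length functions. -/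
structure Len {Γ : Type} [Group Γ] (l : Γ → ℝ) : Prop where
  nn : ∀ γ, 0 ≤ l γ
  sub : ∀ γ δ, l (γ * δ) ≤ l γ + l δ
  inv : ∀ γ, l γ⁻¹ = l γ
  fin : ∀ R : ℝ, {γ | l γ ≤ R}.Finite

/-- A free ultrafilter. -/
abbrev UK : Filter ℕ := (hyperfilter ℕ : Ultrafilter ℕ)

/-- Families of germs that are smooth on a common neighbourhood, with uniformly bounded
derivatives. -/
def LC {I E F : Type} [NormedAddCommGroup E] [NormedSpace ℝ E] [NormedAddCommGroup F]
    [NormedSpace ℝ F] (w : I → E → F) (z₀ : E) : Prop :=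
  (∀ᶠ z in 𝓝 z₀, ∀ i, ContDiffAt ℝ ∞ (w i) z) ∧
    ∀ j : ℕ, ∃ C : ℝ, ∀ᶠ z in 𝓝 z₀, ∀ i, ‖iteratedFDeriv ℝ j (w i) z‖ ≤ C

/-- Locally uniformly bounded families. -/
def LB0 {I : Type} (w : I → V → ℝ) : Prop := ∀ m, ∃ C : ℝ, ∀ᶠ x in 𝓝 m, ∀ i, |w i x| ≤ C

/-- Families of smooth functions with locally uniformly bounded derivatives. -/
def LB (A : Atl n X) (lh : IsLocalHomeomorph π) {I : Type} (w : I → V → ℝ) : Prop :=
  ∀ a m, π m ∈ (A.e a).source → LC (fun i => lc A lh (w i) a m) (A.e a (π m))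

/-- Convergence of the differentials at moving points. -/
def Cv1 (A : Atl n X) (lh : IsLocalHomeomorph π) (w : ℕ → V → ℝ) (u : V → ℝ) : Prop :=
  ∀ a m, π m ∈ (A.e a).source → ∀ z : ℕ → Cn n, Tendsto z UK (𝓝 (A.e a (π m))) →
    Tendsto (fun k => fderiv ℝ (lc A lh (w k) a m) (z k)) UK
      (𝓝 (fderiv ℝ (lc A lh u a m) (A.e a (π m))))

end Vale.Agent.P299
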