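import Vale.Agent.P299.KDefs

/-! P299, part K: word length. -/

open MeasureTheory Set Filter Topology Matrix
open scoped ContDiff ENNReal ComplexConjugate ComplexOrder

noncomputable section

namespace Vale.Agent.P299

open Vale.Agent.P271 Vale.Agent.P272

theorem KE_inv {Γ : Type} [Group Γ] {T : Set Γ} (hT : ∀ t ∈ T, t⁻¹ ∈ T) (w : List Γ)
    (hw : ∀ y ∈ w, y ∈ T) :
    ∃ v : List Γ, (∀ y ∈ v, y ∈ T) ∧ v.prod = w.prod⁻¹ ∧ v.length = w.length := by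
  refine ⟨(w.map fun x => x⁻¹).reverse, ?_, (List.prod_inv_reverse w).symm, by simp⟩
  intro y hy
  rw [List.mem_reverse, List.mem_map] at hy
  obtain ⟨x, hx, rfl⟩ := hy
  exact hT x (hw x hx)

theorem KE_lip {Γ : Type} [Group Γ] {T : Set Γ} (φ : Γ → ℝ) (L : ℝ)
    (hφ : ∀ γ, ∀ t ∈ T, |φ (γ * t) - φ γ| ≤ L) (w : List Γ) (hw : ∀ y ∈ w, y ∈ T) (g : Γ) :
    |φ (g * w.prod) - φ g| ≤ L * (w.length : ℝ) := by
  induction w generalizing g with
  | nil => simp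
  | cons a w ih =>
    have h1 := ih (fun y hy => hw y (List.mem_cons_of_mem a hy)) (g * a)
    have h2 := hφ g a (hw a List.mem_cons_self)
    rw [List.prod_cons, ← mul_assoc, List.length_cons]
    push_cast
    have h3 := abs_sub_le (φ (g * a * w.prod)) (φ (g * a)) (φ g)
    linarith

theorem KE_fin {Γ : Type} {T : Set Γ} (hT : T.Finite) (n : ℕ) :
    {w : List Γ | (∀ y ∈ w, y ∈ T) ∧ w.length ≤ n}.Finite := by
  haveI : Finite T := hT
  refine ((List.finite_length_le T n).image (fun v : List T => v.map Subtype.val)).subset ?_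
  rintro w ⟨hw, hn⟩
  refine ⟨w.attach.map fun x => (⟨x.1, hw x.1 x.2⟩ : T), by simpa using hn, ?_⟩
  simp [List.map_map, Function.comp_def]

/-- Word length with respect to a finite generating set: `l γ` is the least length of a list of
generators and inverses with product `γ`. -/
theorem exists_len (Γ : Type) [Group Γ] (h : Group.FG Γ) : ∃ (T : Set Γ) (l : Γ → ℝ), T.Finite ∧
    Len l ∧ ∀ (φ : Γ → ℝ) (L : ℝ), 0 ≤ L → (∀ γ, ∀ t ∈ T, |φ (γ * t) - φ γ| ≤ L) →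
      ∀ γ, |φ γ - φ 1| ≤ L * l γ := by
  classical
  obtain ⟨S, hS, hSf⟩ := Group.fg_iff.1 h
  have hTf : (S ∪ S⁻¹).Finite := hSf.union hSf.inv
  have hTi : ∀ t ∈ S ∪ S⁻¹, t⁻¹ ∈ S ∪ S⁻¹ := by
    rintro t (ht | ht)
    · exact Or.inr (by simpa using ht)
    · exact Or.inl (by simpa using ht)
  have hex : ∀ γ : Γ, ∃ n : ℕ, ∃ w : List Γ,
      (∀ y ∈ w, y ∈ S ∪ S⁻¹) ∧ w.prod = γ ∧ w.length = n := by
    intro γ
    have h1 : γ ∈ (Subgroup.closure S).toSubmonoid := by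
      rw [hS]; trivial
    rw [Subgroup.closure_toSubmonoid] at h1
    obtain ⟨w, hw, hp⟩ := Submonoid.exists_list_of_mem_closure h1
    exact ⟨_, w, hw, hp, rfl⟩
  have hsp : ∀ γ : Γ, ∃ w : List Γ,
      (∀ y ∈ w, y ∈ S ∪ S⁻¹) ∧ w.prod = γ ∧ w.length = Nat.find (hex γ) :=
    fun γ => Nat.find_spec (hex γ)
  have hmin : ∀ (γ : Γ) (w : List Γ), (∀ y ∈ w, y ∈ S ∪ S⁻¹) → w.prod = γ →
      Nat.find (hex γ) ≤ w.length := fun γ w hw hp => Nat.find_min' (hex γ) ⟨w, hw, hp, rfl⟩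
  have hinv : ∀ γ : Γ, Nat.find (hex γ⁻¹) ≤ Nat.find (hex γ) := by
    intro γ
    obtain ⟨w, hw, hp, hl⟩ := hsp γ
    obtain ⟨v, hv, hvp, hvl⟩ := KE_inv hTi w hw
    rw [← hl, ← hvl]
    exact hmin _ v hv (by rw [hvp, hp])
  refine ⟨S ∪ S⁻¹, fun γ => (Nat.find (hex γ) : ℝ), hTf, ⟨fun γ => Nat.cast_nonneg _, ?_, ?_, ?_⟩,
    ?_⟩
  · intro γ δ
    obtain ⟨w, hw, hp, hl⟩ := hsp γ
    obtain ⟨v, hv, hvp, hvl⟩ := hsp δ
    have := hmin (γ * δ) (w ++ v) (fun y hy => (List.mem_append.1 hy).elim (hw y) (hv y))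
      (by rw [List.prod_append, hp, hvp])
    rw [List.length_append, hl, hvl] at this
    exact_mod_cast this
  · intro γ
    have h1 := hinv γ
    have h2 := hinv γ⁻¹
    have h3 : Nat.find (hex γ⁻¹⁻¹) = Nat.find (hex γ) := by simp only [inv_inv]
    have h4 : Nat.find (hex γ⁻¹) = Nat.find (hex γ) := by omega
    exact_mod_cast h4
  · intro R
    refine ((KE_fin hTf ⌊R⌋₊).image List.prod).subset ?_
    intro γ hγ
    obtain ⟨w, hw, hp, hl⟩ := hsp γ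
    refine ⟨w, ⟨hw, ?_⟩, hp⟩
    rw [hl]
    exact Nat.le_floor hγ
  · intro φ L _ hφ γ
    obtain ⟨w, hw, hp, hl⟩ := hsp γ
    have := KE_lip φ L hφ w hw 1
    rwa [one_mul, hp, hl] at this

end Vale.Agent.P299
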