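import Vale.Agent.P299.KA
import Vale.Agent.P299.KB

/-! P299, part K: a smooth version of the length function. -/

open MeasureTheory Set Filter Topology Matrix
open scoped ContDiff ENNReal ComplexConjugate ComplexOrder

noncomputable section

namespace Vale.Agent.P299

open Vale.Agent.P271 Vale.Agent.P272

variable {n : ℕ} {X : Type} [TopologicalSpace X] {V : Type} [TopologicalSpace V] {π : V → X}
  {A : Atl n X} {η : Frm A} {lh : IsLocalHomeomorph π} {f g : V → ℝ} {a : A.ι} {m : V}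
  [T2Space X] [CompactSpace X] [T2Space V] {Γ : Type} [Group Γ] [MulAction Γ V]

/-- Take a bump function on `X` (`ApiX2_bump`) supported in a small neighbourhood of `π m` over
which `lf lh m` is a section, pull it back and cut it to the sheet through `m`. -/
theorem KF_bump (A : Atl n X) (lh : IsLocalHomeomorph π) (m : V) : ∃ θ : V → ℝ, SmV A lh θ ∧
    (∀ x, 0 ≤ θ x) ∧ 0 < θ m ∧ HasCompactSupport θ := by

  obtain ⟨W, hW, hWt, hWc⟩ := local_compact_nhds (KA_tgt lh m)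
  obtain ⟨β, hβ, h0, hp, hz⟩ := ApiX2_bump A (π m) hW
  have hK : IsCompact ((lh m).choose.symm '' W) :=
    hWc.image_of_continuousOn ((lh m).choose.continuousOn_symm.mono hWt)
  have hv : ∀ x, x ∉ (lh m).choose.symm '' W →
      (lh m).choose.source.indicator (fun y => β (π y)) x = 0 := fun x hx => by
    by_cases h : x ∈ (lh m).choose.source
    · rw [indicator_of_mem h]
      refine hz _ fun h1 => hx ⟨π x, h1, ?_⟩
      rw [← KA_eq lh m x]
      exact (lh m).choose.left_inv h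
    · exact indicator_of_notMem h _
  refine ⟨(lh m).choose.source.indicator fun y => β (π y), fun a x hx => ?_,
    fun x => indicator_nonneg (fun y _ => h0 _) x, ?_, HasCompactSupport.intro hK hv⟩
  · by_cases h : x ∈ (lh m).choose.source
    · refine (smV_pull (lh := lh) hβ a x hx).congr_of_eventuallyEq (lc_congr hx ?_)
      filter_upwards [(lh m).choose.open_source.mem_nhds h] with y hy
      exact indicator_of_mem hy _
    · refine (smV_const (lh := lh) 0 a x hx).congr_of_eventuallyEq (lc_congr hx ?_)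
      have h1 : x ∉ (lh m).choose.symm '' W := by
        rintro ⟨p, hp, rfl⟩
        exact h ((lh m).choose.map_target (hWt hp))
      filter_upwards [hK.isClosed.isOpen_compl.mem_nhds h1] with y hy
      exact hv y hy
  · rwa [indicator_of_mem (KA_src lh m)]

/-- A finite sum of bumps. -/
theorem KF_bumpK (A : Atl n X) (lh : IsLocalHomeomorph π) {K : Set V} (hK : IsCompact K) :
    ∃ θ : V → ℝ, SmV A lh θ ∧ (∀ x, 0 ≤ θ x) ∧ (∀ x ∈ K, 0 < θ x) ∧ HasCompactSupport θ := by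

  refine hK.induction_on (p := fun K => ∃ θ : V → ℝ, SmV A lh θ ∧ (∀ x, 0 ≤ θ x) ∧
    (∀ x ∈ K, 0 < θ x) ∧ HasCompactSupport θ) ?_ ?_ ?_ ?_
  · exact ⟨fun _ => 0, smV_const 0, fun _ => le_rfl, by simp, HasCompactSupport.zero⟩
  · rintro s t hst ⟨θ, h1, h2, h3, h4⟩
    exact ⟨θ, h1, h2, fun x hx => h3 x (hst hx), h4⟩
  · rintro s t ⟨θ, h1, h2, h3, h4⟩ ⟨θ', k1, k2, k3, k4⟩
    refine ⟨fun x => θ x + θ' x, h1.add k1, fun x => add_nonneg (h2 x) (k2 x), ?_, h4.add k4⟩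
    rintro x (hx | hx)
    · exact add_pos_of_pos_of_nonneg (h3 x hx) (k2 x)
    · exact add_pos_of_nonneg_of_pos (h2 x) (k3 x hx)
  · intro m _
    obtain ⟨θ, h1, h2, h3, h4⟩ := KF_bump A lh m
    exact ⟨{x | 0 < θ x}, mem_nhdsWithin_of_mem_nhds
      ((isOpen_lt continuous_const h1.continuous).mem_nhds h3), θ, h1, h2, fun x hx => hx, h4⟩

/-- Local finiteness: every point has a compact neighbourhood (the support of a bump). -/
theorem KF_fin (A : Atl n X) (lh : IsLocalHomeomorph π) (tp : Top Γ π) {K : Set V}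
    (hK : IsCompact K) (m : V) : ∃ T : Finset Γ, ∀ᶠ x in 𝓝 m, ∀ γ, γ⁻¹ • x ∈ K → γ ∈ T := by

  obtain ⟨θ, h1, -, h3, h4⟩ := KF_bump A lh m
  refine ⟨(tp.prop _ (hK.union h4)).toFinset, ?_⟩
  filter_upwards [(isOpen_lt continuous_const h1.continuous).mem_nhds h3] with x hx γ hγ
  rw [Finite.mem_toFinset]
  exact ⟨γ⁻¹ • x, Or.inl hγ, Or.inr (by rw [smul_inv_smul]; exact subset_tsupport θ hx.ne')⟩

/-- `F x = (∑ᶠ γ, l γ * θ (γ⁻¹ • x)) / ∑ᶠ γ, θ (γ⁻¹ • x)` with `θ` positive on the compact set of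
`tp.coc` and `Kc = tsupport θ`. Near `m`, `F (γ • x) - l γ` is the sum over `δ ∈ T` of
`(l (γ * δ) - l γ) * (θ (δ⁻¹ • x) / ∑ δ' ∈ T, θ (δ'⁻¹ • x))` and `|l (γ * δ) - l γ| ≤ l δ`. -/
theorem exists_F (A : Atl n X) (lh : IsLocalHomeomorph π) (tp : Top Γ π) {l : Γ → ℝ}
    (hl : Len l) : ∃ (F : V → ℝ) (Kc : Set V), IsCompact Kc ∧
      (∀ m, ∃ γ : Γ, ∃ m' ∈ Kc, m = γ • m' ∧ l γ ≤ F m) ∧
      LB A lh fun (γ : Γ) x => F (γ • x) - l γ := by

  obtain ⟨K, hK, hco⟩ := tp.coc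
  obtain ⟨θ, h1, h2, h3, h4⟩ := KF_bumpK A lh hK
  have loc : ∀ m : V, ∃ T : Finset Γ, ∀ᶠ x in 𝓝 m, ∀ c : Γ → ℝ,
      ∑ᶠ γ, c γ * θ (γ⁻¹ • x) = ∑ γ ∈ T, c γ * θ (γ⁻¹ • x) := fun m => by
    obtain ⟨T, hT⟩ := KF_fin A lh tp h4 m
    refine ⟨T, hT.mono fun x hx c => finsum_eq_sum_of_support_subset _ fun γ hγ => ?_⟩
    exact hx γ (subset_tsupport θ (right_ne_zero_of_mul hγ))
  set D : V → ℝ := fun x => ∑ᶠ γ : Γ, 1 * θ (γ⁻¹ • x) with hD
  have hfin : ∀ x : V, (Function.support fun γ : Γ => 1 * θ (γ⁻¹ • x)).Finite := fun x => by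
    obtain ⟨T, hT⟩ := KF_fin A lh tp h4 x
    exact T.finite_toSet.subset fun γ hγ =>
      hT.self_of_nhds γ (subset_tsupport θ (right_ne_zero_of_mul hγ))
  have hpos : ∀ x, 0 < D x := fun x => by
    obtain ⟨γ, hγ⟩ := hco x
    refine lt_of_lt_of_le ?_ (single_le_finsum γ⁻¹ (hfin x) fun δ => by simpa using h2 _)
    simpa using h3 _ hγ
  have hDs : SmV A lh D := fun a m hm => by
    obtain ⟨T, hT⟩ := loc m
    have h5 : ContDiffAt ℝ ∞ (lc A lh (fun x => ∑ γ ∈ T, 1 * θ (γ⁻¹ • x)) a m) (A.e a (π m)) :=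
      ContDiffAt.sum (f := fun γ => lc A lh (fun x => 1 * θ (γ⁻¹ • x)) a m)
        fun γ _ => ((smV_const 1).mul (h1.smul tp γ⁻¹)) a m hm
    exact h5.congr_of_eventuallyEq (lc_congr hm (hT.mono fun x hx => hx fun _ => 1))
  have hψ : ∀ δ : Γ, SmV A lh fun x => θ (δ⁻¹ • x) / D x := fun δ a m hm =>
    ContDiffAt.div (h1.smul tp δ⁻¹ a m hm) (hDs a m hm) (hpos _).ne'
  refine ⟨fun x => (∑ᶠ γ, l γ * θ (γ⁻¹ • x)) / D x, tsupport θ, h4, fun m => ?_,
    fun a m hm => ?_⟩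
  · obtain ⟨T, hT⟩ := loc m
    have e := hT.self_of_nhds
    obtain ⟨γ₀, hγ₀⟩ := hco m
    obtain ⟨γ, hγ, hmin⟩ := exists_min_image _ l (hfin m)
      ⟨γ₀⁻¹, by simpa using (h3 _ hγ₀).ne'⟩
    refine ⟨γ, γ⁻¹ • m, subset_tsupport θ (right_ne_zero_of_mul hγ), by simp, ?_⟩
    rw [le_div_iff₀ (hpos m), e l, show D m = _ from e fun _ => 1, Finset.mul_sum]
    refine Finset.sum_le_sum fun δ _ => ?_
    rw [one_mul]
    by_cases h : θ (δ⁻¹ • m) = 0
    · simp [h]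
    · exact mul_le_mul_of_nonneg_right (hmin δ (by simpa using h)) (h2 _)
  · obtain ⟨T, hT⟩ := loc m
    have hb : ∀ δ γ : Γ, ‖l (γ * δ) - l γ‖ ≤ l δ := fun δ γ => by
      have k1 := hl.sub γ δ
      have k2 := hl.sub (γ * δ) δ⁻¹
      rw [mul_inv_cancel_right, hl.inv] at k2
      rw [Real.norm_eq_abs, abs_le]
      constructor <;> linarith
    refine (LC.sum T fun δ _ => (lc_const (hb δ) _).mul (lc_single Γ ((hψ δ).ev hm))).congr ?_
    filter_upwards [(lc_tend lh hm).eventually hT] with z hz γ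
    have re : ∀ (c : Γ → ℝ) (x : V), ∑ᶠ δ, c δ * θ (δ⁻¹ • γ • x) =
        ∑ᶠ δ, c (γ * δ) * θ (δ⁻¹ • x) := fun c x => by
      rw [← finsum_comp_equiv (Equiv.mulLeft γ)]
      simp [mul_smul]
    simp only [lc]
    generalize lf lh m ((A.e a).symm z) = x at hz
    have e1 : D (γ • x) = D x := re (fun _ => 1) x
    have e2 : D x = ∑ δ ∈ T, 1 * θ (δ⁻¹ • x) := hz fun _ => 1
    have e3 : l γ = ∑ δ ∈ T, l γ * (θ (δ⁻¹ • x) / D x) := by
      rw [← Finset.mul_sum, ← Finset.sum_div]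
      simp only [one_mul] at e2
      rw [← e2, div_self (hpos x).ne', mul_one]
    rw [e1, re, hz fun δ => l (γ * δ), Finset.sum_div]
    simp only [sub_mul, Finset.sum_sub_distrib]
    rw [← e3]
    simp only [mul_div_assoc]

end Vale.Agent.P299
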