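import Vale.Agent.P299.KD
import Vale.Agent.P299.KC
import Vale.Agent.P299.BbX2

/-! P299, part K: the Bochner formula on the cover. -/

open MeasureTheory Set Filter Topology Matrix
open scoped ContDiff ENNReal ComplexConjugate ComplexOrder

noncomputable section

namespace Vale.Agent.P299

open Vale.Agent.P271 Vale.Agent.P272

variable {n : ℕ} {X : Type} [TopologicalSpace X] [T2Space X] [CompactSpace X] [ConnectedSpace X]
  [MeasurableSpace X] [BorelSpace X] {M : Model n X} {η : Frm M.toAtl}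
  {V : Type} [TopologicalSpace V] {π : V → X}
  {lh : IsLocalHomeomorph π} {Q : EF M.toAtl} {f g : V → ℝ}

theorem KG_q2 {G : Mx n} (hG : G.PosSemidef) (u v : Cn n) :
    q2 G u - q2 G v ≤ 2 * (star u ⬝ᵥ G *ᵥ (u - v)).re := by
  have h1 : 0 ≤ (star (u - v) ⬝ᵥ G *ᵥ (u - v)).re :=
    (Complex.nonneg_iff.1 (hG.dotProduct_mulVec_nonneg (u - v))).1
  have h2 : star v ⬝ᵥ G *ᵥ u = star (star u ⬝ᵥ G *ᵥ v) := by
    rw [← star_dotProduct_star, star_star, star_mulVec, hG.1.eq, dotProduct_mulVec]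
  have h3 : (star v ⬝ᵥ G *ᵥ u).re = (star u ⬝ᵥ G *ᵥ v).re := by
    rw [h2]
    exact Complex.conj_re _
  simp only [star_sub, mulVec_sub, sub_dotProduct, dotProduct_sub, Complex.sub_re] at h1 ⊢
  unfold q2
  linarith

theorem KG_db {φ ψ : Cn n → ℝ} {z : Cn n} (hφ : DifferentiableAt ℝ φ z)
    (hψ : DifferentiableAt ℝ ψ z) (t : ℝ) :
    dbK (fun w => t * (φ w - ψ w)) z = (t : ℂ) • (dbK φ z - dbK ψ z) := by
  have h1 : HasFDerivAt (fun w => t * (φ w - ψ w)) (t • (fderiv ℝ φ z - fderiv ℝ ψ z)) z :=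
    (hφ.hasFDerivAt.sub hψ.hasFDerivAt).const_mul t
  funext j
  rw [Pi.smul_apply, Pi.sub_apply, dbK_eq h1.differentiableAt, dbK_eq hφ, dbK_eq hψ, h1.fderiv]
  simp only [_root_.smul_apply, _root_.sub_apply, smul_eq_mul]
  push_cast
  ring

theorem KG_db0 (c : ℝ) (z : Cn n) : dbK (fun _ => c) z = 0 := by
  funext j
  rw [dbK_eq (differentiableAt_const c)]
  simp

omit [T2Space X] [CompactSpace X] [ConnectedSpace X] [BorelSpace X] in
theorem KG_loc (hη : Kae M.toAtl η) (hf : SmV M.toAtl lh f) {a : M.ι} {m : V}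
    (ha : π m ∈ (M.e a).source) : ∃ U, IsOpen U ∧ M.e a (π m) ∈ U ∧ U ⊆ (M.e a).target ∧
      ContDiffOn ℝ ∞ (lc M.toAtl lh f a m) U ∧ ∀ z ∈ U,
        ((LM (η a) z)⁻¹ * LM (lc M.toAtl lh f a m) z).trace.re =
          lc M.toAtl lh (LapV M.toAtl η lh f) a m z := by
  obtain ⟨U, h1, hU, h2⟩ := _root_.eventually_nhds_iff.1
    ((lc_right lh ha).and ((hf.ev ha).and (lc_lap hη lh ha)))
  exact ⟨U, hU, h2, fun z hz => (h1 z hz).1.1, fun z hz => (h1 z hz).2.1.contDiffWithinAt,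
    fun z hz => ((h1 z hz).2.2 f hf).symm⟩

omit [T2Space X] [CompactSpace X] [ConnectedSpace X] [BorelSpace X] [MeasurableSpace X] in
theorem KG_ev {A : Atl n X} {a : A.ι} {m : V} (ha : π m ∈ (A.e a).source) {c : ℝ}
    (h : ∀ᶠ z in 𝓝 (A.e a (π m)), lc A lh f a m z = c) : ∀ᶠ x in 𝓝 m, f x = c := by
  have h1 : Tendsto (fun x => A.e a (π x)) (𝓝 m) (𝓝 (A.e a (π m))) :=
    ((A.e a).continuousAt ha).tendsto.comp (lh.continuous.tendsto m)
  filter_upwards [h1.eventually h, lc_near (lh := lh) f ha] with x h2 h3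
  rw [← h2, h3.2.self_of_nhds, lc_self f h3.1]

/-- The Ricci form is nonnegative in every chart (`LM_ricci`, `hη.det`, `hη.nn`). -/
theorem KY.ric (hη : KY M η) (a : M.ι) {z : Cn n} (hz : z ∈ (M.e a).target) :
    (-LM (fun w => Real.log (LM (η a) w).det.re) z).PosSemidef := by
  obtain ⟨c, hc⟩ := hη.det
  have e : ddc M.toAtl (fun p => Real.log (dt M η p)) a = fun _ => Real.log c := by
    funext w
    simp only [ddc, Atl.loc, hc]
  rw [← LM_ricci hη.kae hz, Pi.add_apply, e, LM_add ((isF_th M).smAt hz) contDiffAt_const, LM_const,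
    add_zero, ← LM_neg ((isF_th M).smAt hz)]
  exact hη.nn a z hz

theorem KG_boch (hη : KY M η) (hQ : HE M.toAtl η Q) (hf : SmV M.toAtl lh f) {a : M.ι} {m : V}
    (ha : π m ∈ (M.e a).source) {ζ : Cn n → Cn n}
    (hζ : ∀ z, ζ z = (Q a z * (LM (η a) z)⁻¹) *ᵥ dbK (lc M.toAtl lh f a m) z) :
    2 * (star (ζ (M.e a (π m))) ⬝ᵥ LM (η a) (M.e a (π m)) *ᵥ
        (Q a (M.e a (π m)) * (LM (η a) (M.e a (π m)))⁻¹) *ᵥ
          dbK (lc M.toAtl lh (LapV M.toAtl η lh f) a m) (M.e a (π m))).re ≤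
        LapV M.toAtl η lh (gnV M.toAtl η Q lh f) m ∧
      ((∃ c, ∀ x, gnV M.toAtl η Q lh f x = c) → (∃ c, ∀ x, LapV M.toAtl η lh f x = c) →
        AnalyticAt ℂ ζ (M.e a (π m)) ∧
          AnalyticAt ℂ (fun w => star (LM (η a) w *ᵥ ζ w)) (M.e a (π m))) := by
  obtain ⟨U, hU, hz, hs, hsm, hl⟩ := KG_loc hη.kae hf ha
  have hb := boch_gen hU ((hη.kae.1.sm a).mono hs) (fun z hz => hη.kae.2 a z (hs hz))
    (fun z hz => hη.ric a (hs hz)) (Q := Q a) (fun i j => (hQ.hol a i j).mono hs)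
    (fun z hz => hQ.herm a z (hs hz)) hsm hl (ζ := ζ) fun z _ => hζ z
  have he : lc M.toAtl lh (gnV M.toAtl η Q lh f) a m =ᶠ[𝓝 (M.e a (π m))]
      fun w => q2 (LM (η a) w) (ζ w) := by
    filter_upwards [lc_gn hη.kae hQ lh ha] with z h1
    rw [h1 f hf, hζ]
  refine ⟨?_, ?_⟩
  · rw [lapV_eq (hf.gn hη.kae hQ) hη.kae ha, LM_congr he]
    exact hb.1 _ hz
  · rintro ⟨c, hc⟩ ⟨c', hc'⟩
    refine hb.2 _ hz ?_ (Eventually.of_forall fun w => ?_)
    · filter_upwards [he] with w hw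
      have h0 := he.self_of_nhds
      have h1 : q2 (LM (η a) w) (ζ w) = c := hw.symm.trans (hc _)
      have h2 : q2 (LM (η a) (M.e a (π m))) (ζ (M.e a (π m))) = c := h0.symm.trans (hc _)
      rw [h1, h2]
    · have h1 : lc M.toAtl lh (LapV M.toAtl η lh f) a m = fun _ => c' := funext fun z => hc' _
      have h2 : (fun j => dzb (Pi.single j 1)
          (fun x => (lc M.toAtl lh (LapV M.toAtl η lh f) a m x : ℂ)) w) = 0 := by
        rw [h1]
        exact KG_db0 c' w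
      rw [h2, mulVec_zero, mulVec_zero, dotProduct_zero, Complex.zero_re]

/-- `boch_gen` on a small open set in the chart, with `l = lam * (f - g)`. -/
theorem boch_V (hη : KY M η) (hQ : HE M.toAtl η Q) (hf : SmV M.toAtl lh f)
    (hg : SmV M.toAtl lh g) {lam : ℝ} (hl : 0 ≤ lam)
    (h : ∀ m, LapV M.toAtl η lh f m = lam * (f m - g m)) (m : V) :
    lam * (gnV M.toAtl η Q lh f m - gnV M.toAtl η Q lh g m) ≤
      LapV M.toAtl η lh (gnV M.toAtl η Q lh f) m := by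
  have ha := ch_mem M.toAtl (π m)
  refine le_trans ?_ (KG_boch hη hQ hf ha fun _ => rfl).1
  have h1 : lc M.toAtl lh (LapV M.toAtl η lh f) (ch M.toAtl (π m)) m = fun w =>
      lam * (lc M.toAtl lh f (ch M.toAtl (π m)) m w - lc M.toAtl lh g (ch M.toAtl (π m)) m w) :=
    funext fun z => h _
  have h2 := KG_q2 (hη.kae.2 _ _ (ApiA_ch M.toAtl (π m))).posSemidef
    (grV M.toAtl η Q lh f (ch M.toAtl (π m)) m) (grV M.toAtl η Q lh g (ch M.toAtl (π m)) m)
  rw [h1, KG_db ((hf _ m ha).differentiableAt (by simp)) ((hg _ m ha).differentiableAt (by simp)),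
    mulVec_smul, mulVec_smul, dotProduct_smul, smul_eq_mul, Complex.re_ofReal_mul, mulVec_sub,
    mul_left_comm]
  exact mul_le_mul_of_nonneg_left h2 hl

/-- The strong maximum principle on the cover: the set where the maximum is attained is clopen. -/
theorem smp_V [PreconnectedSpace V] (hη : Kae M.toAtl η) (hf : SmV M.toAtl lh f)
    (h : ∀ m, 0 ≤ LapV M.toAtl η lh f m) {m₀ : V} (hm : ∀ m, f m ≤ f m₀) (m : V) :
    f m = f m₀ := by
  have hc : IsClopen {x | f x = f m₀} := by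
    refine ⟨isClosed_eq hf.continuous continuous_const, isOpen_iff_mem_nhds.2 fun x hx => ?_⟩
    obtain ⟨a, ha⟩ := M.toAtl.cover (π x)
    obtain ⟨U, hU, hz, hs, hsm, hl⟩ := KG_loc hη hf ha
    have hx' : lc M.toAtl lh f a x (M.e a (π x)) = f m₀ := (lc_self f ha).trans hx
    have h1 := smp hU (G := LM (η a)) (continuousOn_pi.2 fun j => continuousOn_pi.2 fun k z hz =>
        (contDiffAt_LM (hη.1.smAt (hs hz)) j k).continuousAt.continuousWithinAt)
      (fun z hz => hη.2 a z (hs hz)) hsm (fun z hz => (hl z hz).symm ▸ h _) hz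
      (fun z _ => hx'.symm ▸ hm _)
    rw [hx'] at h1
    exact KG_ev ha h1
  exact eq_univ_iff_forall.1 (hc.eq_univ ⟨m₀, rfl⟩) m

/-- `boch_gen` with constant `l`, `smp_V`, `gr_compat`, `gr_near`. -/
theorem par_V [PreconnectedSpace V] (hη : KY M η) (hQ : HE M.toAtl η Q) (hf : SmV M.toAtl lh f)
    {c : ℝ} (h : ∀ m, LapV M.toAtl η lh f m = c) {m₀ : V}
    (hm : ∀ m, gnV M.toAtl η Q lh f m ≤ gnV M.toAtl η Q lh f m₀) :
    PF M.toAtl η lh (grV M.toAtl η Q lh f) := by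
  have h0 : ∀ m, 0 ≤ LapV M.toAtl η lh (gnV M.toAtl η Q lh f) m := fun m => by
    have h1 := boch_V hη hQ hf (hf.sub (smV_const c)) zero_le_one (fun x => by rw [h x]; ring) m
    rwa [gn_sub hf, sub_self, mul_zero] at h1
  have h1 := smp_V hη.kae (hf.gn hη.kae hQ) h0 hm
  have h2 := fun a m (ha : π m ∈ (M.e a).source) =>
    (KG_boch hη hQ hf ha fun _ => rfl).2 ⟨_, h1⟩ ⟨c, h⟩
  refine ⟨fun a b m ha hb => gr_compat hη.kae hQ hf ha hb, fun a m ha => (h2 a m ha).1.congr ?_,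
    fun a m ha => (h2 a m ha).2.congr ?_⟩
  · filter_upwards [gr_near η Q lh ha] with z hz
    rw [hz f]
  · filter_upwards [gr_near η Q lh ha] with z hz
    rw [hz f]

end Vale.Agent.P299
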