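import Vale.Agent.P299.KA

/-! P299, part K: Lipschitz functions on the cover. -/

open MeasureTheory Set Filter Topology Matrix
open scoped ContDiff ENNReal ComplexConjugate ComplexOrder

noncomputable section

namespace Vale.Agent.P299

open Vale.Agent.P271 Vale.Agent.P272

variable {n : ℕ} {X : Type} [TopologicalSpace X] {V : Type} [TopologicalSpace V] {π : V → X}
  {A : Atl n X} {η : Frm A} {lh : IsLocalHomeomorph π} {f g : V → ℝ} {a : A.ι} {m : V}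

theorem KH_q2 (H : Mx n) (v : Cn n) : q2 H v ≤ (∑ j, ∑ k, ‖H j k‖) * ‖v‖ ^ 2 := by
  refine (Complex.re_le_norm _).trans ?_
  simp only [dotProduct, mulVec, Finset.mul_sum, Finset.sum_mul]
  refine (norm_sum_le _ _).trans (Finset.sum_le_sum fun j _ => ?_)
  refine (norm_sum_le _ _).trans (Finset.sum_le_sum fun k _ => ?_)
  rw [norm_mul, norm_mul, Pi.star_apply, norm_star]
  have h1 := norm_le_pi_norm v j
  have h2 := norm_le_pi_norm v k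
  calc ‖v j‖ * (‖H j k‖ * ‖v k‖) ≤ ‖v‖ * (‖H j k‖ * ‖v‖) := by gcongr
    _ = ‖H j k‖ * ‖v‖ ^ 2 := by ring

/-- In a small ball of a chart `q2 (LM (η a) z) v ≤ C ^ 2 * ‖v‖ ^ 2`; mean value inequality for
`lc A lh φ a m`, which agrees near each point with `lc A lh φ a x` (`lc_near'`). -/
theorem lip_loc (hη : Kae A η) (lh : IsLocalHomeomorph π) (m : V) : ∃ C : ℝ, ∀ᶠ x in 𝓝 m,
    ∀ s φ, 0 ≤ s → Lp A η lh s φ → |φ x - φ m| ≤ s * C := by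
  obtain ⟨a, ha⟩ := A.cover (π m)
  have hc : ContinuousAt (fun z => ∑ j, ∑ k, ‖LM (η a) z j k‖) (A.e a (π m)) :=
    tendsto_finsetSum _ fun j _ => tendsto_finsetSum _ fun k _ =>
      (contDiffAt_LM (hη.1.smAt ((A.e a).map_source ha)) j k).continuousAt.norm
  obtain ⟨B, hB⟩ : ∃ B : ℝ, ∀ᶠ z in 𝓝 (A.e a (π m)), ∑ j, ∑ k, ‖LM (η a) z j k‖ ≤ B :=
    ⟨_, (hc.eventually_lt_const (lt_add_one _)).mono fun z hz => hz.le⟩
  have hev : ∀ᶠ z in 𝓝 (A.e a (π m)), ∀ s φ, 0 ≤ s → Lp A η lh s φ →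
      DifferentiableAt ℝ (lc A lh φ a m) z ∧ ‖fderiv ℝ (lc A lh φ a m) z‖ ≤ s * √B := by
    filter_upwards [hB, lc_right lh ha, (lc_tend lh ha).eventually (lc_near' lh ha)]
      with z h0 h1 h2 s φ hs hφ
    obtain ⟨h3, h4⟩ := hφ a _ h2.1
    have h5 := h2.2 φ
    rw [h1.2.2.2] at h3 h4 h5
    refine ⟨h3.congr_of_eventuallyEq h5, ?_⟩
    rw [h5.fderiv_eq]
    refine ContinuousLinearMap.opNorm_le_bound _ (by positivity) fun v => (h4 v).trans ?_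
    rw [mul_assoc]
    refine mul_le_mul_of_nonneg_left ?_ hs
    calc √(q2 (LM (η a) z) v) ≤ √(B * ‖v‖ ^ 2) :=
          Real.sqrt_le_sqrt ((KH_q2 _ v).trans (mul_le_mul_of_nonneg_right h0 (sq_nonneg _)))
      _ = √B * ‖v‖ := by rw [Real.sqrt_mul' _ (sq_nonneg _), Real.sqrt_sq (norm_nonneg _)]
  obtain ⟨ε, hε, hb⟩ := Metric.eventually_nhds_iff_ball.1 hev
  have ht : Tendsto (fun x => A.e a (π x)) (𝓝 m) (𝓝 (A.e a (π m))) :=
    ContinuousAt.comp (g := A.e a) ((A.e a).continuousAt ha) lh.continuous.continuousAt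
  refine ⟨√B * ε, ?_⟩
  filter_upwards [ht.eventually (Metric.ball_mem_nhds _ hε), lc_near' lh ha] with x h1 h2 s φ hs hφ
  have h3 := (convex_ball (A.e a (π m)) ε).norm_image_sub_le_of_norm_fderiv_le
    (fun z hz => (hb z hz s φ hs hφ).1) (fun z hz => (hb z hz s φ hs hφ).2)
    (Metric.mem_ball_self hε) h1
  rw [lc_self φ ha, (h2.2 φ).self_of_nhds, lc_self φ h2.1, Real.norm_eq_abs] at h3
  rw [← mul_assoc]
  exact h3.trans (mul_le_mul_of_nonneg_left (mem_ball_iff_norm.1 h1).le (by positivity))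

/-- The set of points `m` with such a bound is clopen. -/
theorem lip_pt [PreconnectedSpace V] (hη : Kae A η) (lh : IsLocalHomeomorph π) (m₀ m : V) :
    ∃ C : ℝ, ∀ᶠ x in 𝓝 m, ∀ s φ, 0 ≤ s → Lp A η lh s φ → |φ x - φ m₀| ≤ s * C := by
  have h : IsClopen {m | ∃ C : ℝ, ∀ᶠ x in 𝓝 m,
      ∀ s φ, 0 ≤ s → Lp A η lh s φ → |φ x - φ m₀| ≤ s * C} := by
    refine ⟨isClosed_iff_frequently.2 fun y hy => ?_, isOpen_iff_eventually.2 fun y hy => ?_⟩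
    · obtain ⟨C, hC⟩ := lip_loc hη lh y
      obtain ⟨y', ⟨C', h1⟩, h2⟩ := (hy.and_eventually hC).exists
      refine ⟨C + C + C', hC.mono fun x hx s φ hs hφ => ?_⟩
      have h3 := abs_le.1 (hx s φ hs hφ)
      have h4 := abs_le.1 (h2 s φ hs hφ)
      have h5 := abs_le.1 (h1.self_of_nhds s φ hs hφ)
      rw [abs_le]
      constructor <;> linarith [h3.1, h3.2, h4.1, h4.2, h5.1, h5.2]
    · obtain ⟨C, hC⟩ := hy
      exact hC.eventually_nhds.mono fun x hx => ⟨C, hx⟩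
  have h1 := h.eq_univ ⟨m₀, lip_loc hη lh m₀⟩
  exact (eq_univ_iff_forall.1 h1) m

theorem lip_cpt [PreconnectedSpace V] (hη : Kae A η) (lh : IsLocalHomeomorph π) (m₀ : V)
    {K : Set V} (hK : IsCompact K) : ∃ C : ℝ, 0 ≤ C ∧ ∀ x ∈ K,
      ∀ s φ, 0 ≤ s → Lp A η lh s φ → |φ x - φ m₀| ≤ s * C := by
  refine hK.induction_on (p := fun K => ∃ C : ℝ, 0 ≤ C ∧ ∀ x ∈ K,
    ∀ s φ, 0 ≤ s → Lp A η lh s φ → |φ x - φ m₀| ≤ s * C) ⟨0, le_rfl, fun x hx => hx.elim⟩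
    (fun S S' h ⟨C, h0, h1⟩ => ⟨C, h0, fun x hx => h1 x (h hx)⟩) ?_ fun y _ => ?_
  · rintro S S' ⟨C, h0, h1⟩ ⟨C', -, h2⟩
    refine ⟨max C C', le_max_of_le_left h0, fun x hx s φ hs hφ => hx.elim (fun hx => ?_) fun hx => ?_⟩
    · exact (h1 x hx s φ hs hφ).trans (mul_le_mul_of_nonneg_left (le_max_left _ _) hs)
    · exact (h2 x hx s φ hs hφ).trans (mul_le_mul_of_nonneg_left (le_max_right _ _) hs)
  · obtain ⟨C, hC⟩ := lip_pt hη lh m₀ y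
    exact ⟨_, mem_nhdsWithin_of_mem_nhds hC, max C 0, le_max_right _ _, fun x hx s φ hs hφ =>
      (hx s φ hs hφ).trans (mul_le_mul_of_nonneg_left (le_max_left _ _) hs)⟩

variable {Γ : Type} [Group Γ] [MulAction Γ V]

theorem Lp.smul {s : ℝ} (h : Lp A η lh s f) (tp : Top Γ π) (γ : Γ) :
    Lp A η lh s fun x => f (γ • x) := fun a m hm => by
  obtain ⟨h1, h2⟩ := h a (γ • m) (by rwa [tp.pi_smul])
  rw [tp.pi_smul] at h1 h2
  have h3 := lc_smul (lh := lh) tp γ f hm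
  exact ⟨h1.congr_of_eventuallyEq h3, fun v => by rw [h3.fderiv_eq]; exact h2 v⟩

theorem prp_of_len (tp : Top Γ π) {l : Γ → ℝ} (hl : Len l) {F : V → ℝ} {Kc : Set V}
    (hK : IsCompact Kc) (h : ∀ m, ∃ γ : Γ, ∃ m' ∈ Kc, m = γ • m' ∧ l γ ≤ F m) : Prp F := fun R => by
  refine ⟨⋃ γ ∈ {γ | l γ ≤ R}, (fun x : V => γ • x) '' Kc,
    (hl.fin R).isCompact_biUnion fun γ _ => hK.image (tp.cont γ), fun m hm => ?_⟩
  obtain ⟨γ, m', h1, h2, h3⟩ := h m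
  exact mem_biUnion (x := γ) (h3.trans hm) ⟨m', h1, h2.symm⟩

/-- Apply `lip_cpt` to `Kc` and to the finite set `T • m₀`, for the translates of `φ`. -/
theorem lip_F [PreconnectedSpace V] (hη : Kae A η) (lh : IsLocalHomeomorph π) (tp : Top Γ π)
    {T : Set Γ} {l : Γ → ℝ} (hT : T.Finite)
    (hl : ∀ (φ : Γ → ℝ) (L : ℝ), 0 ≤ L → (∀ γ, ∀ t ∈ T, |φ (γ * t) - φ γ| ≤ L) →
      ∀ γ, |φ γ - φ 1| ≤ L * l γ) {F : V → ℝ} {Kc : Set V} (hK : IsCompact Kc)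
    (h : ∀ m, ∃ γ : Γ, ∃ m' ∈ Kc, m = γ • m' ∧ l γ ≤ F m) (m₀ : V) : ∃ L D : ℝ, 0 ≤ L ∧
      ∀ s φ, 0 ≤ s → Lp A η lh s φ → ∀ m, |φ m - φ m₀| ≤ s * (L * F m + D) := by
  obtain ⟨C, -, hC⟩ := lip_cpt hη lh m₀ hK
  obtain ⟨L, hL, hT'⟩ := lip_cpt hη lh m₀ (hT.image fun t : Γ => t • m₀).isCompact
  refine ⟨L, C, hL, fun s φ hs hφ m => ?_⟩
  obtain ⟨γ, m', h1, rfl, h3⟩ := h m
  have h4 := abs_le.1 (hC m' h1 s _ hs (hφ.smul tp γ))
  have h5 := hl (fun δ => φ (δ • m₀)) (s * L) (mul_nonneg hs hL) (fun δ t ht => by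
    simpa only [mul_smul] using hT' _ ⟨t, ht, rfl⟩ s _ hs (hφ.smul tp δ)) γ
  rw [one_smul] at h5
  have h6 := abs_le.1 (h5.trans (mul_le_mul_of_nonneg_left h3 (mul_nonneg hs hL)))
  rw [abs_le]
  constructor <;> linarith [h4.1, h4.2, h6.1, h6.2]

end Vale.Agent.P299
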