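import Vale.Agent.P299.KD

/-! P299, part K: the retraction onto a slice. -/

open MeasureTheory Set Filter Topology Matrix
open scoped ContDiff ENNReal ComplexConjugate ComplexOrder

noncomputable section

namespace Vale.Agent.P299

open Vale.Agent.P271 Vale.Agent.P272

variable {n : ℕ} {X : Type} [TopologicalSpace X] [MeasurableSpace X] {M : Model n X}
  {η : Frm M.toAtl} {B : EF M.toAtl}

theorem KJ_chain {E F : Type} [NormedAddCommGroup E] [NormedSpace ℂ E] [CompleteSpace E]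
    [NormedAddCommGroup F] [NormedSpace ℂ F] [CompleteSpace F] {Φ : E → F} {w : E}
    (hΦ : AnalyticAt ℂ Φ w) (hb : Function.Bijective (fderiv ℂ Φ w)) {g : F → ℝ} {G : E → ℝ}
    (h : (fun x => g (Φ x)) =ᶠ[𝓝 w] G) (hG : DifferentiableAt ℝ G w) :
    DifferentiableAt ℝ g (Φ w) ∧ ∀ v, fderiv ℝ g (Φ w) (fderiv ℂ Φ w v) = fderiv ℝ G w v := by
  have h1 : HasStrictFDerivAt Φ ((ContinuousLinearEquiv.ofBijective (fderiv ℂ Φ w)
      (LinearMap.ker_eq_bot.2 hb.1) (LinearMap.range_eq_top.2 hb.2) : E ≃L[ℂ] F) : E →L[ℂ] F) w :=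
    hΦ.hasStrictFDerivAt
  have h2 : DifferentiableAt ℝ (h1.localInverse _ _ _) (Φ w) :=
    h1.to_localInverse.hasFDerivAt.differentiableAt.restrictScalars ℝ
  have h3 : g =ᶠ[𝓝 (Φ w)] G ∘ h1.localInverse _ _ _ := by
    filter_upwards [h1.eventually_right_inverse, h1.localInverse_tendsto.eventually h] with y a b
    rw [Function.comp, ← b, a]
  have h4 : DifferentiableAt ℝ g (Φ w) :=
    (DifferentiableAt.comp _ (by rwa [h1.localInverse_apply_image]) h2).congr_of_eventuallyEq h3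
  refine ⟨h4, fun v => ?_⟩
  have h5 : HasFDerivAt (fun x => g (Φ x)) _ w :=
    h4.hasFDerivAt.comp w (hΦ.differentiableAt.hasFDerivAt.restrictScalars ℝ)
  rw [← h.fderiv_eq, h5.fderiv]
  rfl

omit [MeasurableSpace X] in
theorem KJ_lc {V : Type} [TopologicalSpace V] {π : V → X} {A : Atl n X}
    (lh : IsLocalHomeomorph π) (f : V → ℝ) {a : A.ι} {m : V} (hm : π m ∈ (A.e a).source) :
    ∀ᶠ x in 𝓝 m, lc A lh f a m (A.e a (π x)) = f x := by
  filter_upwards [lc_near (lh := lh) f hm] with x hx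
  rw [hx.2.self_of_nhds, lc_self f hx.1]

theorem KJ_pt {q d₁ d₂ : ℕ} {Y Z : Type} [TopologicalSpace Y] [TopologicalSpace Z] (cY : CA d₁ Y)
    (cZ : CA d₂ Z) (x : Cn q) (y : Y) (z : Z) :
    pt cY cZ y z (x, cY.c y y, cZ.c z z) = (x, y, z) ∧
      Tendsto (pt cY cZ y z) (𝓝 (x, cY.c y y, cZ.c z z)) (𝓝 (x, y, z)) := by
  refine ⟨by rw [pt, (cY.c y).left_inv (cY.mem y), (cZ.c z).left_inv (cZ.mem z)], ?_⟩
  exact continuousAt_fst.tendsto.prodMk_nhds
    ((((cY.c y).tendsto_symm (cY.mem y)).comp (continuous_snd.fst.tendsto _)).prodMk_nhds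
      (((cZ.c z).tendsto_symm (cZ.mem z)).comp (continuous_snd.snd.tendsto _)))

/-- Fix `m = (x, y, z)` with `π m` in the chart `a`, and a chart `b` at `π (0, y, z)`. Let
`Φ w = M.e a (π (pt w))`, `Ψ w = M.e b (π (pt w))` (charts of `Y`, `Z` at `y`, `z`),
`R w = (0, w.2)`, `w₀ = (x, c y, c z)`. Near `w₀`,
`lc (f ∘ r) a m (Φ w) = lc f b (r m) (Ψ (R w))`; `Φ` has an invertible derivative, hence a
differentiable local inverse (`HasStrictFDerivAt.localInverse`), so `lc (f ∘ r) a m` is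
differentiable, with differential `dΦ v ↦ d(lc f b) (dΨ (R v))`. By `S.blk` and `S.prj.sum`,
`dΨ (R v) = (1 - Q 0) (dΨ v)`, by `S.met` at both points `dΨ v` and `dΦ v` have the same length;
conclude by `fderiv_gn`. -/
theorem lp_r (hη : Kae M.toAtl η) (S : Spl M η B) {f : Cn S.q × S.Y × S.Z → ℝ}
    (hf : SmV M.toAtl S.lh f) {s : ℝ}
    (h : ∀ m, gnV M.toAtl η (fun a z => 1 - S.Q 0 a z) S.lh f m ≤ s) :
    Lp M.toAtl η S.lh (2 * √s) fun m => f (0, m.2) := by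
  rintro a ⟨x, y, z⟩ ha
  obtain ⟨b, hb⟩ := M.cover (S.π (0, y, z))
  obtain ⟨e0, t0⟩ := KJ_pt S.cY S.cZ x y z
  obtain ⟨e1, t1⟩ := KJ_pt S.cY S.cZ (0 : Cn S.q) y z
  have hy := (S.cY.c y).map_source (S.cY.mem y)
  have hz := (S.cZ.c z).map_source (S.cZ.mem z)
  obtain ⟨a1, a2⟩ := S.an a y z (x, S.cY.c y y, S.cZ.c z z) hy hz (by rwa [e0])
  have a3 := S.met a y z (x, S.cY.c y y, S.cZ.c z z) hy hz (by rwa [e0])
  have b1 := (S.an b y z (0, S.cY.c y y, S.cZ.c z z) hy hz (by rwa [e1])).1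
  have b3 := S.met b y z (0, S.cY.c y y, S.cZ.c z z) hy hz (by rwa [e1])
  have b4 := S.blk b y z (0, S.cY.c y y, S.cZ.c z z) hy hz (by rwa [e1]) 0
  obtain ⟨R, hR⟩ : ∃ R : (Cn S.q × Cn S.d₁ × Cn S.d₂) →L[ℝ] Cn S.q × Cn S.d₁ × Cn S.d₂,
      ∀ w, R w = (0, w.2) :=
    ⟨(0 : _ →L[ℝ] Cn S.q).prod (ContinuousLinearMap.snd ℝ _ _), fun _ => rfl⟩
  have c1 := ((hf b _ hb).differentiableAt (by simp)).hasFDerivAt
  have c2 := b1.differentiableAt.hasFDerivAt.restrictScalars ℝ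
  rw [← hR (x, S.cY.c y y, S.cZ.c z z)] at c2
  have c3 := HasFDerivAt.comp (g := lc M.toAtl S.lh f b (0, y, z)) _ (by
    rw [Function.comp, hR, e1]
    exact c1) (c2.comp _ R.hasFDerivAt)
  have t2 : Tendsto R (𝓝 (x, S.cY.c y y, S.cZ.c z z)) (𝓝 (0, S.cY.c y y, S.cZ.c z z)) := by
    rw [← hR (x, S.cY.c y y, S.cZ.c z z)]
    exact R.continuous.tendsto _
  obtain ⟨d1, d2⟩ := KJ_chain a1 a2 (g := lc M.toAtl S.lh (fun m => f (0, m.2)) a (x, y, z)) (by
    filter_upwards [t0.eventually (KJ_lc S.lh (fun m => f (0, m.2)) ha),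
      (t1.comp t2).eventually (KJ_lc S.lh f hb)] with w h1 h2
    exact h1.trans ((congrArg f (by rw [Function.comp, hR]; rfl)).trans h2.symm))
    c3.differentiableAt
  rw [e0] at d1 d2 a3
  rw [e1] at b3 b4
  refine ⟨d1, fun v => ?_⟩
  obtain ⟨v, rfl⟩ := a2.2 v
  have k := fderiv_gn hη ((S.prj.he 0).one_sub hη) hf hb (fderiv ℂ
    (fun w' => M.e b (S.π (pt S.cY S.cZ y z w'))) (0, S.cY.c y y, S.cZ.c z z) v)
  rw [sub_mulVec, one_mulVec, b4, ← map_sub, q2, b3] at k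
  rw [d2, c3.fderiv, q2, a3]
  refine le_trans (le_of_eq ?_) (k.trans ?_)
  · simp only [ContinuousLinearMap.comp_apply, ContinuousLinearMap.coe_restrictScalars', hR]
    congr 3
    ext <;> simp
  · gcongr
    exact h _

end Vale.Agent.P299
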