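import Vale.Agent.P299.M1b
import Vale.Agent.P271A.Part

/-! P299: the Green formula. -/

open MeasureTheory Set Filter Topology Matrix
open scoped ContDiff ENNReal ComplexConjugate ComplexOrder

noncomputable section

namespace Vale.Agent.P299

open Vale.Agent.P271A

variable {n N : ℕ} {Y : Type} [TopologicalSpace Y] [T2Space Y] [SecondCountableTopology Y]
  [MeasurableSpace Y] [BorelSpace Y] {D : RD n Y}

omit [T2Space Y] [SecondCountableTopology Y] [BorelSpace Y] in
theorem M1d_sm_prod {ι : Type*} (s : Finset ι) {F : ι → Y → ℂ} (hF : ∀ i, D.Sm (F i)) :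
    D.Sm fun p => ∏ i ∈ s, F i p :=
  fun y => contDiffAt_prod (f := fun i => F i ∘ D.sec y) fun i _ => hF i y

omit [T2Space Y] [SecondCountableTopology Y] [BorelSpace Y] in
theorem M1d_prod {ι : Type*} [DecidableEq ι] (ξ : E n × E n) (s : Finset ι) {F : ι → Y → ℂ}
    (hF : ∀ i, D.Sm (F i)) (y : Y) :
    D.dX ξ (fun p => ∏ i ∈ s, F i p) y = ∑ i ∈ s, D.dX ξ (F i) y * ∏ j ∈ s.erase i, F j y := by
  have h := (HasFDerivAt.finsetProd (u := s) fun i _ => ((hF i).diff y).hasFDerivAt).fderiv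
  have e : (fun p => ∏ i ∈ s, F i p) ∘ D.sec y = fun z => ∏ i ∈ s, (F i ∘ D.sec y) z := rfl
  rw [RD.dX, eX, e, h]
  simp only [RD.dX, eX, _root_.sum_apply, _root_.smul_apply, smul_eq_mul, Finset.mul_sum,
    ← Finset.sum_add_distrib, Function.comp_apply, D.sec_pr (D.mem_ch y)]
  exact Finset.sum_congr rfl fun i _ => by ring

omit [T2Space Y] [SecondCountableTopology Y] [BorelSpace Y] in
theorem M1d_sm_det {M : Y → Matrix (Fin n) (Fin n) ℂ} (hM : ∀ a b, D.Sm fun p => M p a b) :
    D.Sm fun p => (M p).det := by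
  simp only [det_apply']
  exact RD.Sm.sum _ fun σ _ => (RD.sm_const _).mul (M1d_sm_prod _ fun i => hM _ _)

omit [T2Space Y] [SecondCountableTopology Y] [BorelSpace Y] in
theorem M1d_sm_adj {M : Y → Matrix (Fin n) (Fin n) ℂ} (hM : ∀ a b, D.Sm fun p => M p a b)
    (a b : Fin n) : D.Sm fun p => (M p).adjugate a b := by
  simp only [adjugate_apply]
  refine M1d_sm_det fun c d => ?_
  simp only [updateRow_apply]
  split_ifs
  · exact RD.sm_const _
  · exact hM c d

omit [T2Space Y] [SecondCountableTopology Y] [BorelSpace Y] in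
/-- Jacobi's formula. -/
theorem M1d_det (ξ : E n × E n) {M : Y → Matrix (Fin n) (Fin n) ℂ}
    (hM : ∀ a b, D.Sm fun p => M p a b) (y : Y) : D.dX ξ (fun p => (M p).det) y =
      ∑ a, ∑ b, (M y).adjugate b a * D.dX ξ (fun p => M p a b) y := by
  have h : ∀ i, ∑ a, (M y).adjugate i a * D.dX ξ (fun p => M p a i) y =
      ∑ σ : Equiv.Perm (Fin n), ((Equiv.Perm.sign σ : ℤ) : ℂ) *
        (D.dX ξ (fun p => M p (σ i) i) y * ∏ j ∈ Finset.univ.erase i, M y (σ j) j) := fun i => by
    refine (congrFun (cramer_eq_adjugate_mulVec (M y)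
      fun k => D.dX ξ (fun p => M p k i) y) i).symm.trans ?_
    rw [cramer_apply, det_apply']
    refine Finset.sum_congr rfl fun σ _ => congrArg _ ?_
    rw [← Finset.mul_prod_erase _ _ (Finset.mem_univ i), updateCol_self]
    exact congrArg _ (Finset.prod_congr rfl fun j hj => updateCol_ne (Finset.ne_of_mem_erase hj))
  have hp : ∀ σ : Equiv.Perm (Fin n), D.Sm fun p => ∏ i, M p (σ i) i :=
    fun σ => M1d_sm_prod _ fun i => hM (σ i) i
  rw [Finset.sum_comm]
  simp only [h, det_apply']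
  rw [RD.dX_sum _ fun σ _ => (RD.sm_const _).mul (hp σ), Finset.sum_comm]
  refine Finset.sum_congr rfl fun σ _ => ?_
  rw [RD.dX_const_mul (hp σ), M1d_prod ξ _ fun i => hM (σ i) i, Finset.mul_sum]

omit [T2Space Y] [SecondCountableTopology Y] [BorelSpace Y] in
/-- The Piola identity. -/
theorem M1d_piola (ξ : Fin n → E n × E n) {M : Y → Matrix (Fin n) (Fin n) ℂ}
    (hM : ∀ a b, D.Sm fun p => M p a b) {y : Y}
    (hs : ∀ a j l, D.dX (ξ a) (fun p => M p j l) y = D.dX (ξ l) (fun p => M p j a) y)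
    (hd : (M y).det ≠ 0) (b : Fin n) :
    ∑ a, D.dX (ξ a) (fun p => (M p).adjugate a b) y = 0 := by
  have hA := M1d_sm_adj hM
  have key : (fun j => ∑ a, D.dX (ξ a) (fun p => (M p).adjugate a j) y) ᵥ* M y = 0 := by
    funext l
    have h1 : ∀ a, ∑ j, (D.dX (ξ a) (fun p => (M p).adjugate a j) y * M y j l +
        (M y).adjugate a j * D.dX (ξ a) (fun p => M p j l) y) =
        if a = l then D.dX (ξ a) (fun p => (M p).det) y else 0 := by
      intro a
      have h2 : (fun p => ∑ j, (M p).adjugate a j * M p j l) =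
          fun p => if a = l then (M p).det else 0 := by
        funext p
        have h3 := congrFun (congrFun (adjugate_mul (M p)) a) l
        rw [mul_apply, Matrix.smul_apply, Matrix.one_apply] at h3
        rw [h3]
        split_ifs <;> simp
      have h3 := RD.dX_sum (ξ := ξ a) Finset.univ (F := fun j p => (M p).adjugate a j * M p j l)
        (fun j _ => (hA a j).mul (hM j l)) y
      rw [h2] at h3
      simp only [RD.dX_mul (hA a _) (hM _ l)] at h3
      rw [← h3]
      split_ifs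
      · rfl
      · exact RD.dX_const _ _
    have h2 := Finset.sum_congr rfl fun a (_ : a ∈ Finset.univ) => h1 a
    rw [Finset.sum_ite_eq', if_pos (Finset.mem_univ _), M1d_det _ hM] at h2
    simp only [Finset.sum_add_distrib] at h2
    have h3 : ∑ a, ∑ j, (M y).adjugate a j * D.dX (ξ a) (fun p => M p j l) y =
        ∑ j, ∑ a, (M y).adjugate a j * D.dX (ξ l) (fun p => M p j a) y := by
      rw [Finset.sum_comm]
      exact Finset.sum_congr rfl fun j _ => Finset.sum_congr rfl fun a _ => by rw [hs]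
    rw [h3, add_eq_right, Finset.sum_comm] at h2
    simp only [vecMul, dotProduct, Finset.sum_mul, Pi.zero_apply]
    exact h2
  exact congrFun (eq_zero_of_vecMul_eq_zero hd key) b

theorem M1d_inv {M : Matrix (Fin n) (Fin n) ℂ} (h : M.det ≠ 0) (a b : Fin n) :
    M⁻¹ a b * M.det = M.adjugate a b := by
  rw [inv_def, Ring.inverse_eq_inv', Matrix.smul_apply, smul_eq_mul]
  field_simp

/-- Green's formula. -/
theorem green {Ψ f : Y → ℝ} (hΨ : Kah D Ψ) (hf : D.SmR f) {h : Y → ℂ} (hh : D.Test h) :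
    ∫ y, h y * (((LMd D Ψ y)⁻¹ * LMd D f y).trace * (LMd D Ψ y).det) ∂D.μ =
      -∫ y, (dzv D h y ⬝ᵥ (LMd D Ψ y)⁻¹ *ᵥ dbv D (fun p => (f p : ℂ)) y) * (LMd D Ψ y).det ∂D.μ := by
  have hM : ∀ a b, D.Sm fun p => LMd D Ψ p a b := fun a b => (RD.Sm.db hΨ.1 a).dz b
  have hA := M1d_sm_adj hM
  have hd : ∀ y, (LMd D Ψ y).det ≠ 0 := fun y => (hΨ.2 y).det_pos.ne'
  have hb : ∀ j, D.Sm (D.db j fun p => (f p : ℂ)) := fun j => RD.Sm.db hf j
  have hP : ∀ y j, ∑ a, D.dX (zv a) (fun p => (LMd D Ψ p).adjugate a j) y = 0 := fun y j =>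
    M1d_piola zv hM (fun a j l => RD.dX_comm (RD.Sm.db hΨ.1 j) y) (hd y) j
  have hT : ∀ k j, D.Test fun p =>
      h p * ((LMd D Ψ p).adjugate k j * D.db j (fun q => (f q : ℂ)) p) :=
    fun k j => hh.mul ((hA k j).mul (hb j))
  have i1 : Integrable (fun y => h y * (((LMd D Ψ y)⁻¹ * LMd D f y).trace * (LMd D Ψ y).det))
      D.μ := by
    have h1 : D.Test fun y => ∑ k, ∑ j, h y * ((LMd D Ψ y).adjugate k j * LMd D f y j k) :=
      RD.Test.sum _ fun k _ => RD.Test.sum _ fun j _ => hh.mul ((hA k j).mul ((hb j).dz k))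
    refine h1.integrable.congr (Eventually.of_forall fun y => ?_)
    simp only [trace, diag_apply, mul_apply, Finset.sum_mul, Finset.mul_sum, ← M1d_inv (hd y)]
    exact Finset.sum_congr rfl fun k _ => Finset.sum_congr rfl fun j _ => by ring
  have i2 : Integrable (fun y => (dzv D h y ⬝ᵥ (LMd D Ψ y)⁻¹ *ᵥ dbv D (fun p => (f p : ℂ)) y) *
      (LMd D Ψ y).det) D.μ := by
    have h1 : D.Test fun y => ∑ k, ∑ j,
        D.dz k h y * ((LMd D Ψ y).adjugate k j * D.db j (fun q => (f q : ℂ)) y) :=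
      RD.Test.sum _ fun k _ => RD.Test.sum _ fun j _ => (hh.dz k).mul ((hA k j).mul (hb j))
    refine h1.integrable.congr (Eventually.of_forall fun y => ?_)
    simp only [dzv, dbv, dotProduct, mulVec, Finset.sum_mul, Finset.mul_sum, ← M1d_inv (hd y)]
    exact Finset.sum_congr rfl fun k _ => Finset.sum_congr rfl fun j _ => by ring
  have e : ∀ y, h y * (((LMd D Ψ y)⁻¹ * LMd D f y).trace * (LMd D Ψ y).det) +
      (dzv D h y ⬝ᵥ (LMd D Ψ y)⁻¹ *ᵥ dbv D (fun p => (f p : ℂ)) y) * (LMd D Ψ y).det =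
      ∑ k, ∑ j, D.dX (zv k) (fun p =>
        h p * ((LMd D Ψ p).adjugate k j * D.db j (fun q => (f q : ℂ)) p)) y := fun y => by
    have h1 : ∀ k j, D.dX (zv k) (fun p =>
        h p * ((LMd D Ψ p).adjugate k j * D.db j (fun q => (f q : ℂ)) p)) y =
        h y * ((LMd D Ψ y)⁻¹ k j * LMd D f y j k * (LMd D Ψ y).det) +
          D.dz k h y * ((LMd D Ψ y)⁻¹ k j * D.db j (fun q => (f q : ℂ)) y) * (LMd D Ψ y).det +
          h y * D.db j (fun q => (f q : ℂ)) y *
            D.dX (zv k) (fun p => (LMd D Ψ p).adjugate k j) y := fun k j => by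
      rw [RD.dX_mul hh.1 ((hA k j).mul (hb j)), RD.dX_mul (hA k j) (hb j), ← M1d_inv (hd y)]
      simp only [LMd, of_apply, RD.dz]
      ring
    have h2 : ∑ k, ∑ j, h y * D.db j (fun q => (f q : ℂ)) y *
        D.dX (zv k) (fun p => (LMd D Ψ p).adjugate k j) y = 0 := by
      rw [Finset.sum_comm]
      exact Finset.sum_eq_zero fun j _ => by rw [← Finset.mul_sum, hP, mul_zero]
    simp only [h1, Finset.sum_add_distrib, h2, add_zero]
    simp only [trace, diag_apply, mul_apply, dzv, dbv, dotProduct, mulVec, Finset.sum_mul,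
      Finset.mul_sum]
  refine eq_neg_of_add_eq_zero_left ?_
  rw [← integral_add i1 i2]
  simp only [e]
  rw [integral_finsetSum _ fun k _ => integrable_finsetSum _ fun j _ => ((hT k j).dX _).integrable]
  refine Finset.sum_eq_zero fun k _ => ?_
  rw [integral_finsetSum _ fun j _ => ((hT k j).dX _).integrable]
  exact Finset.sum_eq_zero fun j _ => RD.integral_dX (hT k j)

end Vale.Agent.P299
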