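import Vale.Agent.P299.M2d
import Vale.Agent.P299.M1d

/-! P299, part K: the Laplacian on a Riemann domain is symmetric and hypoelliptic. -/

open MeasureTheory Set Filter Topology Matrix
open scoped ContDiff ENNReal ComplexConjugate ComplexOrder

noncomputable section

namespace Vale.Agent.P299

open Vale.Agent.P271A

set_option linter.unusedSectionVars false

variable {n : ℕ} {Y : Type} [TopologicalSpace Y] [T2Space Y] [SecondCountableTopology Y]
  [MeasurableSpace Y] [BorelSpace Y] {D : RD n Y} {Ψ f h : Y → ℝ}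

theorem KR_det (hΨ : Kah D Ψ) (y : Y) : ((dV D Ψ y : ℝ) : ℂ) = (LMd D Ψ y).det :=
  Complex.ext rfl (Complex.pos_iff.1 (hΨ.2 y).det_pos).2

theorem KR_tr (hΨ : Kah D Ψ) (hf : D.SmR f) (y : Y) :
    ((lap D Ψ f y : ℝ) : ℂ) = ((LMd D Ψ y)⁻¹ * LMd D f y).trace := by
  refine Complex.conj_eq_iff_re.1 ?_
  rw [← Complex.star_def, ← trace_conjTranspose, conjTranspose_mul, (LMd_herm hf y).eq,
    (hΨ.2 y).inv.isHermitian.eq, trace_mul_comm]

theorem KR_inv (hΨ : Kah D Ψ) (j k : Fin n) : D.Sm fun y => (LMd D Ψ y)⁻¹ j k :=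
  sm_inv (sm_LMd hΨ.1) (fun y => isUnit_iff_ne_zero.2 (hΨ.2 y).det_pos.ne') j k

theorem KR_dV (hΨ : Kah D Ψ) : D.SmR (dV D Ψ) := (M1d_sm_det (sm_LMd hΨ.1)).re

theorem KR_lap (hΨ : Kah D Ψ) (hf : D.SmR f) : D.SmR (lap D Ψ f) :=
  RD.Sm.re (RD.Sm.sum _ fun j _ =>
    RD.Sm.sum Finset.univ fun k _ => (KR_inv hΨ j k).mul (sm_LMd hf k j) :)

theorem KR_zero {t : Y → ℂ} {y : Y} (hy : y ∉ tsupport t) (ξ : E n × E n) : D.dX ξ t y = 0 :=
  image_eq_zero_of_notMem_tsupport fun h => hy (RD.tsupport_dX t h)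

theorem KR_sym (hΨ : Kah D Ψ) (hf : D.SmR f) (hh : D.Test fun y => (h y : ℂ)) :
    ∫ y, h y * lap D Ψ f y * dV D Ψ y ∂D.μ = ∫ y, f y * lap D Ψ h y * dV D Ψ y ∂D.μ := by
  obtain ⟨χ, c1, -, c2, -⟩ := D.exists_cutoff hh.2 isOpen_univ (subset_univ _)
  have h1 := green hΨ hf hh
  have h2 := congrArg conj (green hΨ hh.1 (c1.mul hf))
  have e1 : ∀ y, conj ((χ y : ℂ) * f y * (((LMd D Ψ y)⁻¹ * LMd D h y).trace * (LMd D Ψ y).det)) =
      ((f y * lap D Ψ h y * dV D Ψ y : ℝ) : ℂ) := fun y => by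
    rw [← KR_tr hΨ hh.1, ← KR_det hΨ]
    by_cases hy : y ∈ tsupport fun y => (h y : ℂ)
    · rw [(c2 y hy).eq_of_nhds]
      simp [mul_assoc]
    · have : LMd D h y = 0 := by
        ext j k
        exact KR_zero (fun h => hy (RD.tsupport_dX _ h)) _
      simp [lap, this]
  have e2 : ∀ y, conj ((dzv D (fun y => (χ y : ℂ) * f y) y ⬝ᵥ
      (LMd D Ψ y)⁻¹ *ᵥ dbv D (fun p => (h p : ℂ)) y) * (LMd D Ψ y).det) =
      (dzv D (fun p => (h p : ℂ)) y ⬝ᵥ (LMd D Ψ y)⁻¹ *ᵥ dbv D (fun p => (f p : ℂ)) y) *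
        (LMd D Ψ y).det := fun y => by
    have s1 : star (dbv D (fun p => (h p : ℂ)) y) = dzv D (fun p => (h p : ℂ)) y :=
      funext fun j => by simpa [dbv, dzv] using RD.conj_db (D := D) (fun p => (h p : ℂ)) j y
    rw [map_mul, ← KR_det hΨ, Complex.conj_ofReal, ← Complex.star_def, ← star_dotProduct_star,
      star_mulVec, (hΨ.2 y).inv.isHermitian.eq, s1, ← dotProduct_mulVec]
    by_cases hy : y ∈ tsupport fun y => (h y : ℂ)
    · have s2 : star (dzv D (fun y => (χ y : ℂ) * f y) y) = dbv D (fun p => (f p : ℂ)) y :=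
        funext fun j => (RD.conj_dz _ j y).trans
          (RD.dX_congr ((c2 y hy).mono fun p hp => by simp [hp]))
      rw [s2]
    · rw [show dzv D (fun p => (h p : ℂ)) y = 0 from funext fun j => KR_zero hy _,
        zero_dotProduct, zero_dotProduct]
  rw [map_neg, ← integral_conj, ← integral_conj] at h2
  simp only [e1, e2] at h2
  rw [← h1, integral_complex_ofReal] at h2
  apply Complex.ofReal_injective
  rw [h2, ← integral_complex_ofReal]
  simp only [← KR_tr hΨ hf, ← KR_det hΨ, Complex.ofReal_mul, mul_assoc]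

theorem KR_reg (hΨ : Kah D Ψ) {u b : Y → ℝ} (hu : D.L2loc fun y => (u y : ℂ)) (hb : D.SmR b)
    {lam : ℝ} (H : ∀ t : Y → ℝ, (D.Test fun y => (t y : ℂ)) →
      ∫ y, (lam * t y - lap D Ψ t y) * u y * dV D Ψ y ∂D.μ = ∫ y, b y * t y * dV D Ψ y ∂D.μ) :
    ∃ w, D.SmR w ∧ u =ᵐ[D.μ] w := by
  have hd := KR_dV hΨ
  have hu' := hu.cont_mul (RD.Sm.continuous hd)
  set L : (Y → ℂ) → Y → ℂ := fun t y =>
    ∑ k, ∑ j, (LMd D Ψ y)⁻¹ k j * D.dz k (D.db j t) y - lam * t y with hL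
  have lt : ∀ t, D.Test t → D.Test (L t) := fun t ht =>
    (RD.Test.sum _ fun k _ => RD.Test.sum _ fun j _ =>
      (KR_inv hΨ k j).mul_test ((ht.db j).dz k)).sub ((RD.sm_const _).mul_test ht)
  set F : (Y → ℂ) → Y → ℂ := fun t y =>
    (dV D Ψ y * u y) * L t y + (b y * dV D Ψ y) * t y with hF
  have i1 : ∀ t, D.Test t → Integrable (fun y => ((dV D Ψ y : ℂ) * u y) * L t y) D.μ :=
    fun t ht => hu'.integrable_mul (lt t ht).continuous (lt t ht).2
  have i2 : ∀ t, D.Test t → Integrable (fun y => ((b y : ℂ) * dV D Ψ y) * t y) D.μ :=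
    fun t ht => ((RD.Sm.mul hb hd).mul_test ht).integrable
  have i3 : ∀ t, D.Test t → Integrable (F t) D.μ := fun t ht => (i1 _ ht).add (i2 _ ht)
  have re : ∀ t : Y → ℝ, (D.Test fun y => (t y : ℂ)) → ∫ y, F (fun y => t y) y ∂D.μ = 0 :=
    fun t ht => by
      have h1 := congrArg ((↑) : ℝ → ℂ) (H t ht)
      rw [← integral_complex_ofReal, ← integral_complex_ofReal] at h1
      rw [hF, integral_add (i1 _ ht) (i2 _ ht), add_eq_zero_iff_neg_eq, ← integral_neg]
      refine Eq.trans (integral_congr_ae (Eventually.of_forall fun y => ?_)) (h1.trans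
        (integral_congr_ae (Eventually.of_forall fun y => ?_)))
      · have h2 : ∑ k, ∑ j, (LMd D Ψ y)⁻¹ k j * D.dz k (D.db j fun y => (t y : ℂ)) y =
            lap D Ψ t y := (KR_tr hΨ ht.1 y).symm
        simp only [hL, h2]
        push_cast
        ring
      · push_cast
        ring
  have cx : ∀ t, D.Test t → ∫ y, F t y ∂D.μ = 0 := fun t ht => by
    have t1 : D.Test fun y => ((t y).re : ℂ) :=
      ⟨ht.1.re, ht.2.comp_left (g := fun z : ℂ => (z.re : ℂ)) (by simp)⟩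
    have t2 : D.Test fun y => ((-Complex.I * t y).re : ℂ) :=
      ⟨((RD.sm_const _).mul ht.1).re,
        ht.2.comp_left (g := fun z : ℂ => ((-Complex.I * z).re : ℂ)) (by simp)⟩
    have e : t = fun y => ((t y).re : ℂ) + Complex.I * ((-Complex.I * t y).re : ℂ) :=
      funext fun y => by apply Complex.ext <;> simp
    have lin : ∀ {p q : Y → ℂ}, D.Sm p → D.Sm q → ∀ ξ, D.dX ξ (fun y => p y + Complex.I * q y) =
        fun y => D.dX ξ p y + Complex.I * D.dX ξ q y := fun hp hq ξ => funext fun y => by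
      rw [RD.dX_add hp ((RD.sm_const _).mul hq), RD.dX_const_mul hq]
    have e2 : ∀ y, F t y = F (fun y => ((t y).re : ℂ)) y +
        Complex.I * F (fun y => ((-Complex.I * t y).re : ℂ)) y := fun y => by
      conv_lhs => rw [e]
      simp only [hF, hL, RD.dz, RD.db, lin t1.1 t2.1, lin (t1.1.dX _) (t2.1.dX _), mul_add,
        Finset.sum_add_distrib, mul_left_comm _ Complex.I, ← Finset.mul_sum]
      ring
    simp only [e2]
    rw [integral_add (i3 _ t1) ((i3 _ t2).const_mul _),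
      integral_const_mul, re _ t1, re _ t2, mul_zero, add_zero]
  obtain ⟨w, hw, he⟩ := m2_rd (κ := Unit) (fun y => (LMd D Ψ y)⁻¹) (fun _ _ => 0)
    (fun _ => (-lam : ℂ) • 1) (fun y _ => dV D Ψ y * u y) (fun y _ => -(b y * dV D Ψ y))
    (KR_inv hΨ) (fun y => (hΨ.2 y).inv) (fun _ _ _ => RD.sm_const _) (fun _ _ => RD.sm_const _)
    (fun _ => (RD.Sm.mul hb hd).neg) (fun _ => hu') fun t ht => by
      have t1 : D.Test fun y => t y () := ⟨ht.1 (), ht.2.comp_left (g := fun z : Unit → ℂ => z ()) rfl⟩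
      have h1 := cx _ t1
      rw [hF, integral_add (i1 _ t1) (i2 _ t1), add_eq_zero_iff_eq_neg, ← integral_neg] at h1
      refine Eq.trans (integral_congr_ae (Eventually.of_forall fun y => ?_)) (h1.trans
        (integral_congr_ae (Eventually.of_forall fun y => ?_)))
      · simp [hL, dotProduct, dzW, dbW, Finset.sum_apply, sub_eq_add_neg, neg_mulVec,
          smul_mulVec]
      · simp [dotProduct]
  have d0 : ∀ y, dV D Ψ y ≠ 0 := fun y => (Complex.pos_iff.1 (hΨ.2 y).det_pos).1.ne'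
  refine ⟨fun y => (w y ()).re * (dV D Ψ y)⁻¹, (hw ()).re.mul (hd.comp (χ := fun s => s⁻¹)
    fun y => contDiffAt_inv ℝ (d0 y)), he.mono fun y hy => ?_⟩
  simp only [← hy, ← Complex.ofReal_mul, Complex.ofReal_re]
  rw [mul_comm, inv_mul_cancel_left₀ (d0 y)]

end Vale.Agent.P299
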