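import Vale.Agent.P299.KA
import Vale.Agent.P299.KR2
import Vale.Agent.P299.Ga
import Vale.Agent.P271A.CovM

/-! P299, part K: the volume of the cover and the preimages of the charts. -/

open MeasureTheory Set Filter Topology Matrix
open scoped ContDiff ENNReal ComplexConjugate ComplexOrder

noncomputable section

namespace Vale.Agent.P299

open Vale.Agent.P271 Vale.Agent.P272 Vale.Agent.P271A

set_option linter.unusedSectionVars false

variable {n : ℕ} {X : Type} [TopologicalSpace X] [MeasurableSpace X] [BorelSpace X]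
  {V : Type} [TopologicalSpace V] [T2Space V] [SecondCountableTopology V] [MeasurableSpace V]
  [BorelSpace V] {π : V → X}

theorem KR_emb (lh : IsLocalHomeomorph π) {U : Set V} (hU : IsOpen U) (hi : InjOn π U) :
    MeasurableEmbedding fun p : U => π p :=
  (IsOpenEmbedding.of_continuous_injective_isOpenMap (lh.continuous.comp continuous_subtype_val)
    (fun p q hpq => Subtype.ext (hi p.2 q.2 hpq))
    (lh.isOpenMap.comp hU.isOpenMap_subtype_val)).measurableEmbedding

theorem KR_img {U B : Set V} (hB : B ⊆ U) :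
    (fun p : U => π p) '' (Subtype.val ⁻¹' B) = π '' B := by
  rw [← image_image π, Subtype.image_preimage_coe, inter_eq_right.2 hB]

theorem KR_mimg (lh : IsLocalHomeomorph π) {U B : Set V} (hU : IsOpen U) (hi : InjOn π U)
    (hBU : B ⊆ U) (hB : MeasurableSet B) : MeasurableSet (π '' B) := by
  rw [← KR_img hBU]
  exact (KR_emb lh hU hi).measurableSet_image.2 (measurable_subtype_coe hB)

/-- `ν` is the pull back of `μ`. -/
def Pl (π : V → X) (μ : Measure X) (ν : Measure V) : Prop :=
  ∀ U, IsOpen U → InjOn π U → ∀ B ⊆ U, MeasurableSet B → ν B = μ (π '' B)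

theorem KR_pull (lh : IsLocalHomeomorph π) (μ : Measure X) : ∃ ν, Pl π μ ν := by
  rcases isEmpty_or_nonempty V with hY | hY
  · exact ⟨0, fun U _ _ B _ _ => by simp [Set.eq_empty_of_isEmpty B]⟩
  choose e he hpr using id lh
  obtain ⟨s, hsc, hs⟩ := TopologicalSpace.countable_cover_nhds (f := fun y => (e y).source)
    fun y => (e y).open_source.mem_nhds (he y)
  obtain ⟨c, hc⟩ := hsc.exists_eq_range (by
    obtain ⟨x, hx, -⟩ := mem_iUnion₂.1 (hs ▸ mem_univ hY.some)
    exact ⟨x, hx⟩)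
  set U : ℕ → Set V := fun k => (e (c k)).source
  have hUo : ∀ k, IsOpen (U k) := fun k => (e (c k)).open_source
  have hUi : ∀ k, InjOn π (U k) := fun k => by
    rw [hpr (c k)]
    exact (e (c k)).injOn
  have hUu : ⋃ k, U k = univ := by rw [← hs, hc, biUnion_range]
  have hAm := MeasurableSet.disjointed fun k => (hUo k).measurableSet
  refine ⟨Measure.sum fun k =>
    ((μ.comap fun p : U k => π p).map Subtype.val).restrict (disjointed U k),
    fun W hW hi B hBW hB => ?_⟩
  have h1 : ∀ k, ((μ.comap fun p : U k => π p).map Subtype.val).restrict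
      (disjointed U k) B = μ (π '' (B ∩ disjointed U k)) := fun k => by
    rw [Measure.restrict_apply hB, Measure.map_apply measurable_subtype_coe (hB.inter (hAm k)),
      (KR_emb lh (hUo k) (hUi k)).comap_apply,
      KR_img (inter_subset_right.trans (disjointed_subset U k))]
  simp only [Measure.sum_apply _ hB, h1]
  rw [← measure_iUnion]
  · rw [← image_iUnion, ← inter_iUnion, iUnion_disjointed, hUu, inter_univ]
  · intro i j hij
    refine Set.disjoint_left.2 ?_
    rintro z ⟨p, hp, rfl⟩ ⟨q, hq, hpq⟩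
    obtain rfl : q = p := hi (hBW hq.1) (hBW hp.1) hpq
    exact Set.disjoint_left.1 (disjoint_disjointed U hij) hp.2 hq.2
  · exact fun k => KR_mimg lh hW hi (inter_subset_left.trans hBW) (hB.inter (hAm k))

theorem KR_inj (lh : IsLocalHomeomorph π) (m : V) : InjOn π (lh m).choose.source :=
  fun p hp q hq h => (lh m).choose.injOn hp hq (by rw [KA_eq, KA_eq, h])

variable {μ : Measure X} {ν : Measure V}

theorem Pl.fin [IsFiniteMeasure μ] (h : Pl π μ ν) (lh : IsLocalHomeomorph π) :
    IsLocallyFiniteMeasure ν := ⟨fun m => ⟨_, (lh m).choose.open_source.mem_nhds (KA_src lh m), by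
  rw [h _ (lh m).choose.open_source (KR_inj lh m) _ subset_rfl
    (lh m).choose.open_source.measurableSet]
  exact measure_lt_top _ _⟩⟩

theorem Pl.pos [μ.IsOpenPosMeasure] (h : Pl π μ ν) (lh : IsLocalHomeomorph π) :
    ν.IsOpenPosMeasure := ⟨fun U hU ⟨m, hm⟩ h0 => by
  have ho := hU.inter (lh m).choose.open_source
  have h1 := measure_mono_null (inter_subset_left (t := (lh m).choose.source)) h0
  rw [h _ (lh m).choose.open_source (KR_inj lh m) _ inter_subset_right ho.measurableSet] at h1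
  exact (lh.isOpenMap _ ho).measure_ne_zero μ ⟨_, m, ⟨hm, KA_src lh m⟩, rfl⟩ h1⟩

/-- The preimage of a chart. -/
abbrev Ya (A : Atl n X) (π : V → X) (a : A.ι) : Type := π ⁻¹' (A.e a).source

variable {M : Model n X} {η : Frm M.toAtl} {lh : IsLocalHomeomorph π} {a : M.ι}
  {D : RD n (Ya M.toAtl π a)} {f : V → ℝ}

theorem KR_open (lh : IsLocalHomeomorph π) (a : M.ι) : IsOpen (π ⁻¹' (M.e a).source) :=
  (M.e a).open_source.preimage lh.continuous

theorem KR_RD (lh : IsLocalHomeomorph π) (a : M.ι) :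
    ∃ D : RD n (Ya M.toAtl π a), D.pr = fun y => M.e a (π y.1) :=
  exists_RD _ (isLocalHomeomorph_iff_isLocalHomeomorphOn_univ.2
    ((IsLocalHomeomorphOn.OpenPartialHomeomorph.isLocalHomeomorphOn (M.e a)).comp (lh.comp
      (KR_open lh a).isOpenEmbedding_subtypeVal.isLocalHomeomorph).isLocalHomeomorphOn
        fun y _ => y.2))

variable (hD : D.pr = fun y => M.e a (π y.1))
include hD

theorem KR_pr (y : Ya M.toAtl π a) : D.pr y = M.e a (π y.1) := congrFun hD y

theorem KR_sec (lh : IsLocalHomeomorph π) (f : V → ℝ) (y : Ya M.toAtl π a) :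
    (fun z => f (D.sec y z).1) =ᶠ[𝓝 (M.e a (π y.1))] lc M.toAtl lh f a y.1 := by
  rw [← KR_pr hD]
  filter_upwards [(D.tendsto_sec y).eventually ((continuous_subtype_val.tendsto y).eventually
    (lf_left lh y.1)), D.target_nhds y] with z h1 h2
  conv_rhs => rw [lc, ← D.pr_sec h2, KR_pr hD, (M.e a).left_inv (D.sec y z).2, h1]

theorem KR_smR (hf : SmV M.toAtl lh f) : D.SmR fun y => f y.1 := fun y => by
  rw [KR_pr hD]
  exact Brid_ofReal ((hf a y y.2).congr_of_eventuallyEq (KR_sec hD lh f y))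

theorem KR_at (hf : D.SmR fun y => f y.1) (y : Ya M.toAtl π a) :
    ContDiffAt ℝ ∞ (lc M.toAtl lh f a y.1) (M.e a (π y.1)) := by
  have h1 := Complex.reCLM.contDiff.contDiffAt.comp _ (hf y)
  rw [KR_pr hD] at h1
  exact h1.congr_of_eventuallyEq (KR_sec hD lh f y).symm

theorem KR_LM (η : Frm M.toAtl) (y : Ya M.toAtl π a) :
    LMd D (fun y => η a (D.pr y)) y = LM (η a) (M.e a (π y.1)) := by
  rw [Ga_LMd, ← KR_pr hD]
  exact LM_congr (mem_of_superset (D.target_nhds y) fun z hz => congrArg _ (D.pr_sec hz))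

theorem KR_kah (hη : Kae M.toAtl η) : Kah D fun y => η a (D.pr y) := by
  refine ⟨RD.sm_pr (F := fun z => (η a z : ℂ)) fun y => ?_, fun y => ?_⟩
  · rw [KR_pr hD]
    exact Brid_ofReal (hη.1.smAt ((M.e a).map_source y.2))
  · rw [KR_LM hD]
    exact hη.2 a _ ((M.e a).map_source y.2)

theorem KR_lapV (hη : Kae M.toAtl η) (hf : SmV M.toAtl lh f) (y : Ya M.toAtl π a) :
    lap D (fun y => η a (D.pr y)) (fun y => f y.1) y = LapV M.toAtl η lh f y.1 := by
  rw [lapV_eq hf hη y.2, lap, KR_LM hD, Ga_LMd, KR_pr hD, LM_congr (KR_sec hD lh f y)]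

theorem KR_ext (lh : IsLocalHomeomorph π) {h : Ya M.toAtl π a → ℝ} (hh : D.SmR h) {K : Set V}
    (hK : IsClosed K) (hs : K ⊆ π ⁻¹' (M.e a).source) (h0 : ∀ y, y.1 ∉ K → h y = 0) :
    SmV M.toAtl lh (Subtype.val.extend h 0) := smV_of_local fun m => by
  by_cases hm : π m ∈ (M.e a).source
  · refine ⟨a, hm, KR_at hD ?_ ⟨m, hm⟩⟩
    simpa only [Subtype.val_injective.extend_apply] using hh
  · obtain ⟨b, hb⟩ := M.cover (π m)
    refine ⟨b, hb, (smV_const 0 b m hb).congr_of_eventuallyEq (lc_congr hb ?_)⟩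
    filter_upwards [hK.isOpen_compl.mem_nhds fun h => hm (hs h)] with x hx
    by_cases h1 : ∃ y : Ya M.toAtl π a, y.1 = x
    · obtain ⟨y, rfl⟩ := h1
      rw [Subtype.val_injective.extend_apply, h0 y hx]
    · exact Function.extend_apply' _ _ _ h1

theorem KR_meas (lh : IsLocalHomeomorph π) (hν : Pl π M.μ ν) :
    (D.μ.withDensity fun y => ENNReal.ofReal (‖M.k a (π y.1)‖ ^ 2)) = ν.comap Subtype.val := by
  have ho := KR_open (M := M) lh a
  rw [← Measure.restrict_univ (μ := D.μ.withDensity _), ← Measure.restrict_univ (μ := ν.comap _)]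
  refine covm_ext fun y _ => ⟨_, (D.ch y).open_source, D.mem_ch y, fun B hB hm => ?_⟩
  have h1 := ho.isOpenMap_subtype_val _ (D.ch y).open_source
  have h2 : InjOn π (Subtype.val '' (D.ch y).source) := by
    rintro _ ⟨p, hp, rfl⟩ _ ⟨q, hq, rfl⟩ h
    rw [D.injOn_ch y hp hq (by rw [KR_pr hD, KR_pr hD, h])]
  have h3 := (MeasurableEmbedding.subtype_coe ho.measurableSet).measurableSet_image.2 hm
  have h4 := KR_mimg lh h1 h2 (image_mono hB) h3
  have h5 : π '' (Subtype.val '' B) ⊆ (M.e a).source := by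
    rintro _ ⟨_, ⟨q, -, rfl⟩, rfl⟩
    exact q.2
  have h6 := meas_measurableSet_image D.lh (D.ch y).open_source (D.injOn_ch y) hB hm
  rw [withDensity_apply _ hm, covm_chart D y hm hB,
    (MeasurableEmbedding.subtype_coe ho.measurableSet).comap_apply,
    hν _ h1 h2 _ (image_mono hB) h3, ← Measure.restrict_eq_self _ h5, ← lintegral_indicator_one h4,
    M.lintegral_chart a (measurable_one.indicator h4), ← lintegral_indicator h6,
    ← lintegral_indicator (M.e a).open_target.measurableSet]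
  refine lintegral_congr fun z => ?_
  by_cases hz : z ∈ D.pr '' B
  · obtain ⟨q, hq, rfl⟩ := id hz
    rw [indicator_of_mem hz, D.sec_pr (hB hq), KR_pr hD, indicator_of_mem ((M.e a).map_source q.2),
      (M.e a).left_inv q.2, indicator_of_mem (mem_image_of_mem _ (mem_image_of_mem _ hq)),
      Pi.one_apply, one_mul]
  · rw [indicator_of_notMem hz]
    by_cases ht : z ∈ (M.e a).target
    · rw [indicator_of_mem ht, indicator_of_notMem, zero_mul]
      rintro ⟨_, ⟨q, hq, rfl⟩, h⟩
      exact hz ⟨q, hq, by rw [KR_pr hD, h, (M.e a).right_inv ht]⟩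
    · rw [indicator_of_notMem ht]

theorem KR_dVc (hη : Kae M.toAtl η) {c : ℝ} (hc : ∀ p, dt M η p = c) (y : Ya M.toAtl π a) :
    dV D (fun y => η a (D.pr y)) y = c * ‖M.k a (π y.1)‖ ^ 2 := by
  rw [dV, KR_LM hD, ← hc (π y.1), dt_eq hη.1 y.2, div_mul_cancel₀ _ (Api_k_pos M y.2).ne']

theorem KR_km :
    Measurable fun y : Ya M.toAtl π a => ENNReal.ofReal (‖M.k a (π y.1)‖ ^ 2) := by
  have h1 : Continuous fun y : Ya M.toAtl π a => M.loc a (fun p => ‖M.k a p‖ ^ 2) (D.pr y) :=
    (M.k_gauge.sm a).continuousOn.comp_continuous D.continuous_pr fun y =>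
      KR_pr hD y ▸ (M.e a).map_source y.2
  refine (h1.congr fun y => ?_).measurable.ennreal_ofReal
  rw [KR_pr hD, M.loc_e a _ y.2]

theorem KR_int (lh : IsLocalHomeomorph π) (hν : Pl π M.μ ν) (hη : Kae M.toAtl η) {c : ℝ}
    (hc : ∀ p, dt M η p = c) {g : V → ℝ} (hg : ∀ m, m ∉ π ⁻¹' (M.e a).source → g m = 0) :
    c * ∫ m, g m ∂ν = ∫ y, g y.1 * dV D (fun y => η a (D.pr y)) y ∂D.μ := by
  rw [← setIntegral_eq_integral_of_forall_compl_eq_zero hg,
    ← integral_subtype_comap (KR_open lh a).measurableSet, ← KR_meas hD lh hν,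
    integral_withDensity_eq_integral_toReal_smul (KR_km hD)
      (Eventually.of_forall fun _ => ENNReal.ofReal_lt_top), ← integral_const_mul]
  refine integral_congr_ae (Eventually.of_forall fun y => ?_)
  simp only [KR_dVc hD hη hc, ENNReal.toReal_ofReal (sq_nonneg _), smul_eq_mul]
  ring

theorem KR_ae (lh : IsLocalHomeomorph π) (hν : Pl π M.μ ν) {P : Ya M.toAtl π a → Prop} :
    (∀ᵐ y ∂D.μ, P y) ↔ ∀ᵐ y ∂ν.comap Subtype.val, P y := by
  rw [← KR_meas hD lh hν, ae_withDensity_iff (KR_km hD)]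
  exact eventually_congr (Eventually.of_forall fun y =>
    ⟨fun h _ => h, fun h => h (ENNReal.ofReal_pos.2 (Api_k_pos M y.2)).ne'⟩)

end Vale.Agent.P299
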