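import Vale.Agent.P299.KR1
import Vale.Agent.P299.KR3

/-! P299, part K: the resolvent on the cover. -/

open MeasureTheory Set Filter Topology Matrix
open scoped ContDiff ENNReal ComplexConjugate ComplexOrder

noncomputable section

namespace Vale.Agent.P299

open Vale.Agent.P271 Vale.Agent.P272 Vale.Agent.P271A

set_option linter.unusedSectionVars false

variable {n : ℕ} {X : Type} [TopologicalSpace X] [T2Space X] [CompactSpace X] [ConnectedSpace X]
  [MeasurableSpace X] [BorelSpace X] {M : Model n X} {η : Frm M.toAtl}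
  {V : Type} [TopologicalSpace V] {π : V → X}

section Aux
variable [T2Space V] [SecondCountableTopology V] [MeasurableSpace V] [BorelSpace V]
  {lh : IsLocalHomeomorph π} {f φ w : V → ℝ} {ν : Measure V}

/-- Test functions on the cover. -/
def TV (M : Model n X) (lh : IsLocalHomeomorph π) : Submodule ℝ (V → ℝ) where
  carrier := {φ | SmV M.toAtl lh φ ∧ HasCompactSupport φ}
  add_mem' h h' := ⟨h.1.add h'.1, h.2.add h'.2⟩
  zero_mem' := ⟨smV_const 0, HasCompactSupport.zero⟩
  smul_mem' t _ h := ⟨(smV_const t).mul h.1, h.2.smul_left (f := fun _ => t)⟩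

/-- The Laplacian on test functions. -/
def LV (η : Frm M.toAtl) (lh : IsLocalHomeomorph π) : TV M lh →ₗ[ℝ] (V → ℝ) where
  toFun φ := LapV M.toAtl η lh φ.1
  map_add' φ ψ := funext (lapV_add φ.2.1 ψ.2.1)
  map_smul' t φ := funext fun m => by
    simpa [Pi.smul_def] using lapV_lin (η := η) φ.2.1 φ.2.1 t 0 m

theorem KR_lap0 {m : V} (h : m ∉ tsupport f) : LapV M.toAtl η lh f m = 0 :=
  (lapV_congr (notMem_tsupport_iff_eventuallyEq.1 h)).trans (lapV_const 0 m)

theorem KR_smLap (hη : Kae M.toAtl η) (hf : SmV M.toAtl lh f) :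
    SmV M.toAtl lh (LapV M.toAtl η lh f) := smV_of_local fun m => by
  obtain ⟨a, ha⟩ := M.cover (π m)
  obtain ⟨D, hD⟩ := KR_RD lh a
  refine ⟨a, ha, KR_at hD ?_ ⟨m, ha⟩⟩
  simpa only [← KR_lapV hD hη hf] using KR_lap (KR_kah hD hη) (KR_smR hD hf)

theorem KR_lapT (hη : Kae M.toAtl η) (hφ : φ ∈ TV M lh) : LapV M.toAtl η lh φ ∈ TV M lh :=
  ⟨KR_smLap hη hφ.1, HasCompactSupport.intro hφ.2 fun _ => KR_lap0⟩

theorem KR_mul (hw : SmV M.toAtl lh w) (hφ : φ ∈ TV M lh) : (fun m => w m * φ m) ∈ TV M lh :=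
  ⟨hw.mul hφ.1, hφ.2.mul_left⟩

theorem KR_rho (lh : IsLocalHomeomorph π) (a : M.ι) (φ : V → ℝ) :
    tsupport (fun m => M.ρ a (π m) * φ m) ⊆ π ⁻¹' (M.e a).source :=
  (closure_minimal (t := π ⁻¹' tsupport (M.ρ a))
    (fun _ hm => subset_tsupport (M.ρ a) (left_ne_zero_of_mul hm))
    ((isClosed_tsupport _).preimage lh.continuous)).trans (preimage_mono (M.ρ_supp a))

theorem KR_extT {a : M.ι} {D : RD n (Ya M.toAtl π a)} (hD : D.pr = fun y => M.e a (π y.1))
    {t : Ya M.toAtl π a → ℝ} (ht : D.Test fun y => (t y : ℂ)) :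
    Subtype.val.extend t 0 ∈ TV M lh ∧
      tsupport (Subtype.val.extend t 0) ⊆ π ⁻¹' (M.e a).source := by
  have h1 : HasCompactSupport t := by
    have h2 := ht.2
    rwa [HasCompactSupport, RD.part_tsupport_ofReal] at h2
  exact ⟨⟨KR_ext hD lh ht.1 (IsCompact.image h1 continuous_subtype_val).isClosed
    (Subtype.coe_image_subset _ _) fun y hy => image_eq_zero_of_notMem_tsupport
      fun h => hy (mem_image_of_mem _ h), h1.extend_zero continuous_subtype_val⟩,
    (h1.tsupport_extend_zero_subset continuous_subtype_val).trans (Subtype.coe_image_subset _ _)⟩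

variable (hη : KY M η) (hν : Pl π M.μ ν)
include hν

theorem KR_intg (hφ : φ ∈ TV M lh) : Integrable φ ν := by
  have := hν.fin lh
  exact hφ.1.continuous.integrable_of_hasCompactSupport hφ.2

include hη

theorem KR_symV (hw : SmV M.toAtl lh w) (hφ : φ ∈ TV M lh) :
    ∫ m, LapV M.toAtl η lh w m * φ m ∂ν = ∫ m, w m * LapV M.toAtl η lh φ m ∂ν := by
  obtain ⟨c, hc⟩ := hη.det
  have c0 : c ≠ 0 := hc (Classical.arbitrary X) ▸ (dt_pos hη.kae _).ne'
  let ψ : M.ι → TV M lh := fun a => ⟨_, KR_mul (smV_pull (M.ρ_sm a)) hφ⟩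
  have e : (⟨φ, hφ⟩ : TV M lh) = ∑ a, ψ a := Subtype.ext (funext fun m => by
    simp [ψ, Finset.sum_apply, ← Finset.sum_mul, M.ρ_sum])
  have e1 : ∀ m, φ m = ∑ a, (ψ a).1 m := fun m => by
    simpa [Finset.sum_apply] using congrFun (congrArg Subtype.val e) m
  have e2 : ∀ m, LapV M.toAtl η lh φ m = ∑ a, LapV M.toAtl η lh (ψ a).1 m := fun m => by
    have h1 := congrArg (LV η lh) e
    rw [map_sum] at h1
    exact (congrFun h1 m).trans (Finset.sum_apply _ _ _)
  rw [integral_congr_ae (Eventually.of_forall fun m => by rw [e1, Finset.mul_sum]),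
    integral_finsetSum _ fun a _ => KR_intg hν (KR_mul (KR_smLap hη.kae hw) (ψ a).2)]
  simp only [e2, Finset.mul_sum]
  rw [integral_finsetSum _ fun a _ => KR_intg hν (KR_mul hw (KR_lapT hη.kae (ψ a).2))]
  refine Finset.sum_congr rfl fun a _ => mul_left_cancel₀ c0 ?_
  obtain ⟨D, hD⟩ := KR_RD lh a
  have hs : tsupport (ψ a).1 ⊆ _ := KR_rho lh a φ
  have ht : D.Test fun y => ((ψ a).1 y.1 : ℂ) := ⟨KR_smR hD (ψ a).2.1, HasCompactSupport.intro
    (IsInducing.subtypeVal.isCompact_preimage' (ψ a).2.2 (by rwa [Subtype.range_coe]))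
      fun y hy => by rw [image_eq_zero_of_notMem_tsupport hy, Complex.ofReal_zero]⟩
  rw [KR_int hD lh hν hη.kae hc fun m hm => by
      rw [image_eq_zero_of_notMem_tsupport fun h => hm (hs h), mul_zero],
    KR_int hD lh hν hη.kae hc fun m hm => by rw [KR_lap0 fun h => hm (hs h), mul_zero]]
  simpa only [KR_lapV hD hη.kae hw, KR_lapV hD hη.kae (ψ a).2.1, mul_comm (LapV _ _ _ w _)] using
    KR_sym (KR_kah hD hη.kae) (KR_smR hD hw) ht

/-- The inequality of Kato. -/
theorem KR_kato (hφ : φ ∈ TV M lh) {lam : ℝ} (hl : 0 < lam) :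
    lam * ∫ m, |φ m| ∂ν ≤ ∫ m, |lam * φ m - LapV M.toAtl η lh φ m| ∂ν := by
  have := hν.fin lh
  have hK : IsCompact (tsupport φ) := hφ.2
  have i1 := (KR_intg hν (sub_mem (Submodule.smul_mem _ lam hφ) (KR_lapT hη.kae hφ))).abs
  have key : ∀ ε > (0 : ℝ), lam * ∫ m, |φ m| ∂ν ≤
      ∫ m, |lam * φ m - LapV M.toAtl η lh φ m| ∂ν + ε * (lam * ν.real (tsupport φ)) := by
    intro ε hε
    have p0 : ∀ s : ℝ, 0 < s ^ 2 + ε ^ 2 := fun s => by positivity
    have hκ : (fun m => √(φ m ^ 2 + ε ^ 2) - ε) ∈ TV M lh := ⟨fun a m hm =>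
      (((hφ.1 a m hm).pow 2).add contDiffAt_const |>.sqrt (p0 _).ne').sub contDiffAt_const,
      HasCompactSupport.intro hK fun m hm => by
        rw [image_eq_zero_of_notMem_tsupport hm]
        simp [hε.le]⟩
    have h0 := KR_symV hη hν (smV_const 1) hκ
    simp only [lapV_const, zero_mul, integral_zero, one_mul] at h0
    have i2 := KR_intg hν (KR_lapT hη.kae hκ)
    have i3 : Integrable ((tsupport φ).indicator fun _ => lam * ε) ν :=
      (integrableOn_const hK.measure_lt_top.ne).integrable_indicator hK.measurableSet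
    have h1 := integral_mono ((KR_intg hν hφ).abs.const_mul lam) ((i1.add i2).add i3) fun m => by
      set r := √(φ m ^ 2 + ε ^ 2) with hr
      have r0 : 0 < r := Real.sqrt_pos.2 (p0 _)
      have r2 : r ^ 2 = φ m ^ 2 + ε ^ 2 := Real.sq_sqrt (p0 _).le
      have r1 : |φ m| ≤ r := Real.abs_le_sqrt (by nlinarith)
      have r3 : ε ≤ r := Real.le_sqrt_of_sq_le (by nlinarith)
      have h2 := lapV_max (m := m) (((smV_const (φ m / r)).mul hφ.1).add
        ((smV_const (-1)).mul hκ.1)) hη.kae (Eventually.of_forall fun x => by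
          have h3 : φ m * φ x + ε ^ 2 ≤ √(φ x ^ 2 + ε ^ 2) * r := by
            rw [hr, ← Real.sqrt_mul (p0 _).le]
            exact Real.le_sqrt_of_sq_le (by nlinarith [sq_nonneg (ε * (φ x - φ m))])
          rw [← hr, ← sub_nonneg]
          have e : φ m / r * φ m + -1 * (r - ε) - (φ m / r * φ x + -1 * (√(φ x ^ 2 + ε ^ 2) - ε)) =
              (√(φ x ^ 2 + ε ^ 2) * r - (φ m * φ x + (r ^ 2 - φ m ^ 2))) / r := by
            field_simp
            ring
          rw [e]
          exact div_nonneg (by linarith) r0.le)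
      rw [lapV_lin hφ.1 hκ.1] at h2
      have h4 : φ m / r * (lam * φ m - LapV M.toAtl η lh φ m) ≤
          |lam * φ m - LapV M.toAtl η lh φ m| := (le_abs_self _).trans (by
        rw [abs_mul, abs_div, abs_of_pos r0]
        exact mul_le_of_le_one_left (abs_nonneg _) ((div_le_one r0).2 r1))
      have h5 : lam * |φ m| ≤ φ m / r * (lam * φ m) +
          (tsupport φ).indicator (fun _ => lam * ε) m := by
        by_cases hm : m ∈ tsupport φ
        · have h6 : |φ m| ≤ φ m / r * φ m + ε := by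
            rw [div_mul_eq_mul_div, ← sub_le_iff_le_add, le_div_iff₀ r0]
            nlinarith [mul_le_mul_of_nonneg_right r1 r0.le, mul_le_mul_of_nonneg_left r3 hε.le]
          rw [indicator_of_mem hm]
          nlinarith [mul_le_mul_of_nonneg_left h6 hl.le]
        · simp [hm, image_eq_zero_of_notMem_tsupport hm]
      simp only [Pi.add_apply, Pi.sub_apply, Pi.smul_apply, smul_eq_mul]
      linarith
    rw [integral_const_mul, integral_add' (i1.add i2) i3, integral_add' i1 i2, ← h0,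
      integral_indicator_const _ hK.measurableSet, smul_eq_mul] at h1
    simp only [Pi.sub_apply, Pi.smul_apply, smul_eq_mul] at h1
    linarith
  have h2 : Tendsto (fun ε : ℝ => ∫ m, |lam * φ m - LapV M.toAtl η lh φ m| ∂ν +
      ε * (lam * ν.real (tsupport φ))) (𝓝[>] 0) (𝓝 (_ + 0 * _)) :=
    ((tendsto_id.mul_const _).const_add _).mono_left nhdsWithin_le_nhds
  rw [zero_mul, add_zero] at h2
  exact ge_of_tendsto h2 (eventually_nhdsWithin_of_forall key)

end Aux

theorem resV (hn : 0 < n) (hη : KY M η) (lh : IsLocalHomeomorph π) [T2Space V]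
    [SecondCountableTopology V] {b : V → ℝ}
    (hb : SmV M.toAtl lh b) {β lam : ℝ} (h : ∀ m, |b m| ≤ β) (hl : 0 < lam) :
    ∃ w, SmV M.toAtl lh w ∧ (∀ m, |w m| ≤ β / lam) ∧
      ∀ m, lam * w m - LapV M.toAtl η lh w m = b m := by
  have _ := hn
  rcases isEmpty_or_nonempty V with hV | ⟨⟨m₀⟩⟩
  · exact ⟨b, hb, fun m => isEmptyElim m, fun m => isEmptyElim m⟩
  borelize V
  have hβ := (abs_nonneg _).trans (h m₀)
  obtain ⟨ν, hν⟩ := KR_pull lh M.μ
  have := hν.fin lh
  have := isOpenPos M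
  have := hν.pos lh
  obtain ⟨c, hc⟩ := hη.det
  have hT : ∀ φ : TV M lh, (lam • (TV M lh).subtype - LV η lh) φ ∈ TV M lh := fun φ =>
    sub_mem (Submodule.smul_mem _ lam φ.2) (KR_lapT hη.kae φ.2)
  have ib : ∀ φ : TV M lh, Integrable (fun m => b m * φ.1 m) ν := fun φ =>
    KR_intg hν (KR_mul hb φ.2)
  obtain ⟨u, um, ub, hu⟩ := KR_dual (ν := ν) (lam • (TV M lh).subtype - LV η lh)
    (fun φ => KR_intg hν (hT φ)) (fun φ => (hT φ).1.continuous.measurable)
    { toFun := fun φ => ∫ m, b m * φ.1 m ∂ν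
      map_add' := fun φ ψ => by
        rw [← integral_add (ib φ) (ib ψ)]
        simp [mul_add]
      map_smul' := fun t φ => by simp [mul_left_comm, integral_const_mul] }
    (div_nonneg hβ hl.le) fun φ => by
      have h1 := mul_le_mul_of_nonneg_left (KR_kato hη hν φ.2 hl) (div_nonneg hβ hl.le)
      rw [← mul_assoc, div_mul_cancel₀ _ hl.ne', ← integral_const_mul] at h1
      refine le_trans (abs_integral_le_integral_abs.trans (integral_mono (ib φ).abs
        ((KR_intg hν φ.2).abs.const_mul β) fun m => ?_)) h1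
      simp only [abs_mul]
      exact mul_le_mul_of_nonneg_right (h m) (abs_nonneg _)
  replace hu : ∀ φ ∈ TV M lh, ∫ m, b m * φ m ∂ν =
      ∫ m, (lam * φ m - LapV M.toAtl η lh φ m) * u m ∂ν := fun φ hφ => hu ⟨φ, hφ⟩
  choose D hD using KR_RD (M := M) lh
  have hw : ∀ a, ∃ w, (D a).SmR w ∧ ∀ᵐ m ∂ν, m ∈ π ⁻¹' (M.e a).source →
      u m = Subtype.val.extend w 0 m := fun a => by
    have hm := (KR_open (M := M) lh a).measurableSet
    have ac : (D a).μ ≪ ν.comap Subtype.val := fun s hs =>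
      (KR_ae (hD a) lh hν (P := fun y => y ∉ s)).2 (measure_eq_zero_iff_ae_notMem.1 hs) |>
        measure_eq_zero_iff_ae_notMem.2
    have m1 : AEStronglyMeasurable (fun y : Ya M.toAtl π a => (u y.1 : ℂ)) (D a).μ :=
      Complex.continuous_ofReal.comp_aestronglyMeasurable
        (((MeasurableEmbedding.subtype_coe hm).aestronglyMeasurable_map_iff.1
          (map_comap_subtype_coe hm ν ▸ um.restrict)).mono_ac ac)
    have m2 : ∀ᵐ y ∂(D a).μ, |u y.1| ≤ β / lam :=
      ac.ae_le ((ae_restrict_iff_subtype hm).1 (ae_restrict_of_ae ub))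
    obtain ⟨w, h1, h2⟩ := KR_reg (lam := lam) (KR_kah (hD a) hη.kae) (u := fun y => u y.1)
      ⟨m1, fun K hK => by
        have := RD.meas_finite (D := D a) hK
        exact MemLp.of_bound m1.restrict _ (ae_restrict_of_ae (m2.mono fun y hy => by simpa))⟩
      (KR_smR (hD a) hb) fun t ht => by
        obtain ⟨t1, t2⟩ := KR_extT (lh := lh) (hD a) ht
        have h3 := congrArg (c * ·) (hu _ t1)
        rw [KR_int (hD a) lh hν hη.kae hc fun m hm => by
            rw [image_eq_zero_of_notMem_tsupport fun h => hm (t2 h), mul_zero],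
          KR_int (hD a) lh hν hη.kae hc fun m hm => by
            rw [KR_lap0 fun h => hm (t2 h), image_eq_zero_of_notMem_tsupport fun h => hm (t2 h)]
            simp] at h3
        simpa only [← KR_lapV (hD a) hη.kae t1.1, Subtype.val_injective.extend_apply]
          using h3.symm
    refine ⟨w, h1, (ae_restrict_iff' hm).1 ((ae_restrict_iff_subtype hm).2 ?_)⟩
    simpa only [Subtype.val_injective.extend_apply] using (KR_ae (hD a) lh hν).1 h2
  choose W hW hae using hw
  have hs : ∀ a, SmV M.toAtl lh fun m => M.ρ a (π m) * Subtype.val.extend (W a) 0 m := fun a => by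
    have h1 := KR_ext (hD a) lh ((KR_smR (hD a) (smV_pull (lh := lh) (M.ρ_sm a))).mul (hW a))
      ((isClosed_tsupport (M.ρ a)).preimage lh.continuous) (preimage_mono (M.ρ_supp a))
      fun y hy => by rw [image_eq_zero_of_notMem_tsupport hy, zero_mul]
    convert h1 using 2 with m
    by_cases h1 : ∃ y : Ya M.toAtl π a, y.1 = m
    · obtain ⟨y, rfl⟩ := h1
      rw [Subtype.val_injective.extend_apply, Subtype.val_injective.extend_apply]
    · rw [Function.extend_apply' _ _ _ h1, Function.extend_apply' _ _ _ h1, Pi.zero_apply, mul_zero]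
  set w : V → ℝ := fun m => ∑ a, M.ρ a (π m) * Subtype.val.extend (W a) 0 m
  have ws : SmV M.toAtl lh w := fun a m hm => ContDiffAt.sum fun i _ => hs i a m hm
  have we : u =ᵐ[ν] w := (ae_all_iff.2 hae).mono fun m hm => by
    rw [← one_mul (u m), ← M.ρ_sum (π m), Finset.sum_mul]
    refine Finset.sum_congr rfl fun a _ => ?_
    by_cases ha : π m ∈ (M.e a).source
    · rw [hm a ha]
    · rw [image_eq_zero_of_notMem_tsupport fun h => ha (M.ρ_supp a h), zero_mul, zero_mul]
  have hz : ∀ φ ∈ TV M lh,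
      ∫ m, (lam * w m - LapV M.toAtl η lh w m - b m) * φ m ∂ν = 0 := fun φ hφ => by
    have i1 := (KR_intg hν (KR_mul ws hφ)).const_mul lam
    have i2 := KR_intg hν (KR_mul (KR_smLap hη.kae ws) hφ)
    have h1 := (hu φ hφ).trans (integral_congr_ae (g := fun m =>
      lam * (w m * φ m) - w m * LapV M.toAtl η lh φ m) (we.mono fun x hx => by
        simp only [hx]
        ring))
    rw [integral_sub i1 (KR_intg hν (KR_mul ws (KR_lapT hη.kae hφ))), ← KR_symV hη hν ws hφ,
      ← integral_sub i1 i2] at h1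
    simp only [sub_mul, mul_assoc]
    exact (integral_sub (i1.sub i2) (ib ⟨φ, hφ⟩)).trans (sub_eq_zero.2 h1.symm)
  refine ⟨w, ws, fun m => ?_, fun m => ?_⟩
  · refine (isClosed_le ws.continuous.abs continuous_const).closure_subset
      ((Measure.dense_of_ae (μ := ν) ?_) m)
    filter_upwards [we, ub] with x h1 h2
    rwa [← h1]
  · have hg := (((smV_const lam).mul ws).sub (KR_smLap hη.kae ws)).sub hb
    obtain ⟨a, ha⟩ := M.cover (π m)
    obtain ⟨χ, c1, c2, c3, -⟩ := (D a).part_bump ⟨m, ha⟩ univ_mem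
    obtain ⟨t1, -⟩ := KR_extT (lh := lh) (hD a) c1
    have t3 := KR_mul hg t1
    have t4 := KR_mul hg t3
    have h2 := (integral_eq_zero_iff_of_nonneg (fun x => ?_) (KR_intg hν t4)).1 (hz _ t3)
    · have h3 := congrFun ((t4.1.continuous.ae_eq_iff_eq ν continuous_const).1 h2) m
      have h4 : Subtype.val.extend χ 0 m = 1 :=
        (Subtype.val_injective.extend_apply χ 0 ⟨m, ha⟩).trans c3.eq_of_nhds
      rw [h4, mul_one] at h3
      exact sub_eq_zero.1 (mul_self_eq_zero.1 h3)
    · rw [← mul_assoc]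
      refine mul_nonneg (mul_self_nonneg _) ?_
      by_cases h1 : ∃ y : Ya M.toAtl π a, y.1 = x
      · obtain ⟨y, rfl⟩ := h1
        rw [Subtype.val_injective.extend_apply]
        exact (c2 y).1
      · rw [Function.extend_apply' _ _ _ h1, Pi.zero_apply]

end Vale.Agent.P299
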