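import Vale.Agent.P299.KC
import Vale.Agent.P299.KE
import Vale.Agent.P299.KF
import Vale.Agent.P299.KG
import Vale.Agent.P299.KH
import Vale.Agent.P299.KR

/-! P299, part K: the blow-up argument on the cover. -/

open MeasureTheory Set Filter Topology Matrix
open scoped ContDiff ENNReal ComplexConjugate ComplexOrder

noncomputable section

namespace Vale.Agent.P299

open Vale.Agent.P271 Vale.Agent.P272

section Gen
variable {n : ℕ} {X : Type} [TopologicalSpace X] {V : Type} [TopologicalSpace V] {π : V → X}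
  {A : Atl n X} {η : Frm A} {lh : IsLocalHomeomorph π} {Γ : Type} [Group Γ] [MulAction Γ V]
  {φ : V → ℝ} {c : Γ → ℝ} {Q : EF A}

theorem KM_sm (h : LB A lh fun (γ : Γ) x => φ (γ • x) - c γ) : SmV A lh φ := by
  simpa using (h.sm 1).add (smV_const (c 1))

theorem KM_inv (tp : Top Γ π) {w : Γ → V → ℝ} {g : V → ℝ} (h : LB0 w)
    (e : ∀ γ x, w γ x = g (γ • x)) : ∃ C, ∀ m, |g m| ≤ C := by
  obtain ⟨K, hK, h1⟩ := tp.coc
  obtain ⟨C, hC⟩ := h.cpt hK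
  refine ⟨C, fun m => ?_⟩
  obtain ⟨γ, hγ⟩ := h1 m
  have h2 := hC γ⁻¹ _ hγ
  rwa [e, inv_smul_smul] at h2

theorem KM_gn (hη : Kae A η) (hQ : HE A η Q) (tp : Top Γ π)
    (h : LB A lh fun (γ : Γ) x => φ (γ • x) - c γ) : ∃ C, ∀ m, gnV A η Q lh φ m ≤ C := by
  obtain ⟨C, hC⟩ := KM_inv tp (h.gn hη hQ).lb0 (g := gnV A η Q lh φ) fun γ x => by
    rw [gn_sub ((KM_sm h).smul tp γ), gn_smul tp]
  exact ⟨C, fun m => (le_abs_self _).trans (hC m)⟩

theorem KM_lap (tp : Top Γ π) (hφ : SmV A lh φ) (γ : Γ) (t : ℝ) (x : V) :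
    LapV A η lh (fun x => φ (γ • x) - t) x = LapV A η lh φ (γ • x) := by
  rw [lapV_sub (hφ.smul tp γ) (smV_const t), lapV_const, sub_zero, lapV_smul tp]

theorem KM_lb_congr {I : Type} {w v : I → V → ℝ} (h : LB A lh w) (e : ∀ i x, v i x = w i x) :
    LB A lh v := by
  obtain rfl : v = w := funext fun i => funext (e i)
  exact h

theorem KM_lower [PreconnectedSpace V] {F f : V → ℝ} {r : V → V} {L D b t : ℝ} {m₀ : V}
    (hL : ∀ s φ, 0 ≤ s → Lp A η lh s φ → ∀ m, |φ m - φ m₀| ≤ s * (L * F m + D))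
    (hF : ∀ R, ∃ m, r m = m ∧ R < F m) (hb : ∀ m, |f m - F m| ≤ b) (ht : 0 ≤ t)
    (h : Lp A η lh t fun m => f (r m)) : 1 ≤ t * L := by
  by_contra hc
  have h1 : 0 < 1 - t * L := by linarith
  obtain ⟨m, hm, h2⟩ := hF ((f (r m₀) + t * D + b) / (1 - t * L))
  rw [div_lt_iff₀ h1] at h2
  have h3 := (le_abs_self _).trans (hL t _ ht h m)
  rw [hm] at h3
  linarith [(abs_le.1 (hb m)).1]

theorem KM_cpt {K : Set V} (hK : IsCompact K) {s : ℕ → V} (h : ∀ k, s k ∈ K) :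
    ∃ y, Tendsto s UK (𝓝 y) := by
  obtain ⟨y, -, hy⟩ := hK.ultrafilter_le_nhds' ((hyperfilter ℕ).map s)
    (Ultrafilter.mem_map.2 (univ_mem' h))
  exact ⟨y, hy⟩

theorem KM_ulim {s : ℕ → ℝ} {b : ℝ} (h : ∀ k, |s k| ≤ b) : ∃ y, Tendsto s UK (𝓝 y) :=
  KM_cpt (isCompact_Icc (a := -b) (b := b)) fun k => abs_le.1 (h k)

theorem KM_zero : Tendsto (fun k : ℕ => 1 / ((k : ℝ) + 1)) UK (𝓝 0) :=
  tendsto_one_div_add_atTop_nhds_zero_nat.mono_left Nat.hyperfilter_le_atTop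

end Gen

variable {n : ℕ} {X : Type} [TopologicalSpace X] [T2Space X] [CompactSpace X] [ConnectedSpace X]
  [MeasurableSpace X] [BorelSpace X] {M : Model n X} {η : Frm M.toAtl}
  {V : Type} [TopologicalSpace V] [T2Space V] [SecondCountableTopology V] {π : V → X}
  {lh : IsLocalHomeomorph π}
  {Γ : Type} [Group Γ] [MulAction Γ V] {F : V → ℝ} {l : Γ → ℝ} {Q : EF M.toAtl}

/-- The resolvent of the length function. -/
theorem KM_res (hn : 0 < n) (hη : KY M η) (tp : Top Γ π) (hp : Prp F)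
    (h : LB M.toAtl lh fun (γ : Γ) x => F (γ • x) - l γ) {β : ℝ}
    (hβ : ∀ m, |LapV M.toAtl η lh F m| ≤ β) {lam : ℝ} (h0 : 0 < lam) (h1 : lam ≤ 1) :
    ∃ f, SmV M.toAtl lh f ∧ (∀ m, |f m - F m| ≤ β / lam) ∧
      (∀ m, LapV M.toAtl η lh f m = lam * (f m - F m)) ∧
      ∀ (Q : EF M.toAtl) (s : ℝ), HE M.toAtl η Q → (∀ m, gnV M.toAtl η Q lh F m ≤ s) →
        ∀ m, gnV M.toAtl η Q lh f m ≤ s := by
  have hF := KM_sm h
  have hL : LB M.toAtl lh fun (γ : Γ) x => LapV M.toAtl η lh F (γ • x) :=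
    KM_lb_congr (h.lap hη.kae) fun γ x => (KM_lap tp hF γ _ x).symm
  have hb : SmV M.toAtl lh (LapV M.toAtl η lh F) := by simpa using hL.sm 1
  obtain ⟨w, hw, hw0, hw1⟩ := resV hn hη lh hb hβ h0
  have hf := hF.add hw
  have he : ∀ m, LapV M.toAtl η lh (fun x => F x + w x) m = lam * (F m + w m - F m) := fun m => by
    rw [lapV_add hF hw]
    linarith [hw1 m]
  have h2 : LB M.toAtl lh fun (γ : Γ) x => w (γ • x) := by
    refine intV hη.kae (fun γ => hw.smul tp γ)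
      (fun m => ⟨β / lam, Eventually.of_forall fun x γ => hw0 _⟩) (c := fun _ => lam)
      (fun _ => by rwa [abs_of_pos h0]) ?_
    refine KM_lb_congr ((lb_const (c := fun _ => -1) (C := 1) fun _ => by simp).mul hL)
      fun γ x => ?_
    rw [lapV_smul tp]
    linarith [hw1 (γ • x)]
  refine ⟨_, hf, fun m => by simpa using hw0 m, he, fun Q s hQ hs => ?_⟩
  obtain ⟨C, hC⟩ := KM_gn hη.kae hQ tp (φ := fun x => F x + w x) (c := l)
    (KM_lb_congr (h.add h2) fun γ x => by ring)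
  refine maxV hη.kae hF hp (fun m => (le_abs_self _).trans (hβ m)) (hf.gn hη.kae hQ) hC h0
    fun m => le_trans ?_ (boch_V hη hQ hf hF h0.le he m)
  exact mul_le_mul_of_nonneg_left (by linarith [hs m]) h0.le

/-- Limits of translates. -/
theorem KM_lim [PreconnectedSpace V] (hη : KY M η) (tp : Top Γ π)
    (h : LB M.toAtl lh fun (γ : Γ) x => F (γ • x) - l γ) {β t : ℝ} {f : ℕ → V → ℝ}
    (hf : ∀ k, SmV M.toAtl lh (f k)) (hb : ∀ k m, |f k m - F m| ≤ β / (1 / ((k : ℝ) + 1)))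
    (he : ∀ k m, LapV M.toAtl η lh (f k) m = 1 / ((k : ℝ) + 1) * (f k m - F m)) (ht : 0 ≤ t)
    (hl : ∀ k, Lp M.toAtl η lh t (f k)) (γ : ℕ → Γ) (m₀ : V) :
    ∃ u c, SmV M.toAtl lh u ∧ (∀ m, LapV M.toAtl η lh u m = c) ∧
      Cv1 M.toAtl lh (fun k x => f k (γ k • x) - f k (γ k • m₀)) u := by
  have h0 : ∀ k : ℕ, 0 < 1 / ((k : ℝ) + 1) := fun k => by positivity
  have h1 : ∀ k : ℕ, |1 / ((k : ℝ) + 1)| ≤ 1 := fun k => by
    rw [abs_of_pos (h0 k), div_le_one (by positivity)]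
    linarith [Nat.cast_nonneg (α := ℝ) k]
  obtain ⟨C, hC⟩ := h.lb0 m₀
  have hc : ∀ k : ℕ, |1 / ((k : ℝ) + 1) * (f k (γ k • m₀) - l (γ k))| ≤ β + |C| := fun k => by
    have h2 : |1 / ((k : ℝ) + 1) * (f k (γ k • m₀) - F (γ k • m₀))| ≤ β := by
      rw [abs_mul, abs_of_pos (h0 k), mul_comm, ← le_div_iff₀ (h0 k)]
      exact hb k _
    have h3 : |1 / ((k : ℝ) + 1) * (F (γ k • m₀) - l (γ k))| ≤ 1 * |C| := by
      rw [abs_mul]
      exact mul_le_mul (h1 k) ((hC.self_of_nhds (γ k)).trans (le_abs_self C)) (abs_nonneg _)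
        zero_le_one
    refine abs_le.2 ⟨?_, ?_⟩ <;>
      linarith [(abs_le.1 h2).1, (abs_le.1 h2).2, (abs_le.1 h3).1, (abs_le.1 h3).2]
  have hW0 : LB0 fun k x => f k (γ k • x) - f k (γ k • m₀) := fun m => by
    obtain ⟨D, hD⟩ := lip_pt hη.kae lh m₀ m
    exact ⟨t * D, hD.mono fun x hx k => hx t _ ht ((hl k).smul tp (γ k))⟩
  have hE : ∀ k x, LapV M.toAtl η lh (fun x => f k (γ k • x) - f k (γ k • m₀)) x =
      1 / ((k : ℝ) + 1) * ((f k (γ k • x) - f k (γ k • m₀)) - (F (γ k • x) - l (γ k))) +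
        1 / ((k : ℝ) + 1) * (f k (γ k • m₀) - l (γ k)) := fun k x => by
    rw [KM_lap tp (hf k), he]
    ring
  have hW : LB M.toAtl lh fun k x => f k (γ k • x) - f k (γ k • m₀) := by
    refine intV hη.kae (fun k => ((hf k).smul tp _).sub (smV_const _)) hW0 h1 ?_
    refine KM_lb_congr (((lb_const (c := fun k : ℕ => -(1 / ((k : ℝ) + 1))) (C := 1)
      fun k => by rw [abs_neg]; exact h1 k).mul (h.idx γ)).add (lb_const hc)) fun k x => ?_
    rw [hE]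
    ring
  obtain ⟨u, hu, hu1, hu2⟩ := limV hη.kae hW
  obtain ⟨c, hc'⟩ := KM_ulim hc
  refine ⟨u, c, hu, fun m => tendsto_nhds_unique (hu1 m) ?_, hu2⟩
  obtain ⟨D, hD⟩ := hW0 m
  obtain ⟨D', hD'⟩ := h.lb0 m
  obtain ⟨y, hy⟩ := KM_ulim (b := D + D')
    (s := fun k => (f k (γ k • m) - f k (γ k • m₀)) - (F (γ k • m) - l (γ k))) fun k =>
      (abs_sub _ _).trans (add_le_add (hD.self_of_nhds k) (hD'.self_of_nhds (γ k)))
  have h4 := (KM_zero.mul hy).add hc'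
  rw [zero_mul, zero_add] at h4
  exact h4.congr fun k => (hE k m).symm

/-- The fixed points of a retraction lie in a compact set. -/
theorem KM_main [PreconnectedSpace V] (hn : 0 < n) (hη : KY M η) (tp : Top Γ π)
    (hQ : HE M.toAtl η Q) (m₀ : V) (hmax : ∀ u, PF M.toAtl η lh (grV M.toAtl η Q lh u) →
      ∀ m, gnV M.toAtl η Q lh u m = 0) {r : V → V}
    (hr : ∀ f s, SmV M.toAtl lh f → (∀ m, gnV M.toAtl η Q lh f m ≤ s) →
      Lp M.toAtl η lh (2 * √s) fun m => f (r m)) :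
    ∃ K, IsCompact K ∧ ∀ m, r m = m → m ∈ K := by
  obtain ⟨T, l, hT, hl, hl'⟩ := exists_len Γ tp.fg
  obtain ⟨F, Kc, hKc, hF1, hF⟩ := exists_F M.toAtl lh tp hl
  have hp := prp_of_len tp hl hKc hF1
  obtain ⟨L, D, hL0, hL⟩ := lip_F hη.kae lh tp hT hl' hKc hF1 m₀
  by_contra hcon
  have hun : ∀ R, ∃ m, r m = m ∧ R < F m := fun R => by
    by_contra h
    push Not at h
    obtain ⟨K, hK, h1⟩ := hp R
    exact hcon ⟨K, hK, fun m hm => h1 m (h m hm)⟩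
  obtain ⟨β, hβ⟩ := KM_inv tp (hF.lap hη.kae).lb0 (g := LapV M.toAtl η lh F)
    fun γ x => KM_lap tp (KM_sm hF) γ _ x
  have h0 : ∀ k : ℕ, 0 < 1 / ((k : ℝ) + 1) := fun k => by positivity
  choose f hf hb he hg using fun k : ℕ => KM_res hn hη tp hp hF hβ (h0 k) (by
    rw [div_le_one (by positivity)]
    linarith [Nat.cast_nonneg (α := ℝ) k])
  obtain ⟨s₀, hs₀⟩ := KM_gn hη.kae (he_one hη.kae) tp hF
  obtain ⟨s₁, hs₁⟩ := KM_gn hη.kae hQ tp hF
  have hbd : ∀ k, BddAbove (range (gnV M.toAtl η Q lh (f k))) := fun k =>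
    ⟨s₁, forall_mem_range.2 (hg k Q s₁ hQ hs₁)⟩
  have : Nonempty V := ⟨m₀⟩
  obtain ⟨S, hS⟩ : ∃ S : ℕ → ℝ, S = fun k => ⨆ m, gnV M.toAtl η Q lh (f k) m := ⟨_, rfl⟩
  have hS1 : ∀ k m, gnV M.toAtl η Q lh (f k) m ≤ S k := fun k m => hS ▸ le_ciSup (hbd k) m
  have hS2 : ∀ k, S k ≤ s₁ := fun k => hS ▸ ciSup_le (hg k Q s₁ hQ hs₁)
  have hS3 : ∀ k, 0 ≤ S k := fun k => (gn_nonneg hη.kae Q _ m₀).trans (hS1 k m₀)
  have hS4 : ∀ k, 1 ≤ 2 * √(S k) * L := fun k =>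
    KM_lower hL hun (hb k) (by positivity) (hr _ _ (hf k) (hS1 k))
  have hS5 : ∀ k, ∃ m, S k - 1 / ((k : ℝ) + 1) < gnV M.toAtl η Q lh (f k) m := fun k =>
    exists_lt_of_lt_ciSup (by
      have h1 : (⨆ m, gnV M.toAtl η Q lh (f k) m) = S k := by rw [hS]
      rw [h1]
      linarith [h0 k])
  choose p hp' using hS5
  choose γ x hx hx' using fun k => hF1 (p k)
  obtain ⟨y, hy⟩ := KM_cpt hKc hx
  obtain ⟨σ, hσ⟩ := KM_ulim (s := S) (b := s₁) fun k => by rw [abs_of_nonneg (hS3 k)]; exact hS2 k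
  obtain ⟨u, c, hu, hc, hcv⟩ := KM_lim hη tp hF hf hb he (t := 2 * √s₀) (by positivity)
    (fun k => lp_of_gn hη.kae (hf k) (hg k _ s₀ (he_one hη.kae) hs₀)) γ m₀
  have hW : ∀ k, SmV M.toAtl lh fun x => f k (γ k • x) - f k (γ k • m₀) := fun k =>
    ((hf k).smul tp _).sub (smV_const _)
  have hE : ∀ k x, gnV M.toAtl η Q lh (fun x => f k (γ k • x) - f k (γ k • m₀)) x =
      gnV M.toAtl η Q lh (f k) (γ k • x) := fun k x => by
    rw [gn_sub ((hf k).smul tp _), gn_smul tp]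
  have h1 : ∀ m, gnV M.toAtl η Q lh u m ≤ σ := fun m =>
    le_of_tendsto_of_tendsto' (gn_lim hη.kae hQ hW hu hcv tendsto_const_nhds) hσ fun k =>
      (hE k m).trans_le (hS1 k _)
  have h2 : σ - 0 ≤ gnV M.toAtl η Q lh u y :=
    le_of_tendsto_of_tendsto' (hσ.sub KM_zero) (gn_lim hη.kae hQ hW hu hcv hy) fun k => by
      rw [hE, ← (hx' k).1]
      exact (hp' k).le
  have h3 := hmax u (par_V hη hQ hu hc (m₀ := y) fun m => by linarith [h1 m]) y
  have h4 : 1 ≤ 2 * √σ * L :=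
    ge_of_tendsto' ((hσ.sqrt.const_mul 2).mul_const L) hS4
  rw [Real.sqrt_eq_zero'.2 (by linarith)] at h4
  linarith

end Vale.Agent.P299
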