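import Vale.Agent.P299.La
import Vale.Agent.P271A.Basic

/-! P299: scalar components of polyvector fields. -/

open MeasureTheory Set Filter Topology Matrix
open scoped ContDiff ENNReal ComplexConjugate ComplexOrder

noncomputable section

namespace Vale.Agent.P299

open Vale.Agent.P271A

variable {n N : ℕ} {Y : Type} [TopologicalSpace Y] [T2Space Y] [SecondCountableTopology Y]
  [MeasurableSpace Y] [BorelSpace Y] {A : AD n N Y}

/-- The covectors that generate the Fubini-Study metric. -/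
def AD.eta (A : AD n N Y) (e : Fin (N + 1) × Fin (N + 1)) (y : Y) : Fin n → ℂ :=
  fun j => A.x e.1 y * A.D.dz j (A.x e.2) y - A.x e.2 y * A.D.dz j (A.x e.1) y

/-- The scalar components of a polyvector field. -/
def AD.comp (A : AD n N Y) : List (Fin (N + 1) × Fin (N + 1)) → (Y → W (Fin n)) → Y → ℂ
  | [], v => fun y => v y ∅
  | e :: L, v => A.comp L fun y => ctr (A.eta e y) *ᵥ v y

theorem Lb_hol_ctr {D : RD n Y} {ξ : Y → Fin n → ℂ} (hξ : ∀ j, D.Hol fun y => ξ y j)
    {v : Y → W (Fin n)} (hv : HolW D v) : HolW D fun y => ctr (ξ y) *ᵥ v y := by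
  intro I
  have h : (fun y => (ctr (ξ y) *ᵥ v y) I) =
      fun y => ∑ J, (∑ j, ξ y j * an j I J) * v y J := by
    funext y
    simp [ctr, Matrix.mulVec, dotProduct, Matrix.sum_apply]
  rw [h]
  exact RD.Hol.sum _ fun J _ =>
    (RD.Hol.sum _ fun j _ => (hξ j).mul (RD.hol_const _)).mul (hv J)

theorem AD.Good.hol_comp (hA : A.Good) {v : Y → W (Fin n)} (hv : HolW A.D v) (L) :
    A.D.Hol (A.comp L v) := by
  induction L generalizing v with
  | nil => exact hv ∅
  | cons e L ih =>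
    exact ih (Lb_hol_ctr (fun j => ((hA.hx _).mul ((hA.hx _).dz j)).sub
      ((hA.hx _).mul ((hA.hx _).dz j))) hv)

theorem Lb_q2_comp {q : ℕ} {v : Y → W (Fin n)} (hv : ∀ y, Dg q (v y)) (y : Y) :
    (q.factorial : ℝ) * q2 (Gm (∑ e, vecMulVec (star (A.eta e y)) (A.eta e y))) (v y) =
      ∑ L : Fin q → Fin (N + 1) × Fin (N + 1), ‖A.comp (List.ofFn L) v y‖ ^ 2 := by
  induction q generalizing v with
  | zero => simp [AD.comp, (hv y).q2_zero]
  | succ q ih =>
    rw [Nat.factorial_succ, Nat.cast_mul, mul_comm ((q + 1 : ℕ) : ℝ),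
      mul_assoc, q2_succ (fun e => A.eta e y) rfl (hv y), Finset.mul_sum,
      ← (Fin.consEquiv fun _ : Fin (q + 1) => Fin (N + 1) × Fin (N + 1)).sum_comp,
      Fintype.sum_prod_type (α₂ := Fin q → Fin (N + 1) × Fin (N + 1))]
    refine Finset.sum_congr rfl fun e _ => ?_
    rw [ih (v := fun p => ctr (A.eta e p) *ᵥ v p) fun p => (hv p).ctr _]
    refine Finset.sum_congr rfl fun L _ => ?_
    simp [Fin.consEquiv, List.ofFn_succ, AD.comp]

/-- The norm of a polyvector is given by its scalar components. -/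
theorem AD.Good.q2_comp (hA : A.Good) {q : ℕ} {v : Y → W (Fin n)} (hv : ∀ y, Dg q (v y)) (y : Y) :
    (q.factorial : ℝ) * (2 * A.nx y ^ 2) ^ q * q2 (Gm (LMd A.D A.ρ y)) (v y) =
      ∑ L : Fin q → Fin (N + 1) × Fin (N + 1), ‖A.comp (List.ofFn L) v y‖ ^ 2 := by
  have h0 : ∀ p, ∃ i, A.x i p ≠ 0 := fun p => ⟨0, by simp [hA.x0]⟩
  have h1 : LMd A.D A.ρ y = ((2 * A.nx y ^ 2 : ℝ) : ℂ)⁻¹ •
      ∑ e, vecMulVec (star (A.eta e y)) (A.eta e y) := LMd_lg hA.hx h0 y
  have hc : 0 < 2 * A.nx y ^ 2 := by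
    have := hA.one_le_nx y
    positivity
  rw [← Lb_q2_comp hv y, h1, mul_assoc]
  congr 1
  unfold q2
  rw [Gm_smul _ _ (hv y), dotProduct_smul, smul_eq_mul, ← Complex.ofReal_inv,
    ← Complex.ofReal_pow, Complex.re_ofReal_mul, ← mul_assoc, ← mul_pow,
    mul_inv_cancel₀ hc.ne', one_pow, one_mul]

theorem AD.Good.Lb_comp_le (hA : A.Good) {q : ℕ} {v : Y → W (Fin n)} (hv : ∀ y, Dg q (v y))
    (L : Fin q → Fin (N + 1) × Fin (N + 1)) (y : Y) :
    ‖A.comp (List.ofFn L) v y‖ ^ 2 ≤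
      (q.factorial * 2 ^ q) * (q2 (Gm (LMd A.D A.ρ y)) (v y) * A.nx y ^ (2 * q)) := by
  have h := hA.q2_comp hv y
  have h2 := Finset.single_le_sum
    (f := fun L : Fin q → Fin (N + 1) × Fin (N + 1) => ‖A.comp (List.ofFn L) v y‖ ^ 2)
    (fun _ _ => sq_nonneg _) (Finset.mem_univ L)
  rw [← h] at h2
  refine h2.trans_eq ?_
  rw [mul_pow, pow_mul]
  ring

theorem AD.Good.comp_mem (hA : A.Good) {q m : ℕ} {v : Y → W (Fin n)} (hv : A.IsV q m v)
    (L : Fin q → Fin (N + 1) × Fin (N + 1)) : A.comp (List.ofFn L) v ∈ A.S m (2 * q) := by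
  obtain ⟨C, hC⟩ := hv.bdd
  refine ⟨hA.hol_comp hv.hol _, (q.factorial * 2 ^ q) * C, fun y => ?_⟩
  refine (hA.Lb_comp_le hv.deg L y).trans ?_
  have h1 : 0 ≤ A.nx y ^ (2 * q) := pow_nonneg (zero_le_one.trans (hA.one_le_nx y)) _
  have h2 := mul_le_mul_of_nonneg_right (hC y) h1
  rw [mul_assoc _ C, ← mul_assoc C, Int.cast_natCast]
  exact mul_le_mul_of_nonneg_left h2 (by positivity)

/-- Square integrable holomorphic polyvector fields are bounded. -/
theorem AD.Good.isV (hA : A.Good) {q m : ℕ} {v : Y → W (Fin n)} (hv : HolW A.D v)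
    (hq : ∀ y, Dg q (v y)) (hk : ∀ y, Kill (LMd A.D A.φ y) (v y))
    (h2 : nV A.D A.ρ (fun y => (m + 1) * A.φ y) v < ⊤) : A.IsV q m v := by
  have hm : ∀ L : Fin q → Fin (N + 1) × Fin (N + 1),
      A.comp (List.ofFn L) v ∈ A.S m (2 * q) := by
    intro L
    refine hA.ext m (2 * q) _ (hA.hol_comp hv _) (lt_of_le_of_lt ?_
      (ENNReal.mul_lt_top (ENNReal.ofReal_lt_top (r := q.factorial * 2 ^ q)) h2))
    unfold nO nV
    rw [← lintegral_const_mul' _ _ ENNReal.ofReal_ne_top]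
    refine lintegral_mono fun y => ?_
    rw [← ENNReal.ofReal_mul (by positivity)]
    refine ENNReal.ofReal_le_ofReal ?_
    have hx : 0 < A.nx y := zero_lt_one.trans_le (hA.one_le_nx y)
    have he : Real.exp (-((((m : ℤ) : ℝ) + 1) * A.φ y + ((2 * q : ℕ) : ℝ) * A.ρ y)) =
        Real.exp (-((m + 1) * A.φ y)) * (A.nx y ^ (2 * q))⁻¹ := by
      have h3 : A.ρ y = Real.log (A.nx y) := rfl
      rw [neg_add, Real.exp_add, Int.cast_natCast, Real.exp_neg (_ * A.ρ y), Real.exp_nat_mul, h3,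
        Real.exp_log hx]
    rw [he]
    have h4 := mul_le_mul_of_nonneg_right (hA.Lb_comp_le hq L y)
      (show 0 ≤ Real.exp (-((m + 1) * A.φ y)) * (A.nx y ^ (2 * q))⁻¹ by positivity)
    refine h4.trans_eq ?_
    field_simp
  choose C hC using fun L => (hm L).2
  refine ⟨hv, hq, ⟨(∑ L, C L) / (q.factorial * 2 ^ q), fun y => ?_⟩, hk⟩
  have hx : 0 < A.nx y := zero_lt_one.trans_le (hA.one_le_nx y)
  have h5 := Finset.sum_le_sum fun L (_ : L ∈ Finset.univ) => hC L y
  rw [← hA.q2_comp hq y, ← Finset.sum_mul, Int.cast_natCast] at h5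
  rw [div_mul_eq_mul_div, le_div_iff₀ (by positivity)]
  refine le_of_mul_le_mul_right (a := A.nx y ^ (2 * q)) (le_of_eq_of_le ?_ (h5.trans_eq ?_))
    (by positivity)
  · rw [mul_pow, pow_mul]
    ring
  · ring

omit [T2Space Y] [SecondCountableTopology Y] [BorelSpace Y] in
theorem Lb_comp_add (L) (v w : Y → W (Fin n)) : A.comp L (v + w) = A.comp L v + A.comp L w := by
  induction L generalizing v w with
  | nil => rfl
  | cons e L ih =>
    simp only [AD.comp]
    rw [← ih]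
    congr 1
    funext y
    simp [Matrix.mulVec_add]

omit [T2Space Y] [SecondCountableTopology Y] [BorelSpace Y] in
theorem Lb_comp_smul (L) (c : ℂ) (v : Y → W (Fin n)) : A.comp L (c • v) = c • A.comp L v := by
  induction L generalizing v with
  | nil => rfl
  | cons e L ih =>
    simp only [AD.comp]
    rw [← ih]
    congr 1
    funext y
    simp [Matrix.mulVec_smul]

/-- Fields of degree `q` whose components are sections. -/
def AD.LbT (A : AD n N Y) (q m : ℕ) : Submodule ℂ (Y → W (Fin n)) where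
  carrier := {v | (∀ y, Dg q (v y)) ∧
    ∀ L : Fin q → Fin (N + 1) × Fin (N + 1), A.comp (List.ofFn L) v ∈ A.S m (2 * q)}
  add_mem' := by
    rintro v w ⟨hv, hv'⟩ ⟨hw, hw'⟩
    refine ⟨fun y I hI => ?_, fun L => ?_⟩
    · simp [hv y I hI, hw y I hI]
    · rw [Lb_comp_add]
      exact Submodule.add_mem _ (hv' L) (hw' L)
  zero_mem' := by
    refine ⟨fun y I _ => rfl, fun L => ?_⟩
    rw [← zero_smul ℂ (0 : Y → W (Fin n)), Lb_comp_smul, zero_smul]
    exact Submodule.zero_mem _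
  smul_mem' := by
    rintro c v ⟨hv, hv'⟩
    refine ⟨fun y I hI => ?_, fun L => ?_⟩
    · simp [hv y I hI]
    · rw [Lb_comp_smul]
      exact Submodule.smul_mem _ _ (hv' L)

theorem AD.Good.Lb_fd (hA : A.Good) (q m : ℕ) : FiniteDimensional ℂ (A.LbT q m) := by
  have := hA.fd m (2 * q)
  let f : A.LbT q m →ₗ[ℂ] ((Fin q → Fin (N + 1) × Fin (N + 1)) → A.S m (2 * q)) :=
    { toFun := fun v L => ⟨A.comp (List.ofFn L) v.1, v.2.2 L⟩
      map_add' := fun v w => funext fun L => Subtype.ext (Lb_comp_add _ _ _)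
      map_smul' := fun c v => funext fun L => Subtype.ext (Lb_comp_smul _ _ _) }
  refine FiniteDimensional.of_injective f ((injective_iff_map_eq_zero f).2 fun v hv => ?_)
  refine Subtype.ext (funext fun y => ?_)
  have h1 := hA.q2_comp v.2.1 y
  have h2 : ∀ L : Fin q → Fin (N + 1) × Fin (N + 1), A.comp (List.ofFn L) v.1 y = 0 := fun L =>
    congrFun (congrArg Subtype.val (congrFun hv L)) y
  have hx : 0 < A.nx y := zero_lt_one.trans_le (hA.one_le_nx y)
  simp only [h2, norm_zero, ne_eq, OfNat.ofNat_ne_zero, not_false_eq_true, zero_pow,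
    Finset.sum_const_zero] at h1
  by_contra hne
  have h3 := (Gm_posDef (hA.pos.2 y)).dotProduct_mulVec_pos hne
  have h4 : 0 < q2 (Gm (LMd A.D A.ρ y)) (v.1 y) := (Complex.pos_iff.1 h3).1
  exact absurd h1 (by positivity)

/-- The spaces of fields are finite dimensional. -/
theorem AD.Good.fin_V (hA : A.Good) (q m : ℕ) : ∃ (r : ℕ) (u : Fin r → Y → W (Fin n)),
    (∀ i, A.IsV q m (u i)) ∧ ∀ v, A.IsV q m v → ∃ c : Fin r → ℂ, v = ∑ i, c i • u i := by
  have := hA.Lb_fd q m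
  have hle : Submodule.span ℂ {v | A.IsV q m v} ≤ A.LbT q m :=
    Submodule.span_le.2 fun v hv => ⟨hv.deg, hA.comp_mem hv⟩
  have hfd := Submodule.finiteDimensional_of_le hle
  obtain ⟨s, hs, hs'⟩ := (Submodule.fg_span_iff_fg_span_finset_subset _).1
    ((Submodule.fg_iff_finiteDimensional _).2 hfd)
  refine ⟨s.card, fun i => s.equivFin.symm i, fun i => hs (s.equivFin.symm i).2, fun v hv => ?_⟩
  have h1 : v ∈ Submodule.span ℂ (range fun i => (s.equivFin.symm i : Y → W (Fin n))) := by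
    have h2 : (range fun i => (s.equivFin.symm i : Y → W (Fin n))) = s := by
      ext w
      exact ⟨by rintro ⟨i, rfl⟩; exact (s.equivFin.symm i).2,
        fun hw => ⟨s.equivFin ⟨w, hw⟩, by simp⟩⟩
    rw [h2, ← hs']
    exact Submodule.subset_span hv
  obtain ⟨c, hc⟩ := (Submodule.mem_span_range_iff_exists_fun _).1 h1
  exact ⟨c, hc.symm⟩

end Vale.Agent.P299
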