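import Vale.Agent.P299.Lb
import Vale.Agent.P271A.Weyl

/-! P299: localisation of affine models. -/

open MeasureTheory Set Filter Topology Matrix
open scoped ContDiff ENNReal ComplexConjugate ComplexOrder

noncomputable section

namespace Vale.Agent.P299

open Vale.Agent.P271A

open scoped MatrixOrder Matrix.Norms.L2Operator in
theorem Lc_cs {κ : Type} [Fintype κ] [DecidableEq κ] {g : Matrix κ κ ℂ} (hg : g.PosDef)
    (ξ w : κ → ℂ) : ‖star ξ ⬝ᵥ w‖ ^ 2 ≤ q2 g⁻¹ ξ * q2 g w := by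
  obtain ⟨b, rfl⟩ : ∃ b : Matrix κ κ ℂ, g = bᴴ * b :=
    CStarAlgebra.nonneg_iff_eq_star_mul_self.mp hg.posSemidef.nonneg
  have h := (isUnit_iff_isUnit_det _).1 hg.isUnit
  rw [det_mul] at h
  have hb := isUnit_of_mul_isUnit_right h
  have e2 : (bᴴ * b)⁻¹ = (b⁻¹ᴴ)ᴴ * b⁻¹ᴴ := by
    rw [Matrix.mul_inv_rev, conjTranspose_conjTranspose, conjTranspose_nonsing_inv]
  have e3 : star ξ ⬝ᵥ w = star (b⁻¹ᴴ *ᵥ ξ) ⬝ᵥ b *ᵥ w := by
    rw [star_mulVec, conjTranspose_conjTranspose, ← dotProduct_mulVec, mulVec_mulVec,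
      nonsing_inv_mul _ hb, one_mulVec]
  rw [e2, Fock_q2_sq, Fock_q2_sq, e3]
  exact Fock_cs _ _

theorem Lc_q2_cont {Y κ : Type} [TopologicalSpace Y] [Fintype κ] {g : Y → Matrix κ κ ℂ}
    (hg : ∀ j k, Continuous fun y => g y j k) {v : Y → κ → ℂ} (hv : ∀ j, Continuous fun y => v y j) :
    Continuous fun y => q2 (g y) (v y) := by
  simp only [q2, dotProduct, mulVec, Pi.star_apply]
  exact Complex.continuous_re.comp (continuous_finsetSum _ fun j _ => (hv j).star.mul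
    (continuous_finsetSum _ fun k _ => (hg j k).mul (hv k)))

variable {n N : ℕ} {Y : Type} [TopologicalSpace Y] [T2Space Y] [SecondCountableTopology Y]
  [MeasurableSpace Y] [BorelSpace Y] {A : AD n N Y}

variable {P : Y → ℂ} {B : AD n N {y // P y ≠ 0}}

set_option linter.unusedSectionVars false

theorem AD.Sub.at_iff (h : A.Sub P B) (hP : Continuous P) (f : Y → ℂ) (y : {y // P y ≠ 0}) :
    (fun p : {y // P y ≠ 0} => f p.1) ∘ B.D.sec y =ᶠ[𝓝 (A.D.pr y.1)] f ∘ A.D.sec y.1 := by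
  have _ := hP
  rw [← h.pr y]
  refine RD.rep ?_
  filter_upwards [continuous_subtype_val.continuousAt.eventually (A.D.rep_sec f y.1)] with p hp
  rw [hp, Function.comp_apply, Function.comp_apply, Function.comp_apply, h.pr]
  rfl

theorem AD.Sub.dX (h : A.Sub P B) (hP : Continuous P) (ξ : E n × E n) (f : Y → ℂ)
    (y : {y // P y ≠ 0}) : B.D.dX ξ (fun p => f p.1) y = A.D.dX ξ f y.1 := by
  unfold RD.dX
  rw [h.pr]
  exact eX_congr (h.at_iff hP f y)

theorem Lc_hol (h : A.Sub P B) (hP : Continuous P) {f : Y → ℂ} (hf : A.D.Hol f) :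
    B.D.Hol fun p => f p.1 := fun y => by
  rw [h.pr]
  exact (hf y.1).congr_of_eventuallyEq (h.at_iff hP f y)

theorem Lc_LMd (h : A.Sub P B) (hP : Continuous P) (f : Y → ℝ) (y : {y // P y ≠ 0}) :
    LMd B.D (fun p => f p.1) y = LMd A.D f y.1 := by
  ext j k
  have e : (B.D.db j fun p => (f p.1 : ℂ)) = fun p => A.D.db j (fun p => (f p : ℂ)) p.1 :=
    funext fun p => h.dX hP _ (fun p => (f p : ℂ)) p
  simp only [LMd, of_apply]
  rw [e]
  exact h.dX hP _ _ y

theorem Lc_φ (h : A.Sub P B) : B.φ = fun p => A.φ p.1 := funext h.φ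

theorem Lc_nx (h : A.Sub P B) (y : {y // P y ≠ 0}) : B.nx y = A.nx y.1 := by
  simp only [AD.nx, h.x]

theorem Lc_ρ (h : A.Sub P B) : B.ρ = fun p => A.ρ p.1 := funext fun y => by
  simp only [AD.ρ, lg, h.x]

/-- Locally bounded holomorphic functions extend. -/
theorem Lc_ext (h : A.Sub P B) (hP : A.D.Hol P) {g : {y // P y ≠ 0} → ℂ} (hg : B.D.Hol g)
    {w : Y → ℝ} (hw : Continuous w) (hb : ∀ p, ‖g p‖ ^ 2 ≤ w p.1) :
    ∃ H, A.D.Hol H ∧ ∀ p, g p = H p.1 := by
  classical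
  have hc := hP.sm.continuous
  have hU : IsOpen {y | P y ≠ 0} := isOpen_ne_fun hc continuous_const
  let z : Y → ℂ := fun y => if h : P y ≠ 0 then g ⟨y, h⟩ else 0
  have e : (fun p : {y // P y ≠ 0} => z p.1) = g := funext fun p => dif_pos p.2
  have z0 : ∀ y, P y = 0 → z y = 0 := fun y hy => dif_neg (not_not.2 hy)
  have hd : ∀ y, P y ≠ 0 → DifferentiableAt ℂ (z ∘ A.D.sec y) (A.D.pr y) := fun y hy => by
    have e1 := h.at_iff hc z ⟨y, hy⟩
    have d := hg ⟨y, hy⟩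
    rw [e] at e1
    rw [h.pr] at d
    exact d.congr_of_eventuallyEq e1.symm
  have hm : Measurable z := by
    have h2 : ContinuousOn z {y | P y ≠ 0} := fun y hy =>
      (RD.wy_cont (hd y hy)).continuousWithinAt
    have h3 : ContinuousOn z {y | P y ≠ 0}ᶜ :=
      (continuousOn_const (c := (0 : ℂ))).congr fun y hy => z0 y (not_not.1 hy)
    have := h2.measurable_piecewise h3 hU.measurableSet
    rwa [piecewise_same] at this
  have hL : A.D.L2loc z := by
    refine ⟨hm.aestronglyMeasurable, fun K hK => ?_⟩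
    have := RD.meas_finite (D := A.D) hK
    obtain ⟨C, hC⟩ := hK.exists_bound_of_continuousOn hw.continuousOn
    refine MemLp.of_bound hm.aestronglyMeasurable (√C) ?_
    filter_upwards [ae_restrict_mem hK.measurableSet] with y hy
    by_cases h1 : P y = 0
    · rw [z0 y h1, norm_zero]
      exact Real.sqrt_nonneg _
    · refine Real.le_sqrt_of_sq_le (le_trans ?_ ((le_abs_self _).trans (hC y hy)))
      rw [congrFun e ⟨y, h1⟩]
      exact hb ⟨y, h1⟩
  obtain ⟨H, hH, e1, -⟩ := RD.extend hP hd z0 hL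
  exact ⟨H, hH, fun p => ((e1 p.1 p.2).trans (congrFun e p)).symm⟩

theorem Lc_closed (hA : A.Good) (hP : A.D.Hol P) (h0 : P ≠ 0) {S : Set Y} (hS : IsClosed S)
    (h : ∀ p : {y // P y ≠ 0}, p.1 ∈ S) (y : Y) : y ∈ S :=
  closure_minimal (fun p hp => h ⟨p, hp⟩) hS (hA.dense_ne hP h0 y)

theorem AD.Sub.mem_S (h : A.Sub P B) (hA : A.Good) {l : ℕ} (hP : P ∈ A.S 0 l) (h0 : P ≠ 0)
    {m : ℤ} {l' : ℕ} {g : {y // P y ≠ 0} → ℂ} :
    g ∈ B.S m l' ↔ ∃ f ∈ A.S m l', g = fun p => f p.1 := by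
  have hc := hP.1.sm.continuous
  constructor
  · rintro ⟨hg, C, hC⟩
    have cx : Continuous A.nx :=
      continuous_finsetSum _ fun i _ => (hA.hx i).sm.continuous.norm.pow 2
    have hw : Continuous fun y => C * (Real.exp (m * A.φ y) * A.nx y ^ l') :=
      continuous_const.mul ((continuous_const.mul hA.hφ.continuous).rexp.mul (cx.pow _))
    have hb : ∀ p, ‖g p‖ ^ 2 ≤ C * (Real.exp (m * A.φ p.1) * A.nx p.1 ^ l') := fun p => by
      rw [← h.φ, ← Lc_nx h]
      exact hC p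
    obtain ⟨H, hH, e⟩ := Lc_ext h hP.1 hg hw hb
    refine ⟨H, ⟨hH, C, Lc_closed hA hP.1 h0
      (isClosed_le (hH.sm.continuous.norm.pow 2) hw) fun p => ?_⟩, funext e⟩
    have := hb p
    rwa [e] at this
  · rintro ⟨f, ⟨hf, C, hC⟩, rfl⟩
    refine ⟨Lc_hol h hc hf, C, fun p => ?_⟩
    rw [h.φ, Lc_nx h]
    exact hC p.1

theorem Lc_ctr_cont {ξ : Y → Fin n → ℂ} (hξ : ∀ j, Continuous fun y => ξ y j)
    {v : Y → W (Fin n)} (hv : ∀ I, Continuous fun y => v y I) :
    Continuous fun y => ctr (ξ y) *ᵥ v y := by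
  refine continuous_pi fun I => ?_
  simp only [mulVec, dotProduct, FockB_ctr]
  exact continuous_finsetSum _ fun J _ =>
    (continuous_finsetSum _ fun j _ => (hξ j).mul continuous_const).mul (hv J)

theorem AD.Sub.isV (h : A.Sub P B) (hA : A.Good) {l : ℕ} (hP : P ∈ A.S 0 l) (h0 : P ≠ 0)
    {q m : ℕ} {v : {y // P y ≠ 0} → W (Fin n)} :
    B.IsV q m v ↔ ∃ u, A.IsV q m u ∧ v = fun p => u p.1 := by
  have hc := hP.1.sm.continuous
  constructor
  · rintro ⟨hv, hq, ⟨C, hC⟩, hk⟩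
    have hG := sm_Gm (sm_LMd hA.pos.1)
    have hp : ∀ y, (Gm (LMd A.D A.ρ y)).PosDef := fun y => Gm_posDef (hA.pos.2 y)
    have hw : Continuous fun y => C * Real.exp (m * A.φ y) :=
      continuous_const.mul (continuous_const.mul hA.hφ.continuous).rexp
    have hb : ∀ p, q2 (Gm (LMd A.D A.ρ p.1)) (v p) ≤ C * Real.exp (m * A.φ p.1) := fun p => by
      rw [← h.φ, ← Lc_LMd h hc, ← Lc_ρ h]
      exact hC p
    have key : ∀ I, ∃ H, A.D.Hol H ∧ ∀ p, v p I = H p.1 := fun I => by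
      have hi : ∀ j k, Continuous fun y => (Gm (LMd A.D A.ρ y))⁻¹ j k := fun j k =>
        (sm_inv (g := fun y => Gm (LMd A.D A.ρ y)) hG
          (fun y => (isUnit_iff_isUnit_det _).1 (hp y).isUnit) j k).continuous
      have hi' : Continuous fun y => q2 (Gm (LMd A.D A.ρ y))⁻¹ (Pi.single I 1) :=
        Lc_q2_cont (g := fun y => (Gm (LMd A.D A.ρ y))⁻¹) (v := fun _ => Pi.single I 1) hi
          fun _ => continuous_const
      refine Lc_ext h hP.1 (hv I) (hi'.mul hw) fun p => ?_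
      have h1 := Lc_cs (hp p.1) (Pi.single I 1) (v p)
      rw [← Pi.single_star, star_one, single_one_dotProduct] at h1
      exact h1.trans (mul_le_mul_of_nonneg_left (hb p)
        (Fock_q2_nonneg (hp p.1).inv.posSemidef _))
    choose H hH e using key
    have e' : ∀ p, v p = fun I => H I p.1 := fun p => funext fun I => e I p
    have cH : ∀ I, Continuous (H I) := fun I => (hH I).sm.continuous
    refine ⟨fun y I => H I y, ⟨hH, fun y I hI => ?_, ⟨C, ?_⟩, fun y k => ?_⟩, funext e'⟩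
    · exact Lc_closed hA hP.1 h0 (isClosed_eq (cH I) continuous_const)
        (fun p => (e I p).symm.trans (hq p I hI)) y
    · refine Lc_closed hA hP.1 h0
        (isClosed_le (Lc_q2_cont (fun j k => (hG j k).continuous) cH) hw) fun p => ?_
      have := hb p
      rwa [e'] at this
    · refine Lc_closed hA hP.1 h0 (isClosed_eq (Lc_ctr_cont
        (fun j => (sm_LMd hA.hφ k j).continuous) cH) continuous_const) (fun p => ?_) y
      have := hk p k
      rwa [Lc_φ h, Lc_LMd h hc, e'] at this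
  · rintro ⟨u, ⟨hu, hq, ⟨C, hC⟩, hk⟩, rfl⟩
    refine ⟨fun I => Lc_hol h hc (hu I), fun p => hq p.1, ⟨C, fun p => ?_⟩, fun p => ?_⟩
    · rw [h.φ, Lc_ρ h, Lc_LMd h hc]
      exact hC p.1
    · rw [Lc_φ h, Lc_LMd h hc]
      exact hk p.1

theorem AD.Sub.flatQ (h : A.Sub P B) (hA : A.Good) {l : ℕ} (hP : P ∈ A.S 0 l) (h0 : P ≠ 0)
    {m0 k : ℕ} {s s' : Y → ℂ} (hs : A.D.Hol s) (hs' : A.D.Hol s') :
    B.FlatQ m0 k (fun p => s p.1) (fun p => s' p.1) ↔ A.FlatQ m0 k s s' := by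
  have hc := hP.1.sm.continuous
  have e : ∀ p : {y // P y ≠ 0}, (fun j => s' p.1 * B.D.dz j (fun p => s p.1) p -
      s p.1 * B.D.dz j (fun p => s' p.1) p -
      k * (s p.1 * s' p.1 * B.D.dz j (fun p => (B.φ p : ℂ)) p)) =
      fun j => s' p.1 * A.D.dz j s p.1 - s p.1 * A.D.dz j s' p.1 -
        k * (s p.1 * s' p.1 * A.D.dz j (fun p => (A.φ p : ℂ)) p.1) := fun p => by
    funext j
    rw [Lc_φ h]
    exact congrArg₂ _ (congrArg₂ _ (congrArg _ (h.dX hc _ s p)) (congrArg _ (h.dX hc _ s' p)))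
      (congrArg _ (congrArg _ (h.dX hc _ (fun p => (A.φ p : ℂ)) p)))
  constructor
  · rintro hF u ⟨q, m, hm, hu⟩ y
    have c1 := hs.sm.continuous
    have c2 := hs'.sm.continuous
    refine Lc_closed hA hP.1 h0 (isClosed_eq (Lc_ctr_cont (fun j =>
      ((c2.mul (hs.sm.dz j).continuous).sub (c1.mul (hs'.sm.dz j).continuous)).sub
        (continuous_const.mul ((c1.mul c2).mul (RD.Sm.dz hA.hφ j).continuous)))
      fun I => (hu.hol I).sm.continuous) continuous_const) (fun p => ?_) y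
    have := hF _ ⟨q, m, hm, (h.isV hA hP h0).2 ⟨u, hu, rfl⟩⟩ p
    rwa [e] at this
  · rintro hF v ⟨q, m, hm, hv⟩ p
    obtain ⟨u, hu, rfl⟩ := (h.isV hA hP h0).1 hv
    rw [e]
    exact hF u ⟨q, m, hm, hu⟩ p.1

end Vale.Agent.P299
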