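import Vale.Agent.P299.Lc
import Vale.Agent.P271A.Weyl

/-! P299: existence of localisations. -/

open MeasureTheory Set Filter Topology Matrix
open scoped ContDiff ENNReal ComplexConjugate ComplexOrder

noncomputable section

namespace Vale.Agent.P299

open Vale.Agent.P271A

variable {n N : ℕ} {Y : Type} [TopologicalSpace Y] [T2Space Y] [SecondCountableTopology Y]
  [MeasurableSpace Y] [BorelSpace Y] {A : AD n N Y}

variable {P : Y → ℂ}

set_option linter.unusedSectionVars false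

/-- The Riemann domain structure of the set where `P` does not vanish. -/
def LdRD (D : RD n Y) (hU : IsOpen {y | P y ≠ 0}) : RD n {y // P y ≠ 0} where
  pr y := D.pr y.1
  lh := D.lh.comp hU.isOpenEmbedding_subtypeVal.isLocalHomeomorph
  μ := D.μ.comap Subtype.val
  hμ U h1 h2 T h3 h4 := by
    have e := MeasurableEmbedding.subtype_coe hU.measurableSet
    refine (e.comap_apply _ _).trans ?_
    refine (D.hμ (Subtype.val '' U) (hU.isOpenMap_subtype_val _ h1) ?_ _ (image_mono h3)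
      (e.measurableSet_image.2 h4)).trans (congrArg _ (image_image _ _ _))
    rintro _ ⟨a, ha, rfl⟩ _ ⟨b, hb, rfl⟩ hab
    exact congrArg _ (h2 ha hb hab)

open Classical in
/-- Extension by zero. -/
def Ldz (g : {y // P y ≠ 0} → ℂ) (y : Y) : ℂ := if h : P y ≠ 0 then g ⟨y, h⟩ else 0

theorem Ldz_val (g : {y // P y ≠ 0} → ℂ) : (fun p : {y // P y ≠ 0} => Ldz g p.1) = g :=
  funext fun p => dif_pos p.2

theorem Ldz_zero (g : {y // P y ≠ 0} → ℂ) {y : Y} (h : P y = 0) : Ldz g y = 0 :=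
  dif_neg (not_not.2 h)

section
variable {B : AD n N {y // P y ≠ 0}} (h : A.Sub P B) (hP : Continuous P)
include h hP

theorem Ld_hol {f : Y → ℂ} (hf : A.D.Hol f) : B.D.Hol fun p => f p.1 := fun y => by
  rw [h.pr]
  exact (hf y.1).congr_of_eventuallyEq (h.at_iff hP f y)

theorem Ld_smR {f : Y → ℝ} (hf : A.D.SmR f) : B.D.SmR fun p => f p.1 := fun y => by
  rw [h.pr]
  exact (hf y.1).congr_of_eventuallyEq (h.at_iff hP (fun p => (f p : ℂ)) y)

theorem Ld_dd (f : Y → ℝ) (j k : Fin n) (y : {y // P y ≠ 0}) :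
    B.D.dz j (B.D.db k fun p => (f p.1 : ℂ)) y = A.D.dz j (A.D.db k fun p => (f p : ℂ)) y.1 := by
  have e : (B.D.db k fun p => (f p.1 : ℂ)) = fun p => A.D.db k (fun p => (f p : ℂ)) p.1 :=
    funext fun p => h.dX hP _ (fun p => (f p : ℂ)) p
  rw [e]
  exact h.dX hP _ _ y

theorem Ld_levi (f : Y → ℝ) (y : {y // P y ≠ 0}) (v : Fin n → ℂ) :
    B.D.levi (fun p => f p.1) y v = A.D.levi f y.1 v := by
  simp only [RD.levi, Ld_dd h hP f]

theorem Ld_LMd (f : Y → ℝ) (y : {y // P y ≠ 0}) :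
    LMd B.D (fun p => f p.1) y = LMd A.D f y.1 := by
  simp only [LMd, Ld_dd h hP f]

theorem Ld_diff {g : {y // P y ≠ 0} → ℂ} (hg : B.D.Hol g) (y : Y) (hy : P y ≠ 0) :
    DifferentiableAt ℂ (Ldz g ∘ A.D.sec y) (A.D.pr y) := by
  have e := h.at_iff hP (Ldz g) ⟨y, hy⟩
  have d := hg ⟨y, hy⟩
  rw [Ldz_val] at e
  rw [h.pr] at d
  exact d.congr_of_eventuallyEq e.symm

theorem Ld_meas {g : {y // P y ≠ 0} → ℂ} (hg : B.D.Hol g) : Measurable (Ldz g) := by
  classical
  have hU : IsOpen {y | P y ≠ 0} := isOpen_ne_fun hP continuous_const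
  have h2 : ContinuousOn (Ldz g) {y | P y ≠ 0} := fun y hy =>
    (RD.wy_cont (Ld_diff h hP hg y hy)).continuousWithinAt
  have h3 : ContinuousOn (Ldz g) {y | P y ≠ 0}ᶜ :=
    (continuousOn_const (c := (0 : ℂ))).congr fun y hy => Ldz_zero g (not_not.1 hy)
  have := h2.measurable_piecewise h3 hU.measurableSet
  rwa [piecewise_same] at this

end

theorem Ld_conn {B : AD n N {y // P y ≠ 0}} (h : A.Sub P B) (hA : A.Good) (hP : A.D.Hol P)
    (h0 : P ≠ 0) : IsConnected (univ : Set {y // P y ≠ 0}) := by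
  classical
  have hc := hP.sm.continuous
  obtain ⟨y0, hy0⟩ := Function.ne_iff.1 h0
  refine ⟨⟨⟨y0, hy0⟩, trivial⟩, ?_⟩
  rw [← preconnectedSpace_iff_univ]
  by_contra hn
  obtain ⟨S, hS, h1, h2⟩ : ∃ S : Set {y // P y ≠ 0}, IsClopen S ∧ S ≠ ∅ ∧ S ≠ univ := by
    by_contra hh
    refine hn ⟨isPreconnected_of_forall_pair fun a _ b _ => ⟨connectedComponent a,
      subset_univ _, mem_connectedComponent, ?_, isPreconnected_connectedComponent⟩⟩
    have : LocallyConnectedSpace {y // P y ≠ 0} := by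
      let C : ChartedSpace (E n) {y // P y ≠ 0} :=
        ⟨range B.D.ch, B.D.ch, B.D.mem_ch, fun y => ⟨y, rfl⟩⟩
      exact ChartedSpace.locallyConnectedSpace (E n) _
    by_contra hb
    exact hh ⟨_, isClopen_connectedComponent (x := a),
      (connectedComponent_nonempty (x := a)).ne_empty, fun e => hb (e ▸ mem_univ b)⟩
  let g : {y // P y ≠ 0} → ℂ := fun p => if p ∈ S then 1 else 0
  have hg : B.D.Hol g := RD.hol_of_rep fun y => by
    by_cases hy : y ∈ S
    · refine ⟨fun _ => 1, differentiableAt_const _, ?_⟩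
      filter_upwards [hS.isOpen.mem_nhds hy] with p hp using if_pos hp
    · refine ⟨fun _ => 0, differentiableAt_const _, ?_⟩
      filter_upwards [hS.isClosed.isOpen_compl.mem_nhds hy] with p hp using if_neg hp
  have hm := (Ld_meas h hc hg).aestronglyMeasurable (μ := A.D.μ)
  have hL : A.D.L2loc (Ldz g) := by
    refine ⟨hm, fun K hK => ?_⟩
    have := RD.meas_finite (D := A.D) hK
    refine MemLp.of_bound hm.restrict 1 (Eventually.of_forall fun y => ?_)
    simp only [Ldz, g]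
    split_ifs <;> simp
  obtain ⟨H, hH, e, -⟩ := RD.extend hP (Ld_diff h hc hg) (fun y => Ldz_zero g) hL
  have e' : ∀ p : {y // P y ≠ 0}, H p.1 = g p := fun p =>
    (e p.1 p.2).trans (congrFun (Ldz_val g) p)
  obtain ⟨a, ha⟩ := nonempty_iff_ne_empty.2 h1
  obtain ⟨b, hb⟩ := (ne_univ_iff_exists_notMem S).1 h2
  have n1 : H ≠ 0 := Function.ne_iff.2 ⟨a.1, by simp [e', g, ha]⟩
  have hH' : A.D.Hol fun y => H y - 1 := hH.sub (RD.hol_const 1)
  have n2 : (fun y => H y - 1) ≠ 0 := Function.ne_iff.2 ⟨b.1, by simp [e', g, hb]⟩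
  obtain ⟨y, hy⟩ := Function.ne_iff.1
    (hA.mul_ne (hH.mul hH') hP (hA.mul_ne hH hH' n1 n2) h0)
  have hy' : H y * (H y - 1) * P y ≠ 0 := hy
  have e2 := e' ⟨y, right_ne_zero_of_mul hy'⟩
  refine left_ne_zero_of_mul hy' ?_
  simp only [g] at e2
  rw [e2]
  split_ifs <;> simp

theorem Ld_ext {B : AD n N {y // P y ≠ 0}} (h : A.Sub P B) (hP : A.D.Hol P)
    (hμ : B.D.μ = A.D.μ.comap Subtype.val) {Φ : Y → ℝ} (hΦ : Continuous Φ)
    {F : {y // P y ≠ 0} → ℂ} (hF : B.D.Hol F) (h2 : nO B.D (fun p => Φ p.1) F < ⊤) :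
    ∃ H, A.D.Hol H ∧ nO A.D Φ H < ⊤ ∧ F = fun p => H p.1 := by
  have hc := hP.sm.continuous
  have hU : IsOpen {y | P y ≠ 0} := isOpen_ne_fun hc continuous_const
  have hm := Ld_meas h hc hF
  have e1 : nO A.D Φ (Ldz F) = nO B.D (fun p => Φ p.1) F := by
    have e := lintegral_subtype_comap (μ := A.D.μ) hU.measurableSet
      fun y => ENNReal.ofReal (‖Ldz F y‖ ^ 2 * Real.exp (-Φ y))
    have e3 : nO B.D (fun p => Φ p.1) F = ∫⁻ y in {y | P y ≠ 0},
        ENNReal.ofReal (‖Ldz F y‖ ^ 2 * Real.exp (-Φ y)) ∂A.D.μ := by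
      rw [← e, nO, hμ]
      exact lintegral_congr fun p => by rw [congrFun (Ldz_val F) p]
    rw [e3, nO, ← lintegral_indicator hU.measurableSet]
    refine lintegral_congr fun y => ?_
    by_cases hy : P y = 0
    · rw [indicator_of_notMem (not_not.2 hy), Ldz_zero F hy]
      simp
    · rw [indicator_of_mem hy]
  have hW : Continuous fun y => Real.exp (-Φ y) := hΦ.neg.rexp
  have hL : A.D.L2loc (Ldz F) := by
    refine RD.l2loc_of_weight hW (fun y => Real.exp_pos _) hm.aestronglyMeasurable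
      ⟨((hm.norm.pow_const 2).mul hW.measurable).aestronglyMeasurable, ?_⟩
    rw [hasFiniteIntegral_iff_ofReal (Eventually.of_forall fun y => by positivity)]
    exact lt_of_eq_of_lt e1 h2
  obtain ⟨H, hH, e, ae⟩ := RD.extend hP (Ld_diff h hc hF) (fun y => Ldz_zero F) hL
  refine ⟨H, hH, lt_of_eq_of_lt (Eq.trans ?_ e1) h2,
    funext fun p => ((e p.1 p.2).trans (congrFun (Ldz_val F) p)).symm⟩
  refine lintegral_congr_ae ?_
  filter_upwards [ae] with y hy
  rw [hy]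

theorem AD.Good.exists_sub (hA : A.Good) {l : ℕ} (hP : P ∈ A.S 0 l) (h : P ≠ 0) :
    ∃ B : AD n N {y // P y ≠ 0}, A.Sub P B ∧ B.Good := by
  have hc := hP.1.sm.continuous
  have hU : IsOpen {y | P y ≠ 0} := isOpen_ne_fun hc continuous_const
  obtain ⟨p, hp, ep⟩ := hA.gen l P hP
  let B : AD n N {y // P y ≠ 0} :=
    ⟨LdRD A.D hU, fun i y => A.x i y.1, fun y => A.φ y.1, A.l0 + l, A.p0 * p⟩
  have hs : A.Sub P B := ⟨fun _ => rfl, fun _ _ => rfl, fun _ => rfl⟩
  have eρ : B.ρ = fun y => A.ρ y.1 := rfl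
  have eφ : B.φ = fun y => A.φ y.1 := rfl
  have ev : ∀ y, B.ev B.p0 y = A.ev A.p0 y.1 * P y.1 := fun y => by
    rw [congrFun ep y.1]
    exact map_mul _ _ _
  refine ⟨B, hs, Ld_conn hs hA hP.1 h, funext fun y => congrFun hA.x0 y.1,
    fun i => Ld_hol hs hc (hA.hx i), Ld_smR hs hc hA.hφ, fun y v => ?_,
    ⟨Ld_smR hs hc hA.pos.1, fun y => ?_⟩, ?_, ?_, ?_, fun m l' => ?_, fun m l' F hF h2 => ?_,
    fun m => ?_, fun l' f hf => ?_, ?_, fun y => ?_, fun δ hδ => ?_, fun z h1 h2 => ?_⟩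
  · rw [eφ, Ld_levi hs hc]
    exact hA.psh _ _
  · rw [eρ, Ld_LMd hs hc]
    exact hA.pos.2 _
  · obtain ⟨c, c0, h1⟩ := hA.vol
    refine ⟨c, c0, fun y => ?_⟩
    rw [eρ, dV, Ld_LMd hs hc]
    exact h1 y.1
  · obtain ⟨C, h1⟩ := hA.th
    refine ⟨C, fun y v => ?_⟩
    rw [eρ, eφ, Ld_levi hs hc, Ld_levi hs hc]
    exact h1 _ _
  · exact (integrableOn_iff_comap_subtypeVal hU.measurableSet).1 hA.fin.integrableOn
  · have := hA.fd m l'
    have e : B.S m l' = (A.S m l').map (LinearMap.funLeft ℂ ℂ Subtype.val) := by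
      ext g
      rw [hs.mem_S hA hP h, Submodule.mem_map]
      exact exists_congr fun f => and_congr_right fun _ => eq_comm
    rw [e]
    infer_instance
  · obtain ⟨H, h3, h4, h5⟩ := Ld_ext (Φ := fun y => (m + 1) * A.φ y + l' * A.ρ y) hs hP.1 rfl
      ((continuous_const.mul hA.hφ.continuous).add (continuous_const.mul hA.pos.1.continuous))
      hF h2
    exact (hs.mem_S hA hP h).2 ⟨H, hA.ext m l' H h3 h4, h5⟩
  · obtain ⟨d, r, e, c, c0, h1, h2⟩ := hA.bpf m
    exact ⟨d, r, fun i y => e i y.1, c, c0, fun i => (hs.mem_S hA hP h).2 ⟨e i, h1 i, rfl⟩,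
      fun y => h2 y.1⟩
  · obtain ⟨f', h1, rfl⟩ := (hs.mem_S hA hP h).1 hf
    obtain ⟨q, h2, rfl⟩ := hA.gen l' f' h1
    exact ⟨q, h2, rfl⟩
  · exact (MvPolynomial.totalDegree_mul _ _).trans (add_le_add hA.deg0 hp)
  · rw [ev]
    exact mul_ne_zero (hA.ne0 _) y.2
  · obtain ⟨C, hC⟩ := hP.2
    have c0 : 0 < |C| + 1 := by positivity
    have n0 : ∀ y, 0 < A.nx y := fun y => one_pos.trans_le (hA.one_le_nx y)
    have cx : Continuous A.nx :=
      continuous_finsetSum _ fun i _ => (hA.hx i).sm.continuous.norm.pow 2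
    have e : Subtype.val '' {y | δ * B.nx y ^ B.l0 ≤ ‖B.ev B.p0 y‖ ^ 2} =
        {y | δ * A.nx y ^ (A.l0 + l) ≤ ‖A.ev A.p0 y * P y‖ ^ 2} := by
      ext y
      constructor
      · rintro ⟨y, hy, rfl⟩
        rw [mem_ofPred_eq, ev] at hy
        exact hy
      · intro hy
        have h1 : P y ≠ 0 := fun h1 => by
          rw [mem_ofPred_eq, h1] at hy
          have := mul_pos hδ (pow_pos (n0 y) (A.l0 + l))
          simp only [mul_zero, norm_zero, ne_eq, OfNat.ofNat_ne_zero, not_false_eq_true,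
            zero_pow] at hy
          linarith
        refine ⟨⟨y, h1⟩, ?_, rfl⟩
        rw [mem_ofPred_eq, ev]
        exact hy
    rw [Subtype.isCompact_iff, e]
    refine (hA.cpt (δ / (|C| + 1)) (by positivity)).of_isClosed_subset
      (isClosed_le (continuous_const.mul (cx.pow _))
        (((hA.ev_mem hA.deg0).1.sm.continuous.mul hc).norm.pow 2)) fun y hy => ?_
    have h1 := hC y
    simp only [Int.cast_zero, zero_mul, Real.exp_zero, one_mul] at h1
    have h2 : ‖P y‖ ^ 2 ≤ (|C| + 1) * A.nx y ^ l :=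
      h1.trans (mul_le_mul_of_nonneg_right (by linarith [le_abs_self C]) (pow_pos (n0 y) l).le)
    rw [mem_ofPred_eq, norm_mul, mul_pow, pow_add] at hy
    rw [mem_ofPred_eq, div_mul_eq_mul_div, div_le_iff₀ c0]
    refine le_of_mul_le_mul_right ?_ (pow_pos (n0 y) l)
    calc δ * A.nx y ^ A.l0 * A.nx y ^ l = δ * (A.nx y ^ A.l0 * A.nx y ^ l) := by ring
      _ ≤ ‖A.ev A.p0 y‖ ^ 2 * ‖P y‖ ^ 2 := hy
      _ ≤ ‖A.ev A.p0 y‖ ^ 2 * ((|C| + 1) * A.nx y ^ l) := by gcongr
      _ = _ := by ring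
  · have h3 : MvPolynomial.eval z A.p0 * MvPolynomial.eval z p ≠ 0 := by
      rw [← map_mul]
      exact h2
    obtain ⟨y, hy⟩ := hA.pts z (fun q hq => h1 q (funext fun y => congrFun hq y.1))
      (left_ne_zero_of_mul h3)
    refine ⟨⟨y, ?_⟩, hy⟩
    rw [congrFun ep y, AD.ev, funext hy]
    exact right_ne_zero_of_mul h3

end Vale.Agent.P299
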