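import Vale.Agent.P299.La
import Vale.Agent.P271A.Basic

/-! P299: flat quotients. -/

open MeasureTheory Set Filter Topology Matrix
open scoped ContDiff ENNReal ComplexConjugate ComplexOrder

noncomputable section

namespace Vale.Agent.P299

open Vale.Agent.P271A

set_option linter.unusedSectionVars false

variable {n N : ℕ} {Y : Type} [TopologicalSpace Y] [T2Space Y] [SecondCountableTopology Y]
  [MeasurableSpace Y] [BorelSpace Y] {A : AD n N Y}

theorem Lf_comb {ξ η ζ : Fin n → ℂ} {u : W (Fin n)} (a b : ℂ) (h : ctr ξ *ᵥ u = 0)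
    (h' : ctr η *ᵥ u = 0) (e : ∀ j, ζ j = a * ξ j + b * η j) : ctr ζ *ᵥ u = 0 := by
  have h1 : ctr ζ = a • ctr ξ + b • ctr η := by
    simp only [ctr, e, add_smul, mul_smul, Finset.sum_add_distrib, Finset.smul_sum]
  rw [h1, add_mulVec, smul_mulVec, smul_mulVec, h, h', smul_zero, smul_zero, add_zero]

theorem Lf_mul {D : RD n Y} {f g : Y → ℂ} (hf : D.Hol f) (hg : D.Hol g) (j : Fin n) (y : Y) :
    D.dz j (f * g) y = D.dz j f y * g y + f y * D.dz j g y := RD.dX_mul hf.sm hg.sm y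

theorem AD.FlatQ.mul {m0 k k' : ℕ} {s s' t t' : Y → ℂ} (h : A.FlatQ m0 k s s')
    (h' : A.FlatQ m0 k' t t') (hs : A.D.Hol s) (hs' : A.D.Hol s') (ht : A.D.Hol t)
    (ht' : A.D.Hol t') : A.FlatQ m0 (k + k') (s * t) (s' * t') := fun u hu y =>
  Lf_comb (t y * t' y) (s y * s' y) (h u hu y) (h' u hu y) fun j => by
    simp only [Lf_mul hs ht, Lf_mul hs' ht', Pi.mul_apply, Nat.cast_add]
    ring

theorem AD.FlatQ.add {m0 k : ℕ} {s t s' : Y → ℂ} (h : A.FlatQ m0 k s s')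
    (h' : A.FlatQ m0 k t s') (hs : A.D.Hol s) (ht : A.D.Hol t) : A.FlatQ m0 k (s + t) s' := fun u hu y =>
  Lf_comb 1 1 (h u hu y) (h' u hu y) fun j => by
    have h1 : A.D.dz j (s + t) y = A.D.dz j s y + A.D.dz j t y := RD.dX_add hs.sm ht.sm y
    simp only [h1, Pi.add_apply]
    ring

theorem AD.FlatQ.symm {m0 : ℕ} {s s' : Y → ℂ} (h : A.FlatQ m0 0 s s') : A.FlatQ m0 0 s' s := fun u hu y =>
  Lf_comb (-1) 0 (h u hu y) (h u hu y) fun j => by
    simp only [Nat.cast_zero]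
    ring

theorem AD.FlatQ.div {m0 k : ℕ} {s s' t t' : Y → ℂ} (h : A.FlatQ m0 k s s')
    (h' : A.FlatQ m0 k t t') (hs : A.D.Hol s) (hs' : A.D.Hol s') (ht : A.D.Hol t)
    (ht' : A.D.Hol t') : A.FlatQ m0 0 (s * t') (s' * t) := fun u hu y =>
  Lf_comb (t y * t' y) (-(s y * s' y)) (h u hu y) (h' u hu y) fun j => by
    simp only [Lf_mul hs ht', Lf_mul hs' ht, Pi.mul_apply, Nat.cast_zero]
    ring

/-- Flatness depends only on the quotient. -/
theorem AD.FlatQ.congr (hA : A.Good) {m0 k : ℕ} {s s' t t' : Y → ℂ} (h : A.FlatQ m0 k s s')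
    (hs : A.D.Hol s) (hs' : A.D.Hol s') (ht : A.D.Hol t) (ht' : A.D.Hol t') (h0 : s' ≠ 0)
    (he : s * t' = t * s') : A.FlatQ m0 k t t' := fun u hu => by
  obtain ⟨q, m, hm, hv⟩ := id hu
  refine congrFun (Continuous.ext_on (hA.dense_ne hs' h0) (Continuous.matrix_mulVec
    (continuous_finsetSum _ fun j _ => Continuous.fun_smul ?_ continuous_const)
    (continuous_pi fun I => (hv.hol I).sm.continuous)) continuous_const fun y hy => ?_)
  · exact ((ht'.sm.mul (ht.sm.dz j)).sub (ht.sm.mul (ht'.sm.dz j))).continuous.sub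
      (continuous_const.mul ((ht.sm.mul ht'.sm).mul (RD.Sm.dz hA.hφ j)).continuous)
  · refine Lf_comb ((t' y / s' y) ^ 2) 0 (h u hu y) (h u hu y) fun j => ?_
    have h1 : s y * t' y = t y * s' y := congrFun he y
    have h2 := (Lf_mul hs ht' j y).symm.trans (he ▸ Lf_mul ht hs' j y)
    have h3 : s' y ≠ 0 := hy
    field_simp
    linear_combination (-(s' y * t' y)) * h2 + (s' y * A.D.dz j t' y + t' y * A.D.dz j s' y +
      k * s' y * t' y * A.D.dz j (fun p => (A.φ p : ℂ)) y) * h1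

end Vale.Agent.P299
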