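import Vale.Agent.P299.M1a
import Vale.Agent.P271A.Part

/-! P299: the Bochner-Kodaira-Nakano identity. -/

set_option linter.unusedSectionVars false

open MeasureTheory Set Filter Topology Matrix
open scoped ContDiff ENNReal ComplexConjugate ComplexOrder

noncomputable section

namespace Vale.Agent.P299

open Vale.Agent.P271A

variable {n N : ℕ} {Y : Type} [TopologicalSpace Y] [T2Space Y] [SecondCountableTopology Y]
  [MeasurableSpace Y] [BorelSpace Y] {D : RD n Y}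

section Calc
variable {κ : Type} [Fintype κ] {a b : Y → κ → ℂ} {A : Y → Matrix κ κ ℂ}

/-- The derivative of a vector valued function. -/
def M1bD (D : RD n Y) (ξ : E n × E n) (a : Y → κ → ℂ) (y : Y) : κ → ℂ :=
  fun I => D.dX ξ (fun p => a p I) y

/-- The derivative of a matrix valued function. -/
def M1bM (D : RD n Y) (ξ : E n × E n) (A : Y → Matrix κ κ ℂ) (y : Y) : Matrix κ κ ℂ :=
  Matrix.of fun I J => D.dX ξ (fun p => A p I J) y

theorem M1b_sm_dot (ha : SmW D a) (hb : SmW D b) : D.Sm fun p => a p ⬝ᵥ b p :=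
  RD.Sm.sum _ fun I _ => (ha I).mul (hb I)

theorem M1b_dot (ha : SmW D a) (hb : SmW D b) (ξ : E n × E n) (y : Y) :
    D.dX ξ (fun p => a p ⬝ᵥ b p) y = M1bD D ξ a y ⬝ᵥ b y + a y ⬝ᵥ M1bD D ξ b y := by
  simp only [dotProduct, M1bD]
  rw [RD.dX_sum _ fun I _ => (ha I).mul (hb I), ← Finset.sum_add_distrib]
  exact Finset.sum_congr rfl fun I _ => RD.dX_mul (ha I) (hb I) y

theorem M1b_sm_mv (hA : ∀ I J, D.Sm fun p => A p I J) (hb : SmW D b) :
    SmW D fun p => A p *ᵥ b p := fun I => M1b_sm_dot (hA I) hb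

theorem M1b_mv (hA : ∀ I J, D.Sm fun p => A p I J) (hb : SmW D b) (ξ : E n × E n) (y : Y) :
    M1bD D ξ (fun p => A p *ᵥ b p) y = M1bM D ξ A y *ᵥ b y + A y *ᵥ M1bD D ξ b y :=
  funext fun I => M1b_dot (hA I) hb ξ y

theorem M1b_sm_c (C : Matrix κ κ ℂ) (hb : SmW D b) : SmW D fun p => C *ᵥ b p :=
  M1b_sm_mv (fun _ _ => RD.sm_const _) hb

theorem M1b_c (C : Matrix κ κ ℂ) (hb : SmW D b) (ξ : E n × E n) (y : Y) :
    M1bD D ξ (fun p => C *ᵥ b p) y = C *ᵥ M1bD D ξ b y := by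
  have h : M1bM D ξ (fun _ => C) y = 0 := by
    ext I J
    exact RD.dX_const _ y
  rw [M1b_mv (A := fun _ => C) (fun _ _ => RD.sm_const _) hb, h, zero_mulVec, zero_add]

omit [Fintype κ] in
theorem M1b_sm_D (ha : SmW D a) (ξ : E n × E n) : SmW D (M1bD D ξ a) := fun I => (ha I).dX ξ

omit [Fintype κ] in
theorem M1b_sm_star (ha : SmW D a) : SmW D fun p => star (a p) := fun I => (ha I).conj

omit [Fintype κ] in
theorem M1b_star_b (a : Y → κ → ℂ) (j : Fin n) (y : Y) :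
    M1bD D (bv j) (fun p => star (a p)) y = star (M1bD D (zv j) a y) :=
  funext fun I => (RD.conj_dz (fun p => a p I) j y).symm

omit [Fintype κ] in
theorem M1b_star_z (a : Y → κ → ℂ) (j : Fin n) (y : Y) :
    M1bD D (zv j) (fun p => star (a p)) y = star (M1bD D (bv j) a y) :=
  funext fun I => (RD.conj_db (fun p => a p I) j y).symm

theorem M1b_test (ha : SmW D a) (hb : SmW D b) (hc : HasCompactSupport a ∨ HasCompactSupport b)
    {f : Y → ℂ} (hf : D.Sm f) (C : Matrix κ κ ℂ) :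
    D.Test fun p => (star (C *ᵥ a p) ⬝ᵥ b p) * f p := by
  refine ⟨(M1b_sm_dot (M1b_sm_star (M1b_sm_c C ha)) hb).mul hf, ?_⟩
  rcases hc with hc | hc
  · exact hc.mono fun p hp h => hp (by simp [h])
  · exact hc.mono fun p hp h => hp (by simp [h])

end Calc

theorem M1b_int {𝕜 : Type} [RCLike 𝕜] {μ : Measure Y} {f g : Y → 𝕜} (hg : Integrable g μ)
    (h0 : ∫ y, g y ∂μ = 0) : ∫ y, (f y + g y) ∂μ = ∫ y, f y ∂μ := by
  by_cases hf : Integrable f μ
  · rw [integral_add hf hg, h0, add_zero]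
  · rw [integral_undef hf, integral_undef]
    intro h
    exact hf (by simpa using h.sub' hg)

theorem M1b_Gm_dG {ι : Type} [Fintype ι] [LinearOrder ι] (g h : Matrix ι ι ℂ) :
    Gm g * dG h = ∑ j, ∑ k, (g * h) j k • (cr j * Gm g * an k) := by
  have h1 : dG h = ∑ k, wdg (fun j => h j k) * an k := by
    rw [dG, Finset.sum_comm]
    simp only [wdg, Finset.sum_mul, smul_mul_assoc]
  rw [h1, Finset.mul_sum, Finset.sum_comm]
  refine Finset.sum_congr rfl fun k _ => ?_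
  rw [← Matrix.mul_assoc, Gm_wdg]
  simp only [wdg, Finset.sum_mul, smul_mul_assoc]
  rfl

theorem M1b_kae {Ψ : Y → ℝ} (hΨ : Kah D Ψ) (y : Y) :
    ∑ l, cr l * M1bM D (bv l) (fun p => Gm (LMd D Ψ p)) y = 0 := by
  have hu : IsUnit (LMd D Ψ y).det := (isUnit_iff_isUnit_det _).1 (hΨ.2 y).isUnit
  have h1 : ∀ l, M1bM D (bv l) (fun p => Gm (LMd D Ψ p)) y = ∑ j, ∑ k,
      D.dX (bv l) (fun p => LMd D Ψ p j k) y • (cr j * Gm (LMd D Ψ y) * an k) := by
    intro l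
    have h2 : M1bM D (bv l) (fun p => Gm (LMd D Ψ p)) y = Gm (LMd D Ψ y) * dG ((LMd D Ψ y)⁻¹ *
        Matrix.of fun j k => D.dX (bv l) (fun p => LMd D Ψ p j k) y) := by
      ext I J
      exact dX_Gm (sm_LMd hΨ.1) hu (bv l) I J
    rw [h2, M1b_Gm_dG, Matrix.mul_nonsing_inv_cancel_left _ _ hu]
    rfl
  have h3 : ∀ l j k, D.dX (bv l) (fun p => LMd D Ψ p j k) y =
      D.dX (bv j) (fun p => LMd D Ψ p l k) y := by
    intro l j k
    have h4 : ∀ l j, D.dX (bv l) (fun p => LMd D Ψ p j k) y =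
        D.dX (zv k) (D.dX (bv l) (D.dX (bv j) fun p => (Ψ p : ℂ))) y := fun l j =>
      RD.dX_comm (RD.Sm.db hΨ.1 j) y
    rw [h4, h4]
    congr 1
    exact funext fun p => RD.dX_comm hΨ.1 p
  simp only [h1, Finset.mul_sum, mul_smul_comm, ← Matrix.mul_assoc]
  set S := ∑ l, ∑ j, ∑ k, D.dX (bv l) (fun p => LMd D Ψ p j k) y •
    (cr l * cr j * Gm (LMd D Ψ y) * an k) with hS
  have h5 : S = -S := by
    conv_lhs => rw [hS, Finset.sum_comm]
    rw [hS]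
    simp only [← Finset.sum_neg_distrib]
    refine Finset.sum_congr rfl fun l _ => Finset.sum_congr rfl fun j _ =>
      Finset.sum_congr rfl fun k _ => ?_
    rw [h3 j l, cr_cr j l]
    simp
  have h6 : (2 : ℂ) • S = 0 := by
    rw [two_smul]
    exact add_eq_zero_iff_eq_neg.2 h5
  exact (smul_eq_zero.1 h6).resolve_left two_ne_zero

theorem M1b_herm {Ψ : Y → ℝ} (hΨ : Kah D Ψ) (y : Y) : (Gm (LMd D Ψ y))ᴴ = Gm (LMd D Ψ y) := by
  rw [← Gm_star, (LMd_herm hΨ.1 y).eq]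

theorem M1b_kae' {Ψ : Y → ℝ} (hΨ : Kah D Ψ) (y : Y) :
    ∑ l, M1bM D (zv l) (fun p => Gm (LMd D Ψ p)) y * an l = 0 := by
  have h1 := congrArg conjTranspose (M1b_kae hΨ y)
  rw [conjTranspose_zero, conjTranspose_sum] at h1
  rw [← h1]
  refine Finset.sum_congr rfl fun l _ => ?_
  rw [conjTranspose_mul, cr, conjTranspose_conjTranspose]
  congr 1
  ext I J
  simp only [M1bM, conjTranspose_apply, of_apply, RCLike.star_def]
  refine Eq.trans ?_ (RD.conj_db _ l y).symm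
  congr 1
  funext p
  rw [← M1b_herm hΨ p, conjTranspose_apply, M1b_herm hΨ p]
  rfl

/-- The Kaehler identity. -/
theorem dbar_low {Ψ : Y → ℝ} (hΨ : Kah D Ψ) {v : Y → W (Fin n)} (hv : SmW D v) (y : Y) :
    dbar D (low D Ψ v) y =
      ∑ j, (cr j * Gm (LMd D Ψ y)) *ᵥ fun I => D.db j (fun p => v p I) y := by
  have h1 : dbar D (low D Ψ v) y =
      ∑ j, cr j *ᵥ M1bD D (bv j) (fun p => Gm (LMd D Ψ p) *ᵥ v p) y := rfl
  simp only [h1, M1b_mv (sm_Gm (sm_LMd hΨ.1)) hv, mulVec_add, mulVec_mulVec,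
    Finset.sum_add_distrib]
  rw [← sum_mulVec, M1b_kae hΨ, zero_mulVec, zero_add]
  rfl

/-- The twisted holomorphic derivative. -/
def M1bT (D : RD n Y) (Φ : Y → ℝ) (j : Fin n) (v : Y → W (Fin n)) (y : Y) : W (Fin n) :=
  M1bD D (zv j) v y - D.dz j (fun p => (Φ p : ℂ)) y • v y

theorem M1b_sm_T {Φ : Y → ℝ} (hΦ : D.SmR Φ) {v : Y → W (Fin n)} (hv : SmW D v) (j : Fin n) :
    SmW D (M1bT D Φ j v) := fun I => ((hv I).dz j).sub ((RD.Sm.dz hΦ j).mul (hv I))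

theorem M1b_dvg (Φ : Y → ℝ) (v : Y → W (Fin n)) (y : Y) :
    dvg D Φ v y = ∑ j, an j *ᵥ M1bT D Φ j v y := rfl

/-- The antiholomorphic derivative of a weighted pairing. -/
theorem M1b_pb {Φ : Y → ℝ} (hΦ : D.SmR Φ) {v w : Y → W (Fin n)} (hv : SmW D v) (hw : SmW D w)
    (C : Matrix (Finset (Fin n)) (Finset (Fin n)) ℂ) (j : Fin n) (y : Y) :
    D.dX (bv j) (fun p => (star (C *ᵥ v p) ⬝ᵥ w p) * (Real.exp (-Φ p) : ℂ)) y =
      (star (C *ᵥ M1bT D Φ j v y) ⬝ᵥ w y + star (C *ᵥ v y) ⬝ᵥ M1bD D (bv j) w y) *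
        (Real.exp (-Φ y) : ℂ) := by
  rw [RD.dX_mul (M1b_sm_dot (M1b_sm_star (M1b_sm_c C hv)) hw) hΦ.neg.exp, RD.dX_exp_neg hΦ,
    M1b_dot (M1b_sm_star (M1b_sm_c C hv)) hw, M1b_star_b, M1b_c C hv, M1bT, mulVec_sub, mulVec_smul,
    star_sub, star_smul, sub_dotProduct, smul_dotProduct, RCLike.star_def, RD.conj_dz_real]
  simp only [smul_eq_mul, RD.db]
  ring

/-- The holomorphic derivative of a weighted pairing. -/
theorem M1b_pz {Φ : Y → ℝ} (hΦ : D.SmR Φ) {v w : Y → W (Fin n)} (hv : SmW D v) (hw : SmW D w)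
    (C : Matrix (Finset (Fin n)) (Finset (Fin n)) ℂ) (j : Fin n) (y : Y) :
    D.dX (zv j) (fun p => (star (C *ᵥ v p) ⬝ᵥ w p) * (Real.exp (-Φ p) : ℂ)) y =
      (star (C *ᵥ M1bD D (bv j) v y) ⬝ᵥ w y + star (C *ᵥ v y) ⬝ᵥ M1bD D (zv j) w y -
        D.dz j (fun p => (Φ p : ℂ)) y * (star (C *ᵥ v y) ⬝ᵥ w y)) * (Real.exp (-Φ y) : ℂ) := by
  rw [RD.dX_mul (M1b_sm_dot (M1b_sm_star (M1b_sm_c C hv)) hw) hΦ.neg.exp, RD.dX_exp_neg hΦ,
    M1b_dot (M1b_sm_star (M1b_sm_c C hv)) hw, M1b_star_z, M1b_c C hv]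
  simp only [RD.dz]
  ring

theorem M1b_cr (j : Fin n) (a b : W (Fin n)) : star a ⬝ᵥ cr j *ᵥ b = star (an j *ᵥ a) ⬝ᵥ b := by
  rw [star_mulVec, dotProduct_mulVec, cr]

/-- The adjoint of the Cauchy-Riemann operator; one of the two factors has compact support. -/
theorem dbar_adj {Φ : Y → ℝ} (hΦ : D.SmR Φ) {w v : Y → W (Fin n)} (hw : SmW D w) (hv : SmW D v)
    (hc : HasCompactSupport w ∨ HasCompactSupport v) :
    ∫ y, (star (v y) ⬝ᵥ dbar D w y) * Real.exp (-Φ y) ∂D.μ =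
      -∫ y, (star (dvg D Φ v y) ⬝ᵥ w y) * Real.exp (-Φ y) ∂D.μ := by
  have ht := fun j => M1b_test hv hw hc.symm hΦ.neg.exp (an j)
  rw [← integral_neg, ← M1b_int (f := fun y => -((star (dvg D Φ v y) ⬝ᵥ w y) * Real.exp (-Φ y)))
    (integrable_finsetSum Finset.univ fun j _ => ((ht j).dX (bv j)).integrable)
    (by rw [integral_finsetSum _ fun j _ => ((ht j).dX (bv j)).integrable]
        exact Finset.sum_eq_zero fun j _ => RD.integral_dX (ht j))]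
  refine integral_congr_ae (Eventually.of_forall fun y => ?_)
  have h1 : dbar D w y = ∑ j, cr j *ᵥ M1bD D (bv j) w y := rfl
  simp only [M1b_pb hΦ hv hw, h1, M1b_dvg, star_sum, sum_dotProduct, dotProduct_sum, M1b_cr,
    ← Finset.sum_mul, Finset.sum_add_distrib]
  ring

theorem M1b_alg {g : Matrix (Fin n) (Fin n) ℂ} (hu : IsUnit g.det) (hg : (Gm g)ᴴ = Gm g)
    (w : Fin n → W (Fin n)) :
    star (∑ j, (cr j * Gm g) *ᵥ w j) ⬝ᵥ Gm g⁻¹ *ᵥ ∑ j, (cr j * Gm g) *ᵥ w j =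
      ∑ j, ∑ k, g⁻¹ j k * (star (w j) ⬝ᵥ Gm g *ᵥ w k) -
        ∑ j, ∑ k, star (an k *ᵥ w j) ⬝ᵥ Gm g *ᵥ an j *ᵥ w k := by
  have h0 : Gm g * Gm g⁻¹ = 1 := by rw [← Gm_mul, Matrix.mul_nonsing_inv _ hu, Gm_one]
  have h0' : Gm g⁻¹ * Gm g = 1 := by rw [← Gm_mul, Matrix.nonsing_inv_mul _ hu, Gm_one]
  have h1 : ∀ j, Gm g * an j * Gm g⁻¹ = ∑ l, g⁻¹ j l • an l := by
    intro j
    have h2 := ctr_Gm g⁻¹ (Pi.single j 1)
    have h3 : ctr (Pi.single j (1 : ℂ)) = an j := by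
      simp [ctr, Pi.single_apply]
    rw [h3] at h2
    rw [Matrix.mul_assoc, h2, ← Matrix.mul_assoc, h0, Matrix.one_mul, single_one_vecMul]
    rfl
  have h4 : ∀ j k, Gm g * an j * Gm g⁻¹ * (cr k * Gm g) =
      g⁻¹ j k • Gm g - cr k * (Gm g * an j) := by
    intro j k
    have h5 : Gm g * an j = ∑ l, g⁻¹ j l • (an l * Gm g) := by
      rw [← Matrix.mul_one (Gm g * an j), ← h0', ← Matrix.mul_assoc, h1, Finset.sum_mul]
      simp only [smul_mul_assoc]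
    have h6 : ∀ l, an l * (cr k * Gm g) =
        (if l = k then Gm g else 0) - cr k * (an l * Gm g) := by
      intro l
      rw [← Matrix.mul_assoc, eq_sub_of_add_eq (an_cr l k), Matrix.sub_mul, Matrix.mul_assoc]
      split_ifs <;> simp
    rw [h1, h5]
    simp only [Finset.sum_mul, Finset.mul_sum, smul_mul_assoc, mul_smul_comm, h6, smul_sub,
      Finset.sum_sub_distrib, smul_ite, smul_zero, Finset.sum_ite_eq', Finset.mem_univ, if_true]
  simp only [star_sum, sum_dotProduct, mulVec_sum, dotProduct_sum, ← Finset.sum_sub_distrib]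
  rw [Finset.sum_comm]
  refine Finset.sum_congr rfl fun j _ => Finset.sum_congr rfl fun k _ => ?_
  rw [star_mulVec, ← dotProduct_mulVec, conjTranspose_mul, hg, cr, conjTranspose_conjTranspose,
    mulVec_mulVec, mulVec_mulVec, h4, sub_mulVec, dotProduct_sub, smul_mulVec, dotProduct_smul,
    ← mulVec_mulVec, M1b_cr, ← mulVec_mulVec, smul_eq_mul]

/-- The Bochner-Kodaira-Nakano identity. -/
theorem bkn {Ψ Φ : Y → ℝ} (hΨ : Kah D Ψ) (hΦ : D.SmR Φ) {v : Y → W (Fin n)} (hv : SmW D v)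
    (hc : HasCompactSupport v) :
    ∫ y, (q2 (Gm (LMd D Ψ y)) (dvg D Φ v y) + q2 (Gm (LMd D Ψ y)⁻¹) (dbar D (low D Ψ v) y)) *
        Real.exp (-Φ y) ∂D.μ =
      ∫ y, ((∑ j, ∑ k, (LMd D Ψ y)⁻¹ j k * (star (fun I => D.db j (fun p => v p I) y) ⬝ᵥ
          Gm (LMd D Ψ y) *ᵥ fun I => D.db k (fun p => v p I) y)).re +
        (∑ j, ∑ k, LMd D Φ y j k *
          (star (an j *ᵥ v y) ⬝ᵥ Gm (LMd D Ψ y) *ᵥ an k *ᵥ v y)).re) * Real.exp (-Φ y) ∂D.μ := by
  have hM := sm_Gm (sm_LMd hΨ.1)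
  have hA := fun k => M1b_sm_mv hM (M1b_sm_c (an k) (M1b_sm_T hΦ hv k))
  have hB := fun j k => M1b_sm_mv hM (M1b_sm_c (an k) (M1b_sm_D hv (bv j)))
  have tA := fun j k => M1b_test hv (hA k) (Or.inl hc) hΦ.neg.exp (an j)
  have tB := fun j k => M1b_test hv (hB j k) (Or.inl hc) hΦ.neg.exp (an j)
  have hI := integrable_finsetSum (μ := D.μ) Finset.univ fun j _ => integrable_finsetSum Finset.univ
    fun k _ => ((tA j k).dX (bv j)).integrable.sub' ((tB j k).dX (zv k)).integrable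
  have h0 := integral_re hI
  rw [integral_finsetSum _ fun j _ => integrable_finsetSum Finset.univ
    fun k _ => ((tA j k).dX (bv j)).integrable.sub' ((tB j k).dX (zv k)).integrable,
    Finset.sum_eq_zero fun j _ => by
      rw [integral_finsetSum _ fun k _ =>
        ((tA j k).dX (bv j)).integrable.sub' ((tB j k).dX (zv k)).integrable]
      exact Finset.sum_eq_zero fun k _ => by
        rw [integral_sub ((tA j k).dX (bv j)).integrable ((tB j k).dX (zv k)).integrable,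
          RD.integral_dX (tA j k), RD.integral_dX (tB j k), sub_zero], map_zero] at h0
  refine Eq.trans ?_ (M1b_int hI.re h0)
  refine integral_congr_ae (Eventually.of_forall fun y => ?_)
  have hu : IsUnit (LMd D Ψ y).det := (isUnit_iff_isUnit_det _).1 (hΨ.2 y).isUnit
  have h1 : ∀ j k, M1bD D (bv j) (M1bT D Φ k v) y = M1bD D (zv k) (M1bD D (bv j) v) y -
      LMd D Φ y j k • v y - D.dz k (fun p => (Φ p : ℂ)) y • M1bD D (bv j) v y := by
    intro j k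
    funext I
    have h2 := RD.dX_sub (ξ := bv j) ((hv I).dz k) ((RD.Sm.dz hΦ k).mul (hv I)) y
    rw [RD.dX_mul (RD.Sm.dz hΦ k) (hv I), RD.dz, RD.dz, RD.dX_comm (hv I), RD.dX_comm hΦ,
      ← sub_sub] at h2
    exact h2
  have h3 : ∑ j, ∑ k, star (an j *ᵥ v y) ⬝ᵥ M1bM D (bv j) (fun p => Gm (LMd D Ψ p)) y *ᵥ
      an k *ᵥ M1bT D Φ k v y = 0 := by
    rw [Finset.sum_comm]
    refine Finset.sum_eq_zero fun k _ => ?_
    generalize an k *ᵥ M1bT D Φ k v y = x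
    simp only [← M1b_cr, mulVec_mulVec]
    rw [← dotProduct_sum, ← sum_mulVec, M1b_kae hΨ, zero_mulVec, dotProduct_zero]
  have h4 : ∑ j, ∑ k, star (an j *ᵥ v y) ⬝ᵥ M1bM D (zv k) (fun p => Gm (LMd D Ψ p)) y *ᵥ
      an k *ᵥ M1bD D (bv j) v y = 0 := by
    refine Finset.sum_eq_zero fun j _ => ?_
    simp only [mulVec_mulVec]
    rw [← dotProduct_sum, ← sum_mulVec, M1b_kae' hΨ, zero_mulVec, dotProduct_zero]
  have h5 := M1b_alg hu (M1b_herm hΨ y) fun j => M1bD D (bv j) v y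
  have h6 : ∑ j, ∑ k, star (an k *ᵥ M1bD D (bv j) v y) ⬝ᵥ Gm (LMd D Ψ y) *ᵥ an j *ᵥ
      M1bD D (bv k) v y = ∑ j, ∑ k, star (an j *ᵥ M1bD D (bv k) v y) ⬝ᵥ Gm (LMd D Ψ y) *ᵥ an k *ᵥ
      M1bD D (bv j) v y := Finset.sum_comm
  have h7 : dbar D (low D Ψ v) y = ∑ j, (cr j * Gm (LMd D Ψ y)) *ᵥ M1bD D (bv j) v y :=
    dbar_low hΨ hv y
  have h8 : ∀ j, (fun I => D.db j (fun p => v p I) y) = M1bD D (bv j) v y := fun _ => rfl
  have h9 : star (dvg D Φ v y) ⬝ᵥ Gm (LMd D Ψ y) *ᵥ dvg D Φ v y = ∑ j, ∑ k,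
      star (an j *ᵥ M1bT D Φ j v y) ⬝ᵥ Gm (LMd D Ψ y) *ᵥ an k *ᵥ M1bT D Φ k v y := by
    simp only [M1b_dvg, star_sum, sum_dotProduct, mulVec_sum, dotProduct_sum]
    exact Finset.sum_comm
  simp only [q2, h7, h5, h6, h8, h9, M1b_pb hΦ hv (hA _), M1b_pz hΦ hv (hB _ _),
    M1b_mv hM (M1b_sm_c _ (M1b_sm_T hΦ hv _)), M1b_mv hM (M1b_sm_c _ (M1b_sm_D hv _)),
    M1b_c _ (M1b_sm_T hΦ hv _), M1b_c _ (M1b_sm_D hv _), h1, mulVec_sub, mulVec_smul,
    dotProduct_add, dotProduct_sub, dotProduct_smul, smul_eq_mul, ← sub_mul, ← Finset.sum_mul,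
    Finset.sum_add_distrib, Finset.sum_sub_distrib, h3, h4, RCLike.re_to_complex,
    Complex.re_mul_ofReal, Complex.add_re, Complex.sub_re, Complex.zero_re]
  ring

end Vale.Agent.P299
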