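import Vale.Agent.P299.M1b

/-! P299: harmonic polyvector fields. -/

open MeasureTheory Set Filter Topology Matrix
open scoped ContDiff ENNReal ComplexConjugate ComplexOrder

noncomputable section

namespace Vale.Agent.P299

open Vale.Agent.P271A

variable {n N : ℕ} {Y : Type} [TopologicalSpace Y] [T2Space Y] [SecondCountableTopology Y]
  [MeasurableSpace Y] [BorelSpace Y] {D : RD n Y}

theorem M1c_pyth {g : Matrix (Fin n) (Fin n) ℂ} (hg : g.PosDef) (v u : W (Fin n)) :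
    q2 (Gm g⁻¹) (Gm g *ᵥ v - u) = q2 (Gm g) v - 2 * (star v ⬝ᵥ u).re + q2 (Gm g⁻¹) u := by
  have hu : IsUnit g.det := (isUnit_iff_isUnit_det _).1 hg.isUnit
  have h0 : Gm g * Gm g⁻¹ = 1 := by rw [← Gm_mul, Matrix.mul_nonsing_inv _ hu, Gm_one]
  have h0' : Gm g⁻¹ * Gm g = 1 := by rw [← Gm_mul, Matrix.nonsing_inv_mul _ hu, Gm_one]
  have hh : (Gm g)ᴴ = Gm g := (Gm_posDef hg).isHermitian
  have h1 : ∀ x, star (Gm g *ᵥ v) ⬝ᵥ x = star v ⬝ᵥ Gm g *ᵥ x := fun x => by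
    rw [star_mulVec, ← dotProduct_mulVec, hh]
  have h2 : (star u ⬝ᵥ v).re = (star v ⬝ᵥ u).re := by
    rw [star_dotProduct, RCLike.star_def, Complex.conj_re]
  simp only [q2, mulVec_sub, mulVec_mulVec, h0, h0', one_mulVec, star_sub, sub_dotProduct,
    dotProduct_sub, h1, Complex.sub_re, h2]
  ring

theorem M1c_cs {g : Matrix (Fin n) (Fin n) ℂ} (hg : g.PosDef) (v u : W (Fin n)) :
    2 * |(star v ⬝ᵥ u).re| ≤ q2 (Gm g) v + q2 (Gm g⁻¹) u := by
  have h1 := Fock_q2_nonneg (Gm_posDef hg.inv).posSemidef (Gm g *ᵥ v - u)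
  have h2 := Fock_q2_nonneg (Gm_posDef hg.inv).posSemidef (Gm g *ᵥ v - -u)
  have h3 : q2 (Gm g⁻¹) (-u) = q2 (Gm g⁻¹) u := by simp [q2, mulVec_neg]
  rw [M1c_pyth hg] at h1 h2
  rw [h3, dotProduct_neg, Complex.neg_re] at h2
  rcases abs_cases (star v ⬝ᵥ u).re with h | h <;> linarith [h.1]

theorem M1c_cq {κ : Type} [Fintype κ] {A : Y → Matrix κ κ ℂ} {a : Y → κ → ℂ} {Φ : Y → ℝ}
    (hA : ∀ I J, D.Sm fun p => A p I J) (ha : SmW D a) (hΦ : D.SmR Φ) :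
    Continuous fun y => q2 (A y) (a y) * Real.exp (-Φ y) :=
  (Complex.continuous_re.comp (M1b_sm_dot (M1b_sm_star ha) (M1b_sm_mv hA ha)).continuous).mul
    hΦ.neg.exp.continuous

theorem M1c_int {V : Type} [NormedAddCommGroup V] {f : Y → ℂ} (hf : D.Test f) {F : Y → V}
    (hF : Continuous F) (h0 : ∀ y ∉ tsupport f, F y = 0) : Integrable F D.μ :=
  hF.integrable_of_hasCompactSupport (HasCompactSupport.intro hf.2 h0)

theorem M1c_smi {Ψ : Y → ℝ} (hΨ : Kah D Ψ) (I J : Finset (Fin n)) :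
    D.Sm fun p => Gm (LMd D Ψ p)⁻¹ I J :=
  sm_Gm (sm_inv (sm_LMd hΨ.1) fun y => (isUnit_iff_isUnit_det _).1 (hΨ.2 y).isUnit) I J

theorem M1c_sm_dvg {Φ : Y → ℝ} (hΦ : D.SmR Φ) {v : Y → W (Fin n)} (hv : SmW D v) :
    SmW D (dvg D Φ v) :=
  m1a_sm_sum Finset.univ fun j _ => M1b_sm_c (an j) (M1b_sm_T hΦ hv j)

theorem M1c_ctr (ξ : Fin n → ℂ) (v : W (Fin n)) : ctr ξ *ᵥ v = ∑ j, ξ j • (an j *ᵥ v) := by
  simp only [ctr, sum_mulVec, smul_mulVec]

theorem M1c_sm_ctr {f : Y → ℂ} (hf : D.Sm f) {v : Y → W (Fin n)} (hv : SmW D v) :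
    SmW D fun y => ctr (dzv D f y) *ᵥ v y := by
  simp only [M1c_ctr]
  exact m1a_sm_sum Finset.univ fun j _ => m1a_sm_smul (hf.dz j) (M1b_sm_c (an j) hv)

theorem M1c_dvg {Φ : Y → ℝ} (hΦ : D.SmR Φ) {f : Y → ℂ} (hf : D.Sm f) {v : Y → W (Fin n)}
    (hv : SmW D v) (y : Y) :
    dvg D Φ (fun p => f p • v p) y = f y • dvg D Φ v y + ctr (dzv D f y) *ᵥ v y := by
  have h := dvg_mul hΦ (RD.smR_const 0) hf hv y
  simp only [add_zero, RD.dz, RD.dX_const, mul_zero, sub_zero] at h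
  exact h

theorem M1c_alg {g θ : Matrix (Fin n) (Fin n) ℂ} (hg : g.PosDef) {v : W (Fin n)} (hk : Kill θ v)
    (ξ : Fin n → ℂ) (c : ℂ) :
    (∑ j, ∑ k, g⁻¹ j k * (star (ξ j • v) ⬝ᵥ Gm g *ᵥ (ξ k • v))).re +
        (∑ j, ∑ k, θ j k * (star (an j *ᵥ (c • v)) ⬝ᵥ Gm g *ᵥ an k *ᵥ (c • v))).re =
      q2 (Gm g⁻¹) (∑ j, (cr j * Gm g) *ᵥ (ξ j • v)) + q2 (Gm g) (ctr (star ξ) *ᵥ v) := by
  have h1 : ∀ j, ∑ k, θ j k * (star (an j *ᵥ (c • v)) ⬝ᵥ Gm g *ᵥ an k *ᵥ (c • v)) = 0 := by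
    intro j
    have h2 : star (an j *ᵥ (c • v)) ⬝ᵥ Gm g *ᵥ (ctr (θ j) *ᵥ (c • v)) = 0 := by
      rw [mulVec_smul _ c v, mulVec_smul _ c v, hk j, smul_zero, mulVec_zero, dotProduct_zero]
    rw [← h2, M1c_ctr]
    simp only [mulVec_sum, dotProduct_sum, mulVec_smul _ (θ j _), dotProduct_smul, smul_eq_mul]
  have h3 : star (ctr (star ξ) *ᵥ v) ⬝ᵥ Gm g *ᵥ (ctr (star ξ) *ᵥ v) =
      ∑ j, ∑ k, star (an k *ᵥ (ξ j • v)) ⬝ᵥ Gm g *ᵥ an j *ᵥ (ξ k • v) := by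
    simp only [M1c_ctr, star_sum, sum_dotProduct, mulVec_sum, dotProduct_sum, mulVec_smul,
      star_smul, smul_dotProduct, dotProduct_smul, smul_eq_mul, Pi.star_apply, star_star,
      Finset.mul_sum]
    refine Finset.sum_congr rfl fun j _ => Finset.sum_congr rfl fun k _ => ?_
    ring
  simp only [q2, h1, h3, M1b_alg ((isUnit_iff_isUnit_det _).1 hg.isUnit) (Gm_posDef hg).isHermitian,
    Finset.sum_const_zero, Complex.zero_re, Complex.sub_re]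
  ring

theorem M1c_bkn {Ψ Φ χ : Y → ℝ} (hΨ : Kah D Ψ) (hΦ : D.SmR Φ) {v : Y → W (Fin n)} (hv : HolW D v)
    (hk : ∀ y, Kill (LMd D Φ y) (v y)) (hχ : D.Test fun p => (χ p : ℂ)) :
    nV D Ψ Φ (dvg D Φ fun p => (χ p : ℂ) • v p) =
      nV D Ψ Φ fun y => ctr (dzv D (fun p => (χ p : ℂ)) y) *ᵥ v y := by
  have hv' : SmW D v := fun I => (hv I).sm
  have hs := m1a_sm_smul hχ.1 hv'
  have hM := sm_Gm (sm_LMd hΨ.1)
  have hz : ∀ y ∉ tsupport fun p => (χ p : ℂ), (χ y : ℂ) = 0 := fun y hy =>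
    image_eq_zero_of_notMem_tsupport (f := fun p => (χ p : ℂ)) hy
  have hd : ∀ y ∉ tsupport fun p => (χ p : ℂ), dzv D (fun p => (χ p : ℂ)) y = 0 := fun y hy =>
    funext fun j => RD.dX_of_notMem hy
  have h1 : ∀ j y, (fun I => D.db j (fun p => ((χ p : ℂ) • v p) I) y) =
      dbv D (fun p => (χ p : ℂ)) y j • v y := by
    intro j y
    funext I
    have h2 := RD.dX_mul (ξ := bv j) hχ.1 (hv' I) y
    have h3 : D.dX (bv j) (fun p => v p I) y = 0 := (hv I).db j y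
    rw [h3, mul_zero, add_zero] at h2
    exact h2
  have h4 : ∀ y, star (dbv D (fun p => (χ p : ℂ)) y) = dzv D (fun p => (χ p : ℂ)) y := fun y =>
    funext fun j => RD.conj_db_real χ j y
  have ia := M1c_int hχ (M1c_cq hM (M1c_sm_dvg hΦ hs) hΦ) fun y hy => by
    rw [M1c_dvg hΦ hχ.1 hv', hz y hy, hd y hy]
    simp [ctr, q2]
  have hl : SmW D (low D Ψ fun p => (χ p : ℂ) • v p) := M1b_sm_mv hM hs
  have ib := M1c_int hχ (M1c_cq (M1c_smi hΨ) hl.dbar hΦ) fun y hy => by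
    have h5 : ∀ j, dbv D (fun p => (χ p : ℂ)) y j = 0 := fun j => RD.dX_of_notMem hy
    have h6 := dbar_low hΨ hs y
    simp only [h1, h5, zero_smul, mulVec_zero, Finset.sum_const_zero] at h6
    rw [h6]
    simp [q2]
  have ic := M1c_int hχ (M1c_cq hM (M1c_sm_ctr hχ.1 hv') hΦ) fun y hy => by
    simp [hd y hy, ctr, q2]
  have h := bkn hΨ hΦ hs (HasCompactSupport.intro hχ.2 fun y hy => by rw [hz y hy, zero_smul])
  simp only [h1, M1c_alg (hΨ.2 _) (hk _), h4] at h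
  simp only [← h1, ← dbar_low hΨ hs, add_mul] at h
  rw [integral_add ia ib, integral_add ib ic] at h
  have hn : ∀ y x, 0 ≤ q2 (Gm (LMd D Ψ y)) x * Real.exp (-Φ y) := fun y x =>
    mul_nonneg (Fock_q2_nonneg (Gm_posDef (hΨ.2 y)).posSemidef x) (Real.exp_pos _).le
  rw [nV, nV, ← ofReal_integral_eq_lintegral_ofReal ia (Eventually.of_forall fun y => hn y _),
    ← ofReal_integral_eq_lintegral_ofReal ic (Eventually.of_forall fun y => hn y _)]
  congr 1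
  linarith

theorem M1c_loc {K : Set Y} {χ : Y → ℝ} (hχ : Cut D K χ) {y : Y} (hy : y ∈ interior K)
    (ξ : E n × E n) : (χ y : ℂ) = 1 ∧ D.dX ξ (fun p => (χ p : ℂ)) y = 0 := by
  refine ⟨by rw [hχ.2.2 y (interior_subset hy), Complex.ofReal_one], ?_⟩
  rw [← RD.dX_const (D := D) (ξ := ξ) 1 y]
  refine RD.dX_congr ?_
  filter_upwards [mem_interior_iff_mem_nhds.1 hy] with p hp
  rw [hχ.2.2 p hp, Complex.ofReal_one]

/-- Holomorphic fields killed by the curvature are divergence free. -/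
theorem dvg_zero {Ψ Φ : Y → ℝ} (hΨ : Kah D Ψ) (hΦ : D.SmR Φ) {v : Y → W (Fin n)} (hv : HolW D v)
    (hk : ∀ y, Kill (LMd D Φ y) (v y)) {O : Set Y} (hO : IsOpen O)
    (hχ : ∀ K ⊆ O, IsCompact K → ∀ ε > (0 : ℝ≥0∞), ∃ χ, Cut D K χ ∧
      nV D Ψ Φ (fun y => ctr (dzv D (fun p => (χ p : ℂ)) y) *ᵥ v y) ≤ ε) :
    ∀ y ∈ O, dvg D Φ v y = 0 := by
  intro y hy
  have := D.locallyCompact
  have hv' : SmW D v := fun I => (hv I).sm
  obtain ⟨K, hK, hyK, hKO⟩ := exists_compact_subset hO hy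
  have hc := ENNReal.continuous_ofReal.comp (M1c_cq (sm_Gm (sm_LMd hΨ.1)) (M1c_sm_dvg hΦ hv') hΦ)
  have h0 : ∫⁻ p in interior K, ENNReal.ofReal (q2 (Gm (LMd D Ψ p)) (dvg D Φ v p) *
      Real.exp (-Φ p)) ∂D.μ = 0 := by
    refine le_antisymm (le_of_forall_gt_imp_ge_of_dense fun ε hε => ?_) zero_le
    obtain ⟨χ, h1, h2⟩ := hχ K hKO hK ε hε
    rw [← M1c_bkn hΨ hΦ hv hk h1.1] at h2
    refine le_trans (le_of_eq ?_) ((setLIntegral_le_lintegral (interior K) _).trans h2)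
    refine setLIntegral_congr_fun isOpen_interior.measurableSet fun p hp => ?_
    have h3 : dzv D (fun p => (χ p : ℂ)) p = 0 := funext fun j => (M1c_loc h1 hp _).2
    simp only [M1c_dvg hΦ h1.1.1 hv', h3, (M1c_loc h1 hp 0).1]
    simp [ctr]
  have h4 := Measure.eqOn_open_of_ae_eq ((lintegral_eq_zero_iff hc.measurable).1 h0)
    isOpen_interior hc.continuousOn continuousOn_const hyK
  by_contra h5
  have h6 := mul_pos ((Gm_posDef (hΨ.2 y)).re_dotProduct_pos h5) (Real.exp_pos (-Φ y))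
  exact (ENNReal.ofReal_pos.2 h6).ne' h4

theorem M1c_grad {Ψ χ : Y → ℝ} (hΨ : Kah D Ψ) {δ : ℝ} (hδ : 0 ≤ δ)
    (h : ∀ y v, ‖D.del χ y v‖ ^ 2 ≤ δ * D.levi Ψ y v) (y : Y) :
    q2 (LMd D Ψ y)⁻¹ (dbv D (fun p => (χ p : ℂ)) y) ≤ δ := by
  refine (q2_inv_le (hΨ.2 y) _).2 ⟨hδ, fun w => ?_⟩
  have h4 : star (dbv D (fun p => (χ p : ℂ)) y) = dzv D (fun p => (χ p : ℂ)) y :=
    funext fun j => RD.conj_db_real χ j y
  rw [h4, q2_LMd]
  exact h y w

/-- Harmonic forms are orthogonal to exact forms. -/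
theorem orth {Ψ Φ : Y → ℝ} (hΨ : Kah D Ψ) (hc : Cplt D Ψ) (hΦ : D.SmR Φ) {v w : Y → W (Fin n)}
    (hv : HolW D v) (hk : ∀ y, Kill (LMd D Φ y) (v y)) (hv2 : nV D Ψ Φ v < ⊤) (hw : SmW D w)
    (hw2 : nF D Ψ Φ w < ⊤) (hw3 : nF D Ψ Φ (dbar D w) < ⊤) :
    nF D Ψ Φ (low D Ψ v) ≤ nF D Ψ Φ (low D Ψ v - dbar D w) := by
  have := D.locallyCompact
  have hv' : SmW D v := fun I => (hv I).sm
  have he : ∀ y, 0 ≤ Real.exp (-Φ y) := fun y => (Real.exp_pos _).le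
  have hn : ∀ y x, 0 ≤ q2 (Gm (LMd D Ψ y)) x := fun y x =>
    Fock_q2_nonneg (Gm_posDef (hΨ.2 y)).posSemidef x
  have hn' : ∀ y x, 0 ≤ q2 (Gm (LMd D Ψ y)⁻¹) x := fun y x =>
    Fock_q2_nonneg (Gm_posDef (hΨ.2 y).inv).posSemidef x
  have h0 : ∀ y, dvg D Φ v y = 0 := fun y => dvg_zero hΨ hΦ hv hk isOpen_univ (fun K _ hK ε hε => by
    obtain ⟨δ, hδ, h1⟩ := ENNReal.exists_nnreal_pos_mul_lt hv2.ne hε.ne'
    obtain ⟨χ, h2, h3⟩ := hc K hK δ hδ
    refine ⟨χ, h2, le_trans ?_ h1.le⟩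
    rw [nV, nV, ← lintegral_const_mul' _ _ ENNReal.coe_ne_top]
    refine lintegral_mono fun p => ?_
    have h4 : star (dzv D (fun p => (χ p : ℂ)) p) = dbv D (fun p => (χ p : ℂ)) p :=
      funext fun j => RD.conj_dz_real χ j p
    have h5 := q2_ctr_le (hΨ.2 p) (dzv D (fun p => (χ p : ℂ)) p) (v p)
    rw [h4] at h5
    rw [← ENNReal.ofReal_coe_nnreal, ← ENNReal.ofReal_mul δ.coe_nonneg, ← mul_assoc]
    exact ENNReal.ofReal_le_ofReal (mul_le_mul_of_nonneg_right (h5.trans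
      (mul_le_mul_of_nonneg_right (M1c_grad hΨ δ.coe_nonneg h3 p) (hn p _))) (he p))) y (mem_univ y)
  have ia := (lintegral_ofReal_ne_top_iff_integrable
    (M1c_cq (sm_Gm (sm_LMd hΨ.1)) hv' hΦ).aestronglyMeasurable
    (Eventually.of_forall fun y => mul_nonneg (hn y _) (he y))).1 hv2.ne
  have ib := (lintegral_ofReal_ne_top_iff_integrable
    (M1c_cq (M1c_smi hΨ) hw hΦ).aestronglyMeasurable
    (Eventually.of_forall fun y => mul_nonneg (hn' y _) (he y))).1 hw2.ne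
  have ic := (lintegral_ofReal_ne_top_iff_integrable
    (M1c_cq (M1c_smi hΨ) hw.dbar hΦ).aestronglyMeasurable
    (Eventually.of_forall fun y => mul_nonneg (hn' y _) (he y))).1 hw3.ne
  have hC : ∀ {u : Y → W (Fin n)}, SmW D u →
      Continuous fun y => (star (v y) ⬝ᵥ dbar D u y) * (Real.exp (-Φ y) : ℂ) := fun hu =>
    ((M1b_sm_dot (M1b_sm_star hv') hu.dbar).mul hΦ.neg.exp).continuous
  have hR : ∀ {u : Y → W (Fin n)}, SmW D u →
      Continuous fun y => (star (v y) ⬝ᵥ dbar D u y).re * Real.exp (-Φ y) := fun hu =>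
    (Complex.continuous_re.comp (M1b_sm_dot (M1b_sm_star hv') hu.dbar).continuous).mul
      hΦ.neg.exp.continuous
  have iR : Integrable (fun y => (star (v y) ⬝ᵥ dbar D w y).re * Real.exp (-Φ y)) D.μ := by
    refine (ia.add ic).mono' (hR hw).aestronglyMeasurable (Eventually.of_forall fun y => ?_)
    rw [Real.norm_eq_abs, abs_mul, abs_of_nonneg (he y), Pi.add_apply, ← add_mul]
    refine mul_le_mul_of_nonneg_right ?_ (he y)
    linarith [M1c_cs (hΨ.2 y) (v y) (dbar D w y), abs_nonneg (star (v y) ⬝ᵥ dbar D w y).re]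
  let K := CompactExhaustion.choice Y
  choose χ h1 h2 using fun k => hc (K k) (K.isCompact k) 1 one_pos
  have hs := fun k => m1a_sm_smul (h1 k).1.1 hw
  have h3 : ∀ k, ∫ y, (star (v y) ⬝ᵥ dbar D (fun p => (χ k p : ℂ) • w p) y).re *
      Real.exp (-Φ y) ∂D.μ = 0 := by
    intro k
    have hz : ∀ y ∉ tsupport fun p => (χ k p : ℂ), (χ k y : ℂ) = 0 := fun y hy =>
      image_eq_zero_of_notMem_tsupport (f := fun p => (χ k p : ℂ)) hy
    have h4 := dbar_adj hΦ (hs k) hv'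
      (Or.inl (HasCompactSupport.intro (h1 k).1.2 fun y hy => by rw [hz y hy, zero_smul]))
    have h5 := integral_re (M1c_int (h1 k).1 (hC (hs k)) fun y hy => by
      have h6 : dbv D (fun p => (χ k p : ℂ)) y = 0 := funext fun j => RD.dX_of_notMem hy
      rw [dbar_mul (h1 k).1.1 hw, hz y hy, h6]
      simp [wdg])
    rw [h4] at h5
    simpa only [h0, star_zero, zero_dotProduct, zero_mul, integral_zero, neg_zero, map_zero,
      RCLike.re_to_complex, Complex.re_mul_ofReal] using h5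
  have h7 := tendsto_integral_of_dominated_convergence _
    (fun k => (hR (hs k)).aestronglyMeasurable) ((ia.add ib).add ic)
    (f := fun y => (star (v y) ⬝ᵥ dbar D w y).re * Real.exp (-Φ y))
    (fun k => Eventually.of_forall fun y => by
      rw [Real.norm_eq_abs, abs_mul, abs_of_nonneg (he y), Pi.add_apply, Pi.add_apply, ← add_mul,
        ← add_mul, dbar_mul (h1 k).1.1 hw, dotProduct_add, dotProduct_smul, Complex.add_re,
        smul_eq_mul, Complex.re_ofReal_mul]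
      refine mul_le_mul_of_nonneg_right ((abs_add_le _ _).trans ?_) (he y)
      rw [abs_mul, abs_of_nonneg ((h1 k).2.1 y).1]
      have a1 := M1c_cs (hΨ.2 y) (v y) (dbar D w y)
      have a2 := M1c_cs (hΨ.2 y) (v y) (wdg (dbv D (fun p => (χ k p : ℂ)) y) *ᵥ w y)
      have a3 := (q2_wdg_le (hΨ.2 y).inv (dbv D (fun p => (χ k p : ℂ)) y) (w y)).trans
        (mul_le_mul_of_nonneg_right (M1c_grad hΨ one_pos.le (h2 k) y) (hn' y _))
      have a4 := mul_le_of_le_one_left (abs_nonneg (star (v y) ⬝ᵥ dbar D w y).re) ((h1 k).2.1 y).2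
      linarith [hn' y (w y), hn' y (dbar D w y)])
    (Eventually.of_forall fun y => by
      obtain ⟨m, hm⟩ := K.exists_mem y
      refine tendsto_const_nhds.congr' ?_
      filter_upwards [eventually_gt_atTop m] with k hk'
      have h8 := K.subset_interior hk' hm
      have h9 : dbv D (fun p => (χ k p : ℂ)) y = 0 := funext fun j => (M1c_loc (h1 k) h8 _).2
      rw [dbar_mul (h1 k).1.1 hw, h9, (M1c_loc (h1 k) h8 0).1]
      simp [wdg])
  simp only [h3] at h7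
  have h10 := tendsto_nhds_unique h7 tendsto_const_nhds
  have h11 : ∀ y, q2 (Gm (LMd D Ψ y)⁻¹) (low D Ψ v y) = q2 (Gm (LMd D Ψ y)) (v y) := fun y => by
    have h := M1c_pyth (hΨ.2 y) (v y) 0
    rw [sub_zero] at h
    rw [low, h]
    simp [q2]
  have h12 : ∀ y, q2 (Gm (LMd D Ψ y)⁻¹) ((low D Ψ v - dbar D w) y) * Real.exp (-Φ y) =
      q2 (Gm (LMd D Ψ y)) (v y) * Real.exp (-Φ y) -
        2 * ((star (v y) ⬝ᵥ dbar D w y).re * Real.exp (-Φ y)) +
        q2 (Gm (LMd D Ψ y)⁻¹) (dbar D w y) * Real.exp (-Φ y) := fun y => by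
    rw [Pi.sub_apply, low, M1c_pyth (hΨ.2 y)]
    ring
  have h13 := (ia.sub' (iR.const_mul 2)).add ic
  rw [nF, nF]
  simp only [h11]
  rw [← ofReal_integral_eq_lintegral_ofReal ia
    (Eventually.of_forall fun y => mul_nonneg (hn y _) (he y)),
    ← ofReal_integral_eq_lintegral_ofReal (h13.congr (Eventually.of_forall fun y => (h12 y).symm))
    (Eventually.of_forall fun y => mul_nonneg (hn' y _) (he y))]
  refine ENNReal.ofReal_le_ofReal ?_
  simp only [h12]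
  rw [integral_add (ia.sub' (iR.const_mul 2)) ic, integral_sub ia (iR.const_mul 2),
    integral_const_mul, h10]
  have h14 : 0 ≤ ∫ y, q2 (Gm (LMd D Ψ y)⁻¹) (dbar D w y) * Real.exp (-Φ y) ∂D.μ :=
    integral_nonneg fun y => mul_nonneg (hn' y (dbar D w y)) (he y)
  linarith

end Vale.Agent.P299
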