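import Vale.Agent.P299.M1d
import Vale.Agent.P299.La
import Vale.Agent.P271A.Meas

/-! P299: capacity cutoffs and the divergence theorem. -/

open MeasureTheory Set Filter Topology Matrix
open scoped ContDiff ENNReal ComplexConjugate ComplexOrder

noncomputable section

namespace Vale.Agent.P299

open Vale.Agent.P271A

variable {n N : ℕ} {Y : Type} [TopologicalSpace Y] [T2Space Y] [SecondCountableTopology Y]
  [MeasurableSpace Y] [BorelSpace Y] {D : RD n Y}

theorem M1e_symm {κ : Type} [Fintype κ] {P : Matrix κ κ ℂ} (hP : P.IsHermitian) (ξ η : κ → ℂ) :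
    star ξ ⬝ᵥ P *ᵥ η = star (star η ⬝ᵥ P *ᵥ ξ) := by
  rw [star_dotProduct, star_mulVec, hP.eq, ← dotProduct_mulVec]

theorem M1e_zero {κ : Type} [Fintype κ] [DecidableEq κ] {M : Matrix κ κ ℂ} (hM : M.IsHermitian)
    (h : ∀ v, q2 M v = 0) : M = 0 := by
  have h1 : ∀ v, star v ⬝ᵥ M *ᵥ v = 0 := fun v => by
    refine Complex.ext (h v) ?_
    have h2 := congrArg Complex.im (M1e_symm hM v v)
    rw [Complex.star_def, Complex.conj_im] at h2
    rw [Complex.zero_im]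
    linarith
  have h2 : M.PosSemidef := .of_dotProduct_mulVec_nonneg hM fun v => (h1 v).ge
  ext i j
  have h3 := congrFun ((h2.dotProduct_mulVec_zero_iff (Pi.single j 1)).1 (h1 _)) i
  simpa using h3

theorem M1e_sq {κ : Type} [Fintype κ] {P : Matrix κ κ ℂ} (hP : P.PosSemidef) (ξ η : κ → ℂ)
    (s : ℝ) : -(2 * s * (star η ⬝ᵥ P *ᵥ ξ).re + s ^ 2 * q2 P ξ) ≤ q2 P η := by
  have h : 0 ≤ (star (η + (s : ℂ) • ξ) ⬝ᵥ P *ᵥ (η + (s : ℂ) • ξ)).re :=
    hP.re_dotProduct_nonneg _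
  have h2 := congrArg Complex.re (M1e_symm hP.1 ξ η)
  rw [Complex.star_def, Complex.conj_re] at h2
  simp only [star_add, star_smul, mulVec_add, mulVec_smul, add_dotProduct, dotProduct_add,
    smul_dotProduct, dotProduct_smul, smul_eq_mul, Complex.star_def, Complex.conj_ofReal,
    Complex.add_re, Complex.re_ofReal_mul] at h
  unfold q2
  rw [h2] at h
  nlinarith

omit [T2Space Y] [SecondCountableTopology Y] [BorelSpace Y] in
theorem M1e_det {Ψ : Y → ℝ} (hΨ : Kah D Ψ) (y : Y) :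
    (LMd D Ψ y).det = (dV D Ψ y : ℂ) ∧ 0 < dV D Ψ y := by
  have h := Complex.pos_iff.1 (hΨ.2 y).det_pos
  exact ⟨Complex.ext rfl (by rw [Complex.ofReal_im]; exact h.2.symm), h.1⟩

theorem M1e_cG {Ψ : Y → ℝ} (hΨ : D.SmR Ψ) : Continuous fun y => LMd D Ψ y :=
  continuous_matrix fun j k => (sm_LMd hΨ j k).continuous

theorem M1e_cI {Ψ : Y → ℝ} (hΨ : Kah D Ψ) : Continuous fun y => (LMd D Ψ y)⁻¹ :=
  continuous_matrix fun j k => (sm_inv (sm_LMd hΨ.1)
    (fun y => (isUnit_iff_isUnit_det _).1 (hΨ.2 y).isUnit) j k).continuous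

theorem M1e_cV {Ψ : Y → ℝ} (hΨ : D.SmR Ψ) : Continuous (dV D Ψ) :=
  Complex.continuous_re.comp (M1e_cG hΨ).matrix_det

omit [T2Space Y] [SecondCountableTopology Y] [BorelSpace Y] in
theorem M1e_cd {f : Y → ℂ} (hf : D.Sm f) : Continuous (dbv D f) :=
  continuous_pi fun j => (hf.db j).continuous

theorem M1e_cp {Ψ : Y → ℝ} (hΨ : Kah D Ψ) {f g : Y → ℂ} (hf : D.Sm f) (hg : D.Sm g) :
    Continuous fun y => star (dbv D f y) ⬝ᵥ (LMd D Ψ y)⁻¹ *ᵥ dbv D g y :=
  (M1e_cd hf).star.dotProduct ((M1e_cI hΨ).matrix_mulVec (M1e_cd hg))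

theorem M1e_cq {Ψ : Y → ℝ} (hΨ : Kah D Ψ) {f : Y → ℂ} (hf : D.Sm f) :
    Continuous fun y => q2 (LMd D Ψ y)⁻¹ (dbv D f y) :=
  Complex.continuous_re.comp (M1e_cp hΨ hf hf)

omit [SecondCountableTopology Y] in
theorem M1e_int {V : Type} [NormedAddCommGroup V] {h : Y → ℂ} (hh : D.Test h) {F : Y → V}
    (hF : Continuous F) (h0 : ∀ y, h y = 0 → dbv D h y = 0 → F y = 0) : Integrable F D.μ := by
  refine hF.integrable_of_hasCompactSupport (HasCompactSupport.intro hh.2 fun y hy => ?_)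
  exact h0 y (image_eq_zero_of_notMem_tsupport hy) (funext fun j => RD.dX_of_notMem hy)

theorem M1e_green {Ψ f h : Y → ℝ} (hΨ : Kah D Ψ) (hf : D.SmR f)
    (hh : D.Test fun p => (h p : ℂ)) :
    ∫ y, h y * lap D Ψ f y * dV D Ψ y ∂D.μ =
      -∫ y, (star (dbv D (fun p => (h p : ℂ)) y) ⬝ᵥ (LMd D Ψ y)⁻¹ *ᵥ
        dbv D (fun p => (f p : ℂ)) y).re * dV D Ψ y ∂D.μ := by
  have e : ∀ y, dzv D (fun p => (h p : ℂ)) y = star (dbv D (fun p => (h p : ℂ)) y) :=
    fun y => funext fun j => (RD.conj_db_real h j y).symm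
  have h1 := congrArg Complex.reCLM (green hΨ hf hh)
  simp only [e] at h1
  rw [map_neg, ← Complex.reCLM.integral_comp_comm, ← Complex.reCLM.integral_comp_comm] at h1
  · simp only [Complex.reCLM_apply, (M1e_det hΨ _).1, Complex.re_ofReal_mul,
      Complex.re_mul_ofReal] at h1
    simpa only [lap, mul_assoc] using h1
  · refine M1e_int hh ((M1e_cp hΨ hh.1 hf).mul (M1e_cG hΨ.1).matrix_det) fun y _ h0 => ?_
    simp [h0]
  · refine M1e_int hh (hh.continuous.mul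
      (((M1e_cI hΨ).matrix_mul (M1e_cG hf)).matrix_trace.mul (M1e_cG hΨ.1).matrix_det))
      fun y h0 _ => ?_
    simp only [h0, zero_mul]

theorem M1e_bd : ∃ M : ℝ, 0 ≤ M ∧ ∀ x ≤ (2 : ℝ), 0 ≤ deriv Real.smoothTransition x ∧
    deriv Real.smoothTransition x ≤ M := by
  have hc : Continuous (deriv Real.smoothTransition) :=
    (Real.smoothTransition.contDiff (n := 1)).continuous_deriv le_rfl
  obtain ⟨M, hM⟩ := (isCompact_Icc (a := (0 : ℝ)) (b := 2)).exists_bound_of_continuousOn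
    hc.continuousOn
  have hM0 : 0 ≤ M := (norm_nonneg _).trans (hM 0 ⟨le_rfl, by norm_num⟩)
  refine ⟨M, hM0, fun x hx => ⟨Real.smoothTransition.monotone.deriv_nonneg, ?_⟩⟩
  rcases le_total 0 x with h | h
  · exact (le_abs_self _).trans (hM x ⟨h, hx⟩)
  · have h1 : IsLocalMin Real.smoothTransition x := Eventually.of_forall fun z => by
      rw [Real.smoothTransition.zero_of_nonpos h]
      exact Real.smoothTransition.nonneg z
    rw [h1.deriv_eq_zero]
    exact hM0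

theorem M1e_lap {Ψ f : Y → ℝ} (hΨ : Kah D Ψ) (hf : D.SmR f) {c : ℝ}
    (h : ∀ y v, D.levi f y v = c * D.levi Ψ y v) (y : Y) : lap D Ψ f y = c * n := by
  have h1 : LMd D f y - (c : ℂ) • LMd D Ψ y = 0 := by
    refine M1e_zero ((LMd_herm hf y).sub ?_) fun v => ?_
    · rw [IsHermitian, conjTranspose_smul, (LMd_herm hΨ.1 y).eq, Complex.star_def,
        Complex.conj_ofReal]
    · have h2 := h y v
      rw [← q2_LMd, ← q2_LMd] at h2
      unfold q2 at h2 ⊢
      rw [sub_mulVec, smul_mulVec, dotProduct_sub, dotProduct_smul, smul_eq_mul, Complex.sub_re,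
        Complex.re_ofReal_mul, h2, sub_self]
  rw [lap, sub_eq_zero.1 h1, Matrix.mul_smul,
    nonsing_inv_mul _ ((isUnit_iff_isUnit_det _).1 (hΨ.2 y).isUnit), trace_smul, trace_one,
    smul_eq_mul, Complex.re_ofReal_mul]
  simp

variable {A : AD n N Y}

/-- The boundary has capacity zero. -/
theorem cap (hA : A.Good) {K : Set Y} (hK : IsCompact K) {ε : ℝ≥0∞} (hε : 0 < ε) :
    ∃ χ, Cut A.D K χ ∧ ∫⁻ y, ENNReal.ofReal
      (q2 (LMd A.D A.ρ y)⁻¹ (dbv A.D (fun p => (χ p : ℂ)) y) * Real.exp (-A.φ y)) ∂A.D.μ ≤ ε := by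
  obtain ⟨ℓ, hℓ, hc, h0, hl⟩ := hA.exh
  obtain ⟨M, hM0, hM⟩ := M1e_bd
  obtain ⟨c, hc0, hv⟩ := hA.vol
  obtain ⟨δ, -, hδ, hδε⟩ := ENNReal.lt_iff_exists_real_btwn.1 hε
  rw [ENNReal.ofReal_pos] at hδ
  obtain ⟨R₀, hR₀⟩ := hK.bddAbove_image hℓ.continuous.continuousOn
  have hI0 : 0 ≤ ∫ y, Real.exp (-A.φ y) ∂A.D.μ := integral_nonneg fun y => (Real.exp_pos _).le
  obtain ⟨R, hR, hR1, hR2⟩ : ∃ R : ℝ, 0 < R ∧ R₀ ≤ R ∧
      c⁻¹ * M / R * (A.l0 * n * (c⁻¹ * ∫ y, Real.exp (-A.φ y) ∂A.D.μ)) ≤ δ := by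
    set B := c⁻¹ * M * (A.l0 * n * (c⁻¹ * ∫ y, Real.exp (-A.φ y) ∂A.D.μ)) with hB
    have hB0 : 0 ≤ B := by positivity
    have h1 : 0 < B / δ + 1 := by positivity
    have h2 : 0 < max R₀ (B / δ + 1) := h1.trans_le (le_max_right _ _)
    refine ⟨_, h2, le_max_left _ _, ?_⟩
    rw [div_mul_eq_mul_div, ← hB, div_le_iff₀ h2]
    calc B = δ * (B / δ) := by field_simp
      _ ≤ _ := mul_le_mul_of_nonneg_left ((le_add_of_nonneg_right zero_le_one).trans
          (le_max_right _ _)) hδ.le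
  obtain ⟨χ, hχe⟩ : ∃ χ : Y → ℝ, χ = fun y => Real.smoothTransition (2 - ℓ y / R) := ⟨_, rfl⟩
  have hχ : A.D.Test fun p => (χ p : ℂ) := by
    refine ⟨?_, HasCompactSupport.intro (hc (2 * R)) fun y hy => ?_⟩
    · rw [hχe]
      exact hℓ.comp (χ := fun s => Real.smoothTransition (2 - s / R)) fun y => by fun_prop
    · have h1 : 2 * R < ℓ y := not_le.1 hy
      have h2 : 2 - ℓ y / R ≤ 0 := by
        rw [sub_nonpos, le_div_iff₀ hR]
        exact h1.le
      simp only [hχe, Real.smoothTransition.zero_of_nonpos h2, Complex.ofReal_zero]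
  have hχ1 : ∀ y, 0 ≤ χ y ∧ χ y ≤ 1 := fun y => by
    rw [hχe]
    exact ⟨Real.smoothTransition.nonneg _, Real.smoothTransition.le_one _⟩
  have hd : ∀ y, dbv A.D (fun p => (χ p : ℂ)) y =
      ((-(deriv Real.smoothTransition (2 - ℓ y / R) / R) : ℝ) : ℂ) •
        dbv A.D (fun p => (ℓ p : ℂ)) y := fun y => funext fun j => by
    have h1 : HasDerivAt (fun s : ℝ => 2 - s / R) (-(1 / R)) (ℓ y) :=
      ((hasDerivAt_id' (ℓ y)).div_const R).const_sub 2
    have h2 : HasDerivAt Real.smoothTransition (deriv Real.smoothTransition (2 - ℓ y / R))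
        (2 - ℓ y / R) :=
      ((Real.smoothTransition.contDiff (n := 1)).differentiable one_ne_zero _).hasDerivAt
    have h3 := RD.dX_comp (ξ := bv j) hℓ (h2.comp (ℓ y) h1)
    rw [hχe, mul_neg, mul_one_div] at *
    exact h3
  refine ⟨χ, ⟨hχ, hχ1, fun y hy => ?_⟩, ?_⟩
  · rw [hχe]
    refine Real.smoothTransition.one_of_one_le ?_
    have h1 : ℓ y / R ≤ 1 := (div_le_one hR).2 ((hR₀ ⟨y, hy, rfl⟩).trans hR1)
    linarith
  have hq : ∀ y v, 0 ≤ q2 (LMd A.D A.ρ y)⁻¹ v := fun y v =>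
    (hA.pos.2 y).inv.posSemidef.re_dotProduct_nonneg v
  have i1 : Integrable (fun y => q2 (LMd A.D A.ρ y)⁻¹ (dbv A.D (fun p => (χ p : ℂ)) y) *
      Real.exp (-A.φ y)) A.D.μ :=
    M1e_int hχ ((M1e_cq hA.pos hχ.1).mul hA.hφ.continuous.neg.rexp) fun y _ h => by simp [h, q2]
  have i2 : Integrable (fun y => (star (dbv A.D (fun p => (χ p : ℂ)) y) ⬝ᵥ (LMd A.D A.ρ y)⁻¹ *ᵥ
      dbv A.D (fun p => (ℓ p : ℂ)) y).re * dV A.D A.ρ y) A.D.μ :=
    M1e_int hχ ((Complex.continuous_re.comp (M1e_cp hA.pos hχ.1 hℓ)).mul (M1e_cV hA.pos.1))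
      fun y _ h => by simp [h]
  rw [← ofReal_integral_eq_lintegral_ofReal i1
    (Eventually.of_forall fun y => mul_nonneg (hq _ _) (Real.exp_pos _).le)]
  refine (ENNReal.ofReal_le_ofReal (le_trans ?_ hR2)).trans hδε.le
  have hg := M1e_green hA.pos hℓ hχ
  simp only [M1e_lap hA.pos hℓ hl] at hg
  refine (integral_mono i1 (i2.neg.const_mul (c⁻¹ * M / R)) fun y => ?_).trans ?_
  · have h1 := hM (2 - ℓ y / R) (sub_le_self _ (div_nonneg (h0 y) hR.le))
    have h2 := hq y (dbv A.D (fun p => (ℓ p : ℂ)) y)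
    have h3 : Real.exp (-A.φ y) ≤ c⁻¹ * dV A.D A.ρ y := by
      rw [le_inv_mul_iff₀ hc0]
      exact (hv y).1
    have h4 := div_nonneg h1.1 hR.le
    have h5 := div_le_div_of_nonneg_right h1.2 hR.le
    unfold q2 at h2 ⊢
    simp only [hd, Pi.neg_apply, star_smul, mulVec_smul, smul_dotProduct, dotProduct_smul,
      smul_eq_mul, Complex.star_def, Complex.conj_ofReal, Complex.re_ofReal_mul]
    generalize deriv Real.smoothTransition (2 - ℓ y / R) / R = s at h4 h5 ⊢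
    generalize (star (dbv A.D (fun p => (ℓ p : ℂ)) y) ⬝ᵥ (LMd A.D A.ρ y)⁻¹ *ᵥ
      dbv A.D (fun p => (ℓ p : ℂ)) y).re = Q at h2 ⊢
    calc -s * (-s * Q) * Real.exp (-A.φ y) = s * Q * (s * Real.exp (-A.φ y)) := by ring
      _ ≤ s * Q * (M / R * (c⁻¹ * dV A.D A.ρ y)) := by gcongr
      _ = _ := by ring
  · simp only [Pi.neg_apply]
    rw [integral_const_mul, integral_neg, ← hg, ← integral_const_mul c⁻¹,
      ← integral_const_mul (A.l0 * n : ℝ)]
    refine mul_le_mul_of_nonneg_left (integral_mono_of_nonneg (Eventually.of_forall fun y => ?_)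
      ((hA.fin.const_mul _).const_mul _) (Eventually.of_forall fun y => ?_)) (by positivity)
    · exact mul_nonneg (mul_nonneg (hχ1 y).1 (by positivity)) (M1e_det hA.pos y).2.le
    · exact mul_le_mul (mul_le_of_le_one_left (by positivity) (hχ1 y).2) (hv y).2
        (M1e_det hA.pos y).2.le (by positivity)

theorem M1e_step {Φ f χ : Y → ℝ} (hΦ : Kah D Φ) (hf : D.SmR f) (hχ : D.Test fun p => (χ p : ℂ))
    {t : ℝ} (ht : 0 < t) (s : ℝ) :
    ∫ y, χ y * χ y * Real.exp (t * f y + s) * lap D Φ f y * dV D Φ y ∂D.μ ≤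
      ∫ y, t⁻¹ * Real.exp (t * f y + s) * (q2 (LMd D Φ y)⁻¹ (dbv D (fun p => (χ p : ℂ)) y) *
        dV D Φ y) ∂D.μ := by
  have hE : D.SmR fun p => Real.exp (t * f p + s) :=
    (((RD.smR_const t).mul hf).add (RD.smR_const s)).exp
  have e : (fun p => ((χ p * χ p * Real.exp (t * f p + s) : ℝ) : ℂ)) =
      fun p => (χ p : ℂ) * χ p * (Real.exp (t * f p + s) : ℝ) := funext fun p => by
    rw [Complex.ofReal_mul, Complex.ofReal_mul]
  have hh : D.Test fun p => ((χ p * χ p * Real.exp (t * f p + s) : ℝ) : ℂ) := by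
    rw [e]
    exact (hχ.mul hχ.1).mul hE
  have hd : ∀ y, dbv D (fun p => ((χ p * χ p * Real.exp (t * f p + s) : ℝ) : ℂ)) y =
      ((2 * χ y * Real.exp (t * f y + s) : ℝ) : ℂ) • dbv D (fun p => (χ p : ℂ)) y +
        ((χ y * χ y * (Real.exp (t * f y + s) * t) : ℝ) : ℂ) • dbv D (fun p => (f p : ℂ)) y :=
    fun y => funext fun j => by
      have h1 : HasDerivAt (fun u : ℝ => Real.exp (t * u + s)) (Real.exp (t * f y + s) * (t * 1))
          (f y) := (((hasDerivAt_id' (f y)).const_mul t).add_const s).exp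
      have h2 := RD.dX_comp (ξ := bv j) hf h1
      rw [e]
      simp only [dbv, RD.db, Pi.add_apply, Pi.smul_apply, smul_eq_mul]
      rw [RD.dX_mul (hχ.1.mul hχ.1) hE, RD.dX_mul hχ.1 hχ.1, h2]
      simp only [Complex.ofReal_mul, Complex.ofReal_ofNat, Complex.ofReal_one]
      ring
  rw [M1e_green hΦ hf hh, ← integral_neg]
  refine integral_mono (Integrable.neg ?_) ?_ fun y => ?_
  · exact M1e_int hh ((Complex.continuous_re.comp (M1e_cp hΦ hh.1 hf)).mul (M1e_cV hΦ.1))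
      fun y _ h => by simp only [h, star_zero, zero_dotProduct, Complex.zero_re, zero_mul]
  · exact M1e_int hχ ((continuous_const.mul hE.continuous).mul
      ((M1e_cq hΦ hχ.1).mul (M1e_cV hΦ.1))) fun y _ h => by simp [h, q2]
  · have h1 := M1e_sq (hΦ.2 y).inv.posSemidef (dbv D (fun p => (f p : ℂ)) y)
      (dbv D (fun p => (χ p : ℂ)) y) (t * χ y)
    have h2 : 0 ≤ t⁻¹ * Real.exp (t * f y + s) * dV D Φ y :=
      mul_nonneg (by positivity) (M1e_det hΦ y).2.le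
    have h3 := mul_le_mul_of_nonneg_left h1 h2
    simp only [hd, star_add, star_smul, add_dotProduct, smul_dotProduct, smul_eq_mul,
      Complex.star_def, Complex.conj_ofReal, Complex.add_re, Complex.re_ofReal_mul]
    refine le_trans (le_of_eq ?_) (h3.trans (le_of_eq (by ring)))
    unfold q2
    field_simp

theorem M1e_cmp {κ : Type} [Fintype κ] [LinearOrder κ] {g h : Matrix κ κ ℂ} (hg : g.PosDef)
    (hh : h.PosDef) {C : ℝ} (H : ∀ v, q2 h v ≤ C * q2 g v) (η : κ → ℂ) :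
    q2 g⁻¹ η ≤ |C| * q2 h⁻¹ η := by
  obtain ⟨h0, h1⟩ := (q2_inv_le hh η).1 le_rfl
  refine (q2_inv_le hg η).2 ⟨by positivity, fun w => (h1 w).trans ?_⟩
  have h2 : 0 ≤ q2 g w := hg.posSemidef.re_dotProduct_nonneg w
  calc q2 h⁻¹ η * q2 h w ≤ q2 h⁻¹ η * (|C| * q2 g w) :=
        mul_le_mul_of_nonneg_left ((H w).trans
          (mul_le_mul_of_nonneg_right (le_abs_self C) h2)) h0
    _ = _ := by ring


/-- The divergence theorem for bounded functions. -/
theorem liou (hA : A.Good) {Φ : Y → ℝ} (hΦ : A.YM Φ) {f a b : Y → ℝ} (hf : A.D.SmR f)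
    (hf' : ∃ C, ∀ y, |f y| ≤ C) (ha : Continuous a) (hb : Continuous b) (ha0 : ∀ y, 0 ≤ a y)
    (hb0 : ∀ y, 0 ≤ b y) (h : ∀ y, a y - b y ≤ lap A.D Φ f y) :
    ∫⁻ y, ENNReal.ofReal (a y * dV A.D Φ y) ∂A.D.μ ≤
      ∫⁻ y, ENNReal.ofReal (b y * dV A.D Φ y) ∂A.D.μ := by
  obtain ⟨C, hC⟩ := hf'
  obtain ⟨C', hC'⟩ := hΦ.cmp
  obtain ⟨c, hc0, hc⟩ := hΦ.det
  have := A.D.locallyCompact
  have hV := fun y => (M1e_det hΦ.kah y).2.le
  have cV := M1e_cV hΦ.kah.1
  refine (setLIntegral_univ _).symm.trans_le ?_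
  rw [← iUnion_compactCovering, setLIntegral_iUnion_of_directed _
    (directed_of_isDirected_le (compactCovering_subset Y))]
  refine iSup_le fun m => ?_
  have hK := isCompact_compactCovering Y m
  generalize compactCovering Y m = K at hK ⊢
  have h1 : Tendsto (fun t : ℝ => ENNReal.ofReal (Real.exp (t * C + t * C)) *
      ∫⁻ y, ENNReal.ofReal (b y * dV A.D Φ y) ∂A.D.μ) (𝓝[>] 0)
      (𝓝 (ENNReal.ofReal (Real.exp (0 * C + 0 * C)) *
        ∫⁻ y, ENNReal.ofReal (b y * dV A.D Φ y) ∂A.D.μ)) := by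
    refine ENNReal.Tendsto.mul_const (ENNReal.tendsto_ofReal (tendsto_nhdsWithin_of_tendsto_nhds
      (Continuous.tendsto (by fun_prop) 0))) (Or.inl (by simp))
  simp only [zero_mul, add_zero, Real.exp_zero, ENNReal.ofReal_one, one_mul] at h1
  refine ge_of_tendsto h1 (eventually_nhdsWithin_of_forall fun t (ht : 0 < t) => ?_)
  refine ENNReal.le_of_forall_pos_le_add fun δ hδ _ => ?_
  obtain ⟨χ, ⟨hχ, hχ1, hχK⟩, hcap⟩ := cap hA hK
    (ε := δ / ENNReal.ofReal (t⁻¹ * Real.exp (t * C + t * C) * (|C'| * c)))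
    (ENNReal.div_pos (by simpa using hδ.ne') ENNReal.ofReal_ne_top)
  have cχ : Continuous χ := RD.SmR.continuous hχ.1
  have cf := hf.continuous
  have hE : ∀ y, 1 ≤ Real.exp (t * f y + t * C) ∧
      Real.exp (t * f y + t * C) ≤ Real.exp (t * C + t * C) := fun y => by
    have h2 := abs_le.1 (hC y)
    exact ⟨Real.one_le_exp (by nlinarith [h2.1]), Real.exp_le_exp.2 (by nlinarith [h2.2])⟩
  have hi : ∀ g : Y → ℝ, Continuous g → Integrable
      (fun y => χ y * χ y * Real.exp (t * f y + t * C) * g y * dV A.D Φ y) A.D.μ := fun g hg =>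
    M1e_int hχ (by fun_prop) fun y h _ => by simp [Complex.ofReal_eq_zero.1 h]
  have hn : ∀ g : Y → ℝ, (∀ y, 0 ≤ g y) → ∀ y,
      0 ≤ χ y * χ y * Real.exp (t * f y + t * C) * g y * dV A.D Φ y := fun g hg y =>
    mul_nonneg (mul_nonneg (mul_nonneg (mul_self_nonneg _) (Real.exp_pos _).le) (hg y)) (hV y)
  have hq : ∀ y v, 0 ≤ q2 (LMd A.D Φ y)⁻¹ v := fun y v =>
    (hΦ.kah.2 y).inv.posSemidef.re_dotProduct_nonneg v
  have iq : Integrable (fun y => t⁻¹ * Real.exp (t * f y + t * C) *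
      (q2 (LMd A.D Φ y)⁻¹ (dbv A.D (fun p => (χ p : ℂ)) y) * dV A.D Φ y)) A.D.μ :=
    M1e_int hχ ((by fun_prop : Continuous fun y => t⁻¹ * Real.exp (t * f y + t * C)).mul
      ((M1e_cq hΦ.kah hχ.1).mul cV)) fun y _ h => by simp [h, q2]
  have cl : Continuous (lap A.D Φ f) := Complex.continuous_re.comp
    ((M1e_cI hΦ.kah).matrix_mul (M1e_cG hf)).matrix_trace
  have h2 := (integral_mono ((hi a ha).sub (hi b hb)) (hi _ cl) fun y => ?_).trans
    (M1e_step hΦ.kah hf hχ ht (t * C))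
  swap
  · have h3 := hn (fun y => lap A.D Φ f y - (a y - b y)) (fun y => sub_nonneg.2 (h y)) y
    simp only [Pi.sub_apply]
    linarith
  simp only [Pi.sub_apply] at h2
  rw [integral_sub (hi a ha) (hi b hb), sub_le_iff_le_add'] at h2
  have h3 := (ENNReal.ofReal_le_ofReal h2).trans ENNReal.ofReal_add_le
  rw [ofReal_integral_eq_lintegral_ofReal (hi a ha) (Eventually.of_forall (hn a ha0)),
    ofReal_integral_eq_lintegral_ofReal (hi b hb) (Eventually.of_forall (hn b hb0)),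
    ofReal_integral_eq_lintegral_ofReal iq (Eventually.of_forall fun y =>
      mul_nonneg (by positivity) (mul_nonneg (hq _ _) (hV y)))] at h3
  refine le_trans ?_ (h3.trans (add_le_add ?_ ?_))
  · refine le_trans (setLIntegral_mono' hK.measurableSet fun y hy => ?_)
      (setLIntegral_le_lintegral K _)
    rw [hχK y hy, one_mul, one_mul, mul_assoc]
    exact ENNReal.ofReal_le_ofReal (le_mul_of_one_le_left (mul_nonneg (ha0 y) (hV y)) (hE y).1)
  · rw [← lintegral_const_mul' _ _ ENNReal.ofReal_ne_top]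
    refine lintegral_mono fun y => ?_
    rw [← ENNReal.ofReal_mul (Real.exp_pos _).le, mul_assoc]
    refine ENNReal.ofReal_le_ofReal (mul_le_mul_of_nonneg_right ?_ (mul_nonneg (hb0 y) (hV y)))
    exact (mul_le_of_le_one_left (Real.exp_pos _).le
      (mul_le_one₀ (hχ1 y).2 (hχ1 y).1 (hχ1 y).2)).trans (hE y).2
  · refine le_trans ?_ ((mul_le_mul_right hcap _).trans ENNReal.mul_div_le)
    rw [← lintegral_const_mul' _ _ ENNReal.ofReal_ne_top]
    refine lintegral_mono fun y => ?_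
    rw [← ENNReal.ofReal_mul (by positivity)]
    refine ENNReal.ofReal_le_ofReal ?_
    have h4 := M1e_cmp (hΦ.kah.2 y) (hA.pos.2 y) (C := C')
      (fun v => by rw [q2_LMd, q2_LMd]; exact (hC' y v).1) (dbv A.D (fun p => (χ p : ℂ)) y)
    have h5 := hq y (dbv A.D (fun p => (χ p : ℂ)) y)
    have h6 := (hE y).2
    rw [hc y]
    calc _ ≤ t⁻¹ * Real.exp (t * C + t * C) * ((|C'| * q2 (LMd A.D A.ρ y)⁻¹
          (dbv A.D (fun p => (χ p : ℂ)) y)) * (c * Real.exp (-A.φ y))) := by gcongr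
      _ = _ := by ring

end Vale.Agent.P299
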