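import Vale.Agent.P299.PartM1
import Vale.Agent.P299.M1b
import Vale.Agent.P299.Fock
import Vale.Agent.P299.FockB

/-! P299, part M2: definitions. -/

set_option linter.all false

open MeasureTheory Set Filter Topology Matrix
open scoped ContDiff ENNReal ComplexConjugate ComplexOrder InnerProductSpace

noncomputable section

namespace Vale.Agent.P299

open Vale.Agent.P271A

/-- directional derivative -/
def m2d {F : Type} [NormedAddCommGroup F] [NormedSpace ℝ F] (v : F) (φ : F → ℂ) (x : F) : ℂ :=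
  fderiv ℝ φ x v

section
variable {n : ℕ} {Y : Type} [TopologicalSpace Y] [MeasurableSpace Y] (D : RD n Y)

/-- The polyvector field of a form. -/
def rais (Ψ : Y → ℝ) (u : Y → W (Fin n)) (y : Y) : W (Fin n) := Gm (LMd D Ψ y)⁻¹ *ᵥ u y

/-- The Cauchy-Riemann operator on polyvector fields. -/
def Tv (Ψ : Y → ℝ) (v : Y → W (Fin n)) : Y → W (Fin n) := rais D Ψ (dbar D (low D Ψ v))

/-- The inner product of polyvector fields. -/
def ip2 (Ψ Φ : Y → ℝ) (a b : Y → W (Fin n)) : ℂ :=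
  ∫ y, (star (a y) ⬝ᵥ Gm (LMd D Ψ y) *ᵥ b y) * Real.exp (-Φ y) ∂D.μ

/-- The squared norm as a real number. -/
def nR (Ψ Φ : Y → ℝ) (v : Y → W (Fin n)) : ℝ := (nV D Ψ Φ v).toReal

/-- Square integrable polyvector fields. -/
def L2V (Ψ Φ : Y → ℝ) (v : Y → W (Fin n)) : Prop :=
  (∀ I, AEStronglyMeasurable (fun y => v y I) D.μ) ∧ nV D Ψ Φ v < ⊤

/-- Test fields. -/
def TstW {κ : Type} (t : Y → κ → ℂ) : Prop := SmW D t ∧ HasCompactSupport t

/-- Componentwise derivatives. -/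
def dbW {κ : Type} (j : Fin n) (t : Y → κ → ℂ) (y : Y) : κ → ℂ := fun I => D.db j (fun p => t p I) y

def dzW {κ : Type} (j : Fin n) (t : Y → κ → ℂ) (y : Y) : κ → ℂ := fun I => D.dz j (fun p => t p I) y

/-- The squared norm of the antiholomorphic derivative. -/
def dbt (Ψ : Y → ℝ) (v : Y → W (Fin n)) (y : Y) : ℝ :=
  (∑ j, ∑ k, (LMd D Ψ y)⁻¹ j k * (star (dbW D j v y) ⬝ᵥ Gm (LMd D Ψ y) *ᵥ dbW D k v y)).re

/-- The curvature term. -/
def cvt (Ψ Φ : Y → ℝ) (v : Y → W (Fin n)) (y : Y) : ℝ :=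
  (∑ j, ∑ k, LMd D Φ y j k * (star (an j *ᵥ v y) ⬝ᵥ Gm (LMd D Ψ y) *ᵥ an k *ᵥ v y)).re

/-- The defect of being holomorphic and killed by `ϑ`. -/
def nH (Ψ Φ ϑ : Y → ℝ) (v : Y → W (Fin n)) : ℝ≥0∞ :=
  ∫⁻ y, ENNReal.ofReal ((dbt D Ψ v y + cvt D Ψ ϑ v y) * Real.exp (-Φ y)) ∂D.μ

/-- The Laplace operator, up to the sign. -/
def box (Ψ Φ : Y → ℝ) (t : Y → W (Fin n)) (y : Y) : W (Fin n) :=
  Tv D Ψ (dvg D Φ t) y + dvg D Φ (Tv D Ψ t) y

/-- A Hilbert space model of the square integrable fields. -/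
structure Emb (Ψ Φ : Y → ℝ) (H : Type) [NormedAddCommGroup H] [InnerProductSpace ℂ H] where
  J : (Y → W (Fin n)) → H
  inner : ∀ a b, L2V D Ψ Φ a → L2V D Ψ Φ b → ⟪J a, J b⟫_ℂ = ip2 D Ψ Φ a b
  surj : ∀ x, ∃ v, L2V D Ψ Φ v ∧ J v = x

/-- Coercivity on test fields of degree `q`. -/
def Coer (Ψ Φ : Y → ℝ) (q : ℕ) (δ C : ℝ) : Prop :=
  ∀ t, TstW D t → (∀ y, Dg q (t y)) → nR D Ψ Φ t ≤
    C * (δ * nR D Ψ Φ t + nR D Ψ Φ (dvg D Φ t) + nR D Ψ Φ (Tv D Ψ t))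

end

end Vale.Agent.P299
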