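import Vale.Agent.P299.M2Defs
import Vale.Agent.P292E.Reg
import Vale.Agent.P292E.Ell

/-! P299, part M2: scalar regularity on a finite dimensional space. -/

set_option linter.all false

open MeasureTheory Set Filter Topology Matrix
open scoped ContDiff ENNReal ComplexConjugate ComplexOrder InnerProductSpace

noncomputable section

namespace Vale.Agent.P299

open Vale.Agent.P271A

section aux
open Vale.Agent.P292E
variable {N : ℕ}

theorem m2a_fderiv (v : V N → ℂ) (x w : V N) :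
    fderiv ℝ v x w = ∑ p, (w p : ℝ) * pd p v x := by
  conv_lhs => rw [← (EuclideanSpace.basisFun (Fin N) ℝ).sum_repr w, map_sum]
  refine Finset.sum_congr rfl fun p _ => ?_
  rw [map_smul, Complex.real_smul, EuclideanSpace.basisFun_repr, EuclideanSpace.basisFun_apply]
  rfl

theorem m2a_sm {ψ : V N → ℂ} (h : ContDiff ℝ ∞ ψ) (p : Fin N) : ContDiff ℝ ∞ (pd p ψ) :=
  (h.fderiv_right (m := ∞) le_rfl).clm_apply contDiff_const

theorem m2a_d {F : Type} [NormedAddCommGroup F] [NormedSpace ℝ F] (e : F ≃L[ℝ] V N)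
    (ψ : V N → ℂ) (v : F) :
    m2d v (ψ ∘ e) = (fun y => ∑ p, ((e v p : ℝ) : ℂ) * pd p ψ y) ∘ e := by
  funext x
  rw [m2d, e.comp_right_fderiv, Function.comp_apply, ← m2a_fderiv]
  rfl

theorem m2a_dd {ψ : V N → ℂ} (h : ContDiff ℝ ∞ ψ) (c : Fin N → ℂ) (p : Fin N) (y : V N) :
    pd p (fun y => ∑ q, c q * pd q ψ y) y = ∑ q, c q * pd p (pd q ψ) y := by
  have hd : ∀ q, DifferentiableAt ℝ (pd q ψ) y := fun q =>
    (m2a_sm h q).differentiable (by simp) y
  rw [pd, fderiv_fun_sum fun q _ => (hd q).const_mul (c q), ContinuousLinearMap.sum_apply]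
  exact Finset.sum_congr rfl fun q _ => Reg_pd_mul (c q) (m2a_sm h q) p y

theorem m2a_smul (a : Fin N → Fin N → ℂ) (t : ℝ) (ξ : V N) :
    symb a (t • ξ) = t ^ 2 * symb a ξ := by
  rw [symb, symb, ← Complex.re_ofReal_mul, Finset.mul_sum]
  refine congrArg _ (Finset.sum_congr rfl fun p _ => ?_)
  rw [Finset.mul_sum]
  refine Finset.sum_congr rfl fun q _ => ?_
  simp only [PiLp.smul_apply, smul_eq_mul]
  push_cast
  ring

theorem m2a_pos {a : Fin N → Fin N → ℂ} (h : ∀ ξ ≠ 0, 0 < symb a ξ) :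
    ∃ κ : ℝ, 0 < κ ∧ ∀ ξ, κ * ‖ξ‖ ^ 2 ≤ symb a ξ := by
  have hc : Continuous (symb a) := by
    unfold symb
    fun_prop
  obtain ⟨κ, hκ, hκ'⟩ := (isCompact_sphere (0 : V N) 1).exists_forall_le' hc.continuousOn
    (a := 0) fun ξ hξ => h ξ (by
      rintro rfl
      simp at hξ)
  refine ⟨κ, hκ, fun ξ => ?_⟩
  rcases eq_or_ne ξ 0 with rfl | h0
  · simp [symb]
  · have h1 := norm_pos_iff.2 h0
    have h2 := hκ' (‖ξ‖⁻¹ • ξ) (by simp [norm_smul, h1.ne'])
    rw [m2a_smul, inv_pow, ← div_eq_inv_mul, le_div_iff₀ (by positivity)] at h2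
    exact h2

theorem m2a_near (a b : Fin N → Fin N → ℂ) (ξ : V N) :
    symb a ξ - (∑ p, ∑ q, ‖b p q - a p q‖) * ‖ξ‖ ^ 2 ≤ symb b ξ := by
  have h1 : symb b ξ - symb a ξ = (∑ p, ∑ q, (b p q - a p q) * ξ p * ξ q).re := by
    simp only [symb, ← Complex.sub_re, ← Finset.sum_sub_distrib, sub_mul]
  have h2 : ‖∑ p, ∑ q, (b p q - a p q) * ξ p * ξ q‖ ≤
      (∑ p, ∑ q, ‖b p q - a p q‖) * ‖ξ‖ ^ 2 := by
    rw [Finset.sum_mul]
    refine (norm_sum_le _ _).trans (Finset.sum_le_sum fun p _ => ?_)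
    rw [Finset.sum_mul]
    refine (norm_sum_le _ _).trans (Finset.sum_le_sum fun q _ => ?_)
    rw [norm_mul, norm_mul, Complex.norm_real, Complex.norm_real, mul_assoc, sq]
    exact mul_le_mul_of_nonneg_left (mul_le_mul (PiLp.norm_apply_le ξ p)
      (PiLp.norm_apply_le ξ q) (norm_nonneg _) (norm_nonneg _)) (norm_nonneg _)
  have h3 := Complex.abs_re_le_norm (∑ p, ∑ q, (b p q - a p q) * ξ p * ξ q)
  linarith [neg_abs_le (∑ p, ∑ q, (b p q - a p q) * (ξ p : ℂ) * ξ q).re]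

theorem m2a_alg {ι : Type} [Fintype ι] (α : ι → ℂ) (v w : ι → Fin N → ℂ)
    (Φ : Fin N → Fin N → ℂ) : ∑ p, ∑ q, (∑ i, α i * v i p * w i q) * Φ p q =
      ∑ i, α i * ∑ p, v i p * ∑ q, w i q * Φ p q := by
  simp only [Finset.mul_sum, Finset.sum_mul]
  rw [Finset.sum_comm (β := ℂ) (s := (Finset.univ : Finset ι))]
  refine Finset.sum_congr rfl fun p _ => ?_
  rw [Finset.sum_comm]
  exact Finset.sum_congr rfl fun i _ => Finset.sum_congr rfl fun q _ => by ring

end aux

open Vale.Agent.P292E in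
/-- Transport along a continuous linear equivalence `e : F ≃L[ℝ] V N` (`toEuclidean` or
`ContinuousLinearEquiv.ofFinrankEq`); `μ.map e` is a Haar measure, so a positive multiple of the
volume (`Measure.isAddLeftInvariant_eq_smul`); `m2d v φ = ∑ p, (e v) p * pd p (φ ∘ e.symm) ∘ e`
(`sys_fderiv` in P292E/Sys), so `a p q = ∑ i, α i * (e (v i)) p * (e (w i)) q`. The symbol is bounded
below at `x₀` by compactness of the sphere, and near `x₀` by continuity of the coefficients. Apply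
`regS (ellS N)` on a small open set. -/
theorem m2_reg {F : Type} [NormedAddCommGroup F] [NormedSpace ℝ F] [FiniteDimensional ℝ F]
    [MeasurableSpace F] [BorelSpace F] (μ : Measure F) [μ.IsAddHaarMeasure] {ι ι' : Type}
    [Fintype ι] [Fintype ι'] (v w : ι → F) (v' : ι' → F) (α : ι → F → ℂ) (β : ι' → F → ℂ)
    (γ u f : F → ℂ) {U : Set F} (hU : IsOpen U) (hα : ∀ i, ContDiffOn ℝ ∞ (α i) U)
    (hβ : ∀ i, ContDiffOn ℝ ∞ (β i) U) (hγ : ContDiffOn ℝ ∞ γ U) (hf : ContDiffOn ℝ ∞ f U)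
    (hu : LocallyIntegrableOn u U μ)
    (hw : ∀ φ : F → ℂ, ContDiff ℝ ∞ φ → HasCompactSupport φ → tsupport φ ⊆ U →
      ∫ x, u x * (∑ i, α i x * m2d (v i) (m2d (w i) φ) x + ∑ i, β i x * m2d (v' i) φ x +
        γ x * φ x) ∂μ = ∫ x, f x * φ x ∂μ)
    {x₀ : F} (hx : x₀ ∈ U)
    (hell : ∀ ξ : F →L[ℝ] ℝ, ξ ≠ 0 → 0 < (∑ i, α i x₀ * ξ (v i) * ξ (w i)).re) :
    ∃ O, IsOpen O ∧ x₀ ∈ O ∧ ∃ g, ContDiffOn ℝ ∞ g O ∧ ∀ᵐ x ∂μ, x ∈ O → u x = g x := by
  obtain ⟨N, ⟨e⟩⟩ : ∃ N, Nonempty (F ≃L[ℝ] V N) := ⟨_, ⟨toEuclidean⟩⟩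
  have he := e.toHomeomorph.measurableEmbedding
  have hv := Measure.isAddLeftInvariant_eq_smul (volume : Measure (V N)) (μ.map e)
  have hv' := Measure.isAddLeftInvariant_eq_smul (μ.map e) (volume : Measure (V N))
  generalize Measure.addHaarScalarFactor (volume : Measure (V N)) (μ.map e) = c at hv
  generalize Measure.addHaarScalarFactor (μ.map e) (volume : Measure (V N)) = c' at hv'
  have hI : ∀ G : V N → ℂ, ∫ y, G y = c • ∫ x, G (e x) ∂μ := fun G => by
    rw [hv, integral_smul_nnreal_measure]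
    exact congrArg _ (he.integral_map G)
  set a : Fin N → Fin N → F → ℂ := fun p q x =>
    ∑ i, α i x * ((e (v i) p : ℝ) : ℂ) * ((e (w i) q : ℝ) : ℂ) with ha
  set b : Fin N → F → ℂ := fun p x => ∑ i, β i x * ((e (v' i) p : ℝ) : ℂ) with hb
  have sa : ∀ p q, ContDiffOn ℝ ∞ (a p q) U := fun p q =>
    ContDiffOn.sum fun i _ => ((hα i).mul contDiffOn_const).mul contDiffOn_const
  have sb : ∀ p, ContDiffOn ℝ ∞ (b p) U := fun p =>
    ContDiffOn.sum fun i _ => (hβ i).mul contDiffOn_const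
  obtain ⟨κ, hκ, hκ'⟩ := m2a_pos (a := fun p q => a p q x₀) fun ξ hξ => by
    have h1 := hell ((innerSL ℝ ξ).comp (e : F →L[ℝ] V N)) fun h0 => hξ (by
      have := DFunLike.congr_fun h0 (e.symm ξ)
      simpa using this)
    have h2 : ∀ z : F, (((innerSL ℝ ξ).comp (e : F →L[ℝ] V N) z : ℝ) : ℂ) =
        ∑ p, ((e z p : ℝ) : ℂ) * ξ p := fun z => by
      simp [PiLp.inner_apply]
    have h3 := m2a_alg (fun i => α i x₀) (fun i p => ((e (v i) p : ℝ) : ℂ))
      (fun i p => ((e (w i) p : ℝ) : ℂ)) fun p q => (ξ p : ℂ) * ξ q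
    simp only [h2] at h1
    simp only [symb, ha, mul_assoc (∑ i, _)]
    rw [h3]
    refine h1.trans_eq (congrArg _ (Finset.sum_congr rfl fun i _ => ?_))
    rw [mul_assoc, Finset.sum_mul]
    refine congrArg _ (Finset.sum_congr rfl fun p _ => ?_)
    rw [mul_assoc, Finset.mul_sum]
    exact congrArg _ (Finset.sum_congr rfl fun q _ => by ring)
  have hc : ContinuousAt (fun x => ∑ p, ∑ q, ‖a p q x - a p q x₀‖) x₀ :=
    tendsto_finsetSum _ fun p _ => tendsto_finsetSum _ fun q _ =>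
      (((sa p q).continuousOn.continuousAt (hU.mem_nhds hx)).sub continuousAt_const).norm
  obtain ⟨O, hO, hOo, hxO⟩ := mem_nhds_iff.1 (Filter.inter_mem (hU.mem_nhds hx)
    (hc.eventually (gt_mem_nhds (a := κ / 2) (by simpa using hκ))))
  have hOU : O ⊆ U := fun x hx => (hO hx).1
  have tr : ∀ {g : F → ℂ}, ContDiffOn ℝ ∞ g U → ContDiffOn ℝ ∞ (g ∘ e.symm) (e.symm ⁻¹' O) :=
    fun hg => hg.comp e.symm.contDiff.contDiffOn fun _ hy => hOU hy
  have hO' : IsOpen (e.symm ⁻¹' O) := hOo.preimage e.symm.continuous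
  obtain ⟨g, hg, hg'⟩ := regS (ellS N) (e.symm ⁻¹' O) (fun p q => a p q ∘ e.symm)
    (fun p => b p ∘ e.symm) (γ ∘ e.symm) (u ∘ e.symm) (f ∘ e.symm) hO' (fun p q => tr (sa p q))
    (fun p => tr (sb p)) (tr hγ) (tr hf)
    (fun y hy => ⟨κ / 2, half_pos hκ, fun ξ => by
      have h1 := m2a_near (fun p q => a p q x₀) (fun p q => a p q (e.symm y)) ξ
      have h2 := mul_le_mul_of_nonneg_right (le_of_lt (hO hy).2) (sq_nonneg ‖ξ‖)
      have h3 := hκ' ξ
      exact le_trans (by linarith) h1⟩)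
    ((locallyIntegrableOn_iff hO'.isLocallyClosed).2 fun k hk hk' => by
      have h1 := hu.integrableOn_compact_subset (t := e.symm '' k)
        (image_subset_iff.2 fun y hy => hOU (hk hy)) (hk'.image e.symm.continuous)
      have h2 : IntegrableOn (u ∘ e.symm) k (μ.map e) := by
        refine he.integrableOn_map_iff.2 ?_
        have e1 : (u ∘ e.symm) ∘ e.toHomeomorph = u := by
          funext x
          simp
        have e2 : e.toHomeomorph ⁻¹' k = e.symm '' k := (e.image_symm_eq_preimage k).symm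
        rwa [e1, e2]
      rw [hv, IntegrableOn, Measure.restrict_smul]
      exact h2.smul_measure_nnreal)
    (fun ψ hψ => by
      rw [hI, hI]
      refine congrArg _ ?_
      have h1 := hw (ψ ∘ e) (hψ.1.comp e.contDiff) (hψ.2.1.comp_homeomorph e.toHomeomorph)
        fun x hx => hOU (by
          have h2 := hψ.2.2 ((tsupport_comp_subset_preimage ψ e.continuous) hx)
          simpa using h2)
      simp only [m2a_d, Function.comp_apply, m2a_dd hψ.1] at h1
      simp only [Function.comp_apply, e.symm_apply_apply, Pi.zero_apply, zero_mul,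
        Finset.sum_const_zero, add_zero, Qop, ha, hb, m2a_alg]
      refine Eq.trans (congrArg _ (funext fun x => ?_)) h1
      congr 3
      simp only [Finset.mul_sum, Finset.sum_mul, mul_assoc]
      exact Finset.sum_comm)
  refine ⟨O, hOo, hxO, g ∘ e, hg.comp e.contDiff.contDiffOn fun x hx => by simpa using hx, ?_⟩
  have h1 : ∀ᵐ y ∂μ.map e, y ∈ e.symm ⁻¹' O → (u ∘ e.symm) y = g y := by
    rw [hv']
    exact Measure.smul_absolutelyContinuous.ae_le hg'
  filter_upwards [ae_of_ae_map e.continuous.aemeasurable h1] with x h hx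
  simpa using h (by simpa using hx)

end Vale.Agent.P299
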