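import Vale.Agent.P299.M2c
import Vale.Agent.P271A.Weyl

/-! P299, part M2: regularity on Riemann domains. -/

set_option linter.all false

open MeasureTheory Set Filter Topology Matrix
open scoped ContDiff ENNReal ComplexConjugate ComplexOrder InnerProductSpace

noncomputable section

namespace Vale.Agent.P299

open Vale.Agent.P271A

variable {n : ℕ} {Y : Type} [TopologicalSpace Y] [T2Space Y] [SecondCountableTopology Y]
  [MeasurableSpace Y] [BorelSpace Y] {D : RD n Y} {Ψ Φ : Y → ℝ}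

theorem M2d_loc {u : Y → ℂ} (hu : D.L2loc u) (y : Y) :
    LocallyIntegrableOn (fun z => u (D.sec y z)) (D.ch y).target volume := by
  refine (locallyIntegrableOn_iff (D.ch y).open_target.isLocallyClosed).2 fun k hk hc => ?_
  have hK : IsCompact (D.sec y '' k) :=
    hc.image_of_continuousOn ((D.ch y).continuousOn_symm.mono hk)
  have := RD.meas_finite (D := D) hK
  have h1 : MemLp ((D.sec y '' k).indicator u) 1 D.μ :=
    (memLp_indicator_iff_restrict hK.measurableSet).2 ((hu.2 _ hK).mono_exponent one_le_two)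
  have h2 := memLp_one_iff_integrable.1
    ((RD.memLp_chart (D.ch y) (D.ch_eqOn y) _ 1).1 (h1.restrict _))
  exact (IntegrableOn.mono_set h2 hk).congr_fun
    (fun z hz => indicator_of_mem (mem_image_of_mem _ hz) _) hc.measurableSet

theorem M2d_back (y : Y) {Q : Y → Prop}
    (h : ∀ᵐ z : E n, z ∈ (D.ch y).target → Q (D.sec y z)) :
    ∀ᵐ p ∂D.μ, p ∈ (D.ch y).source → Q p :=
  (ae_restrict_iff' (D.ch y).open_source.measurableSet).1
    ((RD.ae_chart (D.ch y) (D.ch_eqOn y) Q).2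
      ((ae_restrict_iff' (D.ch y).open_target.measurableSet).2 h))

theorem M2d_int (y : Y) {F : Y → ℂ} {G : E n → ℂ} (h0 : ∀ p, p ∉ (D.ch y).source → F p = 0)
    (h1 : ∀ z ∈ (D.ch y).target, G z = F (D.sec y z)) (h2 : ∀ z ∉ (D.ch y).target, G z = 0) :
    ∫ z, G z = ∫ p, F p ∂D.μ := by
  rw [← RD.integral_push h0]
  refine integral_congr_ae (Eventually.of_forall fun z => ?_)
  by_cases hz : z ∈ (D.ch y).target
  · simp only [RD.push, if_pos hz, h1 z hz]
  · simp only [RD.push, if_neg hz, h2 z hz]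

theorem M2d_pull (y : Y) (F : E n → ℂ) {z : E n} (hz : z ∈ (D.ch y).target) :
    D.pull y F (D.sec y z) = F z := by
  rw [RD.pull, if_pos (D.sec_mem hz), D.pr_sec hz]

theorem M2d_null {V : Y → Set Y} {Q : Y → Prop} (hV : ∀ y, V y ∈ 𝓝 y)
    (h : ∀ y, ∀ᵐ p ∂D.μ, p ∈ V y → Q p) : ∀ᵐ p ∂D.μ, Q p := by
  refine measure_null_of_locally_null _ fun y _ => ⟨{p | ¬(p ∈ V y → Q p)}, ?_, h y⟩
  filter_upwards [mem_nhdsWithin_of_mem_nhds (hV y), self_mem_nhdsWithin] with p hp hp' hq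
  exact hp' (hq hp)

/-- the two real parts of a complex vector field -/
def M2d_p (ξ : E n × E n) (b : Bool) : E n := cond b ξ.2 ξ.1

/-- the coefficients of the two parts -/
def M2d_c (b : Bool) : ℂ := cond b Complex.I 1

theorem M2d_e1 (ξ : E n × E n) (φ : E n → ℂ) (z : E n) :
    eX ξ φ z = ∑ b, M2d_c b * m2d (M2d_p ξ b) φ z := by
  simp only [Fintype.sum_bool, M2d_c, M2d_p, m2d, eX, cond]
  ring

theorem M2d_e2 (ζ ξ : E n × E n) {φ : E n → ℂ} (h : ContDiff ℝ ∞ φ) (z : E n) :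
    eX ζ (eX ξ φ) z =
      ∑ b, ∑ c, M2d_c b * M2d_c c * m2d (M2d_p ζ b) (m2d (M2d_p ξ c) φ) z := by
  have h1 : ∀ v, DifferentiableAt ℝ (m2d v φ) z := fun v =>
    (((h.fderiv_right (m := ∞) (by simp)).clm_apply contDiff_const).differentiable (by simp)) z
  have h2 : ∀ v, m2d v (eX ξ φ) z = ∑ c, M2d_c c * m2d v (m2d (M2d_p ξ c) φ) z := fun v => by
    rw [funext (M2d_e1 ξ φ), m2d, fderiv_fun_sum fun c _ => (h1 _).const_mul _,
      ContinuousLinearMap.sum_apply]
    exact Finset.sum_congr rfl fun c _ => by rw [fderiv_const_mul (h1 _)]; rfl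
  simp only [M2d_e1 ζ, h2, Finset.mul_sum, mul_assoc]

theorem M2d_ts (ξ : E n × E n) (t : E n → ℂ) : tsupport (eX ξ t) ⊆ tsupport t :=
  closure_minimal (fun _ hz => by_contra fun h => hz (wy_eX_notMem h)) (isClosed_tsupport t)

theorem M2d_ell {a : Matrix (Fin n) (Fin n) ℂ} (ha : a.PosDef) (ξ : E n →L[ℝ] ℝ) (h : ξ ≠ 0) :
    0 < (∑ i : Fin n × Fin n × Bool × Bool, a i.1 i.2.1 * (M2d_c i.2.2.1 * M2d_c i.2.2.2) *
      ξ (M2d_p (zv i.1) i.2.2.1) * ξ (M2d_p (bv i.2.1) i.2.2.2)).re := by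
  obtain ⟨η, hη⟩ : ∃ η : Fin n → ℂ, η = fun j => ξ (bv j).1 + Complex.I * ξ (bv j).2 := ⟨_, rfl⟩
  have h0 : η ≠ 0 := fun h0 => h (ContinuousLinearMap.ext fun z => by
    have h1 : ∀ j, ξ (bv j).1 = 0 ∧ ξ (bv j).2 = 0 := fun j => by
      have := congrFun h0 j
      rw [hη] at this
      exact ⟨by simpa using congrArg Complex.re this, by simpa using congrArg Complex.im this⟩
    have h2 : z = ∑ j, ((2 * (z j).re) • (bv j).1 + (2 * (z j).im) • (bv j).2) := by
      funext k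
      rw [Finset.sum_apply, Finset.sum_eq_single k (fun j _ hj => by simp [bv, hj.symm])
        (fun hk => absurd (Finset.mem_univ k) hk)]
      apply Complex.ext <;> simp [bv] <;> ring
    rw [h2, map_sum]
    exact Finset.sum_eq_zero fun j _ => by simp [h1 j])
  refine (ha.re_dotProduct_pos h0).trans_eq (congrArg Complex.re ?_)
  simp only [Fintype.sum_prod_type, Fintype.sum_bool, dotProduct, mulVec, Finset.mul_sum]
  refine Finset.sum_congr rfl fun k _ => Finset.sum_congr rfl fun j _ => ?_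
  simp only [hη, ← zv_conj k, M2d_c, M2d_p, cond, Pi.star_apply, star_add, star_mul', map_neg,
    Complex.ofReal_neg, star_neg, Complex.star_def, Complex.conj_ofReal, Complex.conj_I]
  ring

/-- Local smooth representatives glue; copy the proof of `weyl` in P271A/Weyl.lean. -/
theorem m2_glue {u : Y → ℂ} (h : ∀ y, ∃ (V : Set Y) (G : Y → ℂ), IsOpen V ∧ y ∈ V ∧
    (∀ p ∈ V, ContDiffAt ℝ ∞ (G ∘ D.sec p) (D.pr p)) ∧ ∀ᵐ p ∂D.μ, p ∈ V → u p = G p) :
    ∃ H, D.Sm H ∧ u =ᵐ[D.μ] H := by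
  choose V G hV hy hG hae using h
  have hc : ∀ y, ContinuousOn (G y) (V y) := fun y p hp =>
    (((hG y p hp).continuousAt.comp D.continuous_pr.continuousAt).congr
      (D.rep_sec _ p).symm).continuousWithinAt
  have key : ∀ y, ∀ p ∈ V y, G p p = G y p := fun y p hp => by
    have ho := (hV y).inter (hV p)
    refine Measure.eqOn_open_of_ae_eq (μ := D.μ) (U := V y ∩ V p) ?_ ho
      ((hc p).mono inter_subset_right) ((hc y).mono inter_subset_left) ⟨hp, hy p⟩
    rw [EventuallyEq, ae_restrict_iff' ho.measurableSet]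
    filter_upwards [hae y, hae p] with q h1 h2 hq
    rw [← h1 hq.1, ← h2 hq.2]
  refine ⟨fun p => G p p, fun y => ?_, M2d_null (fun y => (hV y).mem_nhds (hy y)) fun y => ?_⟩
  · refine (hG y y (hy y)).congr_of_eventuallyEq ?_
    filter_upwards [(D.tendsto_sec y).eventually ((hV y).mem_nhds (hy y))] with z hz
    exact key y _ hz
  · filter_upwards [hae y] with p h1 hp
    exact (h1 hp).trans (key y p hp).symm

/-- A locally square integrable function orthogonal to all test functions vanishes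
(`IsOpen.ae_eq_zero_of_integral_contDiff_smul_eq_zero` in charts, `pull_test`, `ae_chart`). -/
theorem m2_fund {u : Y → ℂ} (hu : D.L2loc u) (h : ∀ t, D.Test t → ∫ y, u y * t y ∂D.μ = 0) :
    u =ᵐ[D.μ] 0 := by
  refine M2d_null D.source_nhds fun y => M2d_back y (Q := fun p => u p = 0)
    ((D.ch y).open_target.ae_eq_zero_of_integral_contDiff_smul_eq_zero (M2d_loc hu y)
      fun g hg hc hs => ?_)
  have h1 : tsupport (fun z => (g z : ℂ)) ⊆ (D.ch y).target := by
    rwa [RD.part_tsupport_ofReal]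
  refine Eq.trans ?_ (h _ (RD.pull_test (F := fun z => (g z : ℂ))
    (Complex.ofRealCLM.contDiff.comp hg) (hc.comp_left Complex.ofReal_zero) h1).1)
  refine M2d_int y (fun p hp => by rw [RD.pull, if_neg hp, mul_zero]) (fun z hz => ?_)
    fun z hz => ?_
  · rw [M2d_pull y _ hz, Complex.real_smul, mul_comm]
  · rw [image_eq_zero_of_notMem_tsupport fun h' => hz (hs h'), zero_smul]

/-- In the chart at `y` apply `m2_sys` with `F = E n`, `U = (D.ch y).target`, the functions
composed with `D.sec y`; `eX ξ φ = m2d ξ.1 φ + I * m2d ξ.2 φ`, so take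
`ι = Fin n × Fin n × Bool × Bool`, `ι' = Fin n × Bool`; test fields are `pull y (t I)`
(`pull_test`, `dX_pull`, `integral_chart` or `integral_push`). For a real covector `ξ` put
`ζ k = ξ (zv k).1 + I * ξ (zv k).2`; the symbol is `∑ a k j * ζ k * conj (ζ j)`, and `ζ ≠ 0`.
See `wy_loc` for the way back to `Y`; then `m2_glue`. -/
theorem m2_rd {κ : Type} [Fintype κ] [DecidableEq κ] (a : Y → Matrix (Fin n) (Fin n) ℂ)
    (B : Fin n → Y → Matrix κ κ ℂ) (C : Y → Matrix κ κ ℂ) (u f : Y → κ → ℂ)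
    (ha : ∀ j k, D.Sm fun y => a y j k) (hpos : ∀ y, (a y).PosDef)
    (hB : ∀ j I J, D.Sm fun y => B j y I J) (hC : ∀ I J, D.Sm fun y => C y I J) (hf : SmW D f)
    (hu : ∀ I, D.L2loc fun y => u y I)
    (hw : ∀ t, TstW D t → ∫ y, u y ⬝ᵥ (∑ k, ∑ j, a y k j • dzW D k (dbW D j t) y +
      ∑ j, B j y *ᵥ dbW D j t y + C y *ᵥ t y) ∂D.μ = ∫ y, f y ⬝ᵥ t y ∂D.μ) :
    ∃ w, SmW D w ∧ u =ᵐ[D.μ] w := by
  have hs : ∀ {F : Y → ℂ}, D.Sm F → ∀ y, ContDiffOn ℝ ∞ (fun z => F (D.sec y z)) (D.ch y).target :=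
    fun hF y z hz => (hF.at_sec hz).contDiffWithinAt
  have key : ∀ y, ∃ O, IsOpen O ∧ D.pr y ∈ O ∧ ∃ g : κ → E n → ℂ, (∀ I, ContDiffOn ℝ ∞ (g I) O) ∧
      ∀ᵐ z : E n, z ∈ O → ∀ I, u (D.sec y z) I = g I z := fun y => by
    refine m2_sys volume (ι := Fin n × Fin n × Bool × Bool) (ι' := Fin n × Bool)
      (fun i => M2d_p (zv i.1) i.2.2.1) (fun i => M2d_p (bv i.2.1) i.2.2.2)
      (fun i => M2d_p (bv i.1) i.2)
      (fun i z => a (D.sec y z) i.1 i.2.1 * (M2d_c i.2.2.1 * M2d_c i.2.2.2))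
      (fun i z => M2d_c i.2 • B i.1 (D.sec y z)) (fun z => C (D.sec y z))
      (fun z => u (D.sec y z)) (fun z => f (D.sec y z)) (D.ch y).open_target
      (fun i => (hs (ha _ _) y).mul contDiffOn_const)
      (fun i I J => contDiffOn_const.mul (hs (hB _ I J) y)) (fun I J => hs (hC I J) y)
      (fun I => hs (hf I) y) (fun I => M2d_loc (hu I) y) (fun t ht => ?_)
      (D.pr_mem (D.mem_ch y)) fun ξ hξ => M2d_ell (hpos _) ξ hξ
    have h1 := fun I => (RD.pull_test (D := D) (ht I).1 (ht I).2.1 (ht I).2.2).1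
    have h2 : ∀ j, (dbW D j fun p I => D.pull y (t I) p) =
        fun p I => D.pull y (eX (bv j) (t I)) p := fun j => funext fun p => funext fun I =>
      congrFun (RD.dX_pull (ht I).1 (ht I).2.1 (ht I).2.2) p
    have h3 : ∀ k j, (dzW D k fun p I => D.pull y (eX (bv j) (t I)) p) =
        fun p I => D.pull y (eX (zv k) (eX (bv j) (t I))) p := fun k j =>
      funext fun p => funext fun I => congrFun (RD.dX_pull (contDiff_eX (ht I).1)
        ((ht I).2.1.mono' ((subset_tsupport _).trans (M2d_ts _ _)))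
        ((M2d_ts _ _).trans (ht I).2.2)) p
    have h4 := hw (fun p I => D.pull y (t I) p) ⟨fun I => (h1 I).1, HasCompactSupport.intro
      (isCompact_iUnion fun I => (h1 I).2) fun p hp => funext fun I =>
        image_eq_zero_of_notMem_tsupport fun h => hp (mem_iUnion.2 ⟨I, h⟩)⟩
    simp only [h2, h3] at h4
    have e1 : ∀ I z, ∑ i : Fin n × Fin n × Bool × Bool,
        a (D.sec y z) i.1 i.2.1 * (M2d_c i.2.2.1 * M2d_c i.2.2.2) *
          m2d (M2d_p (zv i.1) i.2.2.1) (m2d (M2d_p (bv i.2.1) i.2.2.2) (t I)) z =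
        ∑ k, ∑ j, a (D.sec y z) k j * eX (zv k) (eX (bv j) (t I)) z := fun I z => by
      simp only [Fintype.sum_prod_type, M2d_e2 _ _ (ht I).1, Finset.mul_sum, mul_assoc]
    have e2 : ∀ I z, ∑ i : Fin n × Bool, ∑ J, (M2d_c i.2 • B i.1 (D.sec y z)) I J *
        m2d (M2d_p (bv i.1) i.2) (t J) z =
        ∑ j, ∑ J, B j (D.sec y z) I J * eX (bv j) (t J) z := fun I z => by
      simp only [Fintype.sum_prod_type, M2d_e1, Finset.mul_sum, Matrix.smul_apply, smul_eq_mul]
      exact Finset.sum_congr rfl fun j _ => Finset.sum_comm.trans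
        (Finset.sum_congr rfl fun J _ => Finset.sum_congr rfl fun b _ => by ring)
    have e3 : ∀ I, ∀ z ∉ (D.ch y).target, z ∉ tsupport (t I) := fun I z hz h => hz ((ht I).2.2 h)
    simp only [e1, e2]
    refine (M2d_int y (fun p hp => ?_) (fun z hz => ?_) fun z hz => ?_).trans
      (h4.trans (M2d_int y (fun p hp => ?_) (fun z hz => ?_) fun z hz => ?_).symm)
    · simp [RD.pull, hp, dotProduct, mulVec, Finset.sum_apply]
    · simp only [M2d_pull y _ hz, dotProduct, mulVec, Finset.sum_apply, Pi.add_apply,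
        Pi.smul_apply, smul_eq_mul]
    · simp [wy_eX_notMem (e3 _ z hz), wy_eX_notMem fun h => e3 _ z hz (M2d_ts _ _ h),
        image_eq_zero_of_notMem_tsupport (e3 _ z hz)]
    · simp [RD.pull, hp, dotProduct]
    · simp only [M2d_pull y _ hz, dotProduct]
    · simp [image_eq_zero_of_notMem_tsupport (e3 _ z hz)]
  have h5 : ∀ I, ∃ H, D.Sm H ∧ (fun y => u y I) =ᵐ[D.μ] H := fun I => m2_glue fun y => by
    obtain ⟨O, hO, hy, g, hg, hae⟩ := key y
    refine ⟨(D.ch y).source ∩ D.pr ⁻¹' O, g I ∘ D.pr,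
      (D.ch y).open_source.inter (hO.preimage D.continuous_pr), ⟨D.mem_ch y, hy⟩,
      fun p hp => ((hg I).contDiffAt (hO.mem_nhds hp.2)).congr_of_eventuallyEq
        (RD.rep EventuallyEq.rfl), ?_⟩
    have h6 := M2d_back y (Q := fun p => D.pr p ∈ O → u p I = g I (D.pr p)) (by
      filter_upwards [hae] with z hz hzt
      rw [D.pr_sec hzt]
      exact fun h => hz h I)
    filter_upwards [h6] with p hp hp'
    exact hp hp'.1 hp'.2
  choose H h6 h7 using h5
  refine ⟨fun y I => H I y, h6, ?_⟩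
  filter_upwards [ae_all_iff.2 h7] with y hy
  exact funext hy

end Vale.Agent.P299
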