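import Vale.Agent.P299.M2e0

/-! P299, part M2: the Hilbert space of fields. -/

set_option linter.all false

open MeasureTheory Set Filter Topology Matrix
open scoped ContDiff ENNReal ComplexConjugate ComplexOrder InnerProductSpace

noncomputable section

namespace Vale.Agent.P299

open Vale.Agent.P271A

variable {n : ℕ} {Y : Type} [TopologicalSpace Y] [T2Space Y] [SecondCountableTopology Y]
  [MeasurableSpace Y] [BorelSpace Y] {D : RD n Y} {Ψ Φ : Y → ℝ}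

variable {a b : Y → W (Fin n)}

theorem M2e_mul {κ : Type} [Fintype κ] {μ : Measure Y} {R : Y → Matrix κ κ ℂ} {v : Y → κ → ℂ}
    (hR : Continuous R) (hv : ∀ I, AEStronglyMeasurable (fun y => v y I) μ) (I : κ) :
    AEStronglyMeasurable (fun y => (R y *ᵥ v y) I) μ := by
  simp only [mulVec, dotProduct]
  exact Finset.aestronglyMeasurable_fun_sum _ fun J _ =>
    (hR.matrix_elem I J).aestronglyMeasurable.mul (hv J)

theorem M2e_pi {κ : Type} [Fintype κ] {μ : Measure Y} {v : Y → κ → ℂ}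
    (hv : ∀ I, AEStronglyMeasurable (fun y => v y I) μ) :
    AEStronglyMeasurable (fun y => (WithLp.toLp 2 (v y) : EuclideanSpace ℂ κ)) μ :=
  (PiLp.continuous_toLp 2 _).comp_aestronglyMeasurable
    (aemeasurable_pi_lambda _ fun I => (hv I).aemeasurable).aestronglyMeasurable

theorem M2e_inner {κ : Type} [Fintype κ] {R G : Matrix κ κ ℂ} {c : ℂ} (h : Rᴴ * R = c • G)
    (x z : κ → ℂ) : ⟪(WithLp.toLp 2 (R *ᵥ x) : EuclideanSpace ℂ κ), WithLp.toLp 2 (R *ᵥ z)⟫_ℂ =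
      (star x ⬝ᵥ G *ᵥ z) * c := by
  rw [EuclideanSpace.inner_toLp_toLp, dotProduct_comm, star_mulVec, ← dotProduct_mulVec,
    mulVec_mulVec, h, smul_mulVec, dotProduct_smul, smul_eq_mul, mul_comm]

theorem M2e_norm {κ : Type} [Fintype κ] {R G : Matrix κ κ ℂ} {c : ℝ} (h : Rᴴ * R = (c : ℂ) • G)
    (x : κ → ℂ) : ‖(WithLp.toLp 2 (R *ᵥ x) : EuclideanSpace ℂ κ)‖ ^ 2 = q2 G x * c := by
  rw [← inner_self_eq_norm_sq (𝕜 := ℂ), M2e_inner h, q2]
  simp

/-- `H = Lp (EuclideanSpace ℂ (Finset (Fin n))) 2 D.μ`, `J v` is the class of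
`y ↦ toLp 2 (R y *ᵥ v y)` -/
theorem exists_emb (hΨ : Kah D Ψ) (hΦ : D.SmR Φ) : ∃ (H : Type) (_ : NormedAddCommGroup H)
    (_ : InnerProductSpace ℂ H) (_ : CompleteSpace H), Nonempty (Emb D Ψ Φ H) := by
  classical
  obtain ⟨R, c1, c2, hu, hR⟩ := m2_sqrt hΨ hΦ
  have hm : ∀ v, L2V D Ψ Φ v → MemLp (fun y =>
      (WithLp.toLp 2 (R y *ᵥ v y) : EuclideanSpace ℂ (Finset (Fin n)))) 2 D.μ := fun v hv => by
    rw [memLp_two_iff_integrable_sq_norm (M2e_pi (M2e_mul c1 hv.1))]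
    simp only [M2e_norm (hR _)]
    exact hv.integrable hΨ hΦ
  refine ⟨Lp (EuclideanSpace ℂ (Finset (Fin n))) 2 D.μ, inferInstance, inferInstance,
    inferInstance, ⟨⟨fun v => if h : L2V D Ψ Φ v then (hm v h).toLp _ else 0, ?_, ?_⟩⟩⟩
  · intro a b ha hb
    rw [dif_pos ha, dif_pos hb, L2.inner_def, ip2]
    refine integral_congr_ae ?_
    filter_upwards [(hm a ha).coeFn_toLp, (hm b hb).coeFn_toLp] with y h1 h2
    rw [h1, h2, M2e_inner (hR y)]
  · intro x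
    have e : ∀ y, (WithLp.toLp 2 (R y *ᵥ ((R y)⁻¹ *ᵥ (x y).ofLp)) :
        EuclideanSpace ℂ (Finset (Fin n))) = x y := fun y => by
      rw [mulVec_mulVec, mul_nonsing_inv _ (hu y), one_mulVec]
    have h1 : L2V D Ψ Φ fun y => (R y)⁻¹ *ᵥ (x y).ofLp := by
      refine ⟨M2e_mul c2 fun I => (EuclideanSpace.proj (𝕜 := ℂ) I).continuous.comp_aestronglyMeasurable
        (Lp.aestronglyMeasurable x), ?_⟩
      have h2 := (memLp_two_iff_integrable_sq_norm (Lp.aestronglyMeasurable x)).1 (Lp.memLp x)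
      simp only [nV, ← M2e_norm (hR _), e]
      exact h2.lintegral_lt_top
    refine ⟨_, h1, ?_⟩
    rw [dif_pos h1]
    refine Lp.ext ?_
    filter_upwards [(hm _ h1).coeFn_toLp] with y h2
    rw [h2, e]

variable {H : Type} [NormedAddCommGroup H] [InnerProductSpace ℂ H] (e : Emb D Ψ Φ H)

theorem Emb.norm_sq (hΨ : Kah D Ψ) (hΦ : D.SmR Φ) (ha : L2V D Ψ Φ a) :
    ‖e.J a‖ ^ 2 = nR D Ψ Φ a := by
  rw [← inner_self_eq_norm_sq (𝕜 := ℂ), e.inner a a ha ha, ip2_self hΨ hΦ ha]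
  simp

theorem Emb.add (hΨ : Kah D Ψ) (hΦ : D.SmR Φ) (ha : L2V D Ψ Φ a) (hb : L2V D Ψ Φ b) :
    e.J (a + b) = e.J a + e.J b := by
  refine ext_inner_left ℂ fun x => ?_
  obtain ⟨v, hv, rfl⟩ := e.surj x
  rw [inner_add_right, e.inner _ _ hv (ha.add hΨ hΦ hb), e.inner _ _ hv ha, e.inner _ _ hv hb, ip2,
    ip2, ip2, ← integral_add (hv.integrable_ip hΨ hΦ ha) (hv.integrable_ip hΨ hΦ hb)]
  simp only [Pi.add_apply, mulVec_add, dotProduct_add, add_mul]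

theorem Emb.smul (hΨ : Kah D Ψ) (hΦ : D.SmR Φ) (ha : L2V D Ψ Φ a) (c : ℂ) :
    e.J (c • a) = c • e.J a := by
  refine ext_inner_left ℂ fun x => ?_
  obtain ⟨v, hv, rfl⟩ := e.surj x
  rw [inner_smul_right, e.inner _ _ hv (ha.smul c), e.inner _ _ hv ha, ip2, ip2,
    ← integral_const_mul]
  simp only [Pi.smul_apply, mulVec_smul, dotProduct_smul, smul_eq_mul, mul_assoc]

theorem Emb.sub (hΨ : Kah D Ψ) (hΦ : D.SmR Φ) (ha : L2V D Ψ Φ a) (hb : L2V D Ψ Φ b) :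
    e.J (a - b) = e.J a - e.J b := by
  rw [eq_sub_iff_add_eq, ← e.add hΨ hΦ (ha.sub hΨ hΦ hb) hb, sub_add_cancel]

end Vale.Agent.P299
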