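import Vale.Agent.P299.M2Defs
import Vale.Agent.P271A.Hil

/-! P299, part M2: the Hilbert space of fields. -/

set_option linter.all false

open MeasureTheory Set Filter Topology Matrix
open scoped ContDiff ENNReal ComplexConjugate ComplexOrder InnerProductSpace

noncomputable section

namespace Vale.Agent.P299

open Vale.Agent.P271A

variable {n : ℕ} {Y : Type} [TopologicalSpace Y] [T2Space Y] [SecondCountableTopology Y]
  [MeasurableSpace Y] [BorelSpace Y] {D : RD n Y} {Ψ Φ : Y → ℝ}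

variable {a b : Y → W (Fin n)}

open scoped Matrix.Norms.L2Operator MatrixOrder in
theorem m2e0_cont {κ : Type} [Fintype κ] [DecidableEq κ] :
    ContinuousOn (fun S : Matrix κ κ ℂ => CFC.sqrt S) {S | 0 ≤ S} := CFC.continuousOn_sqrt

open scoped MatrixOrder in
theorem m2e0_root {κ : Type} [Fintype κ] [DecidableEq κ] {G : Y → Matrix κ κ ℂ} (hc : Continuous G)
    (h : ∀ y, (G y).PosSemidef) :
    ∃ S : Y → Matrix κ κ ℂ, Continuous S ∧ ∀ y, (S y)ᴴ * S y = G y := by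
  refine ⟨fun y => CFC.sqrt (G y), m2e0_cont.comp_continuous hc fun y => (h y).nonneg, fun y => ?_⟩
  have h1 : (CFC.sqrt (G y))ᴴ = CFC.sqrt (G y) := (CFC.sqrt_nonneg (G y)).posSemidef.1
  rw [h1, CFC.sqrt_mul_sqrt_self _ (h y).nonneg]

/-- `R y = exp (-Φ y / 2) • CFC.sqrt (Gm (LMd D Ψ y))` (`CFC.continuousOn_sqrt`, model in
`Vale/Agent/P227/Step.lean` line 322; `Gm_posDef`, `sm_Gm`, `sm_LMd`) -/
theorem m2_sqrt (hΨ : Kah D Ψ) (hΦ : D.SmR Φ) :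
    ∃ R : Y → Matrix (Finset (Fin n)) (Finset (Fin n)) ℂ, Continuous R ∧
      (Continuous fun y => (R y)⁻¹) ∧ (∀ y, IsUnit (R y).det) ∧
      ∀ y, (R y)ᴴ * R y = (Real.exp (-Φ y) : ℂ) • Gm (LMd D Ψ y) := by
  have hp : ∀ y, ((Real.exp (-Φ y) : ℝ) • Gm (LMd D Ψ y)).PosDef := fun y =>
    (Gm_posDef (hΨ.2 y)).smul (Real.exp_pos _)
  have hG : Continuous fun y => Gm (LMd D Ψ y) :=
    continuous_matrix fun I J => (sm_Gm (sm_LMd hΨ.1) I J).continuous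
  obtain ⟨S, h1, h2⟩ := m2e0_root ((Real.continuous_exp.comp hΦ.continuous.neg).smul hG)
    fun y => (hp y).posSemidef
  have h3 : ∀ y, IsUnit (S y).det := fun y => by
    have := (Matrix.isUnit_iff_isUnit_det _).1 (hp y).isUnit
    have e : (S y)ᴴ * S y = (Real.exp (-Φ y) : ℝ) • Gm (LMd D Ψ y) := h2 y
    rw [← e, det_mul] at this
    exact isUnit_of_mul_isUnit_right this
  refine ⟨S, h1, continuous_iff_continuousAt.2 fun y => ?_, h3, fun y => ?_⟩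
  · refine (continuousAt_matrix_inv (S y) ?_).comp h1.continuousAt
    rw [Ring.inverse_eq_inv']
    exact continuousAt_inv₀ (h3 y).ne_zero
  · rw [h2 y]
    ext I J
    simp

theorem m2e0_ip {κ : Type} [Fintype κ] {R G : Matrix κ κ ℂ} {e : ℝ} (h : Rᴴ * R = (e : ℂ) • G)
    (a b : κ → ℂ) : (star a ⬝ᵥ G *ᵥ b) * (e : ℂ) = ∑ I, conj ((R *ᵥ a) I) * (R *ᵥ b) I := by
  have : star (R *ᵥ a) ⬝ᵥ R *ᵥ b = (star a ⬝ᵥ G *ᵥ b) * (e : ℂ) := by
    rw [star_mulVec, ← dotProduct_mulVec, mulVec_mulVec, h, smul_mulVec, dotProduct_smul,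
      smul_eq_mul, mul_comm]
  rw [← this]
  rfl

theorem m2e0_q {κ : Type} [Fintype κ] {R G : Matrix κ κ ℂ} {e : ℝ} (h : Rᴴ * R = (e : ℂ) • G)
    (a : κ → ℂ) : (star a ⬝ᵥ G *ᵥ a) * (e : ℂ) = ((∑ I, ‖(R *ᵥ a) I‖ ^ 2 : ℝ) : ℂ) ∧
      q2 G a * e = ∑ I, ‖(R *ᵥ a) I‖ ^ 2 := by
  have h1 : (star a ⬝ᵥ G *ᵥ a) * (e : ℂ) = ((∑ I, ‖(R *ᵥ a) I‖ ^ 2 : ℝ) : ℂ) := by
    rw [m2e0_ip h]
    push_cast
    exact Finset.sum_congr rfl fun I _ => Complex.conj_mul' _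
  refine ⟨h1, ?_⟩
  have := congrArg Complex.re h1
  rwa [Complex.re_mul_ofReal, Complex.ofReal_re] at this

theorem m2e0_meas {κ : Type} [Fintype κ] {R : Y → Matrix κ κ ℂ} (hR : Continuous R)
    {a : Y → κ → ℂ} (ha : ∀ I, AEStronglyMeasurable (fun y => a y I) D.μ) (I : κ) :
    AEStronglyMeasurable (fun y => (R y *ᵥ a y) I) D.μ := by
  simp only [mulVec, dotProduct]
  exact Finset.aestronglyMeasurable_fun_sum _ fun J _ =>
    (hR.matrix_elem I J).aestronglyMeasurable.mul (ha J)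

theorem m2e0_iff {R : Y → Matrix (Finset (Fin n)) (Finset (Fin n)) ℂ} (hR : Continuous R)
    (h : ∀ y, (R y)ᴴ * R y = (Real.exp (-Φ y) : ℂ) • Gm (LMd D Ψ y))
    (ha : ∀ I, AEStronglyMeasurable (fun y => a y I) D.μ) :
    nV D Ψ Φ a < ⊤ ↔ ∀ I, MemLp (fun y => (R y *ᵥ a y) I) 2 D.μ := by
  have hm := m2e0_meas hR ha
  have hm2 : ∀ I, AEStronglyMeasurable (fun y => ‖(R y *ᵥ a y) I‖ ^ 2) D.μ :=
    fun I => (hm I).norm.pow 2
  simp only [nV, fun y => (m2e0_q (h y) (a y)).2, lt_top_iff_ne_top,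
    fun I => memLp_two_iff_integrable_sq_norm (hm I)]
  rw [lintegral_ofReal_ne_top_iff_integrable (Finset.aestronglyMeasurable_fun_sum _ fun I _ => hm2 I)
    (Eventually.of_forall fun y => Finset.sum_nonneg fun I _ => sq_nonneg _)]
  refine ⟨fun H I => H.mono' (hm2 I) (Eventually.of_forall fun y => ?_),
    fun H => integrable_finsetSum _ fun I _ => H I⟩
  rw [Real.norm_of_nonneg (sq_nonneg _)]
  exact Finset.single_le_sum (f := fun I => ‖(R y *ᵥ a y) I‖ ^ 2) (fun _ _ => sq_nonneg _)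
    (Finset.mem_univ I)

theorem m2e0_congr (h : a =ᵐ[D.μ] b) : nV D Ψ Φ a = nV D Ψ Φ b :=
  lintegral_congr_ae (h.mono fun y hy => by simp only [hy])

theorem m2e0_smul (c : ℂ) (a : Y → W (Fin n)) :
    nV D Ψ Φ (c • a) = ENNReal.ofReal (‖c‖ ^ 2) * nV D Ψ Φ a := by
  rw [nV, nV, ← lintegral_const_mul' _ _ ENNReal.ofReal_ne_top]
  refine lintegral_congr fun y => ?_
  rw [← ENNReal.ofReal_mul (sq_nonneg _), ← mul_assoc]
  congr 2
  simp only [q2, Pi.smul_apply, star_smul, mulVec_smul, smul_dotProduct, dotProduct_smul,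
    smul_eq_mul, ← mul_assoc, Complex.star_def, Complex.mul_conj', Complex.conj_mul',
    ← Complex.ofReal_pow, Complex.re_ofReal_mul]

theorem L2V.add (hΨ : Kah D Ψ) (hΦ : D.SmR Φ) (ha : L2V D Ψ Φ a) (hb : L2V D Ψ Φ b) :
    L2V D Ψ Φ (a + b) := by
  obtain ⟨R, h1, -, -, h2⟩ := m2_sqrt hΨ hΦ
  have hm : ∀ I, AEStronglyMeasurable (fun y => (a + b) y I) D.μ := fun I => (ha.1 I).add (hb.1 I)
  refine ⟨hm, (m2e0_iff h1 h2 hm).2 fun I => ?_⟩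
  simp only [Pi.add_apply, mulVec_add]
  exact ((m2e0_iff h1 h2 ha.1).1 ha.2 I).add ((m2e0_iff h1 h2 hb.1).1 hb.2 I)

theorem L2V.smul (ha : L2V D Ψ Φ a) (c : ℂ) : L2V D Ψ Φ (c • a) :=
  ⟨fun I => (ha.1 I).const_smul c,
    by rw [m2e0_smul]; exact ENNReal.mul_lt_top ENNReal.ofReal_lt_top ha.2⟩

theorem L2V.sub (hΨ : Kah D Ψ) (hΦ : D.SmR Φ) (ha : L2V D Ψ Φ a) (hb : L2V D Ψ Φ b) :
    L2V D Ψ Φ (a - b) := by
  have := ha.add hΨ hΦ (hb.smul (-1))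
  rwa [neg_one_smul, ← sub_eq_add_neg] at this

theorem L2V.congr (ha : L2V D Ψ Φ a) (h : a =ᵐ[D.μ] b) : L2V D Ψ Φ b :=
  ⟨fun I => (ha.1 I).congr (h.mono fun y hy => by simp only [hy]), m2e0_congr h ▸ ha.2⟩

theorem L2V.of_sm (ha : SmW D a) (h : nV D Ψ Φ a < ⊤) : L2V D Ψ Φ a :=
  ⟨fun I => (ha I).continuous.aestronglyMeasurable, h⟩

theorem TstW.l2 (hΨ : Kah D Ψ) (hΦ : D.SmR Φ) (ha : TstW D a) : L2V D Ψ Φ a := by
  obtain ⟨R, h1, -, -, h2⟩ := m2_sqrt hΨ hΦ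
  have hm : ∀ I, AEStronglyMeasurable (fun y => a y I) D.μ :=
    fun I => (ha.1 I).continuous.aestronglyMeasurable
  refine ⟨hm, (m2e0_iff h1 h2 hm).2 fun I => ?_⟩
  have hc : Continuous a := continuous_pi fun I => (ha.1 I).continuous
  refine Continuous.memLp_of_hasCompactSupport
    ((continuous_apply I).comp (h1.matrix_mulVec hc)) (ha.2.mono fun y hy h0 => hy ?_)
  simp [h0]

/-- on a compact set the weight is bounded below -/
theorem L2V.l2loc (hΨ : Kah D Ψ) (hΦ : D.SmR Φ) (ha : L2V D Ψ Φ a) (I : Finset (Fin n)) :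
    D.L2loc fun y => a y I := by
  obtain ⟨R, h1, h3, h4, h2⟩ := m2_sqrt hΨ hΦ
  have e : (fun y => a y I) = fun y => ∑ J, (R y)⁻¹ I J * (R y *ᵥ a y) J := by
    funext y
    have : (R y)⁻¹ *ᵥ R y *ᵥ a y = a y := by
      rw [mulVec_mulVec, nonsing_inv_mul _ (h4 y), one_mulVec]
    exact (congrFun this I).symm
  rw [e]
  exact RD.L2loc.sum _ fun J _ =>
    (RD.l2loc_of_memLp ((m2e0_iff h1 h2 ha.1).1 ha.2 J)).cont_mul (h3.matrix_elem I J)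

theorem L2V.integrable (hΨ : Kah D Ψ) (hΦ : D.SmR Φ) (ha : L2V D Ψ Φ a) :
    Integrable (fun y => q2 (Gm (LMd D Ψ y)) (a y) * Real.exp (-Φ y)) D.μ := by
  obtain ⟨R, h1, -, -, h2⟩ := m2_sqrt hΨ hΦ
  simp only [fun y => (m2e0_q (h2 y) (a y)).2]
  exact integrable_finsetSum _ fun I _ =>
    (memLp_two_iff_integrable_sq_norm (m2e0_meas h1 ha.1 I)).1 ((m2e0_iff h1 h2 ha.1).1 ha.2 I)

theorem L2V.nR_eq (hΨ : Kah D Ψ) (hΦ : D.SmR Φ) (ha : L2V D Ψ Φ a) :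
    nR D Ψ Φ a = ∫ y, q2 (Gm (LMd D Ψ y)) (a y) * Real.exp (-Φ y) ∂D.μ := by
  obtain ⟨R, -, -, -, h2⟩ := m2_sqrt hΨ hΦ
  rw [integral_eq_lintegral_of_nonneg_ae (Eventually.of_forall fun y => ?_)
    (ha.integrable hΨ hΦ).1]
  · rfl
  · simp only [(m2e0_q (h2 y) (a y)).2]
    exact Finset.sum_nonneg fun _ _ => sq_nonneg _

theorem L2V.integrable_ip (hΨ : Kah D Ψ) (hΦ : D.SmR Φ) (ha : L2V D Ψ Φ a) (hb : L2V D Ψ Φ b) :
    Integrable (fun y => (star (a y) ⬝ᵥ Gm (LMd D Ψ y) *ᵥ b y) * (Real.exp (-Φ y) : ℂ)) D.μ := by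
  obtain ⟨R, h1, -, -, h2⟩ := m2_sqrt hΨ hΦ
  simp only [fun y => m2e0_ip (h2 y) (a y) (b y)]
  exact integrable_finsetSum _ fun I _ =>
    MemLp.integrable_mul ((m2e0_iff h1 h2 ha.1).1 ha.2 I).star ((m2e0_iff h1 h2 hb.1).1 hb.2 I)

theorem ip2_self (hΨ : Kah D Ψ) (hΦ : D.SmR Φ) (ha : L2V D Ψ Φ a) :
    ip2 D Ψ Φ a a = (nR D Ψ Φ a : ℂ) := by
  obtain ⟨R, -, -, -, h2⟩ := m2_sqrt hΨ hΦ
  rw [ha.nR_eq hΨ hΦ, ← integral_complex_ofReal]
  refine integral_congr_ae (Eventually.of_forall fun y => ?_)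
  simp only [(m2e0_q (h2 y) (a y)).1, (m2e0_q (h2 y) (a y)).2]

theorem ip2_conj (hΨ : Kah D Ψ) (a b : Y → W (Fin n)) :
    conj (ip2 D Ψ Φ a b) = ip2 D Ψ Φ b a := by
  rw [ip2, ip2, ← integral_conj]
  refine integral_congr_ae (Eventually.of_forall fun y => ?_)
  have h := (Gm_posDef (hΨ.2 y)).1
  simp only [map_mul, Complex.conj_ofReal]
  congr 1
  rw [← Complex.star_def, star_dotProduct, star_star, star_mulVec, h.eq, ← dotProduct_mulVec]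

theorem ip2_congr {a' b' : Y → W (Fin n)} (h : a =ᵐ[D.μ] a') (h' : b =ᵐ[D.μ] b') :
    ip2 D Ψ Φ a b = ip2 D Ψ Φ a' b' :=
  integral_congr_ae (by filter_upwards [h, h'] with y e e'; simp only [e, e'])

theorem nV_congr (h : a =ᵐ[D.μ] b) : nV D Ψ Φ a = nV D Ψ Φ b := m2e0_congr h

theorem nV_smul (c : ℂ) (a : Y → W (Fin n)) :
    nV D Ψ Φ (c • a) = ENNReal.ofReal (‖c‖ ^ 2) * nV D Ψ Φ a := m2e0_smul c a

/-- change of the weight -/
theorem nV_le {Φ' : Y → ℝ} {B : ℝ} (hΨ : Kah D Ψ) (h : ∀ y, |Φ' y - Φ y| ≤ B)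
    (a : Y → W (Fin n)) : nV D Ψ Φ a ≤ ENNReal.ofReal (Real.exp B) * nV D Ψ Φ' a := by
  rw [nV, nV, ← lintegral_const_mul' _ _ ENNReal.ofReal_ne_top]
  refine lintegral_mono fun y => ?_
  rw [← ENNReal.ofReal_mul (Real.exp_pos _).le]
  refine ENNReal.ofReal_le_ofReal ?_
  have h0 : 0 ≤ q2 (Gm (LMd D Ψ y)) (a y) :=
    (Complex.le_def.1 ((Gm_posDef (hΨ.2 y)).posSemidef.dotProduct_mulVec_nonneg (a y))).1
  rw [mul_left_comm, ← Real.exp_add]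
  exact mul_le_mul_of_nonneg_left (Real.exp_le_exp.2 (by linarith [(abs_le.1 (h y)).2])) h0

end Vale.Agent.P299
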