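import Vale.Agent.P299.M2f0

/-! P299, part M2: algebra of the operators. -/

set_option linter.all false

open MeasureTheory Set Filter Topology Matrix
open scoped ContDiff ENNReal ComplexConjugate ComplexOrder InnerProductSpace

noncomputable section

namespace Vale.Agent.P299

open Vale.Agent.P271A

variable {n : ℕ} {Y : Type} [TopologicalSpace Y] [T2Space Y] [SecondCountableTopology Y]
  [MeasurableSpace Y] [BorelSpace Y] {D : RD n Y} {Ψ Φ : Y → ℝ}

variable {a b : Y → W (Fin n)} {q : ℕ}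

theorem m2dvg_add (ha : SmW D a) (hb : SmW D b) : dvg D Φ (a + b) = dvg D Φ a + dvg D Φ b := by
  funext y
  simp only [dvg, Pi.add_apply, ← Finset.sum_add_distrib, ← mulVec_add]
  refine Finset.sum_congr rfl fun j _ => congrArg _ (funext fun I => ?_)
  simp only [Pi.add_apply, RD.dz]
  rw [RD.dX_add (ha I) (hb I)]
  ring

theorem m2dvg_smul (ha : SmW D a) (c : ℂ) : dvg D Φ (c • a) = c • dvg D Φ a := by
  funext y
  simp only [dvg, Pi.smul_apply, Finset.smul_sum, ← mulVec_smul]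
  refine Finset.sum_congr rfl fun j _ => congrArg _ (funext fun I => ?_)
  simp only [Pi.smul_apply, smul_eq_mul, RD.dz]
  rw [RD.dX_const_mul (ha I)]
  ring

theorem m2dbar_smul (ha : SmW D a) (c : ℂ) : dbar D (c • a) = c • dbar D a := by
  funext y
  simp only [dbar, Pi.smul_apply, Finset.smul_sum, ← mulVec_smul]
  refine Finset.sum_congr rfl fun j _ => congrArg _ (funext fun I => ?_)
  simp only [Pi.smul_apply, smul_eq_mul, RD.db]
  rw [RD.dX_const_mul (ha I)]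

theorem m2f_low_add (a b : Y → W (Fin n)) : low D Ψ (a + b) = low D Ψ a + low D Ψ b :=
  funext fun y => mulVec_add _ _ _

theorem m2f_low_smul (a : Y → W (Fin n)) (c : ℂ) : low D Ψ (c • a) = c • low D Ψ a :=
  funext fun y => mulVec_smul _ c (a y)

theorem m2f_rais_add (a b : Y → W (Fin n)) : rais D Ψ (a + b) = rais D Ψ a + rais D Ψ b :=
  funext fun y => mulVec_add _ _ _

theorem m2f_rais_smul (a : Y → W (Fin n)) (c : ℂ) : rais D Ψ (c • a) = c • rais D Ψ a :=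
  funext fun y => mulVec_smul _ c (a y)

theorem m2f_rais_zero : rais D Ψ 0 = 0 := funext fun y => mulVec_zero _

theorem Tv_add (hΨ : Kah D Ψ) (ha : SmW D a) (hb : SmW D b) :
    Tv D Ψ (a + b) = Tv D Ψ a + Tv D Ψ b := by
  rw [Tv, Tv, Tv, m2f_low_add, dbar_add (ha.m2low hΨ) (hb.m2low hΨ), m2f_rais_add]

theorem Tv_smul (hΨ : Kah D Ψ) (ha : SmW D a) (c : ℂ) : Tv D Ψ (c • a) = c • Tv D Ψ a := by
  rw [Tv, Tv, m2f_low_smul, m2dbar_smul (ha.m2low hΨ), m2f_rais_smul]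

theorem Tv_Tv (hΨ : Kah D Ψ) (ha : SmW D a) : Tv D Ψ (Tv D Ψ a) = 0 := by
  rw [Tv, Tv, low_rais hΨ, dbar_dbar (ha.m2low hΨ), m2f_rais_zero]

theorem m2f_T_deg (ha : ∀ y, Dg q (a y)) (j : Fin n) (y : Y) : Dg q (M1bT D Φ j a y) := by
  intro J hJ
  simp only [M1bT, M1bD, Pi.sub_apply, Pi.smul_apply, ha _ J hJ, smul_zero, sub_zero]
  exact RD.dX_const _ _

theorem m2dvg_deg (ha : ∀ y, Dg (q + 1) (a y)) (y : Y) : Dg q (dvg D Φ a y) := by
  intro I hI
  rw [M1b_dvg, Finset.sum_apply]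
  refine Finset.sum_eq_zero fun j _ => ?_
  rw [← FockA.ctr_single]
  exact (m2f_T_deg ha j y).ctr _ I hI

theorem m2dvg_deg_zero (ha : ∀ y, Dg 0 (a y)) : dvg D Φ a = 0 := by
  funext y
  rw [M1b_dvg]
  refine Finset.sum_eq_zero fun j _ => ?_
  rw [← FockA.ctr_single]
  exact (m2f_T_deg ha j y).ctr_zero _

theorem Tv_deg (ha : ∀ y, Dg q (a y)) (y : Y) : Dg (q + 1) (Tv D Ψ a y) :=
  (dbar_deg (u := low D Ψ a) (fun p => (ha p).gm _) y).gm _

theorem m2f_Tv_zero : Tv D Ψ 0 = 0 := by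
  have h1 : low D Ψ 0 = 0 := funext fun y => mulVec_zero _
  have h2 : dbar D (0 : Y → W (Fin n)) = 0 := by
    funext y
    refine Finset.sum_eq_zero fun j _ => ?_
    have : (fun I => D.db j (fun p => (0 : Y → W (Fin n)) p I) y) = 0 :=
      funext fun I => RD.dX_const _ _
    rw [this, mulVec_zero]
  rw [Tv, h1, h2, m2f_rais_zero]

theorem box_deg (ha : ∀ y, Dg q (a y)) (y : Y) : Dg q (box D Ψ Φ a y) := by
  intro I hI
  have h2 : dvg D Φ (Tv D Ψ a) y I = 0 := m2dvg_deg (Tv_deg ha) y I hI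
  have h1 : Tv D Ψ (dvg D Φ a) y I = 0 := by
    cases q with
    | zero => rw [m2dvg_deg_zero ha, m2f_Tv_zero]; rfl
    | succ q => exact Tv_deg (m2dvg_deg ha) y I hI
  rw [box, Pi.add_apply, h1, h2, add_zero]

theorem Dg.orth {ι : Type} [Fintype ι] [LinearOrder ι] {p q : ℕ} {x z : W ι} (hx : Dg p x)
    (hz : Dg q z) (h : p ≠ q) (g : Matrix ι ι ℂ) : star x ⬝ᵥ Gm g *ᵥ z = 0 := by
  refine Finset.sum_eq_zero fun I _ => ?_
  by_cases hI : I.card = p
  · exact mul_eq_zero_of_right _ (hz.gm g I (by rwa [hI]))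
  · exact mul_eq_zero_of_left (by rw [Pi.star_apply, hx I hI, star_zero]) _

/-- `dbar_adj` -/
theorem ip2_Tv (hΨ : Kah D Ψ) (hΦ : D.SmR Φ) (ha : SmW D a) (hb : SmW D b)
    (hc : HasCompactSupport a ∨ HasCompactSupport b) :
    ip2 D Ψ Φ a (Tv D Ψ b) = -ip2 D Ψ Φ (dvg D Φ a) b := by
  have hc' : HasCompactSupport (low D Ψ b) ∨ HasCompactSupport a := by
    rcases hc with hc | hc
    · exact Or.inr hc
    · exact Or.inl (hc.mono fun p hp h => hp (by simp [low, h]))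
  have h := dbar_adj hΦ (hb.m2low hΨ) ha hc'
  have e : ∀ y, Gm (LMd D Ψ y) *ᵥ Tv D Ψ b y = dbar D (low D Ψ b) y := fun y =>
    congrFun (low_rais hΨ (dbar D (low D Ψ b))) y
  simp only [ip2, e]
  exact h

theorem m2f_conj (hΨ : Kah D Ψ) (a b : Y → W (Fin n)) :
    ip2 D Ψ Φ a b = conj (ip2 D Ψ Φ b a) := by
  rw [ip2, ip2, ← integral_conj]
  refine integral_congr_ae (Eventually.of_forall fun y => ?_)
  simp only [map_mul, Complex.conj_ofReal]
  congr 1
  rw [← RCLike.star_def, star_dotProduct, star_mulVec, M1b_herm hΨ, ← dotProduct_mulVec]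

theorem ip2_dvg (hΨ : Kah D Ψ) (hΦ : D.SmR Φ) (ha : SmW D a) (hb : SmW D b)
    (hc : HasCompactSupport a ∨ HasCompactSupport b) :
    ip2 D Ψ Φ a (dvg D Φ b) = -ip2 D Ψ Φ (Tv D Ψ a) b := by
  rw [m2f_conj hΨ a, m2f_conj hΨ (Tv D Ψ a), ip2_Tv hΨ hΦ hb ha hc.symm, map_neg, neg_neg]

end Vale.Agent.P299
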