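import Vale.Agent.P299.M2Defs

/-! P299, part M2: algebra of the operators. -/

set_option linter.all false

open MeasureTheory Set Filter Topology Matrix
open scoped ContDiff ENNReal ComplexConjugate ComplexOrder InnerProductSpace

noncomputable section

namespace Vale.Agent.P299

open Vale.Agent.P271A

variable {n : ℕ} {Y : Type} [TopologicalSpace Y] [T2Space Y] [SecondCountableTopology Y]
  [MeasurableSpace Y] [BorelSpace Y] {D : RD n Y} {Ψ Φ : Y → ℝ}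

variable {a b : Y → W (Fin n)} {q : ℕ}

theorem m2f0_unit (hΨ : Kah D Ψ) (y : Y) : IsUnit (LMd D Ψ y).det :=
  (Matrix.isUnit_iff_isUnit_det _).1 (hΨ.2 y).isUnit

theorem m2f0_gi (hΨ : Kah D Ψ) (y : Y) : Gm (LMd D Ψ y) * Gm (LMd D Ψ y)⁻¹ = 1 := by
  rw [← Gm_mul, Matrix.mul_nonsing_inv _ (m2f0_unit hΨ y), Gm_one]

theorem m2f0_ig (hΨ : Kah D Ψ) (y : Y) : Gm (LMd D Ψ y)⁻¹ * Gm (LMd D Ψ y) = 1 := by
  rw [← Gm_mul, Matrix.nonsing_inv_mul _ (m2f0_unit hΨ y), Gm_one]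

theorem m2f0_q2 (hΨ : Kah D Ψ) (y : Y) (x : W (Fin n)) :
    q2 (Gm (LMd D Ψ y)⁻¹) (Gm (LMd D Ψ y) *ᵥ x) = q2 (Gm (LMd D Ψ y)) x := by
  rw [← Fock_q2_conj, M1b_herm hΨ, m2f0_gi hΨ, Matrix.one_mul]

theorem m2f0_dX {y : Y} (h : y ∉ tsupport a) (ξ : E n × E n) (I : Finset (Fin n)) :
    D.dX ξ (fun p => a p I) y = 0 := by
  refine RD.dX_of_notMem fun h' => h (closure_mono ?_ h')
  intro p hp h0
  exact hp (by simp only [h0, Pi.zero_apply])

theorem low_rais (hΨ : Kah D Ψ) (a : Y → W (Fin n)) : low D Ψ (rais D Ψ a) = a := by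
  funext y
  simp only [low, rais, Matrix.mulVec_mulVec, m2f0_gi hΨ, Matrix.one_mulVec]

theorem rais_low (hΨ : Kah D Ψ) (a : Y → W (Fin n)) : rais D Ψ (low D Ψ a) = a := by
  funext y
  simp only [low, rais, Matrix.mulVec_mulVec, m2f0_ig hΨ, Matrix.one_mulVec]

theorem nF_low (hΨ : Kah D Ψ) (a : Y → W (Fin n)) : nF D Ψ Φ (low D Ψ a) = nV D Ψ Φ a := by
  simp only [nF, nV, low, m2f0_q2 hΨ]

theorem nV_rais (hΨ : Kah D Ψ) (a : Y → W (Fin n)) : nV D Ψ Φ (rais D Ψ a) = nF D Ψ Φ a := by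
  rw [← nF_low hΨ, low_rais hΨ]

theorem SmW.m2add (ha : SmW D a) (hb : SmW D b) : SmW D (a + b) := by
  exact fun I => (ha I).add (hb I)

theorem SmW.m2smul (ha : SmW D a) (c : ℂ) : SmW D (c • a) := by
  exact fun I => (RD.sm_const c).mul (ha I)

theorem SmW.m2mul {χ : Y → ℂ} (hχ : D.Sm χ) (ha : SmW D a) : SmW D fun y => χ y • a y := by
  exact fun I => hχ.mul (ha I)

theorem SmW.m2low (hΨ : Kah D Ψ) (ha : SmW D a) : SmW D (low D Ψ a) := by
  exact M1b_sm_mv (sm_Gm (sm_LMd hΨ.1)) ha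

theorem SmW.rais (hΨ : Kah D Ψ) (ha : SmW D a) : SmW D (rais D Ψ a) := by
  exact M1b_sm_mv (sm_Gm (sm_inv (sm_LMd hΨ.1) (m2f0_unit hΨ))) ha

theorem SmW.m2dvg (hΦ : D.SmR Φ) (ha : SmW D a) : SmW D (dvg D Φ a) := by
  exact m1a_sm_sum Finset.univ fun j _ => M1b_sm_c (an j) (M1b_sm_T hΦ ha j)

theorem SmW.Tv (hΨ : Kah D Ψ) (ha : SmW D a) : SmW D (Tv D Ψ a) := by
  exact (ha.m2low hΨ).dbar.rais hΨ

theorem TstW.mul {χ : Y → ℂ} (hχ : D.Test χ) (ha : SmW D a) : TstW D fun y => χ y • a y := by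
  refine ⟨ha.m2mul hχ.1, hχ.2.mono fun y hy h0 => hy ?_⟩
  simp only [h0, zero_smul]

theorem TstW.add (ha : TstW D a) (hb : TstW D b) : TstW D (a + b) := by
  exact ⟨ha.1.m2add hb.1, ha.2.add hb.2⟩

theorem TstW.smul (ha : TstW D a) (c : ℂ) : TstW D (c • a) := by
  refine ⟨ha.1.m2smul c, ha.2.mono fun y hy h0 => hy ?_⟩
  simp only [Pi.smul_apply, h0, smul_zero]

theorem TstW.comp (ha : TstW D a) (I : Finset (Fin n)) : D.Test fun y => a y I := by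
  refine ⟨ha.1 I, ha.2.mono fun y hy h0 => hy ?_⟩
  simp only [h0, Pi.zero_apply]

theorem TstW.of_comp (ha : ∀ I, D.Test fun y => a y I) : TstW D a := by
  refine ⟨fun I => (ha I).1, HasCompactSupport.intro (isCompact_iUnion fun I => (ha I).2)
    fun y hy => funext fun I => ?_⟩
  exact image_eq_zero_of_notMem_tsupport (f := fun y => a y I) fun h => hy (mem_iUnion.2 ⟨I, h⟩)

theorem TstW.dvg (hΦ : D.SmR Φ) (ha : TstW D a) : TstW D (dvg D Φ a) := by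
  refine ⟨ha.1.m2dvg hΦ, ha.2.mono' fun y hy => ?_⟩
  by_contra h
  refine hy (Finset.sum_eq_zero fun j _ => ?_)
  have e : (fun I => D.dz j (fun p => a p I) y - D.dz j (fun p => (Φ p : ℂ)) y * a y I) = 0 := by
    funext I
    rw [RD.dz, m2f0_dX h, image_eq_zero_of_notMem_tsupport h]
    simp
  rw [e, Matrix.mulVec_zero]

theorem TstW.Tv (hΨ : Kah D Ψ) (ha : TstW D a) : TstW D (Tv D Ψ a) := by
  refine ⟨ha.1.Tv hΨ, ha.2.mono' fun y hy => ?_⟩
  by_contra h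
  have h1 : y ∉ tsupport (low D Ψ a) := by
    refine fun h' => h (closure_mono ?_ h')
    intro p hp h0
    exact hp (by simp only [low, h0, Matrix.mulVec_zero])
  have h2 : dbar D (low D Ψ a) y = 0 := by
    refine Finset.sum_eq_zero fun j _ => ?_
    have e : (fun I => D.db j (fun p => low D Ψ a p I) y) = 0 := funext fun I => m2f0_dX h1 _ I
    rw [e, Matrix.mulVec_zero]
  refine hy ?_
  show Gm (LMd D Ψ y)⁻¹ *ᵥ dbar D (low D Ψ a) y = 0
  rw [h2, Matrix.mulVec_zero]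

end Vale.Agent.P299
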