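import Vale.Agent.P299.M2g0

/-! P299, part M2: the principal part of the Laplace operator, cutoffs. -/

set_option linter.all false

open MeasureTheory Set Filter Topology Matrix
open scoped ContDiff ENNReal ComplexConjugate ComplexOrder InnerProductSpace

noncomputable section

namespace Vale.Agent.P299

open Vale.Agent.P271A

variable {n : ℕ} {Y : Type} [TopologicalSpace Y] [T2Space Y] [SecondCountableTopology Y]
  [MeasurableSpace Y] [BorelSpace Y] {D : RD n Y} {Ψ Φ : Y → ℝ}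

variable {a b : Y → W (Fin n)} {q : ℕ}

/-- `dbar_low`, `Gm_wdg` for `G⁻¹`, `Gm_mul` -/
theorem Tv_eq (hΨ : Kah D Ψ) (ha : SmW D a) (y : Y) :
    Tv D Ψ a y = ∑ j, ∑ l, (LMd D Ψ y)⁻¹ l j • (cr l *ᵥ dbW D j a y) := by
  have hu := (isUnit_iff_isUnit_det _).1 (hΨ.2 y).isUnit
  rw [Tv, rais, dbar_low hΨ ha, mulVec_sum]
  refine Finset.sum_congr rfl fun j _ => ?_
  rw [mulVec_mulVec, ← Matrix.mul_assoc, m1a_Gm_cr, Matrix.mul_assoc, ← Gm_mul,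
    nonsing_inv_mul _ hu, Gm_one, Matrix.mul_one, m1a_wdg_mv]
  rfl

theorem m2g_alg (g ψ : Fin n → Fin n → ℂ) (dg : Fin n → Fin n → Fin n → ℂ) (φ : Fin n → ℂ)
    (X : Fin n → Fin n → W (Fin n)) (Z : Fin n → W (Fin n)) (t : W (Fin n)) :
    (∑ j, ∑ l, g l j • (cr l *ᵥ ∑ k, an k *ᵥ (X k j - (ψ j k • t + φ k • Z j)))) +
      ∑ k, an k *ᵥ (∑ j, ∑ l, (dg k l j • (cr l *ᵥ Z j) + g l j • (cr l *ᵥ X k j)) -
        φ k • ∑ j, ∑ l, g l j • (cr l *ᵥ Z j)) =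
    ∑ k, ∑ j, g k j • X k j +
      ∑ j, (∑ k, ∑ l, dg k l j • (an k * cr l) - ∑ k, (φ k * g k j) • (1 : Matrix _ _ ℂ)) *ᵥ Z j +
      (-∑ j, ∑ k, ∑ l, (g l j * ψ j k) • (cr l * an k)) *ᵥ t := by
  have e : ∀ k j (w : W (Fin n)),
      g k j • w = ∑ l, g l j • (an k *ᵥ cr l *ᵥ w + cr l *ᵥ an k *ᵥ w) := fun k j w => by
    simp only [mulVec_mulVec, ← add_mulVec, an_cr]
    rw [Finset.sum_eq_single k (fun l _ hl => by rw [if_neg hl.symm, zero_mulVec, smul_zero])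
      (by simp), if_pos rfl, one_mulVec]
  simp only [neg_mulVec, sub_mulVec, sum_mulVec, smul_mulVec, one_mulVec, mul_smul (φ _),
    ← mulVec_mulVec, mulVec_sum, Finset.smul_sum, ← Finset.sum_sub_distrib]
  rw [Finset.sum_comm (f := fun k j => g k j • X k j), Finset.sum_comm (f := fun k j =>
    ∑ l, an k *ᵥ (dg k l j • (cr l *ᵥ Z j) + g l j • (cr l *ᵥ X k j) -
      φ k • g l j • (cr l *ᵥ Z j)))]
  conv_lhs =>
    arg 1
    arg 2
    ext j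
    rw [Finset.sum_comm]
  simp only [← Finset.sum_neg_distrib, ← Finset.sum_add_distrib]
  refine Finset.sum_congr rfl fun j _ => Finset.sum_congr rfl fun k _ => ?_
  rw [e k j (X k j), e k j (Z j)]
  simp only [Finset.smul_sum, ← Finset.sum_sub_distrib, ← Finset.sum_add_distrib]
  refine Finset.sum_congr rfl fun l _ => ?_
  simp only [mulVec_sub, mulVec_add, mulVec_smul]
  module

theorem m2g_sub {κ : Type} {u w : Y → κ → ℂ} (hu : SmW D u) (hw : SmW D w) (ξ : E n × E n)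
    (y : Y) : m1aV D ξ (fun p => u p - w p) y = m1aV D ξ u y - m1aV D ξ w y :=
  funext fun I => RD.dX_sub (hu I) (hw I) y

theorem m2g_dvg (Φ : Y → ℝ) (v : Y → W (Fin n)) : dvg D Φ v = fun y =>
    ∑ k, an k *ᵥ (m1aV D (zv k) v y - D.dz k (fun p => (Φ p : ℂ)) y • v y) := rfl

/-- With `g = G⁻¹`: `B j = ∑ k l, dz k (g l j) • an k * cr l - ∑ k, (Φ_k * g k j) • 1`,
`C = -∑ j k l, (g l j * db j (dz k Φ)) • cr l * an k`; `Tv_eq`, `an_cr`, `dX_comm`. -/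
theorem box_eq (hΨ : Kah D Ψ) (hΦ : D.SmR Φ) :
    ∃ (B : Fin n → Y → Matrix (Finset (Fin n)) (Finset (Fin n)) ℂ)
      (C : Y → Matrix (Finset (Fin n)) (Finset (Fin n)) ℂ),
      (∀ j I J, D.Sm fun y => B j y I J) ∧ (∀ I J, D.Sm fun y => C y I J) ∧
      ∀ t, SmW D t → ∀ y, box D Ψ Φ t y =
        ∑ k, ∑ j, (LMd D Ψ y)⁻¹ k j • dzW D k (dbW D j t) y + ∑ j, B j y *ᵥ dbW D j t y +
          C y *ᵥ t y := by
  have hg := sm_inv (sm_LMd hΨ.1) fun y => (isUnit_iff_isUnit_det _).1 (hΨ.2 y).isUnit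
  have hz : ∀ k, D.Sm (D.dz k fun p => (Φ p : ℂ)) := fun k => RD.Sm.dz hΦ k
  refine ⟨fun j y => ∑ k, ∑ l, D.dz k (fun p => (LMd D Ψ p)⁻¹ l j) y • (an k * cr l) -
      ∑ k, (D.dz k (fun p => (Φ p : ℂ)) y * (LMd D Ψ y)⁻¹ k j) • (1 : Matrix _ _ ℂ),
    fun y => -∑ j, ∑ k, ∑ l, ((LMd D Ψ y)⁻¹ l j * D.db j (D.dz k fun p => (Φ p : ℂ)) y) •
      (cr l * an k), fun j I J => ?_, fun I J => ?_, fun t ht y => ?_⟩
  · simp only [Matrix.sub_apply, Matrix.sum_apply, Matrix.smul_apply, smul_eq_mul]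
    exact (RD.Sm.sum _ fun k _ => RD.Sm.sum _ fun l _ =>
      ((hg l j).dz k).mul (RD.sm_const _)).sub
      (RD.Sm.sum _ fun k _ => ((hz k).mul (hg k j)).mul (RD.sm_const _))
  · simp only [Matrix.neg_apply, Matrix.sum_apply, Matrix.smul_apply, smul_eq_mul]
    exact (RD.Sm.sum _ fun j _ => RD.Sm.sum _ fun k _ => RD.Sm.sum _ fun l _ =>
      ((hg l j).mul ((hz k).db j)).mul (RD.sm_const _)).neg
  have h1 : ∀ k, SmW D fun p => m1aV D (zv k) t p - D.dz k (fun p => (Φ p : ℂ)) p • t p :=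
    fun k I => (m1a_smV ht _ I).sub (m1a_sm_smul (hz k) ht I)
  have h2 : ∀ j, dbW D j (dvg D Φ t) y = ∑ k, an k *ᵥ (dzW D k (dbW D j t) y -
      (D.db j (D.dz k fun p => (Φ p : ℂ)) y • t y +
        D.dz k (fun p => (Φ p : ℂ)) y • dbW D j t y)) := fun j => by
    change m1aV D (bv j) _ y = _
    rw [m2g_dvg, m1a_V_sum _ fun k _ => m1a_sm_mv _ (h1 k)]
    refine Finset.sum_congr rfl fun k _ => ?_
    rw [m1a_V_mv _ (h1 k), m2g_sub (m1a_smV ht _) (m1a_sm_smul (hz k) ht), m1a_V_smul (hz k) ht]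
    congr 2
    exact funext fun I => RD.dX_comm (ht I) y
  have h3 : ∀ j l, SmW D fun p => cr l *ᵥ dbW D j t p := fun j l => m1a_sm_mv _ (m1a_smV ht _)
  have h4 : ∀ k, m1aV D (zv k) (Tv D Ψ t) y = ∑ j, ∑ l,
      (D.dz k (fun p => (LMd D Ψ p)⁻¹ l j) y • (cr l *ᵥ dbW D j t y) +
        (LMd D Ψ y)⁻¹ l j • (cr l *ᵥ dzW D k (dbW D j t) y)) := fun k => by
    rw [funext (Tv_eq hΨ ht),
      m1a_V_sum _ fun j _ => m1a_sm_sum _ fun l _ => m1a_sm_smul (hg l j) (h3 j l)]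
    refine Finset.sum_congr rfl fun j _ => ?_
    rw [m1a_V_sum _ fun l _ => m1a_sm_smul (hg l j) (h3 j l)]
    refine Finset.sum_congr rfl fun l _ => ?_
    rw [m1a_V_smul (hg l j) (h3 j l), m1a_V_mv (u := dbW D j t) _ (m1a_smV ht _)]
    rfl
  rw [box, Tv_eq hΨ (ht.m2dvg hΦ), m2g_dvg Φ (Tv D Ψ t)]
  simp only [h2, h4, Tv_eq hΨ ht]
  exact m2g_alg (fun l j => (LMd D Ψ y)⁻¹ l j) _ _ _ _ _ _

theorem dvg_cut (hΦ : D.SmR Φ) {χ : Y → ℂ} (hχ : D.Sm χ) (ha : SmW D a) (y : Y) :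
    dvg D Φ (fun p => χ p • a p) y = χ y • dvg D Φ a y + ctr (dzv D χ y) *ᵥ a y := by
  simp only [m2g_dvg, m1a_V_smul hχ ha, ctr, sum_mulVec, smul_mulVec, Finset.smul_sum,
    ← Finset.sum_add_distrib]
  refine Finset.sum_congr rfl fun k _ => ?_
  simp only [mulVec_sub, mulVec_add, mulVec_smul, dzv, RD.dz]
  module

theorem Tv_cut (hΨ : Kah D Ψ) {χ : Y → ℂ} (hχ : D.Sm χ) (ha : SmW D a) (y : Y) :
    Tv D Ψ (fun p => χ p • a p) y =
      χ y • Tv D Ψ a y + Gm (LMd D Ψ y)⁻¹ *ᵥ wdg (dbv D χ y) *ᵥ low D Ψ a y := by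
  have e : low D Ψ (fun p => χ p • a p) = fun p => χ p • low D Ψ a p :=
    funext fun p => mulVec_smul _ _ _
  rw [Tv, rais, e, dbar_mul hχ (ha.m2low hΨ), mulVec_add, mulVec_smul]
  rfl

end Vale.Agent.P299
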