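import Vale.Agent.P299.M2f

/-! P299, part M2: the principal part of the Laplace operator, cutoffs. -/

set_option linter.all false

open MeasureTheory Set Filter Topology Matrix
open scoped ContDiff ENNReal ComplexConjugate ComplexOrder InnerProductSpace

noncomputable section

namespace Vale.Agent.P299

open Vale.Agent.P271A

variable {n : ℕ} {Y : Type} [TopologicalSpace Y] [T2Space Y] [SecondCountableTopology Y]
  [MeasurableSpace Y] [BorelSpace Y] {D : RD n Y} {Ψ Φ : Y → ℝ}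

variable {a b : Y → W (Fin n)} {q : ℕ}

theorem m2g0_unit (hΨ : Kah D Ψ) (y : Y) : IsUnit (LMd D Ψ y).det :=
  (Matrix.isUnit_iff_isUnit_det _).1 (hΨ.2 y).isUnit

theorem m2g0_gi (hΨ : Kah D Ψ) (y : Y) : Gm (LMd D Ψ y) * Gm (LMd D Ψ y)⁻¹ = 1 := by
  rw [← Gm_mul, Matrix.mul_nonsing_inv _ (m2g0_unit hΨ y), Gm_one]

theorem m2g0_q2 (hΨ : Kah D Ψ) (y : Y) (x : W (Fin n)) :
    q2 (Gm (LMd D Ψ y)⁻¹) (Gm (LMd D Ψ y) *ᵥ x) = q2 (Gm (LMd D Ψ y)) x := by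
  rw [← Fock_q2_conj, M1b_herm hΨ, m2g0_gi hΨ, Matrix.one_mul]

theorem m2g0_q2' (hΨ : Kah D Ψ) (y : Y) (x : W (Fin n)) :
    q2 (Gm (LMd D Ψ y)) (Gm (LMd D Ψ y)⁻¹ *ᵥ x) = q2 (Gm (LMd D Ψ y)⁻¹) x := by
  rw [← m2g0_q2 hΨ, Matrix.mulVec_mulVec, m2g0_gi hΨ, Matrix.one_mulVec]

theorem m2g0_inv (hΨ : Kah D Ψ) {χ : Y → ℝ} {ε : ℝ} (hε : 0 ≤ ε) {y : Y}
    (h : ∀ v, ‖D.del χ y v‖ ^ 2 ≤ ε * D.levi Ψ y v) :
    q2 (LMd D Ψ y)⁻¹ (star (dzv D (fun p => (χ p : ℂ)) y)) ≤ ε := by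
  refine (q2_inv_le (hΨ.2 y) _).2 ⟨hε, fun w => ?_⟩
  rw [star_star, q2_LMd]
  exact h w

/-- A sesquilinear expression in a family of vectors. -/
def m2g0B {ι κ : Type} [Fintype ι] [Fintype κ] (θ : Matrix ι ι ℂ) (G : Matrix κ κ ℂ)
    (w : ι → κ → ℂ) : ℝ := (∑ j, ∑ k, θ j k * (star (w j) ⬝ᵥ G *ᵥ w k)).re

theorem m2g0_nonneg {ι κ : Type} [Fintype ι] [LinearOrder ι] [Fintype κ] {θ : Matrix ι ι ℂ}
    {G : Matrix κ κ ℂ} (hθ : θ.PosSemidef) (hG : G.PosSemidef) (w : ι → κ → ℂ) :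
    0 ≤ m2g0B θ G w := by
  obtain ⟨η, rfl⟩ := Fock_rows hθ
  have e : ∑ j, ∑ k, (∑ a, vecMulVec (star (η a)) (η a)) j k * (star (w j) ⬝ᵥ G *ᵥ w k) =
      ∑ a, star (∑ j, η a j • w j) ⬝ᵥ G *ᵥ ∑ k, η a k • w k := by
    simp only [Matrix.sum_apply, vecMulVec_apply, Finset.sum_mul, star_sum, star_smul,
      sum_dotProduct, Matrix.mulVec_sum, dotProduct_sum, Matrix.mulVec_smul, smul_dotProduct,
      dotProduct_smul, smul_eq_mul, Pi.star_apply, Finset.mul_sum]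
    symm
    rw [Finset.sum_comm]
    rw [Finset.sum_comm, Finset.sum_congr rfl fun a _ => Finset.sum_comm, Finset.sum_comm]
    refine Finset.sum_congr rfl fun j _ => ?_
    rw [Finset.sum_comm]
    refine Finset.sum_congr rfl fun k _ => Finset.sum_congr rfl fun a _ => ?_
    ring
  rw [m2g0B, e, Complex.re_sum]
  exact Finset.sum_nonneg fun a _ => Fock_q2_nonneg hG _

theorem m2g0_conv {ι κ : Type} [Fintype ι] [LinearOrder ι] [Fintype κ] {θ : Matrix ι ι ℂ}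
    {G : Matrix κ κ ℂ} (hθ : θ.PosSemidef) (hG : G.PosSemidef) (w w' : ι → κ → ℂ) {s t : ℝ}
    (hs : 0 ≤ s) (ht : 0 ≤ t) (hst : s + t = 1) :
    m2g0B θ G (fun j => (s : ℂ) • w j + (t : ℂ) • w' j) ≤ s * m2g0B θ G w + t * m2g0B θ G w' := by
  have h0 := mul_nonneg (mul_nonneg hs ht) (m2g0_nonneg hθ hG fun j => w j - w' j)
  have hc : (s : ℂ) + t = 1 := by exact_mod_cast hst
  have e : m2g0B θ G (fun j => (s : ℂ) • w j + (t : ℂ) • w' j) +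
      s * t * m2g0B θ G (fun j => w j - w' j) = s * m2g0B θ G w + t * m2g0B θ G w' := by
    simp only [m2g0B, ← Complex.re_ofReal_mul, ← Complex.add_re, Finset.mul_sum,
      ← Finset.sum_add_distrib]
    congr 1
    refine Finset.sum_congr rfl fun j _ => Finset.sum_congr rfl fun k _ => ?_
    simp only [star_add, star_sub, star_smul, Matrix.mulVec_add, Matrix.mulVec_sub,
      Matrix.mulVec_smul, add_dotProduct, sub_dotProduct, dotProduct_add, dotProduct_sub,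
      smul_dotProduct, dotProduct_smul, smul_eq_mul, RCLike.star_def, Complex.conj_ofReal,
      Complex.ofReal_mul]
    linear_combination θ j k * (s * (star (w j) ⬝ᵥ G *ᵥ w k) + t * (star (w' j) ⬝ᵥ G *ᵥ w' k)) * hc
  linarith

/-- `q2_ctr_le`, `q2_inv_le`, `q2_LMd` (mind the conjugations: `q2 (LMd ..) v` versus `del`) -/
theorem ctr_cut_le (hΨ : Kah D Ψ) {χ : Y → ℝ} {ε : ℝ} (hε : 0 ≤ ε) {y : Y}
    (h : ∀ v, ‖D.del χ y v‖ ^ 2 ≤ ε * D.levi Ψ y v) (x : W (Fin n)) :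
    q2 (Gm (LMd D Ψ y)) (ctr (dzv D (fun p => (χ p : ℂ)) y) *ᵥ x) ≤
      ε * q2 (Gm (LMd D Ψ y)) x := by
  exact (q2_ctr_le (hΨ.2 y) _ x).trans (mul_le_mul_of_nonneg_right (m2g0_inv hΨ hε h)
    (Fock_q2_nonneg (Gm_posDef (hΨ.2 y)).posSemidef x))

/-- `q2_wdg_le` for `G⁻¹` -/
theorem wdg_cut_le (hΨ : Kah D Ψ) {χ : Y → ℝ} {ε : ℝ} (hε : 0 ≤ ε) {y : Y}
    (h : ∀ v, ‖D.del χ y v‖ ^ 2 ≤ ε * D.levi Ψ y v) (x : W (Fin n)) :
    q2 (Gm (LMd D Ψ y)) (Gm (LMd D Ψ y)⁻¹ *ᵥ wdg (dbv D (fun p => (χ p : ℂ)) y) *ᵥ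
      Gm (LMd D Ψ y) *ᵥ x) ≤ ε * q2 (Gm (LMd D Ψ y)) x := by
  have e : dbv D (fun p => (χ p : ℂ)) y = star (dzv D (fun p => (χ p : ℂ)) y) :=
    funext fun j => (RD.conj_dz_real χ j y).symm
  rw [m2g0_q2' hΨ, e]
  refine (q2_wdg_le (hΨ.2 y).inv _ _).trans ?_
  rw [m2g0_q2 hΨ]
  exact mul_le_mul_of_nonneg_right (m2g0_inv hΨ hε h)
    (Fock_q2_nonneg (Gm_posDef (hΨ.2 y)).posSemidef x)

theorem dbt_nonneg (hΨ : Kah D Ψ) (a : Y → W (Fin n)) (y : Y) : 0 ≤ dbt D Ψ a y := by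
  exact m2g0_nonneg (hΨ.2 y).inv.posSemidef (Gm_posDef (hΨ.2 y)).posSemidef fun j => dbW D j a y

theorem cvt_nonneg (hΨ : Kah D Ψ) (hΦ : D.SmR Φ) (h : ∀ y v, 0 ≤ D.levi Φ y v)
    (a : Y → W (Fin n)) (y : Y) : 0 ≤ cvt D Ψ Φ a y := by
  exact (curv_nonneg (hΨ.2 y) ((LMd_psd hΦ).2 (h y)) (a y)).1

/-- `Gm_dG` with `h = 1`, `Dg.num` -/
theorem cvt_self (hΨ : Kah D Ψ) {y : Y} (ha : Dg q (a y)) :
    cvt D Ψ Ψ a y = q * q2 (Gm (LMd D Ψ y)) (a y) := by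
  have h1 := Gm_dG (LMd D Ψ y) 1 (a y)
  rw [Matrix.mul_one, ← Matrix.mulVec_mulVec, ha.num, Matrix.mulVec_smul, dotProduct_smul] at h1
  rw [cvt, ← h1, q2, smul_eq_mul, ← Complex.ofReal_natCast, Complex.re_ofReal_mul]

/-- `curv_nonneg` for `LMd Φ + ε LMd Ψ - LMd ϑ` -/
theorem cvt_le (hΨ : Kah D Ψ) (hΦ : D.SmR Φ) {ϑ : Y → ℝ} (hϑ : D.SmR ϑ) {ε : ℝ} {y : Y}
    (h : ∀ v, D.levi ϑ y v - ε * D.levi Ψ y v ≤ D.levi Φ y v) (ha : Dg q (a y)) :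
    cvt D Ψ ϑ a y ≤ cvt D Ψ Φ a y + ε * q * q2 (Gm (LMd D Ψ y)) (a y) := by
  have s1 : D.SmR fun p => 1 * Φ p + ε * Ψ p :=
    ((RD.smR_const 1).mul hΦ).add ((RD.smR_const ε).mul hΨ.1)
  have s2 : D.SmR fun p => 1 * (1 * Φ p + ε * Ψ p) + (-1) * ϑ p :=
    ((RD.smR_const 1).mul s1).add ((RD.smR_const (-1)).mul hϑ)
  have h1 : (LMd D (fun p => 1 * (1 * Φ p + ε * Ψ p) + (-1) * ϑ p) y).PosSemidef := by
    refine (LMd_psd s2).2 fun v => ?_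
    rw [RD.levi_add ((RD.smR_const 1).mul s1) ((RD.smR_const (-1)).mul hϑ),
      RD.levi_const_mul s1, RD.levi_const_mul hϑ,
      RD.levi_add ((RD.smR_const 1).mul hΦ) ((RD.smR_const ε).mul hΨ.1),
      RD.levi_const_mul hΦ, RD.levi_const_mul hΨ.1]
    linarith [h v]
  have h2 := (curv_nonneg (hΨ.2 y) h1 (a y)).1
  rw [LMd_add s1 hϑ, LMd_add hΦ hΨ.1] at h2
  have e : (∑ j, ∑ k, (((1 : ℝ) : ℂ) • (((1 : ℝ) : ℂ) • LMd D Φ y + (ε : ℂ) • LMd D Ψ y) +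
      ((-1 : ℝ) : ℂ) • LMd D ϑ y) j k *
        (star (an j *ᵥ a y) ⬝ᵥ Gm (LMd D Ψ y) *ᵥ an k *ᵥ a y)).re =
      cvt D Ψ Φ a y + ε * cvt D Ψ Ψ a y - cvt D Ψ ϑ a y := by
    simp only [cvt, ← Complex.re_ofReal_mul, ← Complex.add_re, ← Complex.sub_re, Finset.mul_sum,
      ← Finset.sum_add_distrib, ← Finset.sum_sub_distrib]
    congr 1
    refine Finset.sum_congr rfl fun j _ => Finset.sum_congr rfl fun k _ => ?_
    simp only [Matrix.add_apply, Matrix.smul_apply, smul_eq_mul]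
    push_cast
    ring
  rw [e, cvt_self hΨ ha] at h2
  linarith

theorem m2g0_sm {ι κ : Type} [Fintype ι] [Fintype κ] {θ : Y → Matrix ι ι ℂ}
    {G : Y → Matrix κ κ ℂ} {w : ι → Y → κ → ℂ} (hθ : ∀ j k, D.Sm fun y => θ y j k)
    (hG : ∀ j k, D.Sm fun y => G y j k) (hw : ∀ j, SmW D (w j)) :
    Continuous fun y => m2g0B (θ y) (G y) fun j => w j y :=
  (RD.Sm.sum Finset.univ fun j _ => RD.Sm.sum Finset.univ fun k _ =>
    (hθ j k).mul (M1b_sm_dot (M1b_sm_star (hw j)) (M1b_sm_mv hG (hw k)))).re.continuous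

/-- convexity of nonnegative quadratic forms -/
theorem nH_conv (hΨ : Kah D Ψ) (hΦ : D.SmR Φ) {ϑ : Y → ℝ} (hϑ : D.SmR ϑ)
    (h : ∀ y v, 0 ≤ D.levi ϑ y v) (ha : SmW D a) (hb : SmW D b) {s t : ℝ} (hs : 0 ≤ s)
    (ht : 0 ≤ t) (hst : s + t = 1) :
    nH D Ψ Φ ϑ ((s : ℂ) • a + (t : ℂ) • b) ≤
      ENNReal.ofReal s * nH D Ψ Φ ϑ a + ENNReal.ofReal t * nH D Ψ Φ ϑ b := by
  have hG := sm_Gm (sm_LMd hΨ.1)
  have c1 : Continuous (dbt D Ψ a) :=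
    m2g0_sm (w := fun j => dbW D j a) (sm_inv (sm_LMd hΨ.1) (m2g0_unit hΨ)) hG
      fun j I => (ha I).db j
  have c2 : Continuous (cvt D Ψ ϑ a) :=
    m2g0_sm (w := fun j y => an j *ᵥ a y) (sm_LMd hϑ) hG fun j => M1b_sm_c _ ha
  have hm : Measurable fun y => ENNReal.ofReal s *
      ENNReal.ofReal ((dbt D Ψ a y + cvt D Ψ ϑ a y) * Real.exp (-Φ y)) :=
    (((c1.add c2).mul hΦ.continuous.neg.rexp).measurable.ennreal_ofReal).const_mul _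
  rw [nH, nH, nH, ← lintegral_const_mul' _ _ ENNReal.ofReal_ne_top,
    ← lintegral_const_mul' _ _ ENNReal.ofReal_ne_top, ← lintegral_add_left hm]
  refine lintegral_mono fun y => ?_
  have pG := (Gm_posDef (hΨ.2 y)).posSemidef
  have e1 : ∀ j, dbW D j ((s : ℂ) • a + (t : ℂ) • b) y =
      (s : ℂ) • dbW D j a y + (t : ℂ) • dbW D j b y := by
    intro j
    funext I
    have h1 := RD.dX_add (ξ := bv j) ((RD.sm_const (s : ℂ)).mul (ha I))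
      ((RD.sm_const (t : ℂ)).mul (hb I)) y
    rw [RD.dX_const_mul (ha I), RD.dX_const_mul (hb I)] at h1
    exact h1
  have h1 : dbt D Ψ ((s : ℂ) • a + (t : ℂ) • b) y ≤ s * dbt D Ψ a y + t * dbt D Ψ b y := by
    have := m2g0_conv (hΨ.2 y).inv.posSemidef pG (fun j => dbW D j a y) (fun j => dbW D j b y)
      hs ht hst
    simp only [← e1] at this
    exact this
  have h2 : cvt D Ψ ϑ ((s : ℂ) • a + (t : ℂ) • b) y ≤ s * cvt D Ψ ϑ a y + t * cvt D Ψ ϑ b y := by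
    have := m2g0_conv ((LMd_psd hϑ).2 (h y)) pG (fun j => an j *ᵥ a y) (fun j => an j *ᵥ b y)
      hs ht hst
    simp only [← Matrix.mulVec_smul, ← Matrix.mulVec_add] at this
    exact this
  rw [← ENNReal.ofReal_mul hs, ← ENNReal.ofReal_mul ht]
  refine le_trans (ENNReal.ofReal_le_ofReal ?_) ENNReal.ofReal_add_le
  have := mul_le_mul_of_nonneg_right (add_le_add h1 h2) (Real.exp_pos (-Φ y)).le
  linarith

theorem nH_le {Φ' ϑ : Y → ℝ} {B : ℝ} (h : ∀ y, |Φ' y - Φ y| ≤ B) (a : Y → W (Fin n)) :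
    nH D Ψ Φ ϑ a ≤ ENNReal.ofReal (Real.exp B) * nH D Ψ Φ' ϑ a := by
  rw [nH, nH, ← lintegral_const_mul' _ _ ENNReal.ofReal_ne_top]
  refine lintegral_mono fun y => ?_
  rcases le_total (dbt D Ψ a y + cvt D Ψ ϑ a y) 0 with h0 | h0
  · rw [ENNReal.ofReal_of_nonpos (mul_nonpos_of_nonpos_of_nonneg h0 (Real.exp_pos _).le)]
    exact zero_le
  · rw [← ENNReal.ofReal_mul (Real.exp_pos _).le, mul_left_comm, ← Real.exp_add]
    refine ENNReal.ofReal_le_ofReal (mul_le_mul_of_nonneg_left (Real.exp_le_exp.2 ?_) h0)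
    have := (abs_le.1 (h y)).2
    linarith

end Vale.Agent.P299
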