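import Vale.Agent.P299.M2Defs

/-! P299, part M2: two lemmas on Hilbert spaces. -/

set_option linter.all false

open MeasureTheory Set Filter Topology Matrix
open scoped ContDiff ENNReal ComplexConjugate ComplexOrder InnerProductSpace

noncomputable section

namespace Vale.Agent.P299

open Vale.Agent.P271A

variable {H : Type} [NormedAddCommGroup H] [InnerProductSpace ℂ H] [CompleteSpace H]

theorem M2h_gen {V E : Type} [AddCommGroup V] [Module ℂ V] [NormedAddCommGroup E]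
    [InnerProductSpace ℂ E] [CompleteSpace E] (Γ : V →ₗ[ℂ] E) (A : V →ₗ[ℂ] H) {c : ℝ}
    (hb : ∀ t, ‖A t‖ ≤ c * ‖Γ t‖) (e : H) :
    ∃ (g : E) (x : H) (t : ℕ → V), Tendsto (fun k => Γ (t k)) atTop (𝓝 g) ∧
      Tendsto (fun k => A (t k)) atTop (𝓝 x) ∧ ∀ s, ⟪g, Γ s⟫_ℂ = ⟪e, A s⟫_ℂ := by
  set K := (LinearMap.range Γ).topologicalClosure with hK
  haveI : CompleteSpace K := (Submodule.isClosed_topologicalClosure _).completeSpace_coe
  let Γ' : V →ₗ[ℂ] K := Γ.codRestrict K fun t =>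
    Submodule.le_topologicalClosure _ (LinearMap.mem_range_self Γ t)
  have hseq : ∀ g : K, ∃ t : ℕ → V, Tendsto (fun k => Γ' (t k)) atTop (𝓝 g) := fun g => by
    have hg : (g : E) ∈ closure (Set.range Γ) := by
      rw [← LinearMap.coe_range, ← Submodule.topologicalClosure_coe]
      exact g.2
    obtain ⟨u, hu, hl⟩ := mem_closure_iff_seq_limit.1 hg
    choose t ht using hu
    refine ⟨t, tendsto_subtype_rng.2 ?_⟩
    exact hl.congr fun k => (ht k).symm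
  have hd : DenseRange Γ' := fun g => by
    obtain ⟨t, ht⟩ := hseq g
    exact mem_closure_of_tendsto ht (Eventually.of_forall fun k => mem_range_self _)
  have hB : ∀ s, A.extendOfNorm Γ' (Γ' s) = A s := LinearMap.extendOfNorm_eq hd ⟨c, hb⟩
  set B : K →L[ℂ] H := A.extendOfNorm Γ' with hBd
  obtain ⟨t, ht⟩ := hseq (ContinuousLinearMap.adjoint B e)
  refine ⟨(ContinuousLinearMap.adjoint B e : K), B (ContinuousLinearMap.adjoint B e), t,
    tendsto_subtype_rng.1 ht, ((B.continuous.tendsto _).comp ht).congr fun k => hB _, fun s => ?_⟩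
  rw [← hB s, ← ContinuousLinearMap.adjoint_inner_left]
  rfl

/-- Let `Γ t = (√δ • A t, A₁ t, A₂ t)` in the Hilbert sum of three copies of `H`, `K` the closure of
the range. The functional `Γ t ↦ ⟪e, A t⟫` is bounded; by Hahn-Banach or extension to the closure and
the Riesz theorem it is `⟪g, ·⟫` with `g ∈ K` (compare `riesz` in P271A/Hil.lean). Take `Γ (t k) → g`;
`A (t k)` is a Cauchy sequence by `hco`. -/
theorem hil_res {V : Type} [AddCommGroup V] [Module ℂ V] (A A₁ A₂ : V →ₗ[ℂ] H) {δ C : ℝ}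
    (hδ : 0 ≤ δ) (hC : 0 ≤ C)
    (hco : ∀ t, ‖A t‖ ^ 2 ≤ C * (δ * ‖A t‖ ^ 2 + ‖A₁ t‖ ^ 2 + ‖A₂ t‖ ^ 2)) (e : H) :
    ∃ (x a b : H) (t : ℕ → V), Tendsto (fun k => A (t k)) atTop (𝓝 x) ∧
      Tendsto (fun k => A₁ (t k)) atTop (𝓝 a) ∧ Tendsto (fun k => A₂ (t k)) atTop (𝓝 b) ∧
      (∀ s, δ * ⟪x, A s⟫_ℂ + ⟪a, A₁ s⟫_ℂ + ⟪b, A₂ s⟫_ℂ = ⟪e, A s⟫_ℂ) ∧
      δ * ‖x‖ ^ 2 + ‖a‖ ^ 2 + ‖b‖ ^ 2 = (⟪e, x⟫_ℂ).re ∧
      ‖x‖ ^ 2 ≤ C * (δ * ‖x‖ ^ 2 + ‖a‖ ^ 2 + ‖b‖ ^ 2) := by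
  let Γ : V →ₗ[ℂ] PiLp 2 (fun _ : Fin 3 => H) :=
    (WithLp.linearEquiv 2 ℂ (Fin 3 → H)).symm.toLinearMap.comp
      (LinearMap.pi ![((√δ : ℝ) : ℂ) • A, A₁, A₂])
  have h0 : ∀ t, Γ t 0 = ((√δ : ℝ) : ℂ) • A t := fun t => rfl
  have h1 : ∀ t, Γ t 1 = A₁ t := fun t => rfl
  have h2 : ∀ t, Γ t 2 = A₂ t := fun t => rfl
  have hn : ∀ t, ‖Γ t‖ ^ 2 = δ * ‖A t‖ ^ 2 + ‖A₁ t‖ ^ 2 + ‖A₂ t‖ ^ 2 := fun t => by
    rw [PiLp.norm_sq_eq_of_L2, Fin.sum_univ_three, h0, h1, h2, norm_smul, mul_pow,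
      Complex.norm_real, Real.norm_eq_abs, sq_abs, Real.sq_sqrt hδ]
  have hb : ∀ t, ‖A t‖ ≤ √C * ‖Γ t‖ := fun t => by
    refine le_of_sq_le_sq ?_ (by positivity)
    rw [mul_pow, Real.sq_sqrt hC, hn]
    exact hco t
  obtain ⟨g, x, t, hg, hx, hi⟩ := M2h_gen Γ A hb e
  have hc : ∀ i, Tendsto (fun k => Γ (t k) i) atTop (𝓝 (g i)) := fun i =>
    ((PiLp.continuous_apply 2 (fun _ : Fin 3 => H) i).tendsto g).comp hg
  have hg0 : g 0 = ((√δ : ℝ) : ℂ) • x := tendsto_nhds_unique (hc 0) (hx.const_smul _)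
  have hid : ∀ s, δ * ⟪x, A s⟫_ℂ + ⟪g 1, A₁ s⟫_ℂ + ⟪g 2, A₂ s⟫_ℂ = ⟪e, A s⟫_ℂ := fun s => by
    rw [← hi s, PiLp.inner_apply, Fin.sum_univ_three, h0, h1, h2, hg0, inner_smul_left,
      inner_smul_right, Complex.conj_ofReal, ← mul_assoc, ← Complex.ofReal_mul,
      Real.mul_self_sqrt hδ]
  refine ⟨x, g 1, g 2, t, hx, hc 1, hc 2, hid, ?_, ?_⟩
  · have l1 := (((tendsto_const_nhds (x := x)).inner (𝕜 := ℂ) hx).const_mul (δ : ℂ)).add
      ((tendsto_const_nhds (x := g 1)).inner (𝕜 := ℂ) (hc 1)) |>.add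
      ((tendsto_const_nhds (x := g 2)).inner (𝕜 := ℂ) (hc 2))
    have l2 := tendsto_nhds_unique (l1.congr fun k => hid (t k))
      ((tendsto_const_nhds (x := e)).inner (𝕜 := ℂ) hx)
    rw [← l2]
    simp only [inner_self_eq_norm_sq_to_K, Complex.coe_algebraMap, ← Complex.ofReal_pow,
      ← Complex.ofReal_mul, ← Complex.ofReal_add, Complex.ofReal_re]
  · refine le_of_tendsto_of_tendsto' (hx.norm.pow 2)
      (((((hx.norm.pow 2).const_mul δ).add ((hc 1).norm.pow 2)).add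
        ((hc 2).norm.pow 2)).const_mul C) fun k => hco (t k)

/-- The infima `d m` of the squared norms increase and are bounded; almost minimal elements form a
Cauchy sequence by the parallelogram law. -/
theorem hil_nested (S : ℕ → Set H) (hc : ∀ m, Convex ℝ (S m)) (hn : ∀ m, (S m).Nonempty)
    (ha : Antitone S) {C : ℝ} (hb : ∀ m, ∀ x ∈ S m, ‖x‖ ≤ C) : ∃ x, ∀ m, x ∈ closure (S m) := by
  let d : ℕ → ℝ := fun m => sInf ((fun x => ‖x‖ ^ 2) '' S m)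
  have hbb : ∀ m, BddBelow ((fun x : H => ‖x‖ ^ 2) '' S m) := fun m =>
    ⟨0, by rintro _ ⟨x, -, rfl⟩; positivity⟩
  have hle : ∀ m, ∀ x ∈ S m, d m ≤ ‖x‖ ^ 2 := fun m x hx => csInf_le (hbb m) ⟨x, hx, rfl⟩
  have hmono : Monotone d := fun m n h =>
    le_csInf ((hn n).image _) (by rintro _ ⟨x, hx, rfl⟩; exact hle m x (ha h hx))
  have hbd : BddAbove (range d) := ⟨C ^ 2, by
    rintro _ ⟨m, rfl⟩
    obtain ⟨x, hx⟩ := hn m
    exact (hle m x hx).trans (pow_le_pow_left₀ (norm_nonneg _) (hb m x hx) 2)⟩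
  have hlim := tendsto_atTop_ciSup hmono hbd
  have hex : ∀ m : ℕ, ∃ x ∈ S m, ‖x‖ ^ 2 < d m + 1 / ((m : ℝ) + 1) := fun m => by
    obtain ⟨_, ⟨x, hx, rfl⟩, h⟩ := exists_lt_of_csInf_lt ((hn m).image fun x => ‖x‖ ^ 2)
      (lt_add_of_pos_right (d m) (show (0 : ℝ) < 1 / ((m : ℝ) + 1) by positivity))
    exact ⟨x, hx, h⟩
  choose x hx hx2 using hex
  have hcs : CauchySeq x := by
    refine cauchySeq_of_le_tendsto_0' (fun n => √(2 * ((⨆ i, d i) - d n) + 4 * (1 / ((n : ℝ) + 1))))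
      (fun n m h => ?_) ?_
    · rw [dist_eq_norm]
      refine Real.le_sqrt_of_sq_le ?_
      have h1 := hle n _ (hc n (hx n) (ha h (hx m)) (a := 1 / 2) (b := 1 / 2) (by norm_num)
        (by norm_num) (by norm_num))
      rw [← smul_add, norm_smul, Real.norm_eq_abs, mul_pow, sq_abs] at h1
      have h2 := parallelogram_law_with_norm ℂ (x n) (x m)
      have h3 := le_ciSup hbd m
      have h4 : 1 / ((m : ℝ) + 1) ≤ 1 / ((n : ℝ) + 1) :=
        one_div_le_one_div_of_le (by positivity) (by exact_mod_cast Nat.succ_le_succ h)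
      nlinarith [hx2 n, hx2 m]
    · have := ((((tendsto_const_nhds (x := ⨆ i, d i)).sub hlim).const_mul 2).add
        (tendsto_one_div_add_atTop_nhds_zero_nat.const_mul 4)).sqrt
      simpa using this
  obtain ⟨y, hy⟩ := cauchySeq_tendsto_of_complete hcs
  exact ⟨y, fun m => mem_closure_of_tendsto hy
    ((eventually_ge_atTop m).mono fun k hk => ha hk (hx k))⟩

end Vale.Agent.P299
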