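import Vale.Agent.P299.M2e
import Vale.Agent.P299.M2f
import Vale.Agent.P299.M2h

/-! P299, part M2: the weak resolvent. -/

set_option linter.all false

open MeasureTheory Set Filter Topology Matrix
open scoped ContDiff ENNReal ComplexConjugate ComplexOrder InnerProductSpace

noncomputable section

namespace Vale.Agent.P299

open Vale.Agent.P271A

variable {n : ℕ} {Y : Type} [TopologicalSpace Y] [T2Space Y] [SecondCountableTopology Y]
  [MeasurableSpace Y] [BorelSpace Y] {D : RD n Y} {Ψ Φ : Y → ℝ}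

theorem m2i_orth {ι : Type} [Fintype ι] [LinearOrder ι] {x z : W ι}
    (h : ∀ I J : Finset ι, I.card = J.card → x I = 0 ∨ z J = 0) (g : Matrix ι ι ℂ) :
    star x ⬝ᵥ Gm g *ᵥ z = 0 := by
  simp only [dotProduct, mulVec, Finset.mul_sum]
  refine Finset.sum_eq_zero fun I _ => Finset.sum_eq_zero fun J _ => ?_
  by_cases e : I.card = J.card
  · rcases h I J e with e' | e'
    · rw [Pi.star_apply, e', star_zero, zero_mul]
    · rw [e', mul_zero, mul_zero]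
  · rw [FockB_deg g e, zero_mul, mul_zero]

theorem m2i_q2 {ι : Type} [Fintype ι] [LinearOrder ι] {x z : W ι} {g : Matrix ι ι ℂ}
    (hg : g.PosDef) (h : ∀ I J : Finset ι, I.card = J.card → x I = 0 ∨ z J = 0) :
    q2 (Gm g) z ≤ q2 (Gm g) (x - z) := by
  have h0 := Fock_q2_nonneg (Gm_posDef hg).posSemidef x
  unfold q2 at h0 ⊢
  rw [star_sub, mulVec_sub, sub_dotProduct, dotProduct_sub, dotProduct_sub, m2i_orth h,
    m2i_orth fun I J e => (h J I e.symm).symm]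
  simp only [sub_zero, zero_sub, sub_neg_eq_add, Complex.add_re]
  linarith

/-- The homogeneous part of degree `p`. -/
def m2i_hp (p : ℕ) (t : Y → W (Fin n)) : Y → W (Fin n) :=
  fun y I => if I.card = p then t y I else 0

theorem m2i_hp_deg (p : ℕ) (t : Y → W (Fin n)) (y : Y) : Dg p (m2i_hp p t y) :=
  fun _ h => if_neg h

theorem m2i_hp_tst {t : Y → W (Fin n)} (ht : TstW D t) (p : ℕ) : TstW D (m2i_hp p t) :=
  TstW.of_comp fun I => by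
    by_cases h : I.card = p
    · simp only [m2i_hp, if_pos h]
      exact ht.comp I
    · simp only [m2i_hp, if_neg h]
      exact RD.test_zero

theorem m2i_hp_sum (t : Y → W (Fin n)) : ∑ p ∈ Finset.range (n + 1), m2i_hp p t = t := by
  funext y I
  have h : I.card ∈ Finset.range (n + 1) :=
    Finset.mem_range.2 (Nat.lt_succ_of_le (by simpa using I.card_le_univ))
  simp only [Finset.sum_apply, m2i_hp, Finset.sum_ite_eq, if_pos h]

theorem m2i_ip_zero {p q : ℕ} {a b : Y → W (Fin n)} (ha : ∀ᵐ y ∂D.μ, Dg p (a y))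
    (hb : ∀ y, Dg q (b y)) (h : p ≠ q) : ip2 D Ψ Φ a b = 0 := by
  refine integral_eq_zero_of_ae ?_
  filter_upwards [ha] with y hy
  rw [hy.orth (hb y) h, zero_mul, Pi.zero_apply]

/-- The space of test fields. -/
def m2i_V (D : RD n Y) : Submodule ℂ (Y → W (Fin n)) where
  carrier := {t | TstW D t}
  add_mem' := TstW.add
  zero_mem' := TstW.of_comp fun _ => RD.test_zero
  smul_mem' := fun c _ h => TstW.smul h c

/-- The test fields of degree `q`. -/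
def m2i_V1 (D : RD n Y) (q : ℕ) : Submodule ℂ (m2i_V D) where
  carrier := {t | ∀ y, Dg q (t.1 y)}
  add_mem' := fun {a b} ha hb y I h => by
    show a.1 y I + b.1 y I = 0
    rw [ha y I h, hb y I h, add_zero]
  zero_mem' := fun _ _ _ => rfl
  smul_mem' := fun c a ha y I h => by
    show c • a.1 y I = 0
    rw [ha y I h, smul_zero]

/-- A linear operator on test fields, followed by the embedding. -/
def m2i_A (hΨ : Kah D Ψ) (hΦ : D.SmR Φ) {H : Type} [NormedAddCommGroup H] [InnerProductSpace ℂ H]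
    (E : Emb D Ψ Φ H) (P : (Y → W (Fin n)) → Y → W (Fin n))
    (h0 : ∀ a, TstW D a → TstW D (P a))
    (h1 : ∀ a b, SmW D a → SmW D b → P (a + b) = P a + P b)
    (h2 : ∀ a (c : ℂ), SmW D a → P (c • a) = c • P a) : m2i_V D →ₗ[ℂ] H where
  toFun t := E.J (P t.1)
  map_add' a b := by
    rw [Submodule.coe_add, h1 _ _ a.2.1 b.2.1,
      E.add hΨ hΦ ((h0 _ a.2).l2 hΨ hΦ) ((h0 _ b.2).l2 hΨ hΦ)]
  map_smul' c a := by
    rw [Submodule.coe_smul, h2 _ _ a.2.1, E.smul hΨ hΦ ((h0 _ a.2).l2 hΨ hΦ), RingHom.id_apply]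

/-- A limit in norm of fields of degree `q` has degree `q` almost everywhere: the part `r` of `v` of
the other degrees is square integrable (or use `L2V.l2loc` and a test function argument) and
orthogonal to all `t k`. One way: `‖t k - v‖ ≥` the norm of the components of other degree
(`Dg.orth`, decomposition into homogeneous parts). -/
theorem deg_lim (hΨ : Kah D Ψ) (hΦ : D.SmR Φ) {q : ℕ} {v : Y → W (Fin n)} {t : ℕ → Y → W (Fin n)}
    (hv : L2V D Ψ Φ v) (ht : ∀ k, L2V D Ψ Φ (t k)) (hq : ∀ k y, Dg q (t k y))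
    (h : Tendsto (fun k => nR D Ψ Φ (t k - v)) atTop (𝓝 0)) : ∀ᵐ y ∂D.μ, Dg q (v y) := by
  let r : Y → W (Fin n) := fun y I => if I.card = q then 0 else v y I
  have h1 : ∀ k, nV D Ψ Φ r ≤ nV D Ψ Φ (t k - v) := fun k => lintegral_mono fun y => by
    refine ENNReal.ofReal_le_ofReal (mul_le_mul_of_nonneg_right ?_ (Real.exp_pos _).le)
    have e : (t k - v) y = (t k y - m2i_hp q v y) - r y := funext fun I => by
      simp only [Pi.sub_apply, m2i_hp, r]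
      split_ifs <;> ring
    rw [e]
    refine m2i_q2 (hΨ.2 y) fun I J e' => ?_
    by_cases hJ : J.card = q
    · exact Or.inr (if_pos hJ)
    · left
      rw [Pi.sub_apply, hq k y I (e' ▸ hJ), m2i_hp_deg q v y I (e' ▸ hJ), sub_zero]
  have hr : L2V D Ψ Φ r := ⟨fun I => by
    by_cases hI : I.card = q
    · simp only [r, if_pos hI]
      exact aestronglyMeasurable_const
    · simp only [r, if_neg hI]
      exact hv.1 I, (h1 0).trans_lt ((ht 0).sub hΨ hΦ hv).2⟩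
  have h2 : nR D Ψ Φ r ≤ 0 := ge_of_tendsto' h fun k =>
    ENNReal.toReal_mono ((ht k).sub hΨ hΦ hv).2.ne (h1 k)
  have h0 : ∀ y, 0 ≤ q2 (Gm (LMd D Ψ y)) (r y) * Real.exp (-Φ y) := fun y =>
    mul_nonneg (Fock_q2_nonneg (Gm_posDef (hΨ.2 y)).posSemidef _) (Real.exp_pos _).le
  rw [hr.nR_eq hΨ hΦ] at h2
  filter_upwards [(integral_eq_zero_iff_of_nonneg h0 (hr.integrable hΨ hΦ)).1
    (h2.antisymm (integral_nonneg h0))] with y hy I hI
  by_contra hne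
  have h3 : r y ≠ 0 := fun e => hne ((if_neg hI).symm.trans (congrFun e I))
  have h4 := (Complex.pos_iff.1 ((Gm_posDef (hΨ.2 y)).dotProduct_mulVec_pos h3)).1
  exact (mul_pos h4 (Real.exp_pos _)).ne' hy

/-- `hil_res` for the submodule of test fields of degree `q + 1`, `exists_emb`, `ip2_Tv`, `ip2_dvg`
for the approximating sequence. For a test field of arbitrary degree split it into homogeneous parts
`fun y I => if I.card = p then t y I else 0` (`box_deg`, `Dg.orth`, `deg_lim`). -/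
theorem res_weak (hΨ : Kah D Ψ) (hΦ : D.SmR Φ) {q : ℕ} {δ C : ℝ} (hδ : 0 ≤ δ) (hC : 0 ≤ C)
    (hco : Coer D Ψ Φ (q + 1) δ C) {e : Y → W (Fin n)} (he : L2V D Ψ Φ e)
    (hq : ∀ y, Dg (q + 1) (e y)) :
    ∃ v a b, L2V D Ψ Φ v ∧ L2V D Ψ Φ a ∧ L2V D Ψ Φ b ∧ (∀ᵐ y ∂D.μ, Dg (q + 1) (v y)) ∧
      (∀ s, TstW D s → ip2 D Ψ Φ v (Tv D Ψ s) = -ip2 D Ψ Φ a s) ∧
      (∀ s, TstW D s → ip2 D Ψ Φ v (dvg D Φ s) = -ip2 D Ψ Φ b s) ∧
      (∀ s, TstW D s → δ * ip2 D Ψ Φ v s - ip2 D Ψ Φ v (box D Ψ Φ s) = ip2 D Ψ Φ e s) ∧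
      δ * nR D Ψ Φ v + nR D Ψ Φ a + nR D Ψ Φ b = (ip2 D Ψ Φ e v).re ∧
      nR D Ψ Φ v ≤ C * (δ * nR D Ψ Φ v + nR D Ψ Φ a + nR D Ψ Φ b) := by
  obtain ⟨H, _, _, _, ⟨E⟩⟩ := exists_emb hΨ hΦ
  let A := m2i_A hΨ hΦ E id (fun _ h => h) (fun _ _ _ _ => rfl) fun _ _ _ => rfl
  let A₁ := m2i_A hΨ hΦ E (dvg D Φ) (fun _ h => h.dvg hΦ) (fun _ _ => m2dvg_add)
    fun _ c h => m2dvg_smul h c
  let A₂ := m2i_A hΨ hΦ E (Tv D Ψ) (fun _ h => h.Tv hΨ) (fun _ _ => Tv_add hΨ)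
    fun _ c h => Tv_smul hΨ h c
  have l2 : ∀ {s}, TstW D s → L2V D Ψ Φ s := fun h => h.l2 hΨ hΦ
  obtain ⟨x, a, b, t, t0, t1, t2, h1, h2, h3⟩ := hil_res (V := m2i_V1 D (q + 1))
    (A ∘ₗ (m2i_V1 D (q + 1)).subtype)
    (A₁ ∘ₗ (m2i_V1 D (q + 1)).subtype) (A₂ ∘ₗ (m2i_V1 D (q + 1)).subtype) hδ hC (fun t => by
      show ‖E.J t.1.1‖ ^ 2 ≤ C * (δ * ‖E.J t.1.1‖ ^ 2 + ‖E.J (dvg D Φ t.1.1)‖ ^ 2 +
        ‖E.J (Tv D Ψ t.1.1)‖ ^ 2)
      rw [E.norm_sq hΨ hΦ (l2 t.1.2), E.norm_sq hΨ hΦ (l2 (TstW.dvg hΦ t.1.2)),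
        E.norm_sq hΨ hΦ (l2 (TstW.Tv hΨ t.1.2))]
      exact hco _ t.1.2 t.2) (E.J e)
  obtain ⟨v, hv, rfl⟩ := E.surj x
  obtain ⟨a, ha, rfl⟩ := E.surj a
  obtain ⟨b, hb, rfl⟩ := E.surj b
  have ht : ∀ k, TstW D (t k).1.1 := fun k => (t k).1.2
  replace t0 : Tendsto (fun k => E.J (t k).1.1) atTop (𝓝 (E.J v)) := t0
  replace t1 : Tendsto (fun k => E.J (dvg D Φ (t k).1.1)) atTop (𝓝 (E.J a)) := t1
  replace t2 : Tendsto (fun k => E.J (Tv D Ψ (t k).1.1)) atTop (𝓝 (E.J b)) := t2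
  have hd : ∀ᵐ y ∂D.μ, Dg (q + 1) (v y) := by
    refine deg_lim hΨ hΦ hv (fun k => l2 (ht k)) (fun k => (t k).2) ?_
    have := (tendsto_iff_norm_sub_tendsto_zero.1 t0).pow 2
    rw [zero_pow two_ne_zero] at this
    refine this.congr fun k => ?_
    rw [← E.sub hΨ hΦ (l2 (ht k)) hv, E.norm_sq hΨ hΦ ((l2 (ht k)).sub hΨ hΦ hv)]
  have k1 : ∀ s, TstW D s → ip2 D Ψ Φ v (Tv D Ψ s) = -ip2 D Ψ Φ a s := fun s hs => by
    rw [← E.inner _ _ hv (l2 (hs.Tv hΨ)), ← E.inner _ _ ha (l2 hs)]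
    refine tendsto_nhds_unique (t0.inner tendsto_const_nhds)
      ((t1.inner tendsto_const_nhds).neg.congr fun k => ?_)
    rw [E.inner _ _ (l2 (ht k)) (l2 (hs.Tv hΨ)), E.inner _ _ (l2 ((ht k).dvg hΦ)) (l2 hs),
      ip2_Tv hΨ hΦ (ht k).1 hs.1 (Or.inr hs.2)]
  have k2 : ∀ s, TstW D s → ip2 D Ψ Φ v (dvg D Φ s) = -ip2 D Ψ Φ b s := fun s hs => by
    rw [← E.inner _ _ hv (l2 (hs.dvg hΦ)), ← E.inner _ _ hb (l2 hs)]
    refine tendsto_nhds_unique (t0.inner tendsto_const_nhds)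
      ((t2.inner tendsto_const_nhds).neg.congr fun k => ?_)
    rw [E.inner _ _ (l2 (ht k)) (l2 (hs.dvg hΦ)), E.inner _ _ (l2 ((ht k).Tv hΨ)) (l2 hs),
      ip2_dvg hΨ hΦ (ht k).1 hs.1 (Or.inr hs.2)]
  have k3 : ∀ s : m2i_V D, δ * ⟪E.J v, A s⟫_ℂ + ⟪E.J a, A₁ s⟫_ℂ + ⟪E.J b, A₂ s⟫_ℂ - ⟪E.J e, A s⟫_ℂ =
      δ * ip2 D Ψ Φ v s - ip2 D Ψ Φ v (box D Ψ Φ s) - ip2 D Ψ Φ e s := fun s => by
    have hs : TstW D s.1 := s.2
    have u1 := l2 ((hs.dvg hΦ).Tv hΨ)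
    have u2 := l2 ((hs.Tv hΨ).dvg hΦ)
    show δ * ⟪E.J v, E.J s⟫_ℂ + ⟪E.J a, E.J (dvg D Φ s)⟫_ℂ + ⟪E.J b, E.J (Tv D Ψ s)⟫_ℂ -
      ⟪E.J e, E.J s⟫_ℂ = _
    rw [show box D Ψ Φ s = Tv D Ψ (dvg D Φ s) + dvg D Φ (Tv D Ψ s) from rfl,
      ← E.inner _ _ hv (u1.add hΨ hΦ u2), E.add hΨ hΦ u1 u2, inner_add_right, E.inner _ _ hv u1,
      E.inner _ _ hv u2, k1 _ (hs.dvg hΦ), k2 _ (hs.Tv hΨ), E.inner _ _ hv (l2 hs),
      E.inner _ _ ha (l2 (hs.dvg hΦ)), E.inner _ _ hb (l2 (hs.Tv hΨ)), E.inner _ _ he (l2 hs)]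
    ring
  refine ⟨v, a, b, hv, ha, hb, hd, k1, k2, fun s hs => ?_, ?_, ?_⟩
  · rw [← sub_eq_zero, ← k3 ⟨s, hs⟩]
    have e1 : (⟨s, hs⟩ : m2i_V D) =
        ∑ p ∈ Finset.range (n + 1), (⟨m2i_hp p s, m2i_hp_tst hs p⟩ : m2i_V D) :=
      Subtype.ext (by rw [Submodule.coe_sum]; exact (m2i_hp_sum s).symm)
    rw [e1]
    simp only [map_sum, inner_sum, Finset.mul_sum, ← Finset.sum_add_distrib,
      ← Finset.sum_sub_distrib]
    refine Finset.sum_eq_zero fun p _ => ?_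
    by_cases hp : q + 1 = p
    · subst hp
      exact sub_eq_zero.2 (h1 ⟨⟨_, m2i_hp_tst hs _⟩, m2i_hp_deg _ s⟩)
    · rw [k3, m2i_ip_zero hd (m2i_hp_deg p s) hp, m2i_ip_zero hd (box_deg (m2i_hp_deg p s)) hp,
        m2i_ip_zero (Eventually.of_forall hq) (m2i_hp_deg p s) hp]
      simp
  · rwa [E.norm_sq hΨ hΦ hv, E.norm_sq hΨ hΦ ha, E.norm_sq hΨ hΦ hb, E.inner _ _ he hv] at h2
  · rwa [E.norm_sq hΨ hΦ hv, E.norm_sq hΨ hΦ ha, E.norm_sq hΨ hΦ hb] at h3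

end Vale.Agent.P299
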