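import Vale.Agent.P299.M2i
import Vale.Agent.P299.M2d
import Vale.Agent.P299.M2g

/-! P299, part M2: the resolvent. -/

set_option linter.all false

open MeasureTheory Set Filter Topology Matrix
open scoped ContDiff ENNReal ComplexConjugate ComplexOrder InnerProductSpace

noncomputable section

namespace Vale.Agent.P299

open Vale.Agent.P271A

variable {n : ℕ} {Y : Type} [TopologicalSpace Y] [T2Space Y] [SecondCountableTopology Y]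
  [MeasurableSpace Y] [BorelSpace Y] {D : RD n Y} {Ψ Φ : Y → ℝ}

/-- The covector field of a polyvector field. -/
def m2jU (D : RD n Y) (Ψ Φ : Y → ℝ) (a : Y → W (Fin n)) (y : Y) : W (Fin n) :=
  fun I => ∑ J, (Real.exp (-Φ y) * Gm (LMd D Ψ y) J I) * conj (a y J)

theorem m2j_pt (a : Y → W (Fin n)) (y : Y) (s : W (Fin n)) :
    (star (a y) ⬝ᵥ Gm (LMd D Ψ y) *ᵥ s) * (Real.exp (-Φ y) : ℂ) = m2jU D Ψ Φ a y ⬝ᵥ s := by
  simp only [m2jU, dotProduct, mulVec, Finset.sum_mul, Finset.mul_sum, Pi.star_apply,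
    RCLike.star_def]
  rw [Finset.sum_comm]
  exact Finset.sum_congr rfl fun I _ => Finset.sum_congr rfl fun J _ => by ring

theorem m2j_ip (a s : Y → W (Fin n)) : ip2 D Ψ Φ a s = ∫ y, m2jU D Ψ Φ a y ⬝ᵥ s y ∂D.μ := by
  simp only [ip2, m2j_pt]

theorem m2j_wt (hΨ : Kah D Ψ) (hΦ : D.SmR Φ) (I J : Finset (Fin n)) :
    D.Sm fun y => (Real.exp (-Φ y) : ℂ) * Gm (LMd D Ψ y) J I :=
  RD.Sm.mul hΦ.neg.exp (sm_Gm (sm_LMd hΨ.1) J I)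

theorem m2j_loc (hΨ : Kah D Ψ) (hΦ : D.SmR Φ) {a : Y → W (Fin n)}
    (ha : ∀ I, D.L2loc fun y => a y I) (I : Finset (Fin n)) :
    D.L2loc fun y => m2jU D Ψ Φ a y I :=
  RD.L2loc.sum _ fun J _ => (ha J).conj.cont_mul (m2j_wt hΨ hΦ I J).continuous

theorem m2j_sm (hΨ : Kah D Ψ) (hΦ : D.SmR Φ) {a : Y → W (Fin n)} (ha : SmW D a) :
    SmW D (m2jU D Ψ Φ a) := fun I =>
  RD.Sm.sum _ fun J _ => (m2j_wt hΨ hΦ I J).mul (ha J).conj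

theorem m2j_sloc {a : Y → W (Fin n)} (ha : SmW D a) (I : Finset (Fin n)) :
    D.L2loc fun y => a y I := RD.l2loc_of_cont (ha I).continuous

theorem m2j_int {u s : Y → W (Fin n)} (hu : ∀ I, D.L2loc fun y => u y I) (hs : TstW D s) :
    Integrable (fun y => u y ⬝ᵥ s y) D.μ :=
  integrable_finset_sum _ fun I _ =>
    (hu I).integrable_mul (hs.comp I).continuous (hs.comp I).2

theorem m2j_vec (a : Y → W (Fin n)) (y : Y) :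
    m2jU D Ψ Φ a y = (Real.exp (-Φ y) : ℂ) • (star (a y) ᵥ* Gm (LMd D Ψ y)) := by
  funext I
  simp only [m2jU, vecMul, dotProduct, Pi.smul_apply, smul_eq_mul, Finset.mul_sum, Pi.star_apply,
    RCLike.star_def]
  exact Finset.sum_congr rfl fun J _ => by ring

theorem m2j_unit (hΨ : Kah D Ψ) (y : Y) : IsUnit (Gm (LMd D Ψ y)).det :=
  (Matrix.isUnit_iff_isUnit_det _).1 (Gm_posDef (hΨ.2 y)).isUnit

theorem m2j_inv (hΨ : Kah D Ψ) (a : Y → W (Fin n)) (y : Y) :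
    a y = star ((Real.exp (Φ y) : ℂ) • (m2jU D Ψ Φ a y ᵥ* (Gm (LMd D Ψ y))⁻¹)) := by
  rw [m2j_vec, smul_vecMul, vecMul_vecMul, mul_nonsing_inv _ (m2j_unit hΨ y), vecMul_one,
    smul_smul, ← Complex.ofReal_mul, ← Real.exp_add]
  simp

theorem m2j_add (a b : Y → W (Fin n)) (y : Y) :
    m2jU D Ψ Φ (a + b) y = m2jU D Ψ Φ a y + m2jU D Ψ Φ b y := by
  simp only [m2j_vec, Pi.add_apply, star_add, add_vecMul, smul_add]

theorem m2j_sub (a b : Y → W (Fin n)) (y : Y) :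
    m2jU D Ψ Φ (a - b) y = m2jU D Ψ Φ a y - m2jU D Ψ Φ b y := by
  simp only [m2j_vec, Pi.sub_apply, star_sub, sub_vecMul, smul_sub]

theorem m2j_smul (c : ℝ) (a : Y → W (Fin n)) (y : Y) :
    m2jU D Ψ Φ ((c : ℂ) • a) y = (c : ℂ) • m2jU D Ψ Φ a y := by
  simp only [m2j_vec, Pi.smul_apply, star_smul, smul_vecMul, RCLike.star_def, Complex.conj_ofReal]
  rw [smul_comm]

theorem m2j_left (hΨ : Kah D Ψ) (hΦ : D.SmR Φ) {a b s : Y → W (Fin n)} (ha : SmW D a)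
    (hb : SmW D b) (hs : TstW D s) :
    ip2 D Ψ Φ (a + b) s = ip2 D Ψ Φ a s + ip2 D Ψ Φ b s := by
  simp only [m2j_ip, m2j_add, add_dotProduct]
  exact integral_add (m2j_int (m2j_loc hΨ hΦ (m2j_sloc ha)) hs)
    (m2j_int (m2j_loc hΨ hΦ (m2j_sloc hb)) hs)

theorem m2j_left' (hΨ : Kah D Ψ) (hΦ : D.SmR Φ) {a b s : Y → W (Fin n)} (ha : SmW D a)
    (hb : SmW D b) (hs : TstW D s) (c : ℝ) :
    ip2 D Ψ Φ ((c : ℂ) • a - b) s = c * ip2 D Ψ Φ a s - ip2 D Ψ Φ b s := by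
  simp only [m2j_ip, m2j_sub, m2j_smul, sub_dotProduct, smul_dotProduct, smul_eq_mul]
  rw [integral_sub ((m2j_int (m2j_loc hΨ hΦ (m2j_sloc ha)) hs).const_mul _)
    (m2j_int (m2j_loc hΨ hΦ (m2j_sloc hb)) hs), integral_const_mul]

theorem m2j_right (hΨ : Kah D Ψ) (hΦ : D.SmR Φ) {a s t : Y → W (Fin n)} (ha : SmW D a)
    (hs : TstW D s) (ht : TstW D t) :
    ip2 D Ψ Φ a (s + t) = ip2 D Ψ Φ a s + ip2 D Ψ Φ a t := by
  simp only [m2j_ip, Pi.add_apply, dotProduct_add]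
  exact integral_add (m2j_int (m2j_loc hΨ hΦ (m2j_sloc ha)) hs)
    (m2j_int (m2j_loc hΨ hΦ (m2j_sloc ha)) ht)

theorem m2j_box (t : Y → W (Fin n)) :
    box D Ψ Φ t = Tv D Ψ (dvg D Φ t) + dvg D Φ (Tv D Ψ t) := rfl

theorem m2j_boxT (hΨ : Kah D Ψ) (hΦ : D.SmR Φ) {t : Y → W (Fin n)} (ht : TstW D t) :
    TstW D (box D Ψ Φ t) := ((ht.dvg hΦ).Tv hΨ).add ((ht.Tv hΨ).dvg hΦ)

theorem m2j_boxS (hΨ : Kah D Ψ) (hΦ : D.SmR Φ) {t : Y → W (Fin n)} (ht : SmW D t) :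
    SmW D (box D Ψ Φ t) := ((ht.m2dvg hΦ).Tv hΨ).m2add ((ht.Tv hΨ).m2dvg hΦ)

theorem m2j_sym (hΨ : Kah D Ψ) (hΦ : D.SmR Φ) {w s : Y → W (Fin n)} (hw : SmW D w)
    (hs : TstW D s) : ip2 D Ψ Φ (box D Ψ Φ w) s = ip2 D Ψ Φ w (box D Ψ Φ s) := by
  have h1 := hs.dvg hΦ
  have h2 := hs.Tv hΨ
  have h3 := hw.m2dvg hΦ
  have h4 := hw.Tv hΨ
  rw [m2j_box, m2j_box, m2j_left hΨ hΦ (h3.Tv hΨ) (h4.m2dvg hΦ) hs,
    m2j_right hΨ hΦ hw (h1.Tv hΨ) (h2.dvg hΦ), ip2_Tv hΨ hΦ hw h1.1 (Or.inr h1.2),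
    ip2_dvg hΨ hΦ hw h2.1 (Or.inr h2.2), ip2_dvg hΨ hΦ h3 hs.1 (Or.inr hs.2),
    ip2_Tv hΨ hΦ h4 hs.1 (Or.inr hs.2), neg_neg, neg_neg]

/-- `m2_fund` for the components of `exp (-Φ) • star (a - b) ᵥ* Gm G` with `s = Pi.single I t` -/
theorem ae_of_test (hΨ : Kah D Ψ) (hΦ : D.SmR Φ) {a b : Y → W (Fin n)}
    (ha : ∀ I, D.L2loc fun y => a y I) (hb : ∀ I, D.L2loc fun y => b y I)
    (h : ∀ s, TstW D s → ip2 D Ψ Φ a s = ip2 D Ψ Φ b s) : a =ᵐ[D.μ] b := by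
  have h1 : ∀ I, (fun y => m2jU D Ψ Φ a y I - m2jU D Ψ Φ b y I) =ᵐ[D.μ] 0 := fun I => by
    refine m2_fund ((m2j_loc hΨ hΦ ha I).sub (m2j_loc hΨ hΦ hb I)) fun t ht => ?_
    have hs : TstW D fun y => (Pi.single I (t y) : W (Fin n)) := TstW.of_comp fun J => by
      by_cases e : J = I
      · subst e
        simpa using ht
      · simpa [e] using RD.test_zero (D := D)
    have h2 := h _ hs
    simp only [m2j_ip, dotProduct_single] at h2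
    simp only [sub_mul]
    rw [integral_sub ((m2j_loc hΨ hΦ ha I).integrable_mul ht.continuous ht.2)
      ((m2j_loc hΨ hΦ hb I).integrable_mul ht.continuous ht.2), h2, sub_self]
  filter_upwards [ae_all_iff.2 h1] with y hy
  have e : m2jU D Ψ Φ a y = m2jU D Ψ Φ b y := funext fun I => sub_eq_zero.1 (hy I)
  rw [m2j_inv (Φ := Φ) hΨ a y, m2j_inv (Φ := Φ) hΨ b y, e]

theorem SmW.eq_of_ae {κ : Type} {a b : Y → κ → ℂ} (ha : SmW D a) (hb : SmW D b)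
    (h : a =ᵐ[D.μ] b) : a = b := by
  funext y I
  have h1 : (fun y => a y I) =ᵐ[D.μ] fun y => b y I := by
    filter_upwards [h] with p hp
    rw [hp]
  exact congrFun (((ha I).continuous.ae_eq_iff_eq D.μ (hb I).continuous).1 h1) y

/-- `m2_rd` for `u = exp (-Φ) • star v ᵥ* Gm G`, `f = -exp (-Φ) • star e ᵥ* Gm G`, `box_eq` with
`C - δ • 1` -/
theorem res_reg (hΨ : Kah D Ψ) (hΦ : D.SmR Φ) {δ : ℝ} {v e : Y → W (Fin n)} (hv : L2V D Ψ Φ v)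
    (he : SmW D e)
    (h : ∀ s, TstW D s → δ * ip2 D Ψ Φ v s - ip2 D Ψ Φ v (box D Ψ Φ s) = ip2 D Ψ Φ e s) :
    ∃ w, SmW D w ∧ v =ᵐ[D.μ] w := by
  obtain ⟨B, C, hB, hC, hb⟩ := box_eq hΨ hΦ
  have hu := m2j_loc hΨ hΦ (hv.l2loc hΨ hΦ)
  obtain ⟨w, hw, e1⟩ := m2_rd (fun y => (LMd D Ψ y)⁻¹) B (fun y => C y - (δ : ℂ) • 1)
    (m2jU D Ψ Φ v) (fun y => -m2jU D Ψ Φ e y)
    (sm_inv (sm_LMd hΨ.1) fun y => (Matrix.isUnit_iff_isUnit_det _).1 (hΨ.2 y).isUnit)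
    (fun y => (hΨ.2 y).inv) hB (fun I J => (hC I J).sub (RD.sm_const _))
    (fun I => (m2j_sm hΨ hΦ he I).neg) hu fun t ht => by
      have h1 := h t ht
      simp only [m2j_ip] at h1
      have e2 : ∀ y, m2jU D Ψ Φ v y ⬝ᵥ (∑ k, ∑ j, (LMd D Ψ y)⁻¹ k j • dzW D k (dbW D j t) y +
          ∑ j, B j y *ᵥ dbW D j t y + (C y - (δ : ℂ) • 1) *ᵥ t y) =
          m2jU D Ψ Φ v y ⬝ᵥ box D Ψ Φ t y - δ * (m2jU D Ψ Φ v y ⬝ᵥ t y) := fun y => by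
        rw [hb t ht.1 y, sub_mulVec, smul_mulVec, one_mulVec, ← add_sub_assoc, dotProduct_sub,
          dotProduct_smul, smul_eq_mul]
      simp only [e2, neg_dotProduct]
      rw [integral_sub (m2j_int hu (m2j_boxT hΨ hΦ ht)) ((m2j_int hu ht).const_mul _),
        integral_const_mul, integral_neg, ← h1, neg_sub]
  refine ⟨fun y => star ((Real.exp (Φ y) : ℂ) • (w y ᵥ* (Gm (LMd D Ψ y))⁻¹)), fun I => ?_, ?_⟩
  · exact (RD.Sm.mul hΦ.exp (RD.Sm.sum _ fun J _ => (hw J).mul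
      (sm_inv (sm_Gm (sm_LMd hΨ.1)) (m2j_unit hΨ) J I))).conj
  · filter_upwards [e1] with y hy
    rw [m2j_inv (Φ := Φ) hΨ v y, hy]

/-- `res_weak`, `res_reg`, then `ae_of_test` with `ip2_Tv`, `ip2_dvg` identifies `a`, `b` and gives
the equation; `ip2` is additive in the second slot when it is a test field -/
theorem res (hΨ : Kah D Ψ) (hΦ : D.SmR Φ) {q : ℕ} {δ C : ℝ} (hδ : 0 ≤ δ) (hC : 0 ≤ C)
    (hco : Coer D Ψ Φ (q + 1) δ C) {e : Y → W (Fin n)} (hs : SmW D e) (he : L2V D Ψ Φ e)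
    (hq : ∀ y, Dg (q + 1) (e y)) :
    ∃ v, SmW D v ∧ (∀ y, Dg (q + 1) (v y)) ∧ L2V D Ψ Φ v ∧ L2V D Ψ Φ (dvg D Φ v) ∧
      L2V D Ψ Φ (Tv D Ψ v) ∧ (δ : ℂ) • v - box D Ψ Φ v = e ∧
      δ * nR D Ψ Φ v + nR D Ψ Φ (dvg D Φ v) + nR D Ψ Φ (Tv D Ψ v) = (ip2 D Ψ Φ e v).re ∧
      nR D Ψ Φ v ≤ C * (δ * nR D Ψ Φ v + nR D Ψ Φ (dvg D Φ v) + nR D Ψ Φ (Tv D Ψ v)) := by
  obtain ⟨v, a, b, hv, ha, hb, hd, h1, h2, h3, h4, h5⟩ := res_weak hΨ hΦ hδ hC hco he hq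
  obtain ⟨w, hw, e⟩ := res_reg hΨ hΦ hv hs h3
  have ei : ∀ s, ip2 D Ψ Φ v s = ip2 D Ψ Φ w s := fun s => ip2_congr e (ae_eq_refl _)
  have ea : a =ᵐ[D.μ] dvg D Φ w :=
    ae_of_test hΨ hΦ (ha.l2loc hΨ hΦ) (m2j_sloc (hw.m2dvg hΦ)) fun s hs => by
      have := h1 s hs
      rw [ei, ip2_Tv hΨ hΦ hw hs.1 (Or.inr hs.2)] at this
      exact (neg_inj.1 this).symm
  have eb : b =ᵐ[D.μ] Tv D Ψ w :=
    ae_of_test hΨ hΦ (hb.l2loc hΨ hΦ) (m2j_sloc (hw.Tv hΨ)) fun s hs => by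
      have := h2 s hs
      rw [ei, ip2_dvg hΨ hΦ hw hs.1 (Or.inr hs.2)] at this
      exact (neg_inj.1 this).symm
  have hb' := m2j_boxS hΨ hΦ hw
  have hs' : SmW D ((δ : ℂ) • w - box D Ψ Φ w) := fun I => ((hw.m2smul δ) I).sub (hb' I)
  have n1 : nR D Ψ Φ v = nR D Ψ Φ w := by rw [nR, nV_congr e, nR]
  have n2 : nR D Ψ Φ a = nR D Ψ Φ (dvg D Φ w) := by rw [nR, nV_congr ea, nR]
  have n3 : nR D Ψ Φ b = nR D Ψ Φ (Tv D Ψ w) := by rw [nR, nV_congr eb, nR]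
  rw [n1, n2, n3] at h4 h5
  rw [ip2_congr (ae_eq_refl _) e] at h4
  refine ⟨w, hw, fun y I hI => ?_, hv.congr e, ha.congr ea, hb.congr eb, ?_, h4, h5⟩
  · have h6 : (fun y => w y I) =ᵐ[D.μ] fun _ => 0 := by
      filter_upwards [e, hd] with p hp hp'
      rw [← hp]
      exact hp' I hI
    exact congrFun (((hw I).continuous.ae_eq_iff_eq D.μ continuous_const).1 h6) y
  · refine hs'.eq_of_ae hs (ae_of_test hΨ hΦ (m2j_sloc hs') (m2j_sloc hs) fun s ht => ?_)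
    rw [m2j_left' hΨ hΦ hw hb' ht, m2j_sym hΨ hΦ hw ht, ← ei, ← ei, h3 s ht]

end Vale.Agent.P299
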