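import Vale.Agent.P299.M2e
import Vale.Agent.P299.M2g

/-! P299, part M2: arguments with cutoff functions. -/

set_option linter.all false

open MeasureTheory Set Filter Topology Matrix
open scoped ContDiff ENNReal ComplexConjugate ComplexOrder InnerProductSpace

noncomputable section

namespace Vale.Agent.P299

open Vale.Agent.P271A

variable {n : ℕ} {Y : Type} [TopologicalSpace Y] [T2Space Y] [SecondCountableTopology Y]
  [MeasurableSpace Y] [BorelSpace Y] {D : RD n Y} {Ψ Φ : Y → ℝ}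

theorem M2k_nonneg (hΨ : Kah D Ψ) (y : Y) (x : W (Fin n)) : 0 ≤ q2 (Gm (LMd D Ψ y)) x :=
  Fock_q2_nonneg (Gm_posDef (hΨ.2 y)).posSemidef x

theorem M2k_van (hΨ : Kah D Ψ) (hΦ : D.SmR Φ) {β : Y → W (Fin n)} (hβ : SmW D β)
    (h : ∀ K, IsCompact K → ∀ η > (0 : ℝ), ∃ χ, Cut D K χ ∧
      nR D Ψ Φ (fun y => (χ y : ℂ) • β y) ≤ η) : β = 0 := by
  funext y
  haveI := D.locallyCompact
  obtain ⟨K, hK, hy⟩ := exists_compact_mem_nhds y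
  have h1 : Continuous fun p => ENNReal.ofReal (q2 (Gm (LMd D Ψ p)) (β p) * Real.exp (-Φ p)) :=
    ENNReal.continuous_ofReal.comp ((Complex.continuous_re.comp (M1b_sm_dot (M1b_sm_star hβ)
      (M1b_sm_mv (sm_Gm (sm_LMd hΨ.1)) hβ)).continuous).mul hΦ.neg.exp.continuous)
  have h2 : ∫⁻ p in interior K, ENNReal.ofReal (q2 (Gm (LMd D Ψ p)) (β p) * Real.exp (-Φ p)) ∂D.μ
      = 0 := by
    refine le_antisymm (ENNReal.le_of_forall_pos_le_add fun η hη _ => ?_) zero_le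
    obtain ⟨χ, hχ, h3⟩ := h K hK η hη
    have h4 := ((TstW.mul hχ.1 hβ).l2 hΨ hΦ).2
    rw [zero_add, ← ENNReal.ofReal_coe_nnreal]
    refine le_trans ?_ ((ENNReal.le_ofReal_iff_toReal_le h4.ne η.2).2 h3)
    refine le_trans (le_of_eq ?_) (setLIntegral_le_lintegral (interior K) _)
    refine setLIntegral_congr_fun isOpen_interior.measurableSet fun p hp => ?_
    simp only [hχ.2.2 p (interior_subset hp), Complex.ofReal_one, one_smul]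
  have h3 := Measure.eqOn_open_of_ae_eq ((lintegral_eq_zero_iff h1.measurable).1 h2)
    isOpen_interior h1.continuousOn continuousOn_const (mem_interior_iff_mem_nhds.2 hy)
  by_contra h4
  have h5 : 0 < q2 (Gm (LMd D Ψ y)) (β y) := (Gm_posDef (hΨ.2 y)).re_dotProduct_pos h4
  exact (ENNReal.ofReal_pos.2 (mul_pos h5 (Real.exp_pos _))).ne' h3

theorem M2k_le {a b : Y → W (Fin n)} (ha : SmW D a) (hb : L2V D Ψ Φ b) {ε : ℝ} (hε : 0 ≤ ε)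
    (h : ∀ y, q2 (Gm (LMd D Ψ y)) (a y) ≤ ε * q2 (Gm (LMd D Ψ y)) (b y)) :
    L2V D Ψ Φ a ∧ nR D Ψ Φ a ≤ ε * nR D Ψ Φ b := by
  have h1 : nV D Ψ Φ a ≤ ENNReal.ofReal ε * nV D Ψ Φ b := by
    rw [nV, nV, ← lintegral_const_mul' _ _ ENNReal.ofReal_ne_top]
    refine lintegral_mono fun y => ?_
    rw [← ENNReal.ofReal_mul hε, ← mul_assoc]
    exact ENNReal.ofReal_le_ofReal (mul_le_mul_of_nonneg_right (h y) (Real.exp_pos _).le)
  have h2 := ENNReal.mul_lt_top (ENNReal.ofReal_lt_top (r := ε)) hb.2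
  refine ⟨L2V.of_sm ha (h1.trans_lt h2), (ENNReal.toReal_mono h2.ne h1).trans_eq ?_⟩
  rw [ENNReal.toReal_mul, ENNReal.toReal_ofReal hε, nR]

theorem M2k_ctr (hΨ : Kah D Ψ) {χ : Y → ℝ} (hχ : D.SmR χ) {ε : ℝ} (hε : 0 ≤ ε)
    (h : ∀ y v, ‖D.del χ y v‖ ^ 2 ≤ ε * D.levi Ψ y v) {α : Y → W (Fin n)} (hα : SmW D α)
    (h2 : L2V D Ψ Φ α) :
    L2V D Ψ Φ (fun y => ctr (dzv D (fun p => (χ p : ℂ)) y) *ᵥ α y) ∧
      nR D Ψ Φ (fun y => ctr (dzv D (fun p => (χ p : ℂ)) y) *ᵥ α y) ≤ ε * nR D Ψ Φ α := by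
  refine M2k_le (M1b_sm_mv (fun I J => ?_) hα) h2 hε fun y => ctr_cut_le hΨ hε (h y) _
  simp only [FockB_ctr]
  exact RD.Sm.sum _ fun j _ => (RD.Sm.dz hχ j).mul (RD.sm_const _)

theorem M2k_pair (hΨ : Kah D Ψ) (hΦ : D.SmR Φ) {χ : Y → ℝ} (hχ : D.Test fun y => (χ y : ℂ))
    {α w : Y → W (Fin n)} (hα : SmW D α) (hw : SmW D w) :
    ip2 D Ψ Φ (fun y => (χ y : ℂ) • α y) (fun y => (χ y : ℂ) • Tv D Ψ w y) =
      -ip2 D Ψ Φ ((fun y => (χ y : ℂ) • dvg D Φ α y) +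
        (2 : ℂ) • fun y => ctr (dzv D (fun p => (χ p : ℂ)) y) *ᵥ α y) fun y => (χ y : ℂ) • w y := by
  have h1 := SmW.m2mul hχ.1 hα
  have h2 := TstW.mul hχ h1
  have h3 := ip2_Tv hΨ hΦ h2.1 hw (Or.inl h2.2)
  refine Eq.trans ?_ (h3.trans (congrArg _ ?_))
  · refine integral_congr_ae (Eventually.of_forall fun y => ?_)
    simp only [star_smul, mulVec_smul, smul_dotProduct, dotProduct_smul, Complex.star_def,
      Complex.conj_ofReal]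
  · refine integral_congr_ae (Eventually.of_forall fun y => ?_)
    simp only [dvg_cut hΦ hχ.1 h1, dvg_cut hΦ hχ.1 hα, Pi.add_apply, Pi.smul_apply, star_add,
      star_smul, mulVec_smul, smul_dotProduct, dotProduct_smul, add_dotProduct, Complex.star_def,
      Complex.conj_ofReal, smul_eq_mul, map_ofNat]
    ring

/-- Pair with `χ ^ 2 α`: `δ ‖χ α‖² = -‖χ dvg α‖² - 2 ⟪ctr (dχ) α, χ dvg α⟫` (`ip2_Tv`, `dvg_cut`), so
`‖χ dvg α‖² ≤ 4 ε ‖α‖²` (`ctr_cut_le`, Cauchy-Schwarz in `exists_emb`); take `K = {y}` or a compact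
neighbourhood and let `ε → 0`. -/
theorem cut_dvg (hΨ : Kah D Ψ) (hc : Cplt D Ψ) (hΦ : D.SmR Φ) {δ : ℝ} (hδ : 0 ≤ δ)
    {α : Y → W (Fin n)} (hα : SmW D α) (h2 : L2V D Ψ Φ α)
    (h : (δ : ℂ) • α = Tv D Ψ (dvg D Φ α)) : dvg D Φ α = 0 := by
  obtain ⟨H, _, _, _, ⟨e⟩⟩ := exists_emb hΨ hΦ
  have hβ := hα.m2dvg hΦ
  refine M2k_van hΨ hΦ hβ fun K hK η hη => ?_
  have h0 : 0 ≤ nR D Ψ Φ α := ENNReal.toReal_nonneg
  have hε : 0 < η / (4 * nR D Ψ Φ α + 1) := by positivity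
  obtain ⟨χ, hχ, h3⟩ := hc K hK _ hε
  refine ⟨χ, hχ, ?_⟩
  obtain ⟨c1, c2⟩ := M2k_ctr hΨ hχ.1.1 hε.le h3 hα h2
  have a1 := (TstW.mul hχ.1 hα).l2 hΨ hΦ
  have b1 := (TstW.mul hχ.1 hβ).l2 hΨ hΦ
  have h4 := M2k_pair hΨ hΦ hχ.1 hα hβ
  have h5 : (fun y => (χ y : ℂ) • Tv D Ψ (dvg D Φ α) y) = (δ : ℂ) • fun y => (χ y : ℂ) • α y := by
    rw [← h]
    funext y
    exact smul_comm (χ y : ℂ) (δ : ℂ) (α y)
  rw [h5, ← e.inner _ _ a1 (a1.smul _), ← e.inner _ _ (b1.add hΨ hΦ (c1.smul _)) b1,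
    e.smul hΨ hΦ a1, e.add hΨ hΦ b1 (c1.smul _), e.smul hΨ hΦ c1] at h4
  rw [← e.norm_sq hΨ hΦ c1] at c2
  rw [← e.norm_sq hΨ hΦ b1]
  generalize e.J (fun y => (χ y : ℂ) • α y) = a at h4
  generalize e.J (fun y => (χ y : ℂ) • dvg D Φ α y) = b at h4 ⊢
  generalize e.J (fun y => ctr (dzv D (fun p => (χ p : ℂ)) y) *ᵥ α y) = c at h4 c2
  have h6 := congrArg Complex.re h4
  rw [inner_smul_right, inner_add_left, inner_smul_left, inner_self_eq_norm_sq_to_K,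
    inner_self_eq_norm_sq_to_K] at h6
  have h7 := (neg_le_abs _).trans ((Complex.abs_re_le_norm _).trans (norm_inner_le_norm (𝕜 := ℂ) c b))
  have h8 : δ * ‖a‖ ^ 2 = -(‖b‖ ^ 2 + 2 * (⟪c, b⟫_ℂ).re) := by
    simpa [← Complex.ofReal_pow, map_ofNat] using h6
  have h9 : η / (4 * nR D Ψ Φ α + 1) * (4 * nR D Ψ Φ α + 1) = η := div_mul_cancel₀ _ (by positivity)
  nlinarith [mul_nonneg hδ (sq_nonneg ‖a‖), sq_nonneg (‖b‖ - 2 * ‖c‖)]

/-- `⟪χ α, Tv v⟫ = -⟪ctr (dχ) α, v⟫ → 0`, and `∫_K |α|² ≤ ⟪χ α, α⟫` -/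
theorem cut_zero (hΨ : Kah D Ψ) (hc : Cplt D Ψ) (hΦ : D.SmR Φ) {v : Y → W (Fin n)} (hv : SmW D v)
    (h1 : L2V D Ψ Φ v) (h2 : L2V D Ψ Φ (Tv D Ψ v)) (h : dvg D Φ (Tv D Ψ v) = 0) :
    Tv D Ψ v = 0 := by
  obtain ⟨H, _, _, _, ⟨e⟩⟩ := exists_emb hΨ hΦ
  have hα := hv.Tv hΨ
  refine M2k_van hΨ hΦ hα fun K hK η hη => ?_
  have h0 : 0 ≤ nR D Ψ Φ (Tv D Ψ v) := ENNReal.toReal_nonneg
  have h0' : 0 ≤ nR D Ψ Φ v := ENNReal.toReal_nonneg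
  obtain ⟨t, ht⟩ : ∃ t, t = η / (nR D Ψ Φ (Tv D Ψ v) + nR D Ψ Φ v + 1) := ⟨_, rfl⟩
  have hε : 0 < t := by rw [ht]; positivity
  obtain ⟨χ, hχ, h3⟩ := hc K hK _ (pow_pos hε 2)
  refine ⟨χ, hχ, ?_⟩
  obtain ⟨c1, c2⟩ := M2k_ctr hΨ hχ.1.1 (pow_pos hε 2).le h3 hα h2
  obtain ⟨b1, b2⟩ := M2k_le (SmW.m2mul hχ.1.1 hv) h1 zero_le_one fun y => by
    have a1 := M2k_nonneg hΨ y (v y)
    have a2 : q2 (Gm (LMd D Ψ y)) ((χ y : ℂ) • v y) = χ y * (χ y * q2 (Gm (LMd D Ψ y)) (v y)) := by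
      simp only [q2, star_smul, mulVec_smul, smul_dotProduct, dotProduct_smul, Complex.star_def,
        Complex.conj_ofReal, smul_eq_mul, Complex.re_ofReal_mul]
    rw [a2, one_mul]
    exact (mul_le_of_le_one_left (mul_nonneg (hχ.2.1 y).1 a1) (hχ.2.1 y).2).trans
      (mul_le_of_le_one_left a1 (hχ.2.1 y).2)
  have a1 := (TstW.mul hχ.1 hα).l2 hΨ hΦ
  have h4 := M2k_pair hΨ hΦ hχ.1 hα hv
  have h5 : (fun y => (χ y : ℂ) • dvg D Φ (Tv D Ψ v) y) = 0 := by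
    rw [h]
    funext y
    exact smul_zero _
  rw [h5, zero_add, ip2_self hΨ hΦ a1, ← e.inner _ _ (c1.smul _) b1, e.smul hΨ hΦ c1] at h4
  rw [← e.norm_sq hΨ hΦ c1] at c2
  rw [← e.norm_sq hΨ hΦ b1] at b2
  generalize e.J (fun y => (χ y : ℂ) • v y) = b at h4 b2
  generalize e.J (fun y => ctr (dzv D (fun p => (χ p : ℂ)) y) *ᵥ Tv D Ψ v y) = c at h4 c2
  have h6 := congrArg Complex.re h4
  rw [inner_smul_left] at h6
  have h7 := (neg_le_abs _).trans ((Complex.abs_re_le_norm _).trans (norm_inner_le_norm (𝕜 := ℂ) c b))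
  have h8 : nR D Ψ Φ (fun y => (χ y : ℂ) • Tv D Ψ v y) = -(2 * (⟪c, b⟫_ℂ).re) := by
    simpa [map_ofNat] using h6
  have h9 : t * (nR D Ψ Φ (Tv D Ψ v) + nR D Ψ Φ v + 1) = η := by
    rw [ht]
    exact div_mul_cancel₀ _ (by positivity)
  refine le_of_mul_le_mul_left ?_ hε
  rw [h8, ← h9]
  nlinarith [sq_nonneg (‖c‖ - t * ‖b‖), mul_le_mul_of_nonneg_left h7 hε.le,
    mul_le_mul_of_nonneg_left b2 (pow_pos hε 2).le, pow_pos hε 2]

theorem M2k_int (hΨ : Kah D Ψ) (hΦ : D.SmR Φ) {t : Y → W (Fin n)} (ht : TstW D t) :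
    Integrable (fun y => (dbt D Ψ t y + cvt D Ψ Φ t y) * Real.exp (-Φ y)) D.μ := by
  have hM := sm_Gm (sm_LMd hΨ.1)
  have hd : ∀ j, SmW D (dbW D j t) := fun j I => (ht.1 I).db j
  have h1 : Continuous (dbt D Ψ t) := Complex.continuous_re.comp
    (RD.Sm.sum _ fun j _ => RD.Sm.sum _ fun k _ => (sm_inv (sm_LMd hΨ.1)
      (fun y => (isUnit_iff_isUnit_det _).1 (hΨ.2 y).isUnit) j k).mul
      (M1b_sm_dot (M1b_sm_star (hd j)) (M1b_sm_mv hM (hd k)))).continuous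
  have h2 : Continuous (cvt D Ψ Φ t) := Complex.continuous_re.comp
    (RD.Sm.sum _ fun j _ => RD.Sm.sum _ fun k _ => (sm_LMd hΦ j k).mul
      (M1b_sm_dot (M1b_sm_star (M1b_sm_c (an j) ht.1))
        (M1b_sm_mv hM (M1b_sm_c (an k) ht.1)))).continuous
  refine ((h1.add h2).mul hΦ.neg.exp.continuous).integrable_of_hasCompactSupport
    (HasCompactSupport.intro ht.2 fun y hy => ?_)
  have h3 : ∀ j, dbW D j t y = 0 := fun j => funext fun I =>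
    RD.dX_of_notMem fun e => hy (closure_mono (s := Function.support fun p => t p I)
      (t := Function.support t) (fun p hp (h0 : t p = 0) => hp (congrFun h0 I)) e)
  simp [dbt, cvt, h3, image_eq_zero_of_notMem_tsupport hy]

/-- `bkn`, `cvt_le` with `ϑ = 0`-like comparison or `curv_nonneg` for `LMd Φ - c LMd Ψ`, `cvt_self` -/
theorem coer_pos (hΨ : Kah D Ψ) (hΦ : D.SmR Φ) {c : ℝ} (hc : 0 < c)
    (h : ∀ y v, c * D.levi Ψ y v ≤ D.levi Φ y v) (q : ℕ) : Coer D Ψ Φ (q + 1) 0 c⁻¹ := by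
  intro t ht hq
  have a1 := ht.l2 hΨ hΦ
  have a2 := (ht.dvg hΦ).l2 hΨ hΦ
  have a3 := (ht.Tv hΨ).l2 hΨ hΦ
  have h1 : ∀ y, q2 (Gm (LMd D Ψ y)⁻¹) (dbar D (low D Ψ t) y) =
      q2 (Gm (LMd D Ψ y)) (Tv D Ψ t y) := fun y => by
    rw [Tv, rais, ← Fock_q2_conj, ← Gm_star, ← Gm_mul, ← Gm_mul, (hΨ.2 y).inv.1.eq,
      nonsing_inv_mul _ ((isUnit_iff_isUnit_det _).1 (hΨ.2 y).isUnit), Matrix.one_mul]
  have h2 := bkn hΨ hΦ ht.1 ht.2
  simp only [h1, add_mul] at h2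
  rw [integral_add (a2.integrable hΨ hΦ) (a3.integrable hΨ hΦ), ← a2.nR_eq hΨ hΦ,
    ← a3.nR_eq hΨ hΦ] at h2
  rw [zero_mul, zero_add, h2, le_inv_mul_iff₀ hc, a1.nR_eq hΨ hΦ, ← integral_const_mul]
  simp only [← add_mul]
  refine integral_mono ((a1.integrable hΨ hΦ).const_mul c) (M2k_int hΨ hΦ ht) fun y => ?_
  have h0 : ∀ y v, D.levi (fun _ => 0) y v = 0 := fun y v => by
    have e : ∀ j, D.db j (fun _ => ((0 : ℝ) : ℂ)) = fun _ => 0 := fun j =>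
      funext fun p => RD.dX_const _ p
    have e' : LMd D (fun _ => 0) y = 0 := by
      ext j k
      rw [LMd, of_apply, e]
      exact RD.dX_const _ y
    rw [← q2_LMd, e', q2]
    simp
  have b1 := cvt_le (a := t) (ε := -c) hΨ hΦ (RD.smR_const 0)
    (fun v => by rw [h0]; linarith [h y v]) (hq y)
  have b2 := cvt_nonneg hΨ (RD.smR_const 0) (fun y v => (h0 y v).ge) t y
  have b3 := dbt_nonneg hΨ t y
  have b4 := mul_nonneg (mul_nonneg hc.le (Nat.cast_nonneg q)) (M2k_nonneg hΨ y (t y))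
  push_cast at b1
  have b5 : c * q2 (Gm (LMd D Ψ y)) (t y) ≤ dbt D Ψ t y + cvt D Ψ Φ t y := by linarith
  change c * (_ * _) ≤ _
  rw [← mul_assoc]
  exact mul_le_mul_of_nonneg_right b5 (Real.exp_pos _).le

theorem coer_del (hΨ : Kah D Ψ) {δ : ℝ} (hδ : 0 < δ) (q : ℕ) : Coer D Ψ Φ q δ δ⁻¹ := by
  intro t _ _
  rw [le_inv_mul_iff₀ hδ, add_assoc]
  exact le_add_of_nonneg_right (add_nonneg ENNReal.toReal_nonneg ENNReal.toReal_nonneg)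

end Vale.Agent.P299
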