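import Vale.Agent.P299.M2e
import Vale.Agent.P299.M2g

/-! P299, part M2: the Bochner-Kodaira-Nakano inequality for square integrable fields. -/

set_option linter.all false

open MeasureTheory Set Filter Topology Matrix
open scoped ContDiff ENNReal ComplexConjugate ComplexOrder InnerProductSpace

noncomputable section

namespace Vale.Agent.P299

open Vale.Agent.P271A

variable {n : ℕ} {Y : Type} [TopologicalSpace Y] [T2Space Y] [SecondCountableTopology Y]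
  [MeasurableSpace Y] [BorelSpace Y] {D : RD n Y} {Ψ Φ : Y → ℝ}

theorem m2l_nonneg {κ : Type} [Fintype κ] {P : Matrix κ κ ℂ} (hP : P.PosSemidef) (x : κ → ℂ) :
    0 ≤ q2 P x := hP.re_dotProduct_nonneg x

theorem m2l_smul {κ : Type} [Fintype κ] (P : Matrix κ κ ℂ) (c : ℝ) (x : κ → ℂ) :
    q2 P ((c : ℂ) • x) = c ^ 2 * q2 P x := by
  simp only [q2, star_smul, mulVec_smul, smul_dotProduct, dotProduct_smul, smul_eq_mul,
    Complex.star_def, Complex.conj_ofReal, Complex.re_ofReal_mul]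
  ring

theorem m2l_add {κ : Type} [Fintype κ] {P : Matrix κ κ ℂ} (hP : P.PosSemidef) (x r : κ → ℂ)
    {δ : ℝ} (hδ : 0 < δ) : q2 P (x + r) ≤ (1 + δ) * q2 P x + (1 + δ⁻¹) * q2 P r := by
  have h := M1e_sq hP x r (-δ)
  have h2 := congrArg Complex.re (M1e_symm hP.1 x r)
  rw [Complex.star_def, Complex.conj_re] at h2
  have e : q2 P (x + r) = q2 P x + q2 P r + 2 * (star r ⬝ᵥ P *ᵥ x).re := by
    simp only [q2, star_add, mulVec_add, add_dotProduct, dotProduct_add, Complex.add_re, h2]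
    ring
  have h3 : 2 * (star r ⬝ᵥ P *ᵥ x).re ≤ δ * q2 P x + δ⁻¹ * q2 P r := by
    refine le_of_mul_le_mul_left ?_ hδ
    rw [mul_add, ← mul_assoc δ δ⁻¹, mul_inv_cancel₀ hδ.ne', one_mul]
    nlinarith
  rw [e]
  linarith

theorem m2l_cut {κ : Type} [Fintype κ] {P : Matrix κ κ ℂ} (hP : P.PosSemidef) (x r : κ → ℂ)
    {δ c N : ℝ} (hδ : 0 < δ) (h0 : 0 ≤ c) (h1 : c ≤ 1) (hr : q2 P r ≤ δ ^ 2 * N) :
    q2 P ((c : ℂ) • x + r) ≤ (1 + δ) * q2 P x + (δ ^ 2 + δ) * N := by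
  have h := m2l_add hP ((c : ℂ) • x) r hδ
  rw [m2l_smul] at h
  have h2 : c ^ 2 * q2 P x ≤ q2 P x :=
    mul_le_of_le_one_left (m2l_nonneg hP x) (pow_le_one₀ h0 h1)
  have h3 : (1 + δ⁻¹) * q2 P r ≤ (1 + δ⁻¹) * (δ ^ 2 * N) :=
    mul_le_mul_of_nonneg_left hr (by positivity)
  have h4 : (1 + δ⁻¹) * (δ ^ 2 * N) = (δ ^ 2 + δ) * N := by
    field_simp
  nlinarith

theorem m2l_rais (hΨ : Kah D Ψ) (y : Y) (u : W (Fin n)) :
    q2 (Gm (LMd D Ψ y)) (Gm (LMd D Ψ y)⁻¹ *ᵥ u) = q2 (Gm (LMd D Ψ y)⁻¹) u := by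
  have hd : IsUnit (LMd D Ψ y).det := (isUnit_iff_isUnit_det _).1 (hΨ.2 y).isUnit
  have hh : (Gm (LMd D Ψ y)⁻¹)ᴴ = Gm (LMd D Ψ y)⁻¹ := (Gm_posDef (hΨ.2 y).inv).1
  unfold q2
  rw [mulVec_mulVec, ← Gm_mul, mul_nonsing_inv _ hd, Gm_one, one_mulVec, star_mulVec, hh,
    dotProduct_mulVec]

theorem m2l_cdbt (hΨ : Kah D Ψ) {t : Y → W (Fin n)} (ht : SmW D t) : Continuous (dbt D Ψ t) := by
  have hd : ∀ y, IsUnit (LMd D Ψ y).det := fun y =>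
    (isUnit_iff_isUnit_det _).1 (hΨ.2 y).isUnit
  have hb : ∀ j, SmW D (dbW D j t) := fun j I => (ht I).db j
  refine Complex.continuous_re.comp (RD.Sm.continuous (D := D) ?_)
  refine RD.Sm.sum _ fun j _ => RD.Sm.sum _ fun k _ => (sm_inv (sm_LMd hΨ.1) hd j k).mul ?_
  exact M1b_sm_dot (M1b_sm_star (hb j)) (M1b_sm_mv (sm_Gm (sm_LMd hΨ.1)) (hb k))

theorem m2l_ccvt (hΨ : Kah D Ψ) {ϑ : Y → ℝ} (hϑ : D.SmR ϑ) {t : Y → W (Fin n)} (ht : SmW D t) :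
    Continuous (cvt D Ψ ϑ t) := by
  refine Complex.continuous_re.comp (RD.Sm.continuous (D := D) ?_)
  refine RD.Sm.sum _ fun j _ => RD.Sm.sum _ fun k _ => (sm_LMd hϑ j k).mul ?_
  exact M1b_sm_dot (M1b_sm_star (M1b_sm_c _ ht))
    (M1b_sm_mv (sm_Gm (sm_LMd hΨ.1)) (M1b_sm_c _ ht))

theorem m2l_congr {ϑ : Y → ℝ} {t v : Y → W (Fin n)} {y : Y} (h : t =ᶠ[𝓝 y] v) :
    dbt D Ψ t y + cvt D Ψ ϑ t y = dbt D Ψ v y + cvt D Ψ ϑ v y := by
  have e : ∀ j, dbW D j t y = dbW D j v y := fun j => funext fun I =>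
    RD.dX_congr (h.mono fun p hp => congrFun hp I)
  simp only [dbt, cvt, e, h.eq_of_nhds]

theorem m2l_int (hΨ : Kah D Ψ) (hΦ : D.SmR Φ) {ϑ : Y → ℝ} (hϑ : D.SmR ϑ) {t : Y → W (Fin n)}
    (ht : TstW D t) :
    Integrable (fun y => (dbt D Ψ t y + cvt D Ψ ϑ t y) * Real.exp (-Φ y)) D.μ := by
  refine Continuous.integrable_of_hasCompactSupport
    (((m2l_cdbt hΨ ht.1).add (m2l_ccvt hΨ hϑ ht.1)).mul hΦ.continuous.neg.rexp)
    (HasCompactSupport.intro ht.2 fun y hy => ?_)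
  rw [m2l_congr (notMem_tsupport_iff_eventuallyEq.1 hy)]
  have e : ∀ j, dbW D j (0 : Y → W (Fin n)) y = 0 := fun j => funext fun I => RD.dX_const _ _
  simp [dbt, cvt, e]

theorem m2l_step (hΨ : Kah D Ψ) (hc : Cplt D Ψ) (hΦ : D.SmR Φ) {ϑ : Y → ℝ} (hϑ : D.SmR ϑ)
    (hϑ0 : ∀ y v, 0 ≤ D.levi ϑ y v) {ε : ℝ} (hε : 0 ≤ ε)
    (h : ∀ y v, D.levi ϑ y v - ε * D.levi Ψ y v ≤ D.levi Φ y v) {q : ℕ} {v : Y → W (Fin n)}
    (hv : SmW D v) (hq : ∀ y, Dg q (v y)) (h0 : L2V D Ψ Φ v) (h1 : L2V D Ψ Φ (dvg D Φ v))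
    (h2 : L2V D Ψ Φ (Tv D Ψ v)) {K : Set Y} (hK : IsCompact K) {δ : ℝ} (hδ : 0 < δ) :
    ∫⁻ y in interior K, ENNReal.ofReal ((dbt D Ψ v y + cvt D Ψ ϑ v y) * Real.exp (-Φ y)) ∂D.μ ≤
      ENNReal.ofReal ((1 + δ) * nR D Ψ Φ (dvg D Φ v) + (1 + δ) * nR D Ψ Φ (Tv D Ψ v) +
        (2 * (δ ^ 2 + δ) + ε * q) * nR D Ψ Φ v) := by
  obtain ⟨χ, ⟨c1, c2, c3⟩, c4⟩ := hc K hK (δ ^ 2) (by positivity)
  set t : Y → W (Fin n) := fun y => (χ y : ℂ) • v y with htd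
  have ht : TstW D t := TstW.mul c1 hv
  have hG : ∀ y, (Gm (LMd D Ψ y)).PosSemidef := fun y => (Gm_posDef (hΨ.2 y)).posSemidef
  have i0 := h0.integrable hΨ hΦ
  have i1 := h1.integrable hΨ hΦ
  have i2 := h2.integrable hΨ hΦ
  have j1 := ((ht.dvg hΦ).l2 hΨ hΦ).integrable hΨ hΦ
  have j2 := ((ht.Tv hΨ).l2 hΨ hΦ).integrable hΨ hΦ
  have k1 := m2l_int hΨ hΦ hϑ ht
  have k2 := m2l_int hΨ hΦ hΦ ht
  have b := bkn hΨ hΦ ht.1 ht.2
  have b' : ∫ y, (dbt D Ψ t y + cvt D Ψ Φ t y) * Real.exp (-Φ y) ∂D.μ =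
      ∫ y, (q2 (Gm (LMd D Ψ y)) (dvg D Φ t y) * Real.exp (-Φ y) +
        q2 (Gm (LMd D Ψ y)) (Tv D Ψ t y) * Real.exp (-Φ y)) ∂D.μ := by
    refine b.symm.trans (integral_congr_ae (Eventually.of_forall fun y => ?_))
    simp only [Tv, rais, m2l_rais hΨ, add_mul]
  have s1 : ∫ y, (dbt D Ψ t y + cvt D Ψ ϑ t y) * Real.exp (-Φ y) ∂D.μ ≤
      ∫ y, ((dbt D Ψ t y + cvt D Ψ Φ t y) * Real.exp (-Φ y) +
        ε * q * (q2 (Gm (LMd D Ψ y)) (v y) * Real.exp (-Φ y))) ∂D.μ := by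
    refine integral_mono k1 (k2.add (i0.const_mul _)) fun y => ?_
    have a1 := cvt_le (a := t) (q := q) hΨ hΦ hϑ (h y) fun I hI => by
      simp only [htd, Pi.smul_apply, hq y I hI, smul_zero]
    have a2 : q2 (Gm (LMd D Ψ y)) (t y) ≤ q2 (Gm (LMd D Ψ y)) (v y) := by
      simp only [htd, m2l_smul]
      exact mul_le_of_le_one_left (m2l_nonneg (hG y) _) (pow_le_one₀ (c2 y).1 (c2 y).2)
    have a3 := mul_le_mul_of_nonneg_left a2 (show 0 ≤ ε * q by positivity)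
    have a4 := Real.exp_pos (-Φ y)
    simp only
    nlinarith
  have s2 : ∫ y, (q2 (Gm (LMd D Ψ y)) (dvg D Φ t y) * Real.exp (-Φ y) +
        q2 (Gm (LMd D Ψ y)) (Tv D Ψ t y) * Real.exp (-Φ y)) ∂D.μ ≤
      ∫ y, ((1 + δ) * (q2 (Gm (LMd D Ψ y)) (dvg D Φ v y) * Real.exp (-Φ y)) +
        (1 + δ) * (q2 (Gm (LMd D Ψ y)) (Tv D Ψ v y) * Real.exp (-Φ y)) +
        2 * (δ ^ 2 + δ) * (q2 (Gm (LMd D Ψ y)) (v y) * Real.exp (-Φ y))) ∂D.μ := by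
    refine integral_mono (j1.add j2)
      (((i1.const_mul _).add (i2.const_mul _)).add (i0.const_mul _)) fun y => ?_
    have a1 := m2l_cut (hG y) (dvg D Φ v y) _ hδ (c2 y).1 (c2 y).2
      (ctr_cut_le hΨ (by positivity) (c4 y) (v y))
    have a2 := m2l_cut (hG y) (Tv D Ψ v y) _ hδ (c2 y).1 (c2 y).2
      (wdg_cut_le hΨ (by positivity) (c4 y) (v y))
    have e1 := dvg_cut hΦ c1.1 hv y
    have e2 := Tv_cut hΨ c1.1 hv y
    have a4 := Real.exp_pos (-Φ y)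
    simp only [htd]
    rw [e1, e2, low]
    nlinarith
  rw [integral_add k2 (i0.const_mul _), b', integral_const_mul, ← h0.nR_eq hΨ hΦ] at s1
  have i3 : Integrable (fun y =>
      (1 + δ) * (q2 (Gm (LMd D Ψ y)) (dvg D Φ v y) * Real.exp (-Φ y)) +
        (1 + δ) * (q2 (Gm (LMd D Ψ y)) (Tv D Ψ v y) * Real.exp (-Φ y))) D.μ :=
    (i1.const_mul _).add (i2.const_mul _)
  rw [integral_add i3 (i0.const_mul _),
    integral_add (i1.const_mul _) (i2.const_mul _), integral_const_mul, integral_const_mul,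
    integral_const_mul, ← h0.nR_eq hΨ hΦ, ← h1.nR_eq hΨ hΦ, ← h2.nR_eq hΨ hΦ] at s2
  calc ∫⁻ y in interior K, ENNReal.ofReal ((dbt D Ψ v y + cvt D Ψ ϑ v y) * Real.exp (-Φ y)) ∂D.μ
      = ∫⁻ y in interior K,
          ENNReal.ofReal ((dbt D Ψ t y + cvt D Ψ ϑ t y) * Real.exp (-Φ y)) ∂D.μ := by
        refine setLIntegral_congr_fun isOpen_interior.measurableSet fun y hy => ?_
        have e : t =ᶠ[𝓝 y] v := by
          filter_upwards [mem_interior_iff_mem_nhds.1 hy] with p hp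
          simp only [htd, c3 p hp, Complex.ofReal_one, one_smul]
        simp only [m2l_congr e]
    _ ≤ ∫⁻ y, ENNReal.ofReal ((dbt D Ψ t y + cvt D Ψ ϑ t y) * Real.exp (-Φ y)) ∂D.μ :=
        setLIntegral_le_lintegral _ _
    _ = ENNReal.ofReal (∫ y, (dbt D Ψ t y + cvt D Ψ ϑ t y) * Real.exp (-Φ y) ∂D.μ) :=
        (ofReal_integral_eq_lintegral_ofReal k1 (Eventually.of_forall fun y =>
          mul_nonneg (add_nonneg (dbt_nonneg hΨ t y) (cvt_nonneg hΨ hϑ hϑ0 t y))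
            (Real.exp_pos _).le)).symm
    _ ≤ _ := ENNReal.ofReal_le_ofReal (by linarith)

/-- `bkn` for `χ v` with `χ = 1` on a compact neighbourhood `K'` of `K`; on `K` the integrand
`dbt + cvt ϑ` of `χ v` is that of `v`, elsewhere it is nonnegative; `dvg_cut`, `Tv_cut`,
`ctr_cut_le`, `wdg_cut_le`, `cvt_le`, `‖x + r‖² ≤ (‖x‖ + ‖r‖)²` in `exists_emb`; finally exhaust `Y`
by compact sets (`D.locallyCompact`, `CompactExhaustion`, monotone convergence). -/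
theorem bkn_le (hΨ : Kah D Ψ) (hc : Cplt D Ψ) (hΦ : D.SmR Φ) {ϑ : Y → ℝ} (hϑ : D.SmR ϑ)
    (hϑ0 : ∀ y v, 0 ≤ D.levi ϑ y v) {ε : ℝ} (hε : 0 ≤ ε)
    (h : ∀ y v, D.levi ϑ y v - ε * D.levi Ψ y v ≤ D.levi Φ y v) {q : ℕ} {v : Y → W (Fin n)}
    (hv : SmW D v) (hq : ∀ y, Dg q (v y)) (h0 : L2V D Ψ Φ v) (h1 : L2V D Ψ Φ (dvg D Φ v))
    (h2 : L2V D Ψ Φ (Tv D Ψ v)) :
    nH D Ψ Φ ϑ v ≤ ENNReal.ofReal
      (nR D Ψ Φ (dvg D Φ v) + nR D Ψ Φ (Tv D Ψ v) + ε * q * nR D Ψ Φ v) := by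
  haveI := D.locallyCompact
  let K := CompactExhaustion.choice Y
  have hU : ⋃ m, interior (K m) = univ := eq_univ_of_forall fun y => by
    obtain ⟨m, hm⟩ := K.exists_mem y
    exact mem_iUnion.2 ⟨m + 1, K.subset_interior_succ m hm⟩
  have hdir : Directed (· ⊆ ·) fun m => interior (K m) :=
    Monotone.directed_le fun a b hab => interior_mono (K.subset hab)
  unfold nH
  rw [← setLIntegral_univ, ← hU, setLIntegral_iUnion_of_directed _ hdir]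
  refine iSup_le fun m => ?_
  have hcont : Continuous fun δ : ℝ => ENNReal.ofReal ((1 + δ) * nR D Ψ Φ (dvg D Φ v) +
      (1 + δ) * nR D Ψ Φ (Tv D Ψ v) + (2 * (δ ^ 2 + δ) + ε * q) * nR D Ψ Φ v) :=
    ENNReal.continuous_ofReal.comp (by fun_prop)
  have hl := (hcont.tendsto 0).mono_left (nhdsWithin_le_nhds (s := Ioi 0))
  have := ge_of_tendsto hl (eventually_nhdsWithin_of_forall fun δ hδ =>
    m2l_step hΨ hc hΦ hϑ hϑ0 hε h hv hq h0 h1 h2 (K.isCompact m) hδ)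
  simpa using this

end Vale.Agent.P299
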