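import Vale.Agent.P299.M2j
import Vale.Agent.P271A.Weyl

/-! P299, part M2: limits of almost holomorphic fields. -/

set_option linter.all false

open MeasureTheory Set Filter Topology Matrix
open scoped ContDiff ENNReal ComplexConjugate ComplexOrder InnerProductSpace

noncomputable section

namespace Vale.Agent.P299

open Vale.Agent.P271A

variable {n : ℕ} {Y : Type} [TopologicalSpace Y] [T2Space Y] [SecondCountableTopology Y]
  [MeasurableSpace Y] [BorelSpace Y] {D : RD n Y} {Ψ Φ : Y → ℝ}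

section Aux
variable {κ : Type} [Fintype κ] {H : Y → Matrix κ κ ℂ} {K : Set Y}

theorem M2m_cont (hH : Continuous H) : Continuous fun p : Y × (κ → ℂ) => q2 (H p.1) p.2 :=
  Complex.continuous_re.comp (continuous_snd.star.dotProduct
    ((hH.comp continuous_fst).matrix_mulVec continuous_snd))

theorem M2m_hom (A : Matrix κ κ ℂ) (t : ℝ) (x : κ → ℂ) :
    q2 A ((t : ℂ) • x) = t ^ 2 * q2 A x := by
  rw [q2, q2, mulVec_smul, star_smul, smul_dotProduct, dotProduct_smul, smul_smul,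
    Complex.star_def, Complex.conj_ofReal, ← Complex.ofReal_mul, smul_eq_mul,
    Complex.re_ofReal_mul, sq]

theorem M2m_unit {x : κ → ℂ} (hx : x ≠ 0) :
    ∃ u ∈ Metric.sphere (0 : κ → ℂ) 1, x = (‖x‖ : ℂ) • u := by
  have h0 : (‖x‖ : ℂ) ≠ 0 := Complex.ofReal_ne_zero.2 (norm_ne_zero_iff.2 hx)
  refine ⟨(‖x‖ : ℂ)⁻¹ • x, ?_, by rw [smul_inv_smul₀ h0]⟩
  rw [mem_sphere_zero_iff_norm, norm_smul, norm_inv, Complex.norm_real, norm_norm,
    inv_mul_cancel₀ (norm_ne_zero_iff.2 hx)]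

theorem M2m_zero (A : Matrix κ κ ℂ) : q2 A 0 = 0 := by simp [q2]

theorem M2m_up (hH : Continuous H) (hK : IsCompact K) :
    ∃ C : ℝ, 0 < C ∧ ∀ y ∈ K, ∀ x, q2 (H y) x ≤ C * ‖x‖ ^ 2 := by
  obtain ⟨C, hC⟩ := (hK.prod (isCompact_sphere (0 : κ → ℂ) 1)).exists_bound_of_continuousOn
    (M2m_cont hH).continuousOn
  refine ⟨|C| + 1, by positivity, fun y hy x => ?_⟩
  rcases eq_or_ne x 0 with rfl | hx
  · simp [M2m_zero]
  obtain ⟨u, hu, e⟩ := M2m_unit hx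
  have h1 := (le_abs_self _).trans ((hC (y, u) ⟨hy, hu⟩).trans (le_abs_self C))
  conv_lhs => rw [e, M2m_hom]
  nlinarith [sq_nonneg ‖x‖]

theorem M2m_low (hH : Continuous H) (hp : ∀ y, (H y).PosDef) (hK : IsCompact K) :
    ∃ C : ℝ, 0 < C ∧ ∀ y ∈ K, ∀ x, ‖x‖ ^ 2 ≤ C * q2 (H y) x := by
  obtain ⟨c, hc, h⟩ := (hK.prod (isCompact_sphere (0 : κ → ℂ) 1)).exists_forall_le'
    (M2m_cont hH).continuousOn (a := 0) fun p hp' => (hp p.1).re_dotProduct_pos (by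
      rintro h
      have := hp'.2
      rw [h] at this
      simp at this)
  refine ⟨c⁻¹, inv_pos.2 hc, fun y hy x => ?_⟩
  rcases eq_or_ne x 0 with rfl | hx
  · simp [M2m_zero]
  obtain ⟨u, hu, e⟩ := M2m_unit hx
  conv_rhs => rw [e, M2m_hom]
  rw [le_inv_mul_iff₀ hc, mul_comm]
  exact mul_le_mul_of_nonneg_left (h (y, u) ⟨hy, hu⟩) (sq_nonneg _)

theorem M2m_par (A : Matrix κ κ ℂ) (a b : κ → ℂ) :
    q2 A (a - b) + q2 A (a + b) = 2 * q2 A a + 2 * q2 A b := by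
  simp only [q2, mulVec_add, mulVec_sub, star_add, star_sub, add_dotProduct, sub_dotProduct,
    dotProduct_add, dotProduct_sub, Complex.add_re, Complex.sub_re]
  ring

theorem M2m_sm (h : ∀ i j, D.Sm fun y => H y i j) : Continuous H :=
  continuous_matrix fun i j => (h i j).continuous

/-- pairing with a test function -/
theorem M2m_lim {a : ℕ → Y → ℂ} {s : Y → ℂ} (hs : D.Test s) {F : ℕ → Y → ℝ} {C : ℝ} (hC : 0 < C)
    (h : ∀ m, ∀ y ∈ tsupport s, ‖a m y‖ ^ 2 ≤ C * F m y)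
    (hF : Tendsto (fun m => ∫⁻ y, ENNReal.ofReal (F m y) ∂D.μ) atTop (𝓝 0)) :
    Tendsto (fun m => ∫ y, a m y * s y ∂D.μ) atTop (𝓝 0) := by
  have hm : Measurable fun y => ENNReal.ofReal (‖s y‖ ^ 2) :=
    (hs.1.continuous.norm.pow 2).measurable.ennreal_ofReal
  have hA : ∫⁻ y, ENNReal.ofReal (‖s y‖ ^ 2) ∂D.μ ≠ ⊤ :=
    ((memLp_two_iff_integrable_sq_norm (hs.memLp 2).1).1 (hs.memLp 2)).lintegral_lt_top.ne
  rw [tendsto_zero_iff_enorm_tendsto_zero, ENNReal.tendsto_nhds_zero]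
  intro ε hε
  obtain ⟨δ, hδ, h1⟩ := ENNReal.exists_nnreal_pos_mul_lt hA (ENNReal.half_pos hε.ne').ne'
  have hδ' : (0 : ℝ) < δ := hδ
  have h2 := ENNReal.Tendsto.const_mul (a := ENNReal.ofReal (C / δ)) hF
    (Or.inr ENNReal.ofReal_ne_top)
  rw [mul_zero, ENNReal.tendsto_nhds_zero] at h2
  filter_upwards [h2 _ (ENNReal.half_pos hε.ne')] with m hm'
  refine (enorm_integral_le_lintegral_enorm _).trans (le_trans (lintegral_mono (g := fun y =>
    δ * ENNReal.ofReal (‖s y‖ ^ 2) + ENNReal.ofReal (C / δ) * ENNReal.ofReal (F m y))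
      fun y => ?_) ?_)
  · by_cases hy : y ∈ tsupport s
    · beta_reduce
      rw [← ENNReal.ofReal_coe_nnreal, ← ENNReal.ofReal_mul hδ'.le,
        ← ENNReal.ofReal_mul (div_pos hC hδ').le, ← ofReal_norm]
      refine (ENNReal.ofReal_le_ofReal ?_).trans ENNReal.ofReal_add_le
      rw [norm_mul, div_mul_eq_mul_div, ← sub_le_iff_le_add', le_div_iff₀ hδ']
      nlinarith [h m y hy, sq_nonneg (‖a m y‖ - δ * ‖s y‖), sq_nonneg ‖a m y‖,
        sq_nonneg (δ * ‖s y‖)]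
    · simp [image_eq_zero_of_notMem_tsupport hy]
  · rw [lintegral_add_left (hm.const_mul _), lintegral_const_mul _ hm,
      lintegral_const_mul' _ _ ENNReal.ofReal_ne_top, ← ENNReal.add_halves ε]
    exact add_le_add h1.le hm'

end Aux

/-- the matrix of the curvature term -/
def M2mT (D : RD n Y) (Ψ ϑ : Y → ℝ) (y : Y) : Matrix (Finset (Fin n)) (Finset (Fin n)) ℂ :=
  ∑ j, ∑ k, LMd D ϑ y j k • (cr j * Gm (LMd D Ψ y) * an k)

theorem M2m_cvt (ϑ : Y → ℝ) (v : Y → W (Fin n)) (y : Y) :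
    cvt D Ψ ϑ v y = q2 (M2mT D Ψ ϑ y) (v y) := by
  simp only [cvt, q2, M2mT, cr, sum_mulVec, dotProduct_sum, smul_mulVec, dotProduct_smul,
    smul_eq_mul, star_mulVec, ← mulVec_mulVec, dotProduct_mulVec]

theorem M2m_T (hΨ : Kah D Ψ) {ϑ : Y → ℝ} (hϑ : D.SmR ϑ) : Continuous (M2mT D Ψ ϑ) :=
  continuous_finsetSum _ fun j _ => continuous_finsetSum _ fun k _ =>
    (sm_LMd hϑ j k).continuous.fun_smul ((continuous_const.matrix_mul
      (M2m_sm (sm_Gm (sm_LMd hΨ.1)))).matrix_mul continuous_const)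

open Kronecker in
theorem M2m_dbt (v : Y → W (Fin n)) (y : Y) : dbt D Ψ v y =
    q2 ((LMd D Ψ y)⁻¹ ⊗ₖ Gm (LMd D Ψ y)) fun e => dbW D e.1 v y e.2 := by
  simp only [dbt, q2, dotProduct, mulVec, Fintype.sum_prod_type, kroneckerMap_apply,
    Finset.mul_sum, Pi.star_apply]
  congr 1
  refine Finset.sum_congr rfl fun j _ => ?_
  rw [Finset.sum_comm]
  exact Finset.sum_congr rfl fun I _ => Finset.sum_congr rfl fun k _ =>
    Finset.sum_congr rfl fun J _ => by ring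

open Kronecker in
/-- on a compact set the three quadratic forms are comparable with the Euclidean ones -/
theorem cmp_cpt (hΨ : Kah D Ψ) (hΦ : D.SmR Φ) {ϑ : Y → ℝ} (hϑ : D.SmR ϑ) {K : Set Y}
    (hK : IsCompact K) : ∃ C : ℝ, 0 < C ∧ ∀ y ∈ K, ∀ v : Y → W (Fin n),
      (∀ I, ‖v y I‖ ^ 2 ≤ C * (q2 (Gm (LMd D Ψ y)) (v y) * Real.exp (-Φ y))) ∧
      (∀ j I, ‖dbW D j v y I‖ ^ 2 ≤ C * (dbt D Ψ v y * Real.exp (-Φ y))) ∧
      cvt D Ψ ϑ v y ≤ C * q2 (Gm (LMd D Ψ y)) (v y) := by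
  have hG := sm_Gm (sm_LMd hΨ.1)
  have hI := sm_inv (sm_LMd hΨ.1) fun y => isUnit_iff_ne_zero.2 (hΨ.2 y).det_pos.ne'
  obtain ⟨a, ha, h1⟩ := M2m_low (M2m_sm hG) (fun y => Gm_posDef (hΨ.2 y)) hK
  obtain ⟨b, hb, h2⟩ := M2m_low (H := fun y => (LMd D Ψ y)⁻¹ ⊗ₖ Gm (LMd D Ψ y))
    (M2m_sm (D := D) fun i j => (hI i.1 j.1).mul (hG i.2 j.2))
    (fun y => (hΨ.2 y).inv.kronecker (Gm_posDef (hΨ.2 y))) hK
  obtain ⟨c, hc, h3⟩ := M2m_up (M2m_T hΨ hϑ) hK
  obtain ⟨d, hd, h4⟩ := hK.exists_forall_le' (f := fun y => Real.exp (-Φ y))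
    hΦ.continuous.neg.rexp.continuousOn (a := 0) fun y _ => Real.exp_pos _
  have key : ∀ {x t e : ℝ}, 0 < e → e ≤ a + b → 0 ≤ t → x ≤ e * t → ∀ y ∈ K,
      x ≤ ((a + b) / d + c * a) * (t * Real.exp (-Φ y)) := fun {x t e} he he' ht hx y hy => by
    have h5 : 1 ≤ d⁻¹ * Real.exp (-Φ y) := (le_inv_mul_iff₀ hd).2 (by simpa using h4 y hy)
    have h6 : 0 ≤ c * a * (t * Real.exp (-Φ y)) := by positivity
    have h7 := mul_le_mul he' h5 zero_le_one (by positivity)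
    have h8 := mul_le_mul_of_nonneg_right h7 ht
    rw [div_eq_mul_inv]
    nlinarith
  refine ⟨(a + b) / d + c * a, by positivity, fun y hy v => ⟨fun I => ?_, fun j I => ?_, ?_⟩⟩
  · refine key ha (by linarith) (Fock_q2_nonneg (Gm_posDef (hΨ.2 y)).posSemidef _)
      (le_trans ?_ (h1 y hy _)) y hy
    gcongr
    exact norm_le_pi_norm _ I
  · refine key hb (by linarith) (dbt_nonneg hΨ v y) ?_ y hy
    rw [M2m_dbt]
    refine le_trans ?_ (h2 y hy _)
    gcongr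
    exact norm_le_pi_norm (fun e : Fin n × Finset (Fin n) => dbW D e.1 v y e.2) (j, I)
  · have h5 := Fock_q2_nonneg (Gm_posDef (hΨ.2 y)).posSemidef (v y)
    have h6 : 0 ≤ (a + b) / d * q2 (Gm (LMd D Ψ y)) (v y) := by positivity
    have h7 := mul_le_mul_of_nonneg_left (h1 y hy (v y)) hc.le
    rw [M2m_cvt]
    nlinarith [h3 y hy (v y)]

/-- limits of almost holomorphic fields -/
theorem hodge_lim (hΨ : Kah D Ψ) (hΦ : D.SmR Φ) {ϑ : Y → ℝ} (hϑ : D.SmR ϑ)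
    (hϑ0 : ∀ y v, 0 ≤ D.levi ϑ y v) {q : ℕ} {g : ℕ → Y → W (Fin n)} {v₀ : Y → W (Fin n)}
    (hg : ∀ m, SmW D (g m)) (hq : ∀ m y, Dg q (g m y)) (h2 : ∀ m, L2V D Ψ Φ (g m))
    (h0 : L2V D Ψ Φ v₀) (h : Tendsto (fun m => nR D Ψ Φ (g m - v₀)) atTop (𝓝 0))
    (h' : Tendsto (fun m => nH D Ψ Φ ϑ (g m)) atTop (𝓝 0)) :
    ∃ v, HolW D v ∧ (∀ y, Dg q (v y)) ∧ (∀ y, Kill (LMd D ϑ y) (v y)) ∧ v₀ =ᵐ[D.μ] v := by
  have hs := fun m => (h2 m).sub hΨ hΦ h0
  have hV : Tendsto (fun m => nV D Ψ Φ (g m - v₀)) atTop (𝓝 0) := by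
    have h1 := ENNReal.tendsto_ofReal h
    rw [ENNReal.ofReal_zero] at h1
    exact h1.congr fun m => ENNReal.ofReal_toReal (hs m).2.ne
  have hw : ∀ I, ∃ H, D.Hol H ∧ (fun y => v₀ y I) =ᵐ[D.μ] H := fun I => by
    refine RD.weyl (h0.l2loc hΨ hΦ I) fun j t ht => ?_
    have ht' : D.Test (D.db j t) := ht.dX _
    obtain ⟨C, hC, h1⟩ := cmp_cpt hΨ hΦ hϑ ht'.2
    obtain ⟨C', hC', h3⟩ := cmp_cpt hΨ hΦ hϑ ht.2
    have h4 := M2m_lim ht' hC (fun m y hy => (h1 y hy (g m - v₀)).1 I) hV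
    have h5 := M2m_lim ht hC' (fun m y hy => ((h3 y hy (g m)).2.1 j I).trans
      (mul_le_mul_of_nonneg_left (mul_le_mul_of_nonneg_right (le_add_of_nonneg_right
        (cvt_nonneg hΨ hϑ hϑ0 (g m) y)) (Real.exp_pos _).le) hC'.le)) h'
    have h6 := (h4.add h5).neg
    rw [add_zero, neg_zero] at h6
    refine tendsto_nhds_unique tendsto_const_nhds (h6.congr fun m => ?_)
    have h7 : ∫ y, dbW D j (g m) y I * t y ∂D.μ = -∫ y, g m y I * D.db j t y ∂D.μ :=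
      RD.ibp (hg m I) ht
    simp only [Pi.sub_apply, sub_mul]
    rw [h7, integral_sub (((h2 m).l2loc hΨ hΦ I).integrable_mul ht'.1.continuous ht'.2)
      ((h0.l2loc hΨ hΦ I).integrable_mul ht'.1.continuous ht'.2)]
    ring
  choose H hH hae using hw
  have he : v₀ =ᵐ[D.μ] fun y I => H I y :=
    (ae_all_iff.2 hae).mono fun y hy => funext hy
  refine ⟨fun y I => H I y, hH, fun y I hI => ?_, fun y => ?_, he⟩
  · refine congrFun (((hH I).sm.continuous.ae_eq_iff_eq D.μ continuous_const).1 ?_) y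
    filter_upwards [deg_lim hΨ hΦ h0 h2 hq h, hae I] with p h1 h3
    rw [← h3]
    exact h1 I hI
  · have := D.locallyCompact
    obtain ⟨K, hK, hy⟩ := exists_compact_mem_nhds y
    obtain ⟨C, hC, h1⟩ := cmp_cpt hΨ hΦ hϑ hK
    have hc : Continuous fun p => cvt D Ψ ϑ (fun y I => H I y) p * Real.exp (-Φ p) := by
      simp only [M2m_cvt]
      exact ((M2m_cont (M2m_T hΨ hϑ)).comp (continuous_id.prodMk
        (continuous_pi fun I => (hH I).sm.continuous))).mul hΦ.continuous.neg.rexp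
    have h3 := (ENNReal.Tendsto.const_mul (a := 2) h' (Or.inr ENNReal.ofNat_ne_top)).add
      (ENNReal.Tendsto.const_mul (a := ENNReal.ofReal (2 * C)) hV (Or.inr ENNReal.ofReal_ne_top))
    rw [mul_zero, mul_zero, add_zero] at h3
    have h4 : ∫⁻ p in interior K, ENNReal.ofReal
        (cvt D Ψ ϑ (fun y I => H I y) p * Real.exp (-Φ p)) ∂D.μ = 0 := by
      refine le_zero_iff.1 (ge_of_tendsto' h3 fun m => ?_)
      rw [nH, nV, ← lintegral_const_mul' _ _ ENNReal.ofNat_ne_top,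
        ← lintegral_const_mul' _ _ ENNReal.ofReal_ne_top, ← lintegral_add_right' _
          (((hs m).integrable hΨ hΦ).aemeasurable.ennreal_ofReal.const_mul _)]
      refine le_trans (lintegral_mono_ae ?_) (setLIntegral_le_lintegral (interior K) _)
      filter_upwards [ae_restrict_mem isOpen_interior.measurableSet, ae_restrict_of_ae he]
        with p hp hp'
      rw [← ENNReal.ofReal_ofNat, ← ENNReal.ofReal_mul zero_le_two,
        ← ENNReal.ofReal_mul (by positivity)]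
      refine (ENNReal.ofReal_le_ofReal ?_).trans ENNReal.ofReal_add_le
      have e1 := M2m_par (M2mT D Ψ ϑ p) (g m p) ((g m - v₀) p)
      have e2 := cvt_nonneg hΨ hϑ hϑ0 (g m + (g m - v₀)) p
      have e3 := (h1 p (interior_subset hp) (g m - v₀)).2.2
      have e4 := dbt_nonneg hΨ (g m) p
      rw [M2m_cvt] at e2 e3
      rw [Pi.sub_apply, sub_sub_cancel, ← Pi.sub_apply, ← Pi.add_apply] at e1
      rw [M2m_cvt, M2m_cvt, ← hp', ← mul_assoc, ← mul_assoc, ← add_mul]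
      exact mul_le_mul_of_nonneg_right (by linarith) (Real.exp_pos _).le
    have h5 := Measure.eqOn_open_of_ae_eq (μ := D.μ) (g := fun _ => 0) (U := interior K) ?_
      isOpen_interior hc.continuousOn continuousOn_const (mem_interior_iff_mem_nhds.2 hy)
    · exact (curv_nonneg (hΨ.2 y) ((LMd_psd hϑ).2 (hϑ0 y)) _).2.1
        ((mul_eq_zero.1 h5).resolve_right (Real.exp_pos _).ne')
    · filter_upwards [(lintegral_eq_zero_iff hc.measurable.ennreal_ofReal).1 h4] with p hp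
      exact le_antisymm (ENNReal.ofReal_eq_zero.1 hp)
        (mul_nonneg (cvt_nonneg hΨ hϑ hϑ0 _ p) (Real.exp_pos _).le)

end Vale.Agent.P299
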