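import Vale.Agent.P299.PartY
import Vale.Agent.P299.PartD
import Vale.Agent.P299.A3

/-! P299, part A: from parallel polyvector fields to a parallel endomorphism and back. -/

open MeasureTheory Set Filter Topology Matrix
open scoped ContDiff ENNReal ComplexConjugate ComplexOrder

noncomputable section

namespace Vale.Agent.P299

open Vale.Agent.P271 Vale.Agent.P272

variable {n : ℕ} {X : Type} [TopologicalSpace X] [T2Space X] [CompactSpace X] [ConnectedSpace X]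
  [MeasurableSpace X] [BorelSpace X] {M : Model n X} {N : ℕ} {P : Pol M.toAtl} {C : P271A.Cov M P} {A : AD n N C.Y}

set_option linter.unusedSectionVars false in
theorem A4_pull (h : Real C A) {a : M.ι} {q : C.Y} (hq : C.π q ∈ (M.e a).source) {f : X → ℂ}
    (hf : DifferentiableAt ℝ (M.loc a f) (M.e a (C.π q))) {B B' : Mx n}
    (hB : B' * DM (Tr C a q) (C.D.pr q) = DM (Tr C a q) (C.D.pr q) * B)
    (h0 : ∀ v, dz (B' *ᵥ v) (M.loc a f) (M.e a (C.π q)) = 0) :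
    DifferentiableAt ℝ ((fun p => f (C.π p)) ∘ A.D.sec q) (A.D.pr q) ∧
      (fun j => A.D.dz j (fun p => f (C.π p)) q) ᵥ* B = 0 := by
  rw [h.hD]
  have e : (fun p => f (C.π p)) ∘ C.D.sec q =ᶠ[𝓝 (C.D.pr q)] fun z => M.loc a f (Tr C a q z) := by
    filter_upwards [Ga_near C hq] with z hz
    exact (M.loc_e a f hz).symm
  rw [← Ga_Tr] at hf h0
  refine ⟨(hf.comp _ ((P271A.pull_T C hq).differentiableAt (by simp))).congr_of_eventuallyEq e,
    funext fun l => ?_⟩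
  have h1 := h0 (DM (Tr C a q) (C.D.pr q) *ᵥ Pi.single l 1)
  rw [mulVec_mulVec, hB, ← mulVec_mulVec, DM_mulVec,
    ← P271A.Brid_dz_comp_hol hf (C.T_an a q hq).differentiableAt, ← P271A.dz_congr e,
    P271A.dz_eq_sum, mulVec_single_one] at h1
  exact h1

theorem partA (h : Real C A) (hA : A.Good) {u : X → ℝ} (hu : M.Sm u)
    (hη : KY M (fsF P + ddc M.toAtl u)) {m0 : ℕ} (hV : ∀ q, ∀ m ≥ m0, ∀ v, A.IsV q m v → v = 0) :
    ∃ B, Par M (fsF P + ddc M.toAtl u) B ∧ (Out M P B → A.Tau) := by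
  obtain ⟨B, hB, hK⟩ := A2_EB hA (h.ym hA hu hη) hV
  obtain ⟨B', hP, hT⟩ := A3_par h hη.kae hB fun a q hq => h.LM_ρ hu hq
  refine ⟨B', hP, ?_⟩
  rintro ⟨k, l, r, s, s', c, hk, hs, hs', hc, s0, s0', hle, hfl⟩
  have g2 := P.gauge.pow l
  have g1 := (M.k_gauge.inv.pow k).mul g2
  have m1 : (fun q => s (C.π q) * C.Ω (C.π q) ^ k / C.t q ^ l) ∈ A.S k l :=
    (h.mem_S k l).2 ⟨s, by rwa [zpow_natCast], fun q => by rw [zpow_natCast]⟩
  have m2 : ∀ {w}, w ∈ M.H0 (P.u ^ l) → (fun q => w (C.π q) / C.t q ^ l) ∈ A.S 0 l := fun hw =>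
    (h.mem_S 0 l).2 ⟨_, by rwa [zpow_zero, one_mul], fun q => by rw [zpow_zero, mul_one]⟩
  have ht : ∀ q, C.t q ^ l ≠ 0 := fun q => pow_ne_zero l (C.t_ne q)
  have n1 : (fun q => s (C.π q) * C.Ω (C.π q) ^ k / C.t q ^ l) ≠ 0 := by
    obtain ⟨q, hq⟩ := DenseRange.exists_mem_open h.dense
      (Atl.isOpen_ne_zero g1 (Atl.H0_le_Sec hs)) (Function.ne_iff.1 s0)
    exact Function.ne_iff.2 ⟨q, div_ne_zero (mul_ne_zero hq (pow_ne_zero k (C.Ω_ne q))) (ht q)⟩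
  have n2 : (fun q => s' (C.π q) / C.t q ^ l) ≠ 0 := by
    obtain ⟨q, hq⟩ := DenseRange.exists_mem_open h.dense
      (Atl.isOpen_ne_zero g2 (Atl.H0_le_Sec hs')) (Function.ne_iff.1 s0')
    exact Function.ne_iff.2 ⟨q, div_ne_zero hq (ht q)⟩
  have key : ∀ q, ‖s (C.π q) * C.Ω (C.π q) ^ k / C.t q ^ l‖ ^ 2 * Real.exp (-(k * A.φ q)) =
      ‖s (C.π q)‖ ^ 2 / ‖C.t q ^ l‖ ^ 2 := fun q => by
    have h1 := norm_pos_iff.2 (C.Ω_ne q)
    rw [h.hφ, Real.exp_neg, Real.exp_nat_mul, Real.exp_log (pow_pos h1 2), norm_div, norm_mul,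
      norm_pow (C.Ω _)]
    field_simp
    ring
  have ev : ∀ {y}, s' (C.π y) / C.t y ^ l ≠ 0 → ∀ᶠ p in 𝓝 y, s' (C.π p) ≠ 0 := fun hy =>
    ((m2 hs').1.sm.continuous.continuousAt.eventually_ne hy).mono fun p hp =>
      left_ne_zero_of_mul hp
  have hfl' : ∀ {a y}, C.π y ∈ (M.e a).source → s' (C.π y) / C.t y ^ l ≠ 0 →
      s' ((M.e a).symm (M.e a (C.π y))) ≠ 0 := fun ha hy => by
    rw [(M.e _).left_inv ha]
    exact left_ne_zero_of_mul hy
  refine ⟨m0, k, l, _, _, hk, m1, m2 hs', n1, n2, A2_flat hA hB.hol hK m1.1 (m2 hs').1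
    (m1.1.mul (m2 hs').1) (hA.mul_ne m1.1 (m2 hs').1 n1 n2) fun y hy => ?_,
    Or.inr ⟨r, fun i q => c i (C.π q) / C.t q ^ l, fun i => ⟨m2 (hc i), A2_flat hA hB.hol hK
      (m2 (hc i)).1 (m2 hs').1 (m2 hs').1 n2 fun y hy => ?_⟩, fun y => ?_⟩⟩
  · obtain ⟨a, ha⟩ := M.cover (C.π y)
    have hz := (M.e a).map_source ha
    have h1 := hfl' ha (right_ne_zero_of_mul hy)
    have d : ∀ {G w}, M.IsGauge G → w ∈ M.H0 G →
        ContDiffAt ℝ ∞ (M.loc a fun p => ‖w p‖ ^ 2) (M.e a (C.π y)) := fun hG hw =>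
      (Atl.sm_normSq hG (Atl.H0_le_Sec hw) a).contDiffAt ((M.e a).open_target.mem_nhds hz)
    have d1 : ContDiffAt ℝ ∞ (M.loc a fun p => ‖s p‖ ^ 2 / ‖s' p‖ ^ 2) (M.e a (C.π y)) :=
      (d g1 hs).div (d g2 hs') (pow_ne_zero 2 (norm_ne_zero_iff.2 h1))
    have d2 : DifferentiableAt ℝ (M.loc a fun p => ((‖s p‖ ^ 2 / ‖s' p‖ ^ 2 : ℝ) : ℂ))
        (M.e a (C.π y)) := P271A.Brid_ofReal_diff (d1.differentiableAt (by simp))
    obtain ⟨h2, h3⟩ := A4_pull h ha d2 (hT a y ha) fun v => (hfl a _ hz h1 v).1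
    refine ⟨_, _, h3, A2_norm m1.1 (m2 hs').1 hA.hφ h2 k ?_ (left_ne_zero_of_mul hy)⟩
    filter_upwards [ev (right_ne_zero_of_mul hy)] with p hp
    have h4 := norm_ne_zero_iff.2 hp
    rw [Complex.mul_conj', Complex.mul_conj', ← Complex.ofReal_pow, ← Complex.ofReal_pow,
      ← Complex.ofReal_mul, ← Complex.ofReal_mul, key, norm_div, div_pow, div_mul_div_cancel₀
        (pow_ne_zero 2 h4)]
  · obtain ⟨a, ha⟩ := M.cover (C.π y)
    have hz := (M.e a).map_source ha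
    have h1 := hfl' ha hy
    obtain ⟨h2, h3⟩ := A4_pull h ha (f := fun p => c i p / s' p)
      ((Atl.analyticAt_div g2 (hc i) hs' hz h1).differentiableAt.restrictScalars ℝ) (hT a y ha)
      fun v => (hfl a _ hz h1 v).2 i
    refine ⟨(s' (C.π y) / C.t y ^ l) ^ 2, _, h3, fun j => ?_⟩
    rw [Nat.cast_zero, zero_mul, sub_zero]
    refine A2_quot (m2 hs').1 h2 ?_ j
    filter_upwards [ev hy] with p hp
    rw [div_mul_div_cancel₀ hp]
  · rw [key]
    simp only [norm_div, div_pow, ← Finset.sum_div]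
    exact div_le_div_of_nonneg_right (hle _) (sq_nonneg _)

end Vale.Agent.P299
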