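import Vale.Agent.P299.CP
import Vale.Agent.P299.CR
import Vale.Agent.P299.CS

/-! P299, part C: the algebraic description of the fibrewise supremum. -/

open MeasureTheory Set Filter Topology Matrix
open scoped ContDiff ENNReal ComplexConjugate ComplexOrder

noncomputable section

namespace Vale.Agent.P299

open Vale.Agent.P271A

variable {n N : ℕ} {Y : Type} [TopologicalSpace Y] [T2Space Y] [SecondCountableTopology Y]
  [MeasurableSpace Y] [BorelSpace Y] {A : AD n N Y}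

theorem PC.pc_lo {F : Type} [Field F] [Algebra ℂ F] {x : Fin (N + 1) → F} (hF : PC.FF A x)
    (hA : A.Good) {m0 : ℕ} {K : IntermediateField ℂ F} (hK : PC.IsK A x m0 K)
    {P : MvPolynomial (Fin (N + 1)) ℂ} (hP : A.ev P ≠ 0) {B : AD n N {y // A.ev P y ≠ 0}}
    (hS : A.Sub (A.ev P) B) (hB : B.Good) {h h' a f : Y → ℝ} (hlo : hF.Lo K P h a f) {C₁ : ℝ}
    (hC₁ : 0 < C₁) (hh : ∀ y, A.ev P y ≠ 0 → h y ≤ C₁ * h' y) (ha : ∀ y, 0 ≤ a y) (a0 f0 : K) :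
    ∃ c : ℝ, 0 < c ∧ ∀ y₀ : {y // A.ev P y ≠ 0}, ∃ O ∈ 𝓝 y₀, ∃ Q, IsCompact Q ∧
      ∀ F0, B.FI m0 F0 → ∃ G, Dense G ∧ ∀ y ∈ O, y ∈ G → ∃ ς ∈ Q, F0 ς = F0 y ∧
        (hF.pt ς.1).v a0 = (hF.pt y.1).v a0 ∧ (hF.pt ς.1).v f0 = (hF.pt y.1).v f0 ∧
        c * f y.1 ≤ h' ς.1 * a y.1 := by
  classical
  obtain ⟨c₁, hc₁, hlo⟩ := hlo
  have hPm : A.ev P ∈ A.S 0 P.totalDegree := hA.ev_mem le_rfl
  refine ⟨c₁ / C₁, by positivity, fun y₀ => ?_⟩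
  obtain ⟨O, hO, Q, hQ, hQP, hT⟩ := hlo _ y₀.2
  refine ⟨_, continuous_subtype_val.continuousAt.preimage_mem_nhds hO, Subtype.val ⁻¹' Q,
    IsInducing.subtypeVal.isCompact_preimage' hQ fun ς hς => ⟨⟨ς, hQP ς hς⟩, rfl⟩,
    fun F0 hF0 => ?_⟩
  obtain ⟨g, hg, hg'⟩ := PC.K_of_fi hF hA hK hP hS hB hF0
  obtain ⟨D, hD, hD'⟩ := hT {⟨g, hg⟩, a0, f0}
  have hDm := (hS.mem_S hA hPm hP).2 ⟨_, hA.ev_mem (le_refl D.totalDegree), rfl⟩
  refine ⟨_, hB.dense_ne hDm.1 fun h0 => hA.mul_ne (PC.ev_hol hA D) hPm.1 hD hP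
    (funext fun y => ?_), fun y hyO hyD => ?_⟩
  · by_cases h : A.ev P y = 0
    · simp [h]
    · exact mul_eq_zero_of_left (congrFun h0 ⟨y, h⟩) _
  obtain ⟨ς, hς, t1, t2⟩ := hD' y.1 hyO hyD
  have t3 := t1 ⟨g, hg⟩ (Finset.mem_insert_self _ _)
  refine ⟨⟨ς, hQP ς hς⟩, hς, ?_, (t1 a0 (by simp)).2.2, (t1 f0 (by simp)).2.2, ?_⟩
  · exact ((hg' ⟨ς, hQP ς hς⟩ t3.2.1).symm.trans t3.2.2).trans (hg' y t3.1)
  · rw [div_mul_eq_mul_div, div_le_iff₀ hC₁]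
    exact (t2.trans (mul_le_mul_of_nonneg_right (hh ς (hQP ς hς)) (ha _))).trans_eq (by ring)

theorem PC.pc_up {k d r : ℕ} {e : Fin r → Y → ℂ} (hA : A.Good) (he : ∀ i, e i ∈ A.S (-k) d) :
    ∃ C₁ : ℝ, 0 < C₁ ∧ ∀ y,
      (∑ i, ‖e i y‖ ^ 2) / A.nx y ^ d ≤ C₁ * Real.exp (-(k * A.φ y)) := by
  choose C hC using fun i => (he i).2
  refine ⟨∑ i, |C i| + 1, by positivity, fun y => ?_⟩
  have h2 : 0 < A.nx y ^ d := pow_pos (zero_lt_one.trans_le (hA.one_le_nx y)) d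
  have h3 := mul_pos (Real.exp_pos (-(k * A.φ y))) h2
  rw [div_le_iff₀ h2, mul_assoc, add_mul, Finset.sum_mul]
  refine (Finset.sum_le_sum fun i _ => (hC i y).trans ?_).trans (le_add_of_nonneg_right ?_)
  · rw [Int.cast_neg, Int.cast_natCast, neg_mul]
    exact mul_le_mul_of_nonneg_right (le_abs_self _) h3.le
  · linarith

theorem partC (hA : A.Good) (h : A.Tau) : ∃ (l : ℕ) (P : Y → ℂ), P ∈ A.S 0 l ∧ P ≠ 0 ∧
    ∀ B : AD n N {y // P y ≠ 0}, A.Sub P B → B.Good → Nonempty B.BD := by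
  classical
  obtain ⟨m0, k, l, s, s', hk, hs, hs', s0, s'0, hfl, hint⟩ := h
  obtain ⟨F, _, _, x, hF⟩ := PC.exists_ff hA
  obtain ⟨K, hK⟩ := PC.exists_K hF hA m0
  obtain ⟨d, r, e, c, hc, he, hlow⟩ := hA.bpf (-k)
  obtain ⟨q, -, rfl⟩ := hA.gen l s' hs'
  have h1 : ∀ i, ∃ p, s * e i = A.ev p := fun i => by
    have := AD.S_mul hs (he i)
    rw [add_neg_cancel] at this
    obtain ⟨p, -, hp⟩ := hA.gen _ _ this
    exact ⟨p, hp⟩
  choose p hp using h1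
  have hq : MvPolynomial.aeval x q ≠ 0 := fun h0 => s'0 ((hF.ker _).1 h0)
  obtain ⟨z, hz⟩ : ∃ z : Fin r → F, ∀ i, z i * MvPolynomial.aeval x q =
      MvPolynomial.aeval x (p i) := ⟨fun i => _ / _, fun i => div_mul_cancel₀ _ hq⟩
  have nxp : ∀ y, 0 < A.nx y ^ d := fun y => pow_pos (zero_lt_one.trans_le (hA.one_le_nx y)) d
  obtain ⟨i₀, hi₀⟩ : ∃ i, e i ≠ 0 := by
    by_contra h0
    push Not at h0
    obtain ⟨y, -⟩ := hA.conn.nonempty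
    have h2 := hlow y
    have h3 := mul_pos hc (mul_pos (Real.exp_pos (((-k : ℤ) : ℝ) * A.φ y)) (nxp y))
    simp only [h0, Pi.zero_apply, norm_zero, zero_pow two_ne_zero, Finset.sum_const_zero] at h2
    exact absurd h2 h3.not_ge
  have hp0 : A.ev (p i₀) ≠ 0 := hp i₀ ▸ hA.mul_ne hs.1 (he i₀).1 s0 hi₀
  obtain ⟨P, M, I, I', _, _, a, f, i0, j0, hd, hP, hM, ra, rf, n0, ⟨C₀, hup⟩, hlo⟩ :=
    PC.cm (K := K) (d := d) (z := z) (P0 := q * p i₀) hF hA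
      (fun i => hint.elim (fun h => PC.intA hF hA hK h s'0 (he i) (hp i) (hz i))
        fun h => PC.intB hF hA hK h s'0 (he i) (hp i) (hz i))
      ⟨i₀, fun h0 => hp0 ((hF.ker _).1 (by rw [← hz, h0, zero_mul]))⟩
      (by rw [PC.ev_mul]; exact hA.mul_ne hs'.1 (PC.ev_hol hA _) s'0 hp0)
      fun i => ⟨1, p i * p i₀, by rw [pow_one, map_mul, map_mul, ← mul_assoc, hz]⟩
  have hPm : A.ev P ∈ A.S 0 P.totalDegree := hA.ev_mem le_rfl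
  refine ⟨_, _, hPm, hP, fun B hS hB => ?_⟩
  have hy : ∀ y, A.ev P y ≠ 0 → A.ev q y ≠ 0 ∧ s y ≠ 0 := fun y hy => by
    obtain ⟨P', rfl⟩ := hd
    rw [PC.ev_mul, PC.ev_mul, ← hp] at hy
    simp only [Pi.mul_apply, ne_eq, mul_eq_zero, not_or] at hy
    exact ⟨hy.1.1, hy.1.2.1⟩
  have zn : ∀ y, A.ev P y ≠ 0 → hF.zn d z y =
      ‖s y / A.ev q y‖ ^ 2 * ((∑ i, ‖e i y‖ ^ 2) / A.nx y ^ d) := fun y h => by
    rw [PC.FF.zn, ← mul_div_assoc, Finset.mul_sum]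
    congr 1
    refine Finset.sum_congr rfl fun i _ => ?_
    rw [hF.pt_v (hy y h).1 (hz i), ← hp, Pi.mul_apply, mul_div_right_comm, norm_mul, mul_pow]
  have ex : ∀ y, Real.exp (((-k : ℤ) : ℝ) * A.φ y) = Real.exp (-(k * A.φ y)) := fun y => by
    rw [Int.cast_neg, Int.cast_natCast, neg_mul]
  obtain ⟨C₁, hC₁, hC⟩ := PC.pc_up hA he
  have b1 := (hS.mem_S hA hPm hP).2 ⟨s, hs, rfl⟩
  have b2 := (hS.mem_S hA hPm hP).2 ⟨_, hs', rfl⟩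
  obtain ⟨y₁, -⟩ := hB.conn.nonempty
  have b3 : (fun y : {y // A.ev P y ≠ 0} => A.ev q y.1) ≠ 0 := fun h0 =>
    (hy _ y₁.2).1 (congrFun h0 y₁)
  have b4 : B.D.Hol fun y => s y.1 / A.ev q y.1 := by
    simp only [div_eq_mul_inv]
    exact b1.1.mul (b2.1.inv fun y => (hy _ y.2).1)
  have b5 : ((fun y : {y // A.ev P y ≠ 0} => A.ev q y.1) * fun y => s y.1 / A.ev q y.1) =
      fun y => s y.1 := funext fun y => mul_div_cancel₀ _ (hy _ y.2).1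
  refine PC.bd1 hB hk hM b4 (fun y => div_ne_zero (hy _ y.2).2 (hy _ y.2).1)
    ⟨l, _, b2, b3, b5 ▸ b1⟩
    (((hS.flatQ hA hPm hP hs.1 hs'.1).2 hfl).congr hB b1.1 b2.1 b4 (RD.hol_const 1) b3
      (by rw [mul_one, mul_comm, b5]))
    (fun i => PC.fi_of_K hF hA hK hP hS hB (a i).2 (ra i))
    (fun j => PC.fi_of_K hF hA hK hP hS hB (f j).2 (rf j)) (i0 := i0) (j0 := j0)
    (fun y => (n0 _ y.2).1) (fun y => (n0 _ y.2).2) ⟨C₀ / c ^ M, fun y => ?_⟩ ?_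
  · have h2 : c * (‖s y.1 / A.ev q y.1‖ ^ 2 * Real.exp (-(k * A.φ y.1))) ≤ hF.zn d z y.1 := by
      rw [zn _ y.2, mul_left_comm]
      refine mul_le_mul_of_nonneg_left ?_ (sq_nonneg _)
      rw [le_div_iff₀ (nxp _), mul_assoc, ← ex]
      exact hlow _
    have h3 := (mul_le_mul_of_nonneg_right (pow_le_pow_left₀ (by positivity) h2 M)
      (Finset.sum_nonneg fun _ _ => sq_nonneg _)).trans (hup _ y.2)
    rw [hS.φ, div_mul_eq_mul_div, le_div_iff₀ (by positivity), mul_comm, ← mul_assoc, ← mul_pow]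
    exact h3
  · simp only [hS.φ]
    refine PC.pc_lo hF hA hK hP hS hB
      (h' := fun y => (‖s y / A.ev q y‖ ^ 2 * Real.exp (-(k * A.φ y))) ^ M) hlo
      (pow_pos hC₁ M) (fun y h => ?_) (fun y => Finset.sum_nonneg fun _ _ => sq_nonneg _) _ _
    rw [← mul_pow]
    refine pow_le_pow_left₀
      (div_nonneg (Finset.sum_nonneg fun _ _ => sq_nonneg _) (nxp y).le) ((zn _ h).trans_le ?_) M
    rw [mul_left_comm]
    exact mul_le_mul_of_nonneg_left (hC y) (sq_nonneg _)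

end Vale.Agent.P299
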