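import Vale.Agent.P299.PartB
import Vale.Agent.P299.ERep
import Vale.Agent.P299.EZ
import Vale.Agent.P299.EKG
import Vale.Agent.P299.EMid
import Vale.Agent.P299.ECos
import Vale.Agent.P299.EFin

/-! P299, part E: invariant meromorphic forms on the third factor and descent. -/

open MeasureTheory Set Filter Topology Matrix
open scoped ContDiff ENNReal ComplexConjugate ComplexOrder

noncomputable section

namespace Vale.Agent.P299

open Vale.Agent.P271 Vale.Agent.P272

variable {n : ℕ} {X : Type} [TopologicalSpace X] [T2Space X] [CompactSpace X] [ConnectedSpace X]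
  [MeasurableSpace X] [BorelSpace X] {M : Model n X} {P : Pol M.toAtl} {u : X → ℝ} {B : EF M.toAtl}

theorem partE (hn : 0 < n) (hk : P.k0 = 1) (hu : M.Sm u) (hη : KY M (fsF P + ddc M.toAtl u))
    (S : Spl M (fsF P + ddc M.toAtl u) B) [CompactSpace S.Y] [CompactSpace S.Z] (h : S.Grp) :
    Out M P B := by
  have _ := hn
  obtain ⟨hd, H₀, f₀, h1, h2⟩ := h
  obtain ⟨g, s, hg, hs, ht⟩ := slices hk hu S
  obtain ⟨H₂, r, e, f₂, he, h0, hH⟩ := eigen S.tp.fg hd S.hol_act hg hs ht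
  obtain ⟨κ, hκ⟩ := exists_KG S hη
  obtain ⟨y₀⟩ : Nonempty S.Y := inferInstance
  obtain ⟨m, k, D, A, hZ⟩ := zout hg (hκ.canZ y₀) S.hol_act he h0 hH
  obtain ⟨D₁⟩ := mid S hκ y₀ f₀ f₂ h1 h2 hZ
  obtain ⟨D₂⟩ := cosets D₁
  exact out_of_dat hk D₂

end Vale.Agent.P299
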