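import Vale.Agent.P299.PartR
import Vale.Agent.P299.FG
import Vale.Agent.P299.FP
import Vale.Agent.P299.FU
import Vale.Agent.P299.FL

/-! P299, part F: the semipositive metric on the base. -/

open MeasureTheory Set Filter Topology Matrix
open scoped ContDiff ENNReal ComplexConjugate ComplexOrder

noncomputable section

namespace Vale.Agent.P299

open Vale.Agent.P271A

variable {n N : ℕ} {Y : Type} [TopologicalSpace Y] [T2Space Y] [SecondCountableTopology Y]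
  [MeasurableSpace Y] [BorelSpace Y] {A : AD n N Y}

theorem partF (hA : A.Good) (b : A.BD) : ∃ Ψ, b.Gam Ψ := by
  obtain ⟨Ψ, ψ, C, h1, h2, h3, h4, h5, h6, h7, h8, h9⟩ := fp_metric hA b
  refine ⟨Ψ, h1, h2, h3, h4, h5, ?_⟩
  obtain ⟨t, B₁, hL⟩ := f_lower hA b
  obtain ⟨B₂, hU⟩ := f_upper hA b t
  have ha : ∀ i, A.D.Hol (b.a i) := fun i => (b.a_fi i).1
  have hf : ∀ j, A.D.Hol (b.f j) := fun j => by
    obtain ⟨i, i', h⟩ := b.f_a j
    rw [h]
    exact (ha i).mul (ha i')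
  have hγ : Continuous fun y => lg b.a y - lg b.f y :=
    (fp_lg ha b.a0).1.continuous.sub (fp_lg hf b.f0).1.continuous
  refine glue (B := max B₁ B₂) (S := fun m => {u | ∃ p : ℕ, max m 1 ≤ p ∧ ∃ F, A.D.Hol F ∧
    nO A.D (b.wt p t) F ≤ 1 ∧
      u = fun y => (p : ℝ)⁻¹ * Real.log (‖F y‖ ^ 2 + Real.exp (-(p : ℝ) ^ 2))})
    h6 h7 h8 h9 hγ ?_ ?_ ?_ ?_
  · rintro m m' hm u ⟨p, hp, h⟩
    exact ⟨p, (max_le_max hm le_rfl).trans hp, h⟩
  · rintro m u ⟨p, -, F, hF, -, rfl⟩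
    have e0 : 0 < Real.exp (-(p : ℝ) ^ 2) := Real.exp_pos _
    have e1 : ∀ y, 0 < ‖F y‖ ^ 2 + Real.exp (-(p : ℝ) ^ 2) := fun y => by positivity
    have s1 : A.D.SmR fun y => Real.log (‖F y‖ ^ 2 + Real.exp (-(p : ℝ) ^ 2)) :=
      (hF.sm.normSq.add (RD.smR_const _)).log fun y => (e1 y).ne'
    refine ⟨(RD.smR_const _).mul s1, fun y v => ?_⟩
    rw [RD.levi_const_mul s1]
    refine mul_nonneg (by positivity) ?_
    have h := RD.levi_log_sum_nonneg (y := y) (v := v) ({()} : Finset Unit) (F := fun _ => F)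
      (fun _ _ => hF) e0.le fun y => by simpa using e1 y
    simpa using h
  · intro Q hQ
    obtain ⟨m, hm⟩ := hU Q hQ
    refine ⟨m, ?_⟩
    rintro u ⟨p, hp, F, hF, hn, rfl⟩ y hy
    exact (hm p hp F hF hn y hy).trans (by linarith [le_max_right B₁ B₂])
  · intro y m
    obtain ⟨p, hp, F, hF, hn, h⟩ := hL y m
    exact ⟨_, ⟨p, hp, F, hF, hn, rfl⟩, le_trans (by linarith [le_max_left B₁ B₂]) h⟩

end Vale.Agent.P299
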