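import Vale.Agent.P299.HB
import Vale.Agent.P299.HC
import Vale.Agent.P299.HE
import Vale.Agent.P299.HF
import Vale.Agent.P299.HH
import Vale.Agent.P299.HI

/-! P299, part H: the deck group. -/

open MeasureTheory Set Filter Topology Matrix
open scoped ContDiff ENNReal ComplexConjugate ComplexOrder

noncomputable section

namespace Vale.Agent.P299

open Vale.Agent.P271 Vale.Agent.P272

variable {n : ℕ} {X : Type} [TopologicalSpace X] [T2Space X] [CompactSpace X] [ConnectedSpace X]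
  [MeasurableSpace X] [BorelSpace X] {M : Model n X} {η : Frm M.toAtl} {B : EF M.toAtl}

theorem partH (hη : KY M η) (S : Spl M η B) [CompactSpace S.Y] [CompactSpace S.Z] : S.Grp := by
  obtain ⟨ρ, b, h1, h2, h3⟩ := S.cry
  have := S.tp.fg
  obtain ⟨H₁, a1, a2⟩ := h1.bieb h2
  have hY : ∃ H : Subgroup S.Γ, H.FiniteIndex ∧ ∀ γ ∈ H, ∀ y : S.Y, γ • y = y := by
    by_contra hn
    let _ : MetricSpace S.Y := TopologicalSpace.metrizableSpaceMetric S.Y
    obtain ⟨F⟩ := exists_fc S.cY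
    obtain ⟨ξ, b1, y, p, b2, b3⟩ := exists_hvf F fun ε hε => by
      obtain ⟨δ, hδ, c1⟩ := F.cl hε
      obtain ⟨γ, c2, c3⟩ := acc (fun p ε hε => by
        obtain ⟨δ, hδ, c⟩ := equi (S.hmet hη.kae) p hε
        exact ⟨δ, hδ, fun γ => c _ (S.hiso γ)⟩) hn hδ
      exact ⟨_, (S.hiso γ).toHMap, c1 _ c3, c2⟩
    exact b3 (S.no_hvf hη b1 b2)
  obtain ⟨H₂, b1, b2⟩ := hY
  refine ⟨h1.pg, H₁ ⊓ H₂, inferInstance, fun γ hγ => ⟨(b γ).ofLp, fun x => ?_⟩,
    fun γ hγ => b2 γ hγ.2⟩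
  have := congrArg WithLp.ofLp (h3 γ x)
  rwa [a2 γ hγ.1] at this

end Vale.Agent.P299
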