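import Vale.Agent.P299.KJ
import Vale.Agent.P299.KM

/-! P299, part K: the two non-flat factors are compact. -/

open MeasureTheory Set Filter Topology Matrix
open scoped ContDiff ENNReal ComplexConjugate ComplexOrder

noncomputable section

namespace Vale.Agent.P299

open Vale.Agent.P271 Vale.Agent.P272

variable {n : ℕ} {X : Type} [TopologicalSpace X] [T2Space X] [CompactSpace X] [ConnectedSpace X]
  [MeasurableSpace X] [BorelSpace X] {M : Model n X} {η : Frm M.toAtl} {B : EF M.toAtl}

theorem partK (hn : 0 < n) (hη : KY M η) (S : Spl M η B) :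
    CompactSpace S.Y ∧ CompactSpace S.Z := by
  obtain ⟨y₀⟩ : Nonempty S.Y := inferInstance
  obtain ⟨z₀⟩ : Nonempty S.Z := inferInstance
  obtain ⟨K, hK, h⟩ := KM_main (lh := S.lh) hn hη S.tp ((S.prj.he 0).one_sub hη.kae) (0, y₀, z₀)
    (fun u hu m => by
      have ha := ch_mem M.toAtl (S.π m)
      have h1 := S.max _ hu _ m ha
      have h2 := S.prj.mul 0 0 _ _ (ApiA_ch M.toAtl (S.π m))
      rw [if_pos rfl] at h2
      rw [gnV, ← h1, grV, mulVec_mulVec, ← Matrix.mul_assoc, Matrix.mul_sub, h2, Matrix.mul_one,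
        sub_self, Matrix.zero_mul, zero_mulVec, q2, mulVec_zero, dotProduct_zero, Complex.zero_re])
    (r := fun m => (0, m.2)) fun f s hf hs => lp_r hη.kae S hf hs
  refine ⟨⟨(hK.image continuous_snd.fst).of_isClosed_subset isClosed_univ fun y _ => ?_⟩,
    ⟨(hK.image continuous_snd.snd).of_isClosed_subset isClosed_univ fun z _ => ?_⟩⟩
  · exact ⟨(0, y, z₀), h _ rfl, rfl⟩
  · exact ⟨(0, y₀, z), h _ rfl, rfl⟩

end Vale.Agent.P299
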