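import Vale.Agent.P299.U1L
import Vale.Agent.P299.Bb

/-! P299, part U1: the parallel vector fields of a covering space. -/

open Set Filter Topology Matrix
open scoped ComplexConjugate ComplexOrder

noncomputable section

namespace Vale.Agent.P299

open Vale.Agent.P271 Vale.Agent.P272

theorem u1_glob {Y α ι : Type} [TopologicalSpace Y] [PreconnectedSpace Y] {S : ι → Set Y}
    {F : ι → Y → α} (hc : ∀ y, ∃ a, y ∈ S a) (h1 : ∀ a b y, y ∈ S a → y ∈ S b → F a y = F b y)
    (h2 : ∀ a y, y ∈ S a → ∀ᶠ y' in 𝓝 y, y' ∈ S a ∧ F a y' = F a y) {a b : ι} {y y' : Y}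
    (hy : y ∈ S a) (hy' : y' ∈ S b) : F a y = F b y' := by
  choose c hc using hc
  have : IsLocallyConstant fun y => F (c y) y := by
    refine (IsLocallyConstant.iff_eventually_eq _).2 fun y => ?_
    filter_upwards [h2 _ y (hc y)] with y' h
    rw [h1 _ _ y' (hc y') h.1, h.2]
  rw [h1 _ _ y hy (hc y), h1 _ _ y' hy' (hc y')]
  exact this.apply_eq_of_preconnectedSpace y y'

variable {n q : ℕ} {X : Type} [TopologicalSpace X] {A : Atl n X} {η : Frm A} {V : Type}
  [TopologicalSpace V] {π : V → X} {lh : IsLocalHomeomorph π}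

theorem u1_ov {a b : A.ι} {p : X} (ha : p ∈ (A.e a).source) (hb : p ∈ (A.e b).source) :
    A.e a p ∈ A.ov a b ∧ A.tr a b (A.e a p) = A.e b p := by
  refine ⟨⟨(A.e a).map_source ha, ?_⟩, ?_⟩
  · rwa [mem_preimage, (A.e a).left_inv ha]
  · simp only [Atl.tr, (A.e a).left_inv ha]

theorem u1_lf_left (lh : IsLocalHomeomorph π) (m : V) : ∀ᶠ v in 𝓝 m, lf lh m (π v) = v := by
  obtain ⟨h1, h2⟩ := (lh m).choose_spec
  filter_upwards [(lh m).choose.open_source.mem_nhds h1] with v hv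
  rw [congrFun h2 v]
  exact (lh m).choose.left_inv hv

theorem u1_lf_cont (lh : IsLocalHomeomorph π) (m : V) : ContinuousAt (lf lh m) (π m) := by
  obtain ⟨h1, h2⟩ := (lh m).choose_spec
  rw [congrFun h2 m]
  exact (lh m).choose.continuousAt_symm ((lh m).choose.map_source h1)

theorem u1_lf_right (lh : IsLocalHomeomorph π) (m : V) :
    ∀ᶠ y in 𝓝 (π m), π (lf lh m y) = y := by
  obtain ⟨h1, h2⟩ := (lh m).choose_spec
  rw [congrFun h2 m]
  filter_upwards [(lh m).choose.open_target.mem_nhds ((lh m).choose.map_source h1)] with y hy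
  rw [congrFun h2 _]
  exact (lh m).choose.right_inv hy

theorem u1_lf_uniq (lh : IsLocalHomeomorph π) (m : V) {s : X → V} (hs : ContinuousAt s (π m))
    (h0 : s (π m) = m) (h : ∀ᶠ y in 𝓝 (π m), π (s y) = y) : lf lh m =ᶠ[𝓝 (π m)] s := by
  have h1 : Tendsto s (𝓝 (π m)) (𝓝 m) := by simpa only [ContinuousAt, h0] using hs
  filter_upwards [h, h1.eventually (u1_lf_left lh m)] with y h2 h3
  rwa [h2] at h3

theorem u1_down {α : Type} {a : A.ι} {m : V} (hm : π m ∈ (A.e a).source) {F : Cn n → V → α}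
    (h : ∀ᶠ z in 𝓝 (A.e a (π m)), F z (lf lh m ((A.e a).symm z)) =
      F (A.e a (π m)) (lf lh m ((A.e a).symm (A.e a (π m))))) :
    ∀ᶠ v in 𝓝 m, π v ∈ (A.e a).source ∧ F (A.e a (π v)) v = F (A.e a (π m)) m := by
  have h1 : ContinuousAt π m := lh.continuous.continuousAt
  filter_upwards [h1.eventually_mem ((A.e a).open_source.mem_nhds hm),
    (((A.e a).continuousAt hm).comp h1).eventually h, u1_lf_left lh m] with v h2 h3 h4
  simp only [Function.comp, (A.e a).left_inv h2, (A.e a).left_inv hm, h4,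
    (u1_lf_left lh m).self_of_nhds] at h3
  exact ⟨h2, h3⟩

theorem u1_ip [PreconnectedSpace V] (hη : Kae A η) {ζ ζ' : A.ι → V → Cn n} (h : PF A η lh ζ)
    (h' : PF A η lh ζ') {a b : A.ι} {m m' : V} (hm : π m ∈ (A.e a).source)
    (hm' : π m' ∈ (A.e b).source) : star (ζ a m) ⬝ᵥ LM (η a) (A.e a (π m)) *ᵥ ζ' a m =
      star (ζ b m') ⬝ᵥ LM (η b) (A.e b (π m')) *ᵥ ζ' b m' := by
  refine u1_glob (S := fun a => π ⁻¹' (A.e a).source)
    (F := fun a m => star (ζ a m) ⬝ᵥ LM (η a) (A.e a (π m)) *ᵥ ζ' a m)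
    (fun y => A.cover (π y)) (fun a b m ha hb => ?_) (fun a m ha => ?_) hm hm'
  · obtain ⟨h1, h2⟩ := u1_ov ha hb
    rw [hη.1.compat a b _ h1, h2, h.compat a b m ha hb, h'.compat a b m ha hb, star_mulVec,
      ← dotProduct_mulVec, mulVec_mulVec, mulVec_mulVec]
  · refine u1_down (lh := lh) ha (F := fun z m => star (ζ a m) ⬝ᵥ LM (η a) z *ᵥ ζ' a m)
      (u1_conj_const ?_ ?_)
    · refine (u1_an_dot (h.par a m ha) (h'.hol a m ha)).congr ?_
      filter_upwards [(A.e a).open_target.mem_nhds ((A.e a).map_source ha)] with z hz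
      exact u1_adj (hη.2 a z hz).1 _ _
    · refine (u1_an_dot (h'.par a m ha) (h.hol a m ha)).congr (.of_forall fun z => ?_)
      exact star_dotProduct _ _

/-- The space of parallel fields. -/
def u1PF (A : Atl n X) (η : Frm A) (lh : IsLocalHomeomorph π) :
    Submodule ℂ (A.ι → V → Cn n) where
  carrier := {ζ | PF A η lh ζ}
  add_mem' := fun {ζ ζ'} h h' => ⟨fun a b m ha hb => by
      simp only [Pi.add_apply, mulVec_add, h.compat a b m ha hb, h'.compat a b m ha hb],
    fun a m ha => (h.hol a m ha).add (h'.hol a m ha),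
    fun a m ha => by
      simp only [Pi.add_apply, mulVec_add, star_add]
      exact (h.par a m ha).add (h'.par a m ha)⟩
  zero_mem' := ⟨fun a b m _ _ => by simp, fun a m _ => analyticAt_const, fun a m _ => by
    simp only [Pi.zero_apply, mulVec_zero]
    exact analyticAt_const⟩
  smul_mem' := fun c ζ h => ⟨fun a b m ha hb => by
      simp only [Pi.smul_apply, mulVec_smul, h.compat a b m ha hb],
    fun a m ha => (h.hol a m ha).const_smul (c := c),
    fun a m ha => by
      simp only [Pi.smul_apply, mulVec_smul, star_smul]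
      exact (h.par a m ha).const_smul (c := star c)⟩

theorem u1_fields [ConnectedSpace V] (hη : Kae A η) (lh : IsLocalHomeomorph π) :
    ∃ (q : ℕ) (ξ : Fin q → A.ι → V → Cn n), (∀ i, PF A η lh (ξ i)) ∧
      (∀ i j a m, π m ∈ (A.e a).source →
        star (ξ i a m) ⬝ᵥ LM (η a) (A.e a (π m)) *ᵥ ξ j a m = if i = j then 1 else 0) ∧
      ∀ ζ, PF A η lh ζ → ∃ c : Fin q → ℂ, ∀ a m, π m ∈ (A.e a).source →
        ζ a m = ∑ i, c i • ξ i a m := by
  obtain ⟨m0⟩ := (inferInstance : Nonempty V)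
  obtain ⟨a0, h0⟩ := A.cover (π m0)
  let ev : u1PF A η lh →ₗ[ℂ] Cn n :=
    { toFun := fun ζ => ζ.1 a0 m0, map_add' := fun _ _ => rfl, map_smul' := fun _ _ => rfl }
  obtain ⟨q, ξ, h1, h2⟩ := u1_onb ev (hη.2 a0 _ ((A.e a0).map_source h0))
  refine ⟨q, fun i => (ξ i).1, fun i => (ξ i).2,
    fun i j a m hm => (u1_ip hη (ξ i).2 (ξ j).2 hm h0).trans (h1 i j), fun ζ hζ => ?_⟩
  obtain ⟨c, hc⟩ := h2 ⟨ζ, hζ⟩
  refine ⟨c, fun a m hm => ?_⟩
  have h3 : PF A η lh (ζ - ∑ i, c i • (ξ i).1) := (u1PF A η lh).sub_mem hζ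
    ((u1PF A η lh).sum_mem fun i _ => (u1PF A η lh).smul_mem _ (ξ i).2)
  have h4 := u1_ip hη h3 h3 hm h0
  have h5 : (ζ - ∑ i, c i • (ξ i).1) a0 m0 = 0 := by
    simp only [Pi.sub_apply, Finset.sum_apply, Pi.smul_apply]
    exact sub_eq_zero.2 hc
  rw [h5, mulVec_zero, dotProduct_zero] at h4
  have h6 := u1_zero (hη.2 a _ ((A.e a).map_source hm)) h4
  simpa only [Pi.sub_apply, Finset.sum_apply, Pi.smul_apply, sub_eq_zero] using h6

theorem u1_smul {Γ : Type} [Group Γ] [MulAction Γ V] (hp : IsQuotientCoveringMap π Γ)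
    {ζ : A.ι → V → Cn n} (h : PF A η lh ζ) (γ : Γ) : PF A η lh fun a m => ζ a (γ • m) := by
  have e : ∀ m : V, π (γ • m) = π m := fun m => hp.map_smul γ
  have key : ∀ a m, π m ∈ (A.e a).source → ∀ᶠ z in 𝓝 (A.e a (π m)),
      lf lh (γ • m) ((A.e a).symm z) = γ • lf lh m ((A.e a).symm z) := fun a m ha => by
    have h1 := u1_lf_uniq lh (γ • m) (s := fun y => γ • lf lh m y)
      ((hp.continuous_const_smul γ).continuousAt.comp (by rw [e]; exact u1_lf_cont lh m))
      (by rw [e, (u1_lf_left lh m).self_of_nhds]) (by simpa only [e] using u1_lf_right lh m)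
    rw [e] at h1
    exact ((A.e a).tendsto_symm ha).eventually h1
  refine ⟨fun a b m ha hb => ?_, fun a m ha => ?_, fun a m ha => ?_⟩
  · simpa only [e] using h.compat a b (γ • m) (by rwa [e]) (by rwa [e])
  · have h1 := h.hol a (γ • m) (by rwa [e])
    rw [e] at h1
    refine h1.congr ?_
    filter_upwards [key a m ha] with z hz
    rw [hz]
  · have h1 := h.par a (γ • m) (by rwa [e])
    rw [e] at h1
    refine h1.congr ?_
    filter_upwards [key a m ha] with z hz
    rw [hz]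

theorem u1_ric [MeasurableSpace X] {M : Model n X} {η : Frm M.toAtl} (hη : KY M η)
    {ζ : M.ι → V → Cn n} (h : PF M.toAtl η lh ζ) {a : M.ι} {m : V} (hm : π m ∈ (M.e a).source) :
    LM (th M a) (M.e a (π m)) *ᵥ ζ a m = 0 := by
  have hz := (M.e a).map_source hm
  obtain ⟨c, hc⟩ := hη.det
  have h1 := LM_ricci hη.kae hz
  rw [Pi.add_apply, LM_add ((isF_th M).smAt hz) ((isF_ddc (sm_log_dt hη.kae)).smAt hz)] at h1
  have h2 : (ddc M.toAtl fun p => Real.log (dt M η p)) a = fun _ => Real.log c := by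
    funext z
    simp only [ddc, Atl.loc, hc]
  rw [h2, LM_const, add_zero] at h1
  have h3 := ric_par (Φ := η a) (ζ := fun z => ζ a (lf lh m ((M.e a).symm z)))
    (U := (M.e a).target ∩ ({w | AnalyticAt ℂ (fun z => ζ a (lf lh m ((M.e a).symm z))) w} ∩
      {w | AnalyticAt ℂ (fun z => star (LM (η a) z *ᵥ ζ a (lf lh m ((M.e a).symm z)))) w}))
    ((M.e a).open_target.inter ((isOpen_analyticAt ℂ _).inter (isOpen_analyticAt ℂ _)))
    ((hη.kae.1.sm a).mono inter_subset_left) (fun z hz => hη.kae.2 a z hz.1)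
    (fun z hz => hz.2.1) (fun z hz => hz.2.2) _ ⟨hz, h.hol a m hm, h.par a m hm⟩
  rwa [← h1, (M.e a).left_inv hm, (u1_lf_left lh m).self_of_nhds] at h3

/-- The projector onto the parallel fields. -/
theorem u1_proj {Γ : Type} [Group Γ] [MulAction Γ V] (hp : IsQuotientCoveringMap π Γ)
    (hη : Kae A η) {ξ : Fin q → A.ι → V → Cn n} (h1 : ∀ i, PF A η lh (ξ i))
    (h2 : ∀ i j a m, π m ∈ (A.e a).source →
      star (ξ i a m) ⬝ᵥ LM (η a) (A.e a (π m)) *ᵥ ξ j a m = if i = j then 1 else 0)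
    (h3 : ∀ ζ, PF A η lh ζ → ∃ c : Fin q → ℂ, ∀ a m, π m ∈ (A.e a).source →
      ζ a m = ∑ i, c i • ξ i a m) : ∃ Q : EF A, HE A η Q ∧ ∀ a m, π m ∈ (A.e a).source →
        Q a (A.e a (π m)) = u1pj (LM (η a) (A.e a (π m))) fun i => ξ i a m := by
  choose s hs using hp.surjective
  have key : ∀ a m m', π m ∈ (A.e a).source → π m' = π m →
      (u1pj (LM (η a) (A.e a (π m))) fun i => ξ i a m') =
        u1pj (LM (η a) (A.e a (π m))) fun i => ξ i a m := by
    intro a m m' hm e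
    have hm' : π m' ∈ (A.e a).source := by rwa [e]
    refine u1pj_eq (hη.2 a _ ((A.e a).map_source hm)) (fun i j => e ▸ h2 i j a m' hm')
      (fun i j => h2 i j a m hm) (fun i => ?_) fun i => ?_
    · obtain ⟨g, hg⟩ := hp.apply_eq_iff_mem_orbit.1 e.symm
      obtain ⟨c, hc⟩ := h3 _ (u1_smul hp (h1 i) g)
      exact ⟨c, hg ▸ hc a m' hm'⟩
    · obtain ⟨g, hg⟩ := hp.apply_eq_iff_mem_orbit.1 e
      obtain ⟨c, hc⟩ := h3 _ (u1_smul hp (h1 i) g)
      exact ⟨c, hg ▸ hc a m hm⟩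
  refine ⟨fun a z => u1pj (LM (η a) z) fun i => ξ i a (s ((A.e a).symm z)),
    ⟨fun a i j z hz => ?_, fun a b z hz => ?_, fun a z _ => (u1pj_psd _ _).1⟩, fun a m hm => ?_⟩
  · set m := s ((A.e a).symm z)
    have e : π m = (A.e a).symm z := hs _
    have hm : π m ∈ (A.e a).source := by rw [e]; exact (A.e a).map_target hz
    have e' : A.e a (π m) = z := by rw [e, (A.e a).right_inv hz]
    have k1 : AnalyticAt ℂ (fun w => u1pj (LM (η a) w)
        (fun i => ξ i a (lf lh m ((A.e a).symm w))) i j) z := by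
      simp only [u1pj, Matrix.sum_apply, vecMulVec_apply]
      rw [← e']
      exact Finset.analyticAt_fun_sum _ fun l _ => (analyticAt_pi_iff.1 ((h1 l).hol a m hm) i).mul
        (analyticAt_pi_iff.1 ((h1 l).par a m hm) j)
    refine k1.congr ?_
    have k2 := ((A.e a).tendsto_symm hm).eventually (u1_lf_right lh m)
    rw [e'] at k2
    filter_upwards [k2, (A.e a).open_target.mem_nhds hz] with w hw hw'
    have k3 := key a (s ((A.e a).symm w)) (lf lh m ((A.e a).symm w))
      (by rw [hs]; exact (A.e a).map_target hw') (by rw [hw, hs])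
    rw [hs, (A.e a).right_inv hw'] at k3
    rw [k3]
  · have k1 : (A.e b).symm (A.tr a b z) = (A.e a).symm z := (A.e b).left_inv hz.2
    refine u1pj_compat (hη.1.compat a b z hz) fun i => ?_
    have k2 := (h1 i).compat a b (s ((A.e a).symm z)) (by rw [hs]; exact (A.e a).map_target hz.1)
      (by rw [hs]; exact hz.2)
    rw [hs, (A.e a).right_inv hz.1] at k2
    rw [k1, k2]
  · exact key a m _ hm (by rw [hs, (A.e a).left_inv hm])

end Vale.Agent.P299
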