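import Vale.Agent.P299.Defs2
import Vale.Agent.P300.EMrx

/-! P299, part U1: the universal cover and its deck group. -/

open Set Filter Topology

noncomputable section

namespace Vale.Agent.P299

open Vale.Agent.P271

section Aux

variable {M V Γ : Type} [TopologicalSpace M] [TopologicalSpace V] [Group Γ] [MulAction Γ V]
  {p : V → M}

theorem U1T_pair [T2Space M] (hp : IsQuotientCoveringMap p Γ) (x y : V) :
    ∃ U ∈ 𝓝 x, ∃ W ∈ 𝓝 y, {g : Γ | ∃ z ∈ U, g • z ∈ W}.Finite := by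
  by_cases h : p y = p x
  · obtain ⟨g0, rfl⟩ := hp.apply_eq_iff_mem_orbit.1 h
    obtain ⟨U, hU, hd⟩ := hp.disjoint x
    refine ⟨U, hU, (fun z => g0⁻¹ • z) ⁻¹' U, (hp.continuous_const_smul g0⁻¹).continuousAt
      (by simpa using hU), (finite_singleton g0).subset ?_⟩
    rintro g ⟨z, hz, hz'⟩
    have h1 := hd (g0⁻¹ * g) ⟨_, ⟨z, hz, rfl⟩, by simpa [mul_smul] using hz'⟩
    exact (inv_mul_eq_one.1 h1).symm
  · obtain ⟨W, U, hW, hU, hy, hx, hd⟩ := t2_separation h
    refine ⟨p ⁻¹' U, (hU.preimage hp.continuous).mem_nhds hx, p ⁻¹' W,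
      (hW.preimage hp.continuous).mem_nhds hy, finite_empty.subset ?_⟩
    rintro g ⟨z, hz, hz'⟩
    rw [mem_preimage, hp.map_smul] at hz'
    exact disjoint_left.1 hd hz' hz

theorem U1T_loc [T2Space M] (hp : IsQuotientCoveringMap p Γ) {K : Set V} (hK : IsCompact K)
    (x : V) : ∃ U ∈ 𝓝 x, {g : Γ | ∃ z ∈ U, g • z ∈ K}.Finite := by
  refine hK.induction_on (p := fun K => ∃ U ∈ 𝓝 x, {g : Γ | ∃ z ∈ U, g • z ∈ K}.Finite)
    ⟨univ, univ_mem, by simp⟩ ?_ ?_ ?_
  · rintro s t hst ⟨U, hU, h⟩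
    exact ⟨U, hU, h.subset fun g ⟨z, h1, h2⟩ => ⟨z, h1, hst h2⟩⟩
  · rintro s t ⟨U, hU, h⟩ ⟨U', hU', h'⟩
    refine ⟨U ∩ U', inter_mem hU hU', (h.union h').subset ?_⟩
    rintro g ⟨z, h1, h2 | h2⟩
    exacts [Or.inl ⟨z, h1.1, h2⟩, Or.inr ⟨z, h1.2, h2⟩]
  · intro y _
    obtain ⟨U, hU, W, hW, h⟩ := U1T_pair hp x y
    exact ⟨W, mem_nhdsWithin_of_mem_nhds hW, U, hU, h⟩

theorem U1T_prop [T2Space M] (hp : IsQuotientCoveringMap p Γ) {K K' : Set V} (hK : IsCompact K)
    (hK' : IsCompact K') : {g : Γ | ∃ z ∈ K', g • z ∈ K}.Finite := by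
  refine hK'.induction_on (p := fun U => {g : Γ | ∃ z ∈ U, g • z ∈ K}.Finite) (by simp) ?_ ?_ ?_
  · exact fun s t hst h => h.subset fun g ⟨z, h1, h2⟩ => ⟨z, hst h1, h2⟩
  · intro s t h h'
    refine (h.union h').subset ?_
    rintro g ⟨z, h1 | h1, h2⟩
    exacts [Or.inl ⟨z, h1, h2⟩, Or.inr ⟨z, h1, h2⟩]
  · intro y _
    obtain ⟨U, hU, h⟩ := U1T_loc hp hK y
    exact ⟨U, mem_nhdsWithin_of_mem_nhds hU, h⟩

/-- A compact set whose interior meets every orbit. -/
theorem U1T_coc [CompactSpace M] [WeaklyLocallyCompactSpace V] (hp : IsQuotientCoveringMap p Γ) :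
    ∃ K : Set V, IsCompact K ∧ ∀ m : V, ∃ γ : Γ, γ • m ∈ interior K := by
  choose C hC hC' using fun v : V => exists_compact_mem_nhds v
  obtain ⟨t, ht⟩ := isCompact_univ.elim_finite_subcover (fun v => p '' interior (C v))
    (fun v => hp.isCoveringMap.isOpenMap _ isOpen_interior) fun x _ => by
      obtain ⟨v, rfl⟩ := hp.surjective x
      exact mem_iUnion.2 ⟨v, v, mem_interior_iff_mem_nhds.2 (hC' v), rfl⟩
  refine ⟨⋃ v ∈ t, C v, t.isCompact_biUnion fun v _ => hC v, fun m => ?_⟩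
  obtain ⟨v, hv, w, hw, he⟩ := mem_iUnion₂.1 (ht (mem_univ (p m)))
  obtain ⟨γ, rfl⟩ := hp.apply_eq_iff_mem_orbit.1 he
  exact ⟨γ, interior_mono (subset_biUnion_of_mem (u := C) hv) hw⟩

theorem U1T_fg [T2Space M] [ConnectedSpace V] (hp : IsQuotientCoveringMap p Γ) {K : Set V}
    (hK : IsCompact K) (h : ∀ m : V, ∃ γ : Γ, γ • m ∈ interior K) : Group.FG Γ := by
  have hS := U1T_prop hp hK hK
  refine Group.fg_iff.2 ⟨_, ?_, hS⟩
  generalize hH : Subgroup.closure {g : Γ | ∃ z ∈ K, g • z ∈ K} = H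
  have hmem : ∀ g : Γ, ∀ z ∈ K, g • z ∈ K → g ∈ H := fun g z hz hz' =>
    hH ▸ Subgroup.subset_closure ⟨z, hz, hz'⟩
  have hop : ∀ T : Set Γ, IsOpen (⋃ g ∈ T, (fun z : V => g • z) ⁻¹' interior K) := fun T =>
    isOpen_biUnion fun g _ => isOpen_interior.preimage (hp.continuous_const_smul g)
  obtain ⟨m⟩ : Nonempty V := inferInstance
  obtain ⟨γ, hγ⟩ := h m
  rw [eq_top_iff]
  intro g _
  by_contra hg
  obtain ⟨z, -, hz1, hz2⟩ := isPreconnected_univ (α := V) _ _ (hop H) (hop (H : Set Γ)ᶜ)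
    (fun z _ => by
      obtain ⟨δ, hδ⟩ := h z
      by_cases hd : δ ∈ H
      exacts [Or.inl (mem_iUnion₂.2 ⟨δ, hd, hδ⟩), Or.inr (mem_iUnion₂.2 ⟨δ, hd, hδ⟩)])
    ⟨γ • m, mem_univ _, mem_iUnion₂.2 ⟨1, H.one_mem, by simpa using hγ⟩⟩
    ⟨g⁻¹ • γ • m, mem_univ _, mem_iUnion₂.2 ⟨g, hg, by simpa using hγ⟩⟩
  obtain ⟨a, ha, ha'⟩ := mem_iUnion₂.1 hz1
  obtain ⟨b, hb, hb'⟩ := mem_iUnion₂.1 hz2
  have h1 : b * a⁻¹ ∈ H := hmem _ (a • z) (interior_subset ha')
    (by simpa [mul_smul] using interior_subset hb')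
  exact hb (by simpa using H.mul_mem h1 ha)

theorem U1T_count (h : Group.FG Γ) : Countable Γ := by
  obtain ⟨S, h1, h2⟩ := Group.fg_iff.1 h
  have := h2.to_subtype
  have h3 : Function.Surjective (FreeGroup.lift (Subtype.val : S → Γ)) := by
    rw [← MonoidHom.range_eq_top, FreeGroup.range_lift_eq_closure, Subtype.range_coe, h1]
  exact h3.countable

/-- The group of deck transformations. -/
def U1T_deck (p : V → M) : Subgroup (Equiv.Perm V) where
  carrier := {f | Continuous f ∧ Continuous f.symm ∧ ∀ v, p (f v) = p v}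
  mul_mem' := fun {f g} hf hg =>
    ⟨hf.1.comp hg.1, hg.2.1.comp hf.2.1, fun v => (hf.2.2 (g v)).trans (hg.2.2 v)⟩
  one_mem' := ⟨continuous_id, continuous_id, fun _ => rfl⟩
  inv_mem' := fun {f} hf => ⟨hf.2.1, hf.1, fun v => by
    have h := hf.2.2 (f.symm v)
    rw [f.apply_symm_apply] at h
    exact h.symm⟩

theorem U1T_quot [SimplyConnectedSpace V] [LocallyPathConnectedSpace V] (hp : IsCoveringMap p)
    (hs : Function.Surjective p) : IsQuotientCoveringMap p (U1T_deck p) := by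
  have hex : ∀ a b : V, p a = p b → ∃ f : V → V, Continuous f ∧ f b = a ∧ p ∘ f = p :=
    fun a b hab => by
      obtain ⟨F, ⟨h1, h2⟩, -⟩ := hp.existsUnique_continuousMap_lifts ⟨p, hp.continuous⟩ b a hab
      exact ⟨F, F.continuous, h1, h2⟩
  refine (isQuotientCoveringMap_iff_isCoveringMap_and _ _).2 ⟨hp, hs, ⟨fun g => g.2.1⟩,
    isCancelSMul_iff_eq_one_of_smul_eq.2 fun g x hx => ?_, fun {a b} => ⟨fun hab => ?_, ?_⟩⟩
  · have h := hp.eq_of_comp_eq g.2.1 continuous_id (funext g.2.2.2) x hx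
    exact Subtype.ext (Equiv.ext fun v => congrFun h v)
  · obtain ⟨f, hf, hf1, hf2⟩ := hex a b hab
    obtain ⟨g, hg, hg1, hg2⟩ := hex b a hab.symm
    have h1 : g ∘ f = id := hp.eq_of_comp_eq (hg.comp hf) continuous_id
      (by rw [← Function.comp_assoc, hg2, hf2]; rfl) b (by simp [hf1, hg1])
    have h2 : f ∘ g = id := hp.eq_of_comp_eq (hf.comp hg) continuous_id
      (by rw [← Function.comp_assoc, hf2, hg2]; rfl) a (by simp [hf1, hg1])
    exact ⟨⟨⟨f, g, congrFun h1, congrFun h2⟩, hf, hg, congrFun hf2⟩, hf1⟩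
  · rintro ⟨g, rfl⟩
    exact g.2.2.2 b

/-- Charts at all points give a charted space. -/
@[reducible] def U1T_chart {E : Type} [TopologicalSpace E]
    (h : ∀ x : M, ∃ e : OpenPartialHomeomorph M E, x ∈ e.source) : ChartedSpace E M where
  atlas := univ
  chartAt x := (h x).choose
  mem_chart_source x := (h x).choose_spec
  chart_mem_atlas _ := mem_univ _

theorem U1T_sc {n : ℕ} (h : ∀ x : M, ∃ e : OpenPartialHomeomorph M (Cn n), x ∈ e.source) (y : M)
    (N : Set M) (hN : N ∈ 𝓝 y) : ∃ O, IsOpen O ∧ y ∈ O ∧ O ⊆ N ∧ IsSimplyConnected O := by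
  obtain ⟨e, he⟩ := h y
  have h1 : e.symm ⁻¹' N ∈ 𝓝 (e y) :=
    (e.continuousAt_symm (e.map_source he)).preimage_mem_nhds (by rwa [e.left_inv he])
  obtain ⟨r, hr, hb⟩ := Metric.mem_nhds_iff.1
    (inter_mem (e.open_target.mem_nhds (e.map_source he)) h1)
  let e' := (e.symm.restrOpen (Metric.ball (e y) r) Metric.isOpen_ball).symm
  have ht : e'.target = Metric.ball (e y) r :=
    inter_eq_right.2 fun z hz => (hb hz).1
  refine ⟨e'.source, e'.open_source, ⟨he, Metric.mem_ball_self hr⟩, fun x hx => ?_, ?_⟩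
  · have h2 : e.symm (e x) ∈ N := (hb hx.2).2
    rwa [e.left_inv hx.1] at h2
  · have : ContractibleSpace e'.target := by
      rw [ht]
      exact (convex_ball _ _).contractibleSpace (Metric.nonempty_ball.2 hr)
    exact e'.toHomeomorphSourceTarget.toHomotopyEquiv.simplyConnectedSpace

end Aux

/-- The universal cover of a compact connected manifold with its deck group. -/
theorem exists_top {n : ℕ} {X : Type} [TopologicalSpace X] [T2Space X] [CompactSpace X]
    [ConnectedSpace X] (A : Atl n X) :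
    ∃ (V : Type) (_ : TopologicalSpace V) (_ : T2Space V) (_ : SecondCountableTopology V)
      (_ : SimplyConnectedSpace V) (Γ : Type) (_ : Group Γ) (_ : MulAction Γ V) (π : V → X),
      IsLocalHomeomorph π ∧ Top Γ π := by
  have hX : ∀ x : X, ∃ e : OpenPartialHomeomorph X (Cn n), x ∈ e.source := fun x =>
    (A.cover x).elim fun a ha => ⟨A.e a, ha⟩
  let cX := U1T_chart hX
  have := ChartedSpace.locallyPathConnectedSpace (Cn n) X
  have : PathConnectedSpace X := PathConnectedSpace.of_locallyPathConnectedSpace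
  obtain ⟨V, _, p, hp, hs, _⟩ := P300.exists_universal_cover X (U1T_sc hX)
  have hV : ∀ v : V, ∃ e : OpenPartialHomeomorph V (Cn n), v ∈ e.source := fun v => by
    obtain ⟨e, hv, he⟩ := hp.isLocalHomeomorph v
    obtain ⟨c, hc⟩ := hX (p v)
    refine ⟨e.trans c, hv, ?_⟩
    change e v ∈ c.source
    rwa [← he]
  let cV := U1T_chart hV
  have := ChartedSpace.locallyPathConnectedSpace (Cn n) V
  have := ChartedSpace.locallyCompactSpace (Cn n) V
  have hq := U1T_quot hp hs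
  have h2 : T2Space V := ⟨fun x y hxy => by
    by_cases h : p x = p y
    · exact hp.isSeparatedMap x y h hxy
    · exact separated_by_continuous hp.continuous h⟩
  obtain ⟨K, hK, hK'⟩ := U1T_coc hq
  have hfg := U1T_fg hq hK hK'
  have := U1T_count hfg
  have : SigmaCompactSpace V := SigmaCompactSpace.of_countable
    (range fun γ : U1T_deck p => (fun z : V => γ • z) '' K) (countable_range _)
    (by
      rintro _ ⟨γ, rfl⟩
      exact hK.image (hq.continuous_const_smul γ))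
    (eq_univ_of_forall fun m => by
      obtain ⟨γ, hγ⟩ := hK' m
      exact ⟨_, ⟨γ⁻¹, rfl⟩, γ • m, interior_subset hγ, inv_smul_smul γ m⟩)
  exact ⟨V, inferInstance, h2, ChartedSpace.secondCountable_of_sigmaCompact (Cn n) V, inferInstance,
    U1T_deck p, inferInstance, inferInstance, p, hp.isLocalHomeomorph, hq,
    ⟨K, hK, fun m => (hK' m).imp fun _ h => interior_subset h⟩, fun L hL => U1T_prop hq hL hL, hfg⟩

end Vale.Agent.P299
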