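import Vale.Agent.P299.PartB
import Vale.Agent.P299.U1T
import Vale.Agent.P299.U1F

/-! P299, part U1: the universal cover and the parallel projectors. -/

open MeasureTheory Set Filter Topology Matrix
open scoped ContDiff ENNReal ComplexConjugate ComplexOrder

noncomputable section

namespace Vale.Agent.P299

open Vale.Agent.P271 Vale.Agent.P272

section HE
variable {n : ℕ} {X : Type} [TopologicalSpace X] {A : Atl n X} {η : Frm A} {B C : EF A}

theorem u1_he_one (hη : Kae A η) : HE A η fun _ _ => 1 :=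
  ⟨fun _ _ _ => analyticOnNhd_const, fun _ _ _ _ => by rw [mul_one, one_mul],
    fun a z hz => by rw [mul_one]; exact (hη.2 a z hz).1⟩

theorem u1_he_add (h : HE A η B) (h' : HE A η C) : HE A η fun a z => B a z + C a z :=
  ⟨fun a i j => (h.hol a i j).add (h'.hol a i j),
    fun a b z hz => by rw [mul_add, add_mul, h.compat a b z hz, h'.compat a b z hz],
    fun a z hz => by rw [mul_add]; exact (h.herm a z hz).add (h'.herm a z hz)⟩

theorem u1_he_sub (h : HE A η B) (h' : HE A η C) : HE A η fun a z => B a z - C a z :=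
  ⟨fun a i j => (h.hol a i j).sub (h'.hol a i j),
    fun a b z hz => by rw [mul_sub, sub_mul, h.compat a b z hz, h'.compat a b z hz],
    fun a z hz => by rw [mul_sub]; exact (h.herm a z hz).sub (h'.herm a z hz)⟩

theorem u1_an_aeval {F : Cn n → Mx n} {z : Cn n} (h : ∀ i j, AnalyticAt ℂ (fun w => F w i j) z)
    (P : Polynomial ℂ) : ∀ i j, AnalyticAt ℂ (fun w => Polynomial.aeval (F w) P i j) z := by
  have hp : ∀ (k : ℕ) i j, AnalyticAt ℂ (fun w => (F w ^ k) i j) z := fun k => by
    induction k with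
    | zero => exact fun i j => by simp only [pow_zero]; exact analyticAt_const
    | succ k ih =>
      intro i j
      simp only [pow_succ, mul_apply]
      exact Finset.analyticAt_fun_sum _ fun l _ => (ih i l).mul (h l j)
  refine P.induction_on' (fun p r hp hr i j => ?_) fun k c i j => ?_
  · simp only [map_add, Matrix.add_apply]
    exact (hp i j).add (hr i j)
  · simp only [Polynomial.aeval_monomial, Algebra.algebraMap_eq_smul_one, smul_mul_assoc, one_mul,
      Matrix.smul_apply, smul_eq_mul]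
    exact analyticAt_const.mul (hp k i j)

theorem u1_char [PreconnectedSpace X] (hη : Kae A η) (h : HE A η B) (l : ℝ) {a b : A.ι}
    {z w : Cn n} (hz : z ∈ (A.e a).target) (hw : w ∈ (A.e b).target) :
    (scalar (Fin n) (l : ℂ) - B a z).det = (scalar (Fin n) (l : ℂ) - B b w).det := by
  have key := u1_glob (S := fun a => (A.e a).source)
    (F := fun a p => (scalar (Fin n) (l : ℂ) - B a (A.e a p)).det) A.cover
    (fun a b p ha hb => ?_) (fun a p ha => ?_) ((A.e a).map_target hz) ((A.e b).map_target hw)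
  · simpa only [(A.e a).right_inv hz, (A.e b).right_inv hw] using key
  · obtain ⟨h1, h2⟩ := u1_ov ha hb
    rw [← h2]
    exact u1_det_conj (by rw [DM_det]; exact A.det_tr_ne a b h1) (h.compat a b _ h1) _
  · have h1 := (A.e a).map_source ha
    have h2 := u1_re_const (f := fun z => (scalar (Fin n) (l : ℂ) - B a z).det)
      (u1_an_det fun i j => analyticAt_const.sub (h.hol a i j _ h1)) (by
        filter_upwards [(A.e a).open_target.mem_nhds h1] with z hz
        exact u1_det_im (hη.2 a z hz) (h.herm a z hz) l)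
    filter_upwards [(A.e a).open_source.mem_nhds ha, ((A.e a).continuousAt ha).eventually h2]
      with p h3 h4
    exact ⟨h3, h4⟩

end HE

variable {n : ℕ} {X : Type} [TopologicalSpace X] [T2Space X] [CompactSpace X] [ConnectedSpace X]
  [MeasurableSpace X] [BorelSpace X] {M : Model n X} {η : Frm M.toAtl} {B : EF M.toAtl}

omit [T2Space X] [CompactSpace X] [BorelSpace X] in
theorem u1_prj (hη : KY M η) (hB : Par M η B) {Q : EF M.toAtl} (hQ : Par M η Q)
    (hq : ∀ a, ∀ z ∈ (M.e a).target, Q a z * Q a z = Q a z) :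
    ∃ Q' : Fin 3 → EF M.toAtl, Prj M η B Q' ∧ Q' 0 = Q := by
  have h1 := u1_he_add hB.he hQ.he
  obtain ⟨p0⟩ := (inferInstance : Nonempty X)
  obtain ⟨a0, h0⟩ := M.cover p0
  obtain ⟨P, hP, hP'⟩ := u1_poly (B a0 (M.e a0 p0) + Q a0 (M.e a0 p0))
  obtain ⟨N, hN⟩ : ∃ N : EF M.toAtl, ∀ a z, N a z = Polynomial.aeval (B a z + Q a z) P :=
    ⟨_, fun _ _ => rfl⟩
  have h2 := fun a z (hz : z ∈ (M.e a).target) => u1_lin (hη.kae.2 a z hz) (hB.psd a z hz)
    (hQ.psd a z hz) hP (fun l hl h => hP' _ (Complex.ofReal_ne_zero.2 hl)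
      ((u1_char hη.kae h1 l ((M.e a0).map_source h0) hz).trans h)) (hN a z)
  have h3 : HE M.toAtl η N := ⟨fun a i j z hz => by
      simp only [hN]
      exact u1_an_aeval (fun i j => h1.hol a i j z hz) P i j,
    fun a b z hz => by rw [hN, hN]; exact u1_aeval_conj (h1.compat a b z hz) P,
    fun a z hz => (h2 a z hz).1⟩
  refine ⟨![Q, fun a z => 1 - N a z - Q a z, N], ⟨fun i => ?_, fun i j a z hz => ?_,
    fun a z _ => ?_, fun i hi a z hz => ?_, fun a z hz => (h2 a z hz).2.2.1⟩, rfl⟩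
  · fin_cases i
    exacts [hQ.he, u1_he_sub (u1_he_sub (u1_he_one hη.kae) h3) hQ.he, h3]
  · obtain ⟨-, k1, -, k2, k3⟩ := h2 a z hz
    have k4 := hq a z hz
    fin_cases i <;> fin_cases j <;> simp [mul_sub, sub_mul, k1, k2, k3, k4]
  · simp [Fin.sum_univ_three]
  · fin_cases i
    · exact hQ.ric a z hz
    · change LM (th M a) z * (1 - N a z - Q a z) = 0
      rw [mul_sub, hQ.ric a z hz, sub_zero, hN]
      exact u1_kill (by rw [mul_add, hB.ric a z hz, hQ.ric a z hz, add_zero]) hP
    · exact absurd rfl hi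

theorem partU1 (hη : KY M η) (hB : Par M η B) : Nonempty (Pre M η B) := by
  obtain ⟨V, _, _, _, _, Γ, _, _, π, lh, tp⟩ := exists_top M.toAtl
  obtain ⟨q, ξ, h1, h2, h3⟩ := u1_fields hη.kae lh
  obtain ⟨Q, h4, h5⟩ := u1_proj tp.cov hη.kae h1 h2 h3
  have h6 : ∀ a, ∀ z ∈ (M.e a).target, ∃ m, π m ∈ (M.e a).source ∧ M.e a (π m) = z := by
    intro a z hz
    obtain ⟨m, hm⟩ := tp.cov.surjective ((M.e a).symm z)
    exact ⟨m, by rw [hm]; exact (M.e a).map_target hz, by rw [hm, (M.e a).right_inv hz]⟩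
  have h7 : ∀ a m, π m ∈ (M.e a).source → (LM (η a) (M.e a (π m))).IsHermitian :=
    fun a m hm => (hη.kae.2 a _ ((M.e a).map_source hm)).1
  obtain ⟨Q', h8, rfl⟩ := u1_prj hη hB (Q := Q) ⟨h4, fun a z hz => by
      obtain ⟨m, hm, rfl⟩ := h6 a z hz
      rw [h5 a m hm]
      exact u1pj_psd _ _, fun a z hz => by
      obtain ⟨m, hm, rfl⟩ := h6 a z hz
      rw [h5 a m hm, u1pj_left (T' := 0) fun i => by rw [u1_ric hη (h1 i) hm, zero_mulVec],
        zero_mul]⟩ fun a z hz => by
    obtain ⟨m, hm, rfl⟩ := h6 a z hz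
    rw [h5 a m hm]
    exact u1pj_mul (h7 a m hm) (fun i j => h2 i j a m hm) (u1_self _)
  refine ⟨{ V := V, Γ := Γ, π := π, lh := lh, tp := tp, Q := Q', prj := h8, q := q, ξ := ξ
            pf := h1, on := h2, span := fun a m hm v => ?_, inv := fun γ => ?_
            max := fun ζ hζ a m hm => ?_ }⟩
  · rw [h5 a m hm, u1pj_mulVec (h7 a m hm)]
  · choose c hc using fun i => h3 _ (u1_smul tp.cov (h1 i) γ)
    exact ⟨Matrix.of c, hc⟩
  · obtain ⟨c, hc⟩ := h3 ζ hζ
    rw [h5 a m hm, hc a m hm]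
    exact u1pj_fix (h7 a m hm) (fun i j => h2 i j a m hm) c

end Vale.Agent.P299
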