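import Vale.Agent.P299.U2K
import Vale.Agent.P278F.Frob
import Vale.Agent.P278F.Osg

/-! P299, part U2: coordinates in which the projectors are constant. -/

open MeasureTheory Set Filter Topology Matrix
open scoped ContDiff ComplexConjugate ComplexOrder

noncomputable section

namespace Vale.Agent.P299.U2

open Vale.Agent.P271 Vale.Agent.P272

variable {n : ℕ}

theorem U2b_one {Φ : Cn n → ℝ} {Q : Cn n → Mx n} {z₀ : Cn n}
    (h : ∀ᶠ z in 𝓝 z₀, ContDiffAt ℝ ∞ Φ z ∧ (LM Φ z).PosDef ∧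
      (∀ j k, AnalyticAt ℂ (fun y => Q y j k) z) ∧ (LM Φ z * Q z).IsHermitian ∧ Q z * Q z = Q z) :
    ∃ u : Cn n → Cn n, (∀ v, fderiv ℂ u z₀ v = Q z₀ *ᵥ v) ∧ ∀ᶠ z in 𝓝 z₀,
      DifferentiableAt ℂ u z ∧ ∀ v, fderiv ℂ u z v = fderiv ℂ u z (Q z *ᵥ v) ∧
        Q z₀ *ᵥ fderiv ℂ u z v = fderiv ℂ u z v := by
  obtain ⟨R, hR, hd⟩ : ∃ R : Cn n → Cn n →L[ℂ] Cn n, (∀ q v, R q v = Q q *ᵥ v) ∧
      ∀ᶠ q in 𝓝 z₀, DifferentiableAt ℂ R q := by
    refine ⟨fun q => ∑ j, ∑ k, Q q j k • (ContinuousLinearMap.single ℂ (fun _ => ℂ) j).comp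
      (ContinuousLinearMap.proj k), fun q v => funext fun i => ?_, h.mono fun q hq => ?_⟩
    · simp [Finset.sum_apply, Pi.single_apply, mulVec, dotProduct]
    · exact DifferentiableAt.fun_sum fun j _ => DifferentiableAt.fun_sum fun k _ =>
        (hq.2.2.1 j k).differentiableAt.smul_const _
  have hP : ∀ q v, (1 - R q) v = v - Q q *ᵥ v := fun q v => by
    rw [_root_.sub_apply, one_apply_eq_self, hR]
  obtain ⟨u, h1, h2⟩ := P278F.frob_integral (fun q => 1 - R q) z₀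
    (hd.mono fun q hq => hq.const_sub _)
    (h.mono fun q hq v => by
      rw [hP, hP, mulVec_sub, mulVec_mulVec, hq.2.2.2.2, sub_self, sub_zero])
    (by
      filter_upwards [h.eventually_nhds, hd] with q hq hq' v w
      obtain ⟨a1, a2, a3, -, a4⟩ := hq.self_of_nhds
      obtain ⟨Γ, g1, g2⟩ := he_par a1 a2 a3 (hq.mono fun y hy => hy.2.2.2.1)
      have e : ∀ a b, fderiv ℂ (fun q => 1 - R q) q a b = Γ a *ᵥ Q q *ᵥ b - Q q *ᵥ Γ a *ᵥ b :=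
        fun a b => by
          have e1 := congrArg (· a) (fderiv_clm_apply hq' (differentiableAt_const b))
          simp only [hR] at e1
          rw [fderiv_const_sub, ← neg_sub, ← g2, e1]
          simp
      have e2 : ∀ a b, Q q *ᵥ (Γ a *ᵥ Q q *ᵥ b - Q q *ᵥ Γ a *ᵥ b) =
          -(Q q *ᵥ Γ a *ᵥ (b - Q q *ᵥ b)) := fun a b => by
        rw [mulVec_sub, mulVec_sub, mulVec_sub, mulVec_mulVec _ (Q q) (Q q), a4, neg_sub]
      rw [hP, e, e, mulVec_sub, e2, e2, hP, hP, g1 _ (w - _), sub_self, sub_zero])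
  refine ⟨u, fun v => by rw [h2, sub_sub_cancel, hR], h1.mono fun q hq => ⟨hq.1, fun v => ⟨?_, ?_⟩⟩⟩
  · have := hq.2.1 v
    rwa [hP, map_sub, sub_eq_zero] at this
  · have := hq.2.2.2 v
    rw [hP, sub_eq_zero] at this
    exact this.symm

theorem loc_chart {Φ : Cn n → ℝ} {Q : Fin 3 → Cn n → Mx n} {z₀ : Cn n}
    (h : ∀ᶠ z in 𝓝 z₀, ContDiffAt ℝ ∞ Φ z ∧ (LM Φ z).PosDef ∧
      (∀ i j k, AnalyticAt ℂ (fun y => Q i y j k) z) ∧ (∀ i, (LM Φ z * Q i z).IsHermitian) ∧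
      (∀ i j, Q i z * Q j z = if i = j then Q i z else 0) ∧ ∑ i, Q i z = 1) :
    ∃ ψ : Cn n → Cn n, (∀ v, fderiv ℂ ψ z₀ v = v) ∧ ∀ᶠ z in 𝓝 z₀, AnalyticAt ℂ ψ z ∧
      ∀ i v, fderiv ℂ ψ z (Q i z *ᵥ v) = Q i z₀ *ᵥ fderiv ℂ ψ z v := by
  choose u h1 h2 using fun i => U2b_one (Q := Q i) (h.mono fun z hz =>
    ⟨hz.1, hz.2.1, hz.2.2.1 i, hz.2.2.2.1 i, by rw [hz.2.2.2.2.1, if_pos rfl]⟩)
  have h3 := eventually_all.2 h2
  have h4 : ∀ᶠ z in 𝓝 z₀, ∀ v, fderiv ℂ (fun y => ∑ i, u i y) z v = ∑ i, fderiv ℂ (u i) z v :=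
    h3.mono fun z hz v => by
      rw [fderiv_fun_sum fun i _ => (hz i).1, _root_.sum_apply]
  obtain ⟨-, -, -, -, b1, b2⟩ := h.self_of_nhds
  refine ⟨fun y => ∑ i, u i y, fun v => ?_, ?_⟩
  · simp only [h4.self_of_nhds, h1]
    rw [← sum_mulVec, b2, one_mulVec]
  · filter_upwards [h3.eventually_nhds, h4, h] with z a1 a2 a3
    have a4 := a1.self_of_nhds
    refine ⟨P278F.analyticAt_of_eventually
      (a1.mono fun y hy => DifferentiableAt.fun_sum fun i _ => (hy i).1), fun i v => ?_⟩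
    rw [a2, a2, mulVec_sum]
    refine Finset.sum_congr rfl fun j _ => ?_
    rw [((a4 j).2 _).1, ← ((a4 j).2 v).2, mulVec_mulVec, mulVec_mulVec, a3.2.2.2.2.1, b1]
    by_cases hj : i = j
    · rw [if_pos hj, if_pos hj.symm, hj, ((a4 j).2 v).2, ← ((a4 j).2 v).1]
    · rw [if_neg hj, if_neg (Ne.symm hj), zero_mulVec, zero_mulVec, map_zero]

end Vale.Agent.P299.U2
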