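import Vale.Agent.P299.U2D

/-! P299, part U2: the ranks of the projectors. -/

open MeasureTheory Set Filter Topology Matrix
open scoped ContDiff ComplexConjugate ComplexOrder

noncomputable section

namespace Vale.Agent.P299.U2

open Vale.Agent.P271 Vale.Agent.P272

variable {n : ℕ} {X : Type} [TopologicalSpace X] [MeasurableSpace X] {M : Model n X}
  {η : Frm M.toAtl} {B : EF M.toAtl} {Q : Fin 3 → EF M.toAtl}

theorem U2c_trace {R : Mx n} (h : R * R = R) : R.trace = (R.rank : ℂ) := by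
  have h1 : LinearMap.IsProj (LinearMap.range R.mulVecLin) R.mulVecLin :=
    ⟨fun x => ⟨x, rfl⟩, by
      rintro _ ⟨x, rfl⟩
      rw [mulVecLin_apply, mulVecLin_apply, mulVec_mulVec, h]⟩
  rw [← Matrix.trace_toLin'_eq, Matrix.toLin'_apply', h1.trace]
  rfl

theorem U2c_nat {m k : ℕ} (h : dist (m : ℂ) (k : ℂ) < 1) : m = k := by
  have h1 : ((m : ℂ) - k) = (((m : ℤ) - k : ℤ) : ℂ) := by push_cast; rfl
  rw [dist_eq_norm, h1, Complex.norm_intCast] at h
  have h2 : |(m : ℤ) - k| < 1 := by exact_mod_cast h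
  have h3 := Int.abs_lt_one_iff.1 h2
  omega

theorem U2c_rep {A : Atl n X} {η : Frm A} {R : EF A} (h : HE A η R) {a : A.ι} {p : X}
    (hp : p ∈ (A.e a).source) :
    (R a (A.e a p)).rank = (R (ch A p) (A.e (ch A p) p)).rank := by
  have h1 := h.compat a _ _ (ApiA_ov hp)
  rw [show A.tr a (ch A p) (A.e a p) = A.e (ch A p) p by rw [Atl.tr, (A.e a).left_inv hp]] at h1
  have h2 := (ApiA_det_ne hp).isUnit
  rw [← rank_mul_eq_right_of_isUnit_det _ _ h2, h1, rank_mul_eq_left_of_isUnit_det _ _ h2]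

theorem rank_const [ConnectedSpace X] (hQ : Prj M η B Q) :
    ∃ d : Fin 3 → ℕ, ∀ i a, ∀ z ∈ (M.e a).target, (Q i a z).rank = d i := by
  have hid : ∀ i a, ∀ z ∈ (M.e a).target, Q i a z * Q i a z = Q i a z := fun i a z hz => by
    rw [hQ.mul i i a z hz, if_pos rfl]
  have h1 : ∀ i, IsLocallyConstant fun p =>
      (Q i (ch M.toAtl p) (M.e (ch M.toAtl p) p)).rank := fun i => by
    refine (IsLocallyConstant.iff_eventually_eq _).2 fun p => ?_
    have hp := ch_mem M.toAtl p
    have hz := ApiA_ch M.toAtl p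
    have h2 : ContinuousAt (fun w => (Q i (ch M.toAtl p) w).trace) (M.e (ch M.toAtl p) p) :=
      (Finset.analyticAt_fun_sum _ fun j _ => (hQ.he i).hol _ j j _ hz).continuousAt
    have h3 := ((M.e _).continuousAt hp).eventually (Metric.tendsto_nhds.1 h2 1 one_pos)
    filter_upwards [h3, (M.e _).open_source.mem_nhds hp] with q h4 h5
    rw [U2c_trace (hid i _ _ hz), U2c_trace (hid i _ _ ((M.e _).map_source h5))] at h4
    rw [← U2c_rep (hQ.he i) h5, U2c_nat h4]
  obtain ⟨p₀⟩ : Nonempty X := inferInstance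
  refine ⟨fun i => (Q i (ch M.toAtl p₀) (M.e (ch M.toAtl p₀) p₀)).rank, fun i a z hz => ?_⟩
  have h2 := U2c_rep (hQ.he i) ((M.e a).map_target hz)
  rw [(M.e a).right_inv hz] at h2
  rw [h2]
  exact (h1 i).apply_eq_of_preconnectedSpace _ _

theorem lin_split {R : Fin 3 → Mx n} (hm : ∀ i j, R i * R j = if i = j then R i else 0)
    (hs : ∑ i, R i = 1) {d : Fin 3 → ℕ} (hd : ∀ i, (R i).rank = d i) :
    ∃ L : PP d ≃L[ℂ] Cn n, ∀ i v, R i *ᵥ L v = L (prP i v) := by
  let e : ∀ i, P278.Cn (d i) ≃ₗ[ℂ] LinearMap.range (R i).mulVecLin := fun i =>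
    LinearEquiv.ofFinrankEq _ _ (by
      rw [finrank_euclideanSpace_fin, ← hd i]
      rfl)
  let L : PP d →ₗ[ℂ] Cn n := ∑ i, (LinearMap.range (R i).mulVecLin).subtype ∘ₗ
    (e i).toLinearMap ∘ₗ LinearMap.proj i
  have hL : ∀ v, L v = ∑ i, (e i (v i) : Cn n) := fun v => by
    simp only [L, LinearMap.sum_apply]
    rfl
  have h1 : ∀ i v, R i *ᵥ L v = e i (v i) := fun i v => by
    choose u hu using fun j => (e j (v j)).2
    simp only [hL, mulVec_sum, ← hu, mulVecLin_apply, mulVec_mulVec, hm]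
    rw [Finset.sum_eq_single i (fun j _ hj => by rw [if_neg hj.symm, zero_mulVec])
      fun h => absurd (Finset.mem_univ i) h, if_pos rfl]
  have h2 : Function.Bijective L := by
    refine ⟨(injective_iff_map_eq_zero L).2 fun v hv => funext fun i => ?_, fun w => ?_⟩
    · have h3 := h1 i v
      rw [hv, mulVec_zero] at h3
      exact (e i).map_eq_zero_iff.1 (Subtype.ext h3.symm)
    · refine ⟨fun i => (e i).symm ⟨R i *ᵥ w, w, rfl⟩, ?_⟩
      simp only [hL, LinearEquiv.apply_symm_apply]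
      rw [← sum_mulVec, hs, one_mulVec]
  refine ⟨(LinearEquiv.ofBijective L h2).toContinuousLinearEquiv, fun i v => ?_⟩
  show R i *ᵥ L v = L (prP i v)
  rw [h1, hL, Finset.sum_eq_single i (fun j _ hj => by
    rw [prP, Pi.single_eq_of_ne hj, map_zero, Submodule.coe_zero])
    fun h => absurd (Finset.mem_univ i) h, prP, Pi.single_eq_same]

end Vale.Agent.P299.U2
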