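import Vale.Agent.P299.U2a
import Vale.Agent.P299.U2b
import Vale.Agent.P299.U2c
import Vale.Agent.P278.FrobB

/-! P299, part U2: product charts. -/

open MeasureTheory Set Filter Topology Matrix
open scoped ContDiff ComplexConjugate ComplexOrder

noncomputable section

namespace Vale.Agent.P299.U2

open Vale.Agent.P271 Vale.Agent.P272

variable {n : ℕ} {X : Type} [TopologicalSpace X] [MeasurableSpace X] {M : Model n X}
  {η : Frm M.toAtl} {B : EF M.toAtl} {Q : Fin 3 → EF M.toAtl}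

theorem U2c2_inv {V W : Type} [NormedAddCommGroup V] [NormedSpace ℂ V] [NormedAddCommGroup W]
    [NormedSpace ℂ W] (e : OpenPartialHomeomorph V W) {p : W} (hp : p ∈ e.target)
    (h1 : DifferentiableAt ℂ e (e.symm p)) (h2 : DifferentiableAt ℂ e.symm p) :
    (∀ v, fderiv ℂ e (e.symm p) (fderiv ℂ e.symm p v) = v) ∧
      ∀ v, fderiv ℂ e.symm p (fderiv ℂ e (e.symm p) v) = v := by
  have a1 : fderiv ℂ (e ∘ e.symm) p = fderiv ℂ id p :=
    EventuallyEq.fderiv_eq (e.eventually_right_inverse hp)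
  have a2 : fderiv ℂ (e.symm ∘ e) (e.symm p) = fderiv ℂ id (e.symm p) :=
    EventuallyEq.fderiv_eq (e.eventually_left_inverse (e.map_target hp))
  rw [fderiv_comp p h1 h2, fderiv_id] at a1
  rw [fderiv_comp _ (by rwa [e.right_inv hp]) h1, fderiv_id, e.right_inv hp] at a2
  exact ⟨fun v => DFunLike.congr_fun a1 v, fun v => DFunLike.congr_fun a2 v⟩

theorem prod_chart (hη : Kae M.toAtl η) (hQ : Prj M η B Q) {d : Fin 3 → ℕ}
    (hd : ∀ i a, ∀ z ∈ (M.e a).target, (Q i a z).rank = d i) (x : X) :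
    ∃ c : OpenPartialHomeomorph X (PP d), x ∈ c.source ∧
      ∀ p ∈ c.target, Gd M.toAtl Q prP c.symm p := by
  obtain ⟨a, ha⟩ := M.cover x
  have hz := (M.e a).map_source ha
  have hT := (M.e a).open_target.mem_nhds hz
  obtain ⟨ψ, h1, h2⟩ := loc_chart (Φ := η a) (Q := fun i => Q i a) (z₀ := M.e a x) (by
    filter_upwards [hT] with z hz
    exact ⟨hη.1.smAt hz, hη.2 a z hz, fun i j k => (hQ.he i).hol a j k z hz,
      fun i => (hQ.he i).herm a z hz, fun i j => hQ.mul i j a z hz, hQ.sum a z hz⟩)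
  obtain ⟨L, hL⟩ := lin_split (R := fun i => Q i a (M.e a x)) (fun i j => hQ.mul i j a _ hz)
    (hQ.sum a _ hz) fun i => hd i a _ hz
  have h3 : ∀ z, fderiv ℂ (L.symm ∘ ψ) z = (L.symm : Cn n →L[ℂ] PP d).comp (fderiv ℂ ψ z) :=
    fun z => L.symm.comp_fderiv
  obtain ⟨e, he, h4, h5, h6, h7⟩ := P278.fb_inv_chart (L.symm ∘ ψ) (M.e a x)
    ((L.symm.analyticAt _).comp h2.self_of_nhds.1) (fun v w hv => by
      rw [h3] at hv
      exact (h1 v).symm.trans ((L.symm.injective hv).trans (h1 w)))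
    L.symm.toLinearEquiv.finrank_eq _ h2
  refine ⟨(M.e a).trans e, ⟨ha, h4⟩, fun p hp => ?_⟩
  have b1 : p ∈ e.target := hp.1
  have b2 : e.symm p ∈ (M.e a).target := hp.2
  have b3 := e.map_target b1
  have b4 : (fun w => M.e a (((M.e a).trans e).symm w)) =ᶠ[𝓝 p] e.symm := by
    filter_upwards [((M.e a).trans e).open_target.mem_nhds hp] with w hw
    exact (M.e a).right_inv hw.2
  have b5 : DF M.toAtl a ((M.e a).trans e).symm p = fderiv ℂ e.symm p := b4.fderiv_eq
  obtain ⟨c1, c2⟩ := U2c2_inv e b1 (by rw [he]; exact (h6 _ b3).differentiableAt)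
    (h7 p b1).differentiableAt
  refine Gd.of_chart hQ.he (((M.e a).trans e).continuousAt_symm hp) ((M.e a).map_target b2)
    ((h7 p b1).congr b4.symm) ?_ fun i v => ?_
  · rw [b5]
    exact ⟨Function.LeftInverse.injective c1, Function.RightInverse.surjective c2⟩
  · rw [b5, show M.e a (((M.e a).trans e).symm p) = e.symm p from b4.self_of_nhds,
      ← c2 (Q i a _ *ᵥ _)]
    refine congrArg _ ?_
    conv_rhs => rw [← c1 v]
    rw [he, h3]
    refine L.symm_apply_eq.2 (((h5 b3).2 i _).trans ?_)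
    rw [← hL]
    exact congrArg _ (L.apply_symm_apply _).symm

end Vale.Agent.P299.U2
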