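import Vale.Agent.P299.U2d2
import Vale.Agent.P278.AtlM

/-! P299, part U2: the uniform atlas on the covering space. -/

open MeasureTheory Set Filter Topology Matrix
open scoped ContDiff ComplexConjugate ComplexOrder

noncomputable section

namespace Vale.Agent.P299.U2

open Vale.Agent.P271 Vale.Agent.P272

variable {n : ℕ} {X : Type} [TopologicalSpace X] {A : Atl n X} {η : Frm A} {Q : Fin 3 → EF A}
  {V : Type} [TopologicalSpace V] {π : V → X} {d : Fin 3 → ℕ}

/-- a map whose derivative respects the blocks is a product -/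
theorem U2d3_prod {g : PP d → PP d} {z : PP d} {r : ℝ} (hr : 0 < r)
    (h : ∀ p ∈ Metric.ball z r, AnalyticAt ℂ g p ∧ Function.Bijective (fderiv ℂ g p) ∧
      ∀ i v, fderiv ℂ g p (prP i v) = prP i (fderiv ℂ g p v)) :
    ∃ f : ∀ i, P278.Cn (d i) → P278.Cn (d i), P278.Atl.Bi f z ∧
      ∀ᶠ p in 𝓝 z, g p = fun i => f i (p i) := by
  have hA := (h z (Metric.mem_ball_self hr)).1
  have hdiff : ∀ p ∈ Metric.ball z r, DifferentiableAt ℂ g p := fun p hp =>
    (h p hp).1.differentiableAt
  have hL : ∀ p ∈ Metric.ball z r, ∀ j (w : P278.Cn (d j)), ∀ i ≠ j,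
      fderiv ℂ g p (Pi.single j w) i = 0 := by
    intro p hp j w i hij
    have e1 := (h p hp).2.2 j (Pi.single j w)
    simp only [prP, Pi.single_eq_same] at e1
    rw [e1]
    exact Pi.single_eq_of_ne (M := fun i => P278.Cn (d i)) hij _
  have hinj : ∀ u, fderiv ℂ g z u = 0 → u = 0 :=
    (injective_iff_map_eq_zero _).1 (h z (Metric.mem_ball_self hr)).2.1.1
  refine ⟨fun i q => g (Function.update z i q) i, fun i => ⟨?_, ?_⟩, ?_⟩
  · have a1 : AnalyticAt ℂ (Function.update z i) (z i) :=
      (contDiff_update (𝕜 := ℂ) ⊤ z i).contDiffAt.analyticAt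
    have a2 : AnalyticAt ℂ (g ∘ Function.update z i) (z i) :=
      AnalyticAt.comp (by simpa using hA) a1
    exact (ContinuousLinearMap.proj (R := ℂ) (φ := fun i => P278.Cn (d i)) i).analyticAt _ |>.comp a2
  · have a1 := hasFDerivAt_update (𝕜 := ℂ) z (i := i) (z i)
    have a2 : HasFDerivAt g (fderiv ℂ g z) (Function.update z i (z i)) := by
      simpa using hA.differentiableAt.hasFDerivAt
    have a3 := (hasFDerivAt_pi'.1 (a2.comp _ a1)) i
    have a4 := a3.fderiv
    simp only [Function.comp_def] at a4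
    rw [a4, injective_iff_map_eq_zero]
    intro w hw
    have b1 : fderiv ℂ g z (Pi.single i w) = 0 := by
      funext k
      by_cases hk : k = i
      · subst hk
        have e : (Pi.single k w : ∀ i, P278.Cn (d i)) = ContinuousLinearMap.pi
            (Pi.single k (ContinuousLinearMap.id ℂ (P278.Cn (d k)))) w := by
          funext l
          by_cases hl : l = k
          · subst hl
            simp
          · simp [Pi.single_eq_of_ne hl]
        rw [e]
        exact hw
      · exact hL _ (Metric.mem_ball_self hr) i w k hk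
    have b2 := congrFun (hinj _ b1) i
    simpa using b2
  · filter_upwards [Metric.ball_mem_nhds z hr] with p hp
    funext i
    exact P278.block_const hdiff hL hp i

theorem isProd_of_gd (C : P278.Atl V (PP d))
    (h : ∀ a, ∀ p ∈ (C.c a).target, Gd A Q prP (fun w => π ((C.c a).symm w)) p) : C.IsProd := by
  intro a b m hm hm'
  have hmt := (C.c a).map_source hm
  have hm'' : (C.c a).symm (C.c a m) ∈ (C.c b).source := by rwa [(C.c a).left_inv hm]
  have ho := (C.c a).symm.isOpen_inter_preimage (C.c b).open_source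
  obtain ⟨r, hr, hb⟩ := Metric.mem_nhds_iff.1 (ho.mem_nhds ⟨hmt, hm''⟩)
  refine U2d3_prod (g := fun p => C.c b ((C.c a).symm p)) hr fun p hp => ?_
  refine Gd.inv (τ := fun p => C.c b ((C.c a).symm p)) (h b _ ((C.c b).map_source (hb hp).2))
    (h a p (hb hp).1) (ContinuousAt.comp ((C.c b).continuousAt (hb hp).2)
      ((C.c a).continuousAt_symm (hb hp).1)) ?_
  filter_upwards [ho.mem_nhds (hb hp)] with w hw
  rw [(C.c b).left_inv hw.2]

theorem atlV [CompactSpace X] (hη : Kae A η)
    (hc : ∀ x, ∃ c : OpenPartialHomeomorph X (PP d), x ∈ c.source ∧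
      ∀ p ∈ c.target, Gd A Q prP c.symm p) (hπ : IsCoveringMap π) :
    ∃ C : P278.Atl V (PP d), C.IsProd ∧
      ∀ a, ∀ p ∈ (C.c a).target, Gd A Q prP (fun w => π ((C.c a).symm w)) p := by
  choose U hU hsh using P278.exists_sheets hπ
  obtain ⟨C, hC⟩ := atlX hη hc U hU
  have h1 : ∀ z : {z : C.ι × V // π z.2 ∈ (C.c z.1).source}, ∃ e : OpenPartialHomeomorph V X,
      z.1.2 ∈ e.source ∧ (e : V → X) = π ∧ (C.c z.1.1).source ⊆ e.target := by
    intro z
    obtain ⟨x, hx⟩ := (hC z.1.1).2
    obtain ⟨e, a1, a2, a3⟩ := hsh x z.1.2 (hx z.2)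
    exact ⟨e, a1, a2, hx.trans a3⟩
  choose e hm he ht using h1
  have hP : ∀ z, ∀ p ∈ ((e z).trans (C.c z.1.1)).target,
      Gd A Q prP (fun w => π (((e z).trans (C.c z.1.1)).symm w)) p := by
    intro z p hp
    refine ((hC z.1.1).1 p hp.1).congr ?_
    filter_upwards [((e z).trans (C.c z.1.1)).open_target.mem_nhds hp] with w hw
    have a1 := (e z).right_inv hw.2
    rw [he] at a1
    exact a1
  refine ⟨
    { ι := {z : C.ι × V // π z.2 ∈ (C.c z.1).source}
      c := fun z => (e z).trans (C.c z.1.1)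
      tgt := fun z => ?_
      cover := fun m => ?_
      trans := fun a b m ha hb => ?_
      Ω := fun z => C.Ω z.1.1
      lam := C.lam
      Lam := C.Lam
      lam_pos := C.lam_pos
      lam_le := C.lam_le
      smooth := fun a => C.smooth _
      alt := fun a => C.alt _
      closed := fun a => C.closed _
      tame := fun a => C.tame _
      bdd := fun a => C.bdd _
      compat := fun a b m ha hb u v => ?_ }, isProd_of_gd _ hP, hP⟩
  · rw [← C.tgt z.1.1]
    exact Set.inter_eq_left.2 fun p hp => ht z ((C.c z.1.1).map_target hp)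
  · obtain ⟨a, a1, a2⟩ := C.cover (π m)
    refine ⟨⟨(a, m), a1⟩, ⟨hm ⟨(a, m), a1⟩, ?_⟩, ?_⟩
    · show e _ m ∈ (C.c a).source
      rw [he]
      exact a1
    · show ‖C.c a (e _ m)‖ < 1
      rw [he]
      exact a2
  · have hab : (e b : V → X) = e a := (he b).trans (he a).symm
    have hb' : e a m ∈ (C.c b.1.1).source := by
      rw [← hab]
      exact hb.2
    exact (C.trans a.1.1 b.1.1 (e a m) ha.2 hb').congr
      (P278.trans_eventuallyEq hab (c' := C.c b.1.1) ha).symm
  · have hab : (e b : V → X) = e a := (he b).trans (he a).symm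
    have k1 := (P278.trans_eventuallyEq hab (c' := C.c b.1.1) ha).fderiv_eq (𝕜 := ℂ)
    have hb' : e a m ∈ (C.c b.1.1).source := by
      rw [← hab]
      exact hb.2
    have k2 := C.compat a.1.1 b.1.1 (e a m) ha.2 hb' u v
    rw [← k1] at k2
    refine k2.trans ?_
    show C.Ω b.1.1 (C.c b.1.1 (e a m)) _ _ = C.Ω b.1.1 (C.c b.1.1 (e b m)) _ _
    rw [hab]
    rfl

end Vale.Agent.P299.U2
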