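import Vale.Agent.P299.U2D
import Vale.Agent.P278.ProdB1

/-! P299, part U2: the three factors. -/

open MeasureTheory Set Filter Topology Matrix
open scoped ContDiff ComplexConjugate ComplexOrder

noncomputable section

namespace Vale.Agent.P299.U2

open Vale.Agent.P271 Vale.Agent.P272

theorem U2e1_bwd {M κ : Type} [TopologicalSpace M] [Fintype κ] [DecidableEq κ] {d : κ → ℕ}
    {Y : κ → Type} [∀ i, TopologicalSpace (Y i)]
    (e : ∀ i, OpenPartialHomeomorph (Y i) (P278.Cn (d i))) {φ : M → ∀ i, Y i} {m : M}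
    {c : OpenPartialHomeomorph M (∀ i, P278.Cn (d i))} {g : ∀ i, P278.Cn (d i) → P278.Cn (d i)}
    {ψ : (∀ i, Y i) → M} (hψ : Function.LeftInverse ψ φ) (hm : m ∈ c.source)
    (he : ∀ i, φ m i ∈ (e i).source) (hg : P278.Atl.Bi g (c m)) (hφ : ContinuousAt φ m)
    (h : ∀ i, ∀ᶠ m' in 𝓝 m, e i (φ m' i) = g i (c m' i)) : ContinuousAt ψ (φ m) := by
  obtain ⟨g', hg', e1, e2⟩ := hg.inverse
  have e0 : ∀ i, e i (φ m i) = g i (c m i) := fun i => (h i).self_of_nhds
  set χ : (∀ i, Y i) → ∀ i, P278.Cn (d i) := fun y i => e i (y i) with hχ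
  have hχ0 : χ (φ m) = fun i => g i (c m i) := funext e0
  have h1 : ContinuousAt χ (φ m) := continuousAt_pi.2 fun i =>
    ContinuousAt.comp (f := fun y : ∀ i, Y i => y i) ((e i).continuousAt (he i))
      (continuous_apply i).continuousAt
  set G : (∀ i, P278.Cn (d i)) → ∀ i, P278.Cn (d i) := fun p i => g' i (p i) with hG
  have h2 : ContinuousAt G (χ (φ m)) := by
    rw [hχ0]
    exact hg'.analyticAt.continuousAt
  have hG0 : (G ∘ χ) (φ m) = c m := by
    funext i
    simp only [Function.comp, hχ0, hG, e1]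
  have h12 := h2.comp h1
  have h3 : ContinuousAt c.symm ((G ∘ χ) (φ m)) := by
    rw [hG0]
    exact c.continuousAt_symm (c.map_source hm)
  have h4 := h3.comp h12
  have h40 : (c.symm ∘ G ∘ χ) (φ m) = m := by
    rw [Function.comp_apply, hG0, c.left_inv hm]
  have t4 : Tendsto (c.symm ∘ G ∘ χ) (𝓝 (φ m)) (𝓝 m) := by
    have := h4.tendsto
    rwa [h40] at this
  have t3 : Tendsto (G ∘ χ) (𝓝 (φ m)) (𝓝 (c m)) := by
    have := h12.tendsto
    rwa [hG0] at this
  have t1 : ∀ i, Tendsto (fun y => χ y i) (𝓝 (φ m)) (𝓝 (g i (c m i))) := fun i => by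
    have := ((continuous_apply i).continuousAt.comp h1).tendsto
    rw [Function.comp_apply, hχ0] at this
    exact this
  refine h4.congr ?_
  have k : ∀ i, ∀ᶠ y in 𝓝 (φ m), φ ((c.symm ∘ G ∘ χ) y) i = y i := fun i => by
    have hs := (e i).open_source.mem_nhds (he i)
    have a1 : ∀ᶠ y : ∀ i, Y i in 𝓝 (φ m), y i ∈ (e i).source :=
      (continuous_apply i).continuousAt.eventually hs
    have a2 : ∀ᶠ m' in 𝓝 m, φ m' i ∈ (e i).source :=
      ((continuous_apply i).continuousAt.comp hφ).eventually hs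
    filter_upwards [a1, t4.eventually a2, t4.eventually (h i), (t1 i).eventually (e2 i),
      t3.eventually (c.open_target.mem_nhds (c.map_source hm))] with y b1 b2 b3 b4 b5
    refine (e i).injOn b2 b1 ?_
    rw [b3, Function.comp_apply, c.right_inv b5]
    exact b4
  filter_upwards [eventually_all.2 k] with y hy
  have : φ ((c.symm ∘ G ∘ χ) y) = y := funext hy
  rw [← hψ ((c.symm ∘ G ∘ χ) y), this]

theorem U2e1_upd {κ : Type} [Fintype κ] [DecidableEq κ] {d : κ → ℕ}
    (q : ∀ i, P278.Cn (d i)) (i : κ) (p : P278.Cn (d i)) :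
    AnalyticAt ℂ (fun w => Function.update q i w) p := by
  refine analyticAt_pi_iff.2 fun j => ?_
  by_cases hj : j = i
  · subst hj
    simp only [Function.update_self]
    exact analyticAt_id
  · simp only [Function.update_of_ne hj]
    exact analyticAt_const

theorem factors {V : Type} [TopologicalSpace V] [T2Space V] [SecondCountableTopology V]
    [SimplyConnectedSpace V] {d : Fin 3 → ℕ} (C : P278.Atl V (PP d)) (hC : C.IsProd) :
    ∃ (Y : Fin 3 → Type) (_ : ∀ i, TopologicalSpace (Y i))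
      (c : ∀ i, Y i → OpenPartialHomeomorph (Y i) (P278.Cn (d i))) (Φ : V ≃ₜ ∀ i, Y i),
      (∀ i, T2Space (Y i) ∧ SimplyConnectedSpace (Y i) ∧ SecondCountableTopology (Y i)) ∧
      (∀ i y, y ∈ (c i y).source) ∧
      (∀ i y y' p, p ∈ (c i y).source → p ∈ (c i y').source →
        AnalyticAt ℂ (fun w => c i y' ((c i y).symm w)) (c i y p)) ∧
      ∀ (y : ∀ i, Y i) (m : V) (a : C.ι), (∀ i, Φ m i ∈ (c i (y i)).source) →
        m ∈ (C.c a).source → ∃ g : ∀ i, P278.Cn (d i) → P278.Cn (d i),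
          P278.Atl.Bi g (C.c a m) ∧ ∀ᶠ m' in 𝓝 m, ∀ i, c i (y i) (Φ m' i) = g i (C.c a m' i) := by
  obtain ⟨S, h1, h2, h3, h4, h5⟩ := P278.Atl.exists_factors hC
  have h0 : ∀ (i : Fin 3) (y : {w // S i w = w}), ∃ (a : C.ι) (N : Set V), IsOpen N ∧ y.1 ∈ N ∧
      N ⊆ (C.c a).source ∧
      ∀ m ∈ N, S i m = (C.c a).symm (Function.update (C.c a y) i (C.c a m i)) := by
    intro i y
    obtain ⟨a, ha, -⟩ := C.cover y.1
    obtain ⟨N, n1, n2, n3⟩ := eventually_nhds_iff.1
      ((h3 i y.1 y.2 a ha).and ((C.c a).open_source.mem_nhds ha))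
    exact ⟨a, N, n2, n3, fun m hm => (n1 m hm).2, fun m hm => (n1 m hm).1⟩
  choose a N n1 n2 n3 n4 using h0
  let e : ∀ i, {w // S i w = w} → OpenPartialHomeomorph {w // S i w = w} (P278.Cn (d i)) :=
    fun i y => P278.Atl.prodB1_chart (h2 i) (a i y) y (N i y) (n1 i y) (n3 i y (n2 i y)) (n3 i y)
      (n4 i y)
  have hcS : ∀ i, Continuous (S i) := fun i => P278.Atl.continuous_of_rg hC (h1 i)
  set φ : V → ∀ i, {w // S i w = w} := fun m i => ⟨S i m, h2 i m⟩ with hφ
  have hφc : Continuous φ := continuous_pi fun i => (hcS i).subtype_mk _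
  have hb : Function.Bijective φ := by
    refine ⟨fun m m' h => h4 m m' fun i => congrArg Subtype.val (congrFun h i), fun y => ?_⟩
    obtain ⟨m, hm⟩ := h5 (fun i => (y i).1) fun i => (y i).2
    exact ⟨m, funext fun i => Subtype.ext (hm i)⟩
  have loc : ∀ (y : ∀ i, {w // S i w = w}) (m : V) (b : C.ι),
      (∀ i, φ m i ∈ (e i (y i)).source) → m ∈ (C.c b).source →
      ∃ g : ∀ i, P278.Cn (d i) → P278.Cn (d i), P278.Atl.Bi g (C.c b m) ∧
        ∀ i, ∀ᶠ m' in 𝓝 m, e i (y i) (φ m' i) = g i (C.c b m' i) := by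
    intro y m b hy hm
    have hs : ∀ i, S i m ∈ (C.c (a i (y i))).source := fun i => n3 i (y i) (hy i)
    choose f hf1 hf2 using fun i => (h1 i m).chart hC hm (hs i)
    refine ⟨fun i => f i i, fun i => hf1 i i (Finset.mem_singleton_self i), fun i => ?_⟩
    filter_upwards [hf2 i] with m' hm'
    have := congrFun hm'.2 i
    rwa [Finset.piecewise_eq_of_mem _ _ _ (Finset.mem_singleton_self i)] at this
  let E := Equiv.ofBijective φ hb
  have hinv : Continuous E.symm := by
    refine continuous_iff_continuousAt.2 fun y => ?_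
    obtain ⟨m, rfl⟩ := hb.2 y
    obtain ⟨b, hm, -⟩ := C.cover m
    obtain ⟨g, hg, hg'⟩ := loc (φ m) m b (fun i => n2 i _) hm
    exact U2e1_bwd (fun i => e i (φ m i)) E.left_inv hm (fun i => n2 i _) hg hφc.continuousAt hg'
  refine ⟨fun i => {w // S i w = w}, fun _ => inferInstance, e, ⟨E, hφc, hinv⟩,
    fun i => ⟨inferInstance, P278.Atl.simplyConnected_fix (hcS i) (h2 i),
      Topology.IsInducing.subtypeVal.secondCountableTopology⟩,
    fun i y => n2 i y, fun i y y' p hp hp' => ?_, fun y m b hy hm => ?_⟩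
  · have ht : e i y p ∈ (e i y).target := (e i y).map_source hp
    have p1 : Function.update (C.c (a i y) y) i (e i y p) ∈ (C.c (a i y)).target := ht.1
    have p2 : S i ((C.c (a i y)).symm (Function.update (C.c (a i y) y) i (e i y p))) = p.1 :=
      congrArg Subtype.val ((e i y).left_inv hp)
    rw [P278.Atl.prodB1_fix (n4 i y) p1 ht.2] at p2
    have q2 : (C.c (a i y)).symm (Function.update (C.c (a i y) y) i (e i y p)) ∈
        (C.c (a i y')).source := by
      rw [p2]; exact n3 i y' hp'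
    have k4 := C.trans (a i y) (a i y') _ ((C.c (a i y)).map_target p1) q2
    rw [(C.c (a i y)).right_inv p1] at k4
    have k5 : AnalyticAt ℂ (fun w => (C.c (a i y') ∘ (C.c (a i y)).symm)
        (Function.update (C.c (a i y) y) i w)) (e i y p) :=
      k4.comp (f := fun w => Function.update (C.c (a i y) y) i w) (U2e1_upd _ i _)
    refine (analyticAt_pi_iff.1 k5 i).congr ?_
    filter_upwards [(e i y).open_target.mem_nhds ht] with w hw
    change _ = C.c (a i y') (S i _) i
    rw [P278.Atl.prodB1_fix (n4 i y) hw.1 hw.2]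
    rfl
  · obtain ⟨g, hg, hg'⟩ := loc y m b hy hm
    exact ⟨g, hg, eventually_all.2 hg'⟩

end Vale.Agent.P299.U2
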