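import Vale.Agent.P299.U2a
import Vale.Agent.P299.U2e1

/-! P299, part U2: the product decomposition. -/

open MeasureTheory Set Filter Topology Matrix
open scoped ContDiff ComplexConjugate ComplexOrder

noncomputable section

namespace Vale.Agent.P299.U2

open Vale.Agent.P271 Vale.Agent.P272

variable {n : ℕ} {X : Type} [TopologicalSpace X] {A : Atl n X} {η : Frm A} {Q : Fin 3 → EF A}

/-- A triple as a function on three indices. -/
def u2e2_e {Y : Fin 3 → Type} (p : Y 0 × Y 1 × Y 2) (i : Fin 3) : Y i :=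
  match i with
  | 0 => p.1
  | 1 => p.2.1
  | 2 => p.2.2

/-- Triples and functions on three indices. -/
def u2e2_h (Y : Fin 3 → Type) [∀ i, TopologicalSpace (Y i)] : Y 0 × Y 1 × Y 2 ≃ₜ ∀ i, Y i where
  toFun := u2e2_e
  invFun f := (f 0, f 1, f 2)
  left_inv _ := rfl
  right_inv f := funext fun i => match i with
    | 0 => rfl
    | 1 => rfl
    | 2 => rfl
  continuous_toFun := continuous_pi fun i => match i with
    | 0 => continuous_fst
    | 1 => continuous_fst.comp continuous_snd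
    | 2 => continuous_snd.comp continuous_snd
  continuous_invFun := by fun_prop

/-- The charts with values in the space of functions. -/
def u2e2_c {k : ℕ} {Y : Type} [TopologicalSpace Y] (c : Y → OpenPartialHomeomorph Y (P278.Cn k))
    (h1 : ∀ y, y ∈ (c y).source) (h2 : ∀ y y' p, p ∈ (c y).source → p ∈ (c y').source →
      AnalyticAt ℂ (fun w => c y' ((c y).symm w)) (c y p)) : CA k Y where
  c y := (c y).transHomeomorph (EuclideanSpace.equiv (Fin k) ℂ).toHomeomorph
  mem := h1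
  hol y y' p hp hp' := by
    have a := ((EuclideanSpace.equiv (Fin k) ℂ).toContinuousLinearMap.analyticAt _).comp
      ((h2 y y' p hp hp').comp_of_eq
        ((EuclideanSpace.equiv (Fin k) ℂ).symm.toContinuousLinearMap.analyticAt
          (EuclideanSpace.equiv (Fin k) ℂ (c y p))) rfl)
    exact a

/-- The coordinate isomorphism. -/
def u2e2_E (d : Fin 3 → ℕ) : Cn (d 0) × Cn (d 1) × Cn (d 2) →L[ℂ] PP d :=
  ContinuousLinearMap.pi fun i => match i with
    | 0 => (EuclideanSpace.equiv (Fin (d 0)) ℂ).symm.toContinuousLinearMap ∘L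
        ContinuousLinearMap.fst ℂ _ _
    | 1 => (EuclideanSpace.equiv (Fin (d 1)) ℂ).symm.toContinuousLinearMap ∘L
        ContinuousLinearMap.fst ℂ _ _ ∘L ContinuousLinearMap.snd ℂ _ _
    | 2 => (EuclideanSpace.equiv (Fin (d 2)) ℂ).symm.toContinuousLinearMap ∘L
        ContinuousLinearMap.snd ℂ _ _ ∘L ContinuousLinearMap.snd ℂ _ _

theorem u2e2_bij (d : Fin 3 → ℕ) : Function.Bijective (u2e2_E d) := by
  refine Function.bijective_iff_has_inverse.2 ⟨fun f => (EuclideanSpace.equiv _ ℂ (f 0),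
    EuclideanSpace.equiv _ ℂ (f 1), EuclideanSpace.equiv _ ℂ (f 2)), fun _ => rfl, fun f => ?_⟩
  funext i
  match i with
  | 0 => rfl
  | 1 => rfl
  | 2 => rfl

theorem u2e2_pr (d : Fin 3 → ℕ) (i : Fin 3) (v : Cn (d 0) × Cn (d 1) × Cn (d 2)) :
    u2e2_E d (pr3 i v) = prP i (u2e2_E d v) := by
  funext j
  match i, j with
  | 0, 0 => rfl
  | 0, 1 => rfl
  | 0, 2 => rfl
  | 1, 0 => rfl
  | 1, 1 => rfl
  | 1, 2 => rfl
  | 2, 0 => rfl
  | 2, 1 => rfl
  | 2, 2 => rfl

theorem u2e2_G {d : Fin 3 → ℕ} {g : ∀ i, P278.Cn (d i) → P278.Cn (d i)} {p : PP d}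
    (hg : P278.Atl.Bi g p) : AnalyticAt ℂ (fun (q : PP d) i => g i (q i)) p ∧
      Function.Bijective (fderiv ℂ (fun (q : PP d) i => g i (q i)) p) ∧
      ∀ i v, fderiv ℂ (fun (q : PP d) i => g i (q i)) p (prP i v) =
        prP i (fderiv ℂ (fun (q : PP d) i => g i (q i)) p v) := by
  have h1 : HasFDerivAt (fun (q : PP d) i => g i (q i)) (ContinuousLinearMap.pi fun i =>
      fderiv ℂ (g i) (p i) ∘L ContinuousLinearMap.proj i) p :=
    hasFDerivAt_pi.2 fun i => (hg i).1.differentiableAt.hasFDerivAt.comp p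
      (ContinuousLinearMap.proj (R := ℂ) (φ := fun i => P278.Cn (d i)) i).hasFDerivAt
  have h2 : ∀ v i, fderiv ℂ (fun (q : PP d) i => g i (q i)) p v i = fderiv ℂ (g i) (p i) (v i) :=
    fun v i => by rw [h1.fderiv]; rfl
  have h3 : Function.Injective (fderiv ℂ (fun (q : PP d) i => g i (q i)) p) := fun v v' e =>
    funext fun i => (hg i).2 (by rw [← h2, ← h2, e])
  refine ⟨AnalyticAt.pi fun i => (hg i).1.comp_of_eq
    ((ContinuousLinearMap.proj (R := ℂ) (φ := fun i => P278.Cn (d i)) i).analyticAt p) rfl,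
    ⟨h3, (LinearMap.injective_iff_surjective
      (f := (fderiv ℂ (fun (q : PP d) i => g i (q i)) p).toLinearMap)).1 h3⟩, fun i v => ?_⟩
  funext j
  rw [h2]
  by_cases e : j = i
  · subst e
    simp only [prP, Pi.single_eq_same, h2]
  · simp only [prP, Pi.single_eq_of_ne e, map_zero]

theorem exists_tri {V : Type} [TopologicalSpace V] [T2Space V] [SecondCountableTopology V]
    [SimplyConnectedSpace V] {π : V → X} {d : Fin 3 → ℕ} (C : P278.Atl V (PP d)) (hC : C.IsProd)
    (h : ∀ a, ∀ p ∈ (C.c a).target, Gd A Q prP (fun w => π ((C.c a).symm w)) p) :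
    ∃ (W : Type) (_ : TopologicalSpace W) (cW : CA (d 0) W), Nonempty (Tri A Q π cW) := by
  obtain ⟨Y, _, c, Φ, h1, h2, h3, h4⟩ := factors C hC
  have := (h1 1).1
  have := (h1 2).1
  have := (h1 1).2.1
  have := (h1 2).2.1
  have := (h1 1).2.2
  have := (h1 2).2.2
  refine ⟨Y 0, inferInstance, u2e2_c (c 0) (h2 0) (h3 0), ⟨
    { t2W := (h1 0).1, sW := (h1 0).2.1, d₁ := d 1, d₂ := d 2, Y := Y 1, Z := Y 2
      cY := u2e2_c (c 1) (h2 1) (h3 1), cZ := u2e2_c (c 2) (h2 2) (h3 2)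
      Ψ := (u2e2_h Y).trans Φ.symm, gd := fun x y z w a0 a1 a2 => ?_ }⟩⟩
  obtain ⟨f, hf⟩ : ∃ f : Cn (d 0) × Cn (d 1) × Cn (d 2) → V, f = fun w' =>
      Φ.symm (u2e2_e (pt3 (u2e2_c (c 0) (h2 0) (h3 0)) (u2e2_c (c 1) (h2 1) (h3 1))
        (u2e2_c (c 2) (h2 2) (h3 2)) x y z w')) := ⟨_, rfl⟩
  have e1 : ∀ w' i, Φ (f w') i = (c i (u2e2_e (x, y, z) i)).symm (u2e2_E d w' i) := fun w' i => by
    rw [hf, Φ.apply_symm_apply]
    match i with
    | 0 => rfl
    | 1 => rfl
    | 2 => rfl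
  have e2 : ∀ i, u2e2_E d w i ∈ (c i (u2e2_e (x, y, z) i)).target := fun i =>
    match i with
    | 0 => a0
    | 1 => a1
    | 2 => a2
  have e3 : ∀ i, ContinuousAt (fun w' => u2e2_E d w' i) w := fun i =>
    ((continuous_apply i).comp (u2e2_E d).continuous).continuousAt
  have fc : ContinuousAt f w := by
    have e : f = fun w' => Φ.symm fun i => (c i (u2e2_e (x, y, z) i)).symm (u2e2_E d w' i) :=
      funext fun w' => by rw [← funext (e1 w'), Φ.symm_apply_apply]
    rw [e]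
    exact Φ.symm.continuous.continuousAt.comp (continuousAt_pi.2 fun i =>
      ContinuousAt.comp (f := fun w' => u2e2_E d w' i)
        ((c i _).continuousAt_symm (e2 i)) (e3 i))
  obtain ⟨a, ha, -⟩ := C.cover (f w)
  obtain ⟨g, hg, he⟩ := h4 (u2e2_e (x, y, z)) (f w) a
    (fun i => e1 w i ▸ (c i _).map_target (e2 i)) ha
  obtain ⟨g1, g2, g3⟩ := u2e2_G hg
  have tc : ContinuousAt (fun w' => C.c a (f w')) w := ((C.c a).continuousAt ha).comp fc
  have e4 : ∀ᶠ w' in 𝓝 w, (fun (q : PP d) i => g i (q i)) (C.c a (f w')) = u2e2_E d w' := by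
    filter_upwards [fc.eventually he, eventually_all.2 fun i =>
      (e3 i).eventually ((c i _).open_target.mem_nhds (e2 i))] with w' b1 b2
    funext i
    rw [← (c i _).right_inv (b2 i), ← e1, b1]
  have ta : AnalyticAt ℂ (fun w' => C.c a (f w')) w :=
    an_of_comp (τ := fun w' => C.c a (f w')) tc g1 g2 ((u2e2_E d).analyticAt w) e4
  have e5 : ∀ v, fderiv ℂ (fun (q : PP d) i => g i (q i)) (C.c a (f w))
      (fderiv ℂ (fun w' => C.c a (f w')) w v) = u2e2_E d v := fun v => by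
    have b1 := (g1.differentiableAt.hasFDerivAt.comp w ta.differentiableAt.hasFDerivAt).fderiv
    have b2 := EventuallyEq.fderiv_eq (𝕜 := ℂ) e4
    rw [(u2e2_E d).fderiv] at b2
    rw [← b2]
    exact (DFunLike.congr_fun b1 v).symm
  have e6 : Function.Bijective (fderiv ℂ (fun w' => C.c a (f w')) w) :=
    (Function.Bijective.of_comp_iff' g2 _).1 (by
      rw [show (fderiv ℂ (fun (q : PP d) i => g i (q i)) (C.c a (f w))) ∘
        (fderiv ℂ (fun w' => C.c a (f w')) w) = u2e2_E d from funext e5]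
      exact u2e2_bij d)
  have k := Gd.comp (τ := fun w' => C.c a (f w')) (pr' := pr3)
    (h a _ ((C.c a).map_source ha)) ta e6 fun i v => g2.1 (by rw [e5, g3, e5, u2e2_pr])
  refine k.congr ?_
  filter_upwards [fc.eventually ((C.c a).open_source.mem_nhds ha)] with w' b
  rw [(C.c a).left_inv b, hf]
  rfl

end Vale.Agent.P299.U2
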