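import Vale.Agent.P299.U2D

/-! P299, part U2: local inverses of a covering, transport along a homeomorphism. -/

open MeasureTheory Set Filter Topology Matrix
open scoped ContDiff ComplexConjugate ComplexOrder

noncomputable section

namespace Vale.Agent.P299.U2

open Vale.Agent.P271 Vale.Agent.P272

variable {V V' X : Type} [TopologicalSpace V] [TopologicalSpace V'] [TopologicalSpace X]
  {π : V → X}

theorem U2L_eq (lh : IsLocalHomeomorph π) (m m' : V) : π m' = (lh m).choose m' :=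
  congrFun (lh m).choose_spec.2 m'

theorem U2L_tgt (lh : IsLocalHomeomorph π) (m : V) : π m ∈ (lh m).choose.target := by
  rw [U2L_eq lh m]
  exact (lh m).choose.map_source (lh m).choose_spec.1

theorem lf_self (lh : IsLocalHomeomorph π) (m : V) : lf lh m (π m) = m := by
  rw [U2L_eq lh m]
  exact (lh m).choose.left_inv (lh m).choose_spec.1

theorem lf_cont (lh : IsLocalHomeomorph π) (m : V) : ContinuousAt (lf lh m) (π m) :=
  (lh m).choose.continuousAt_symm (U2L_tgt lh m)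

theorem lf_right (lh : IsLocalHomeomorph π) (m : V) : ∀ᶠ p in 𝓝 (π m), π (lf lh m p) = p := by
  filter_upwards [(lh m).choose.open_target.mem_nhds (U2L_tgt lh m)] with p hp
  rw [U2L_eq lh m]
  exact (lh m).choose.right_inv hp

theorem lf_left (lh : IsLocalHomeomorph π) (m : V) : ∀ᶠ m' in 𝓝 m, lf lh m (π m') = m' := by
  filter_upwards [(lh m).choose.open_source.mem_nhds (lh m).choose_spec.1] with m' hm'
  rw [U2L_eq lh m]
  exact (lh m).choose.left_inv hm'

theorem lf_uniq (lh : IsLocalHomeomorph π) {s : X → V} {m : V} (hs : ContinuousAt s (π m))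
    (h0 : s (π m) = m) (h : ∀ᶠ p in 𝓝 (π m), π (s p) = p) : s =ᶠ[𝓝 (π m)] lf lh m := by
  have h1 : Tendsto s (𝓝 (π m)) (𝓝 m) := by
    have := hs.tendsto
    rwa [h0] at this
  filter_upwards [h1.eventually (lf_left lh m), h] with p h2 h3
  rw [← h2, h3]

theorem lf_ev (lh : IsLocalHomeomorph π) (m : V) :
    ∀ᶠ m' in 𝓝 m, lf lh m' =ᶠ[𝓝 (π m')] lf lh m := by
  have hc := lh.continuous.continuousAt (x := m)
  filter_upwards [lf_left lh m, hc.eventually (lf_right lh m).eventually_nhds,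
    hc.eventually ((lh m).choose.open_target.mem_nhds (U2L_tgt lh m))] with m' h1 h2 h3
  exact (lf_uniq lh ((lh m).choose.continuousAt_symm h3) h1 h2).symm

theorem top_transport {Γ : Type} [Group Γ] [MulAction Γ V] [MulAction Γ V'] (Ψ : V' ≃ₜ V)
    (hΨ : ∀ (γ : Γ) m, Ψ (γ • m) = γ • Ψ m) (h : Top Γ π) : Top Γ fun m => π (Ψ m) := by
  have := h.cov.toContinuousConstSMul
  have e : ∀ (γ : Γ) m, γ • m = Ψ.symm (γ • Ψ m) := fun γ m => by
    rw [← hΨ, Ψ.symm_apply_apply]
  refine ⟨{ h.cov.toIsQuotientMap.comp Ψ.isQuotientMap with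
    continuous_const_smul := fun γ => ?_
    apply_eq_iff_mem_orbit := fun {m m'} => ?_
    disjoint := fun m => ?_ }, ?_, fun K hK => ?_, h.fg⟩
  · simp only [e γ]
    exact Ψ.symm.continuous.comp ((continuous_const_smul γ).comp Ψ.continuous)
  · rw [h.cov.apply_eq_iff_mem_orbit]
    exact exists_congr fun γ => by
      show γ • Ψ m' = Ψ m ↔ γ • m' = m
      rw [← hΨ, Ψ.injective.eq_iff]
  · obtain ⟨U, hU, h1⟩ := h.cov.disjoint (Ψ m)
    refine ⟨Ψ ⁻¹' U, Ψ.continuous.continuousAt hU, fun γ hγ => h1 γ ?_⟩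
    obtain ⟨_, ⟨m', h2, rfl⟩, h3⟩ := hγ
    exact ⟨_, ⟨Ψ m', h2, (hΨ γ m').symm⟩, h3⟩
  · obtain ⟨K, hK, h1⟩ := h.coc
    refine ⟨Ψ ⁻¹' K, Ψ.isCompact_preimage.2 hK, fun m => ?_⟩
    obtain ⟨γ, hγ⟩ := h1 (Ψ m)
    exact ⟨γ, by rwa [mem_preimage, hΨ]⟩
  · refine (h.prop _ (hK.image Ψ.continuous)).subset ?_
    rintro γ ⟨m, h1, h2⟩
    exact ⟨Ψ m, ⟨m, h1, rfl⟩, _, h2, hΨ γ m⟩

theorem pf_transport {n : ℕ} {A : Atl n X} {η : Frm A} (lh : IsLocalHomeomorph π) (Ψ : V' ≃ₜ V)
    (lh' : IsLocalHomeomorph fun m => π (Ψ m)) {ζ : A.ι → V' → Cn n} (h : PF A η lh' ζ) :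
    PF A η lh fun a m => ζ a (Ψ.symm m) := by
  have key : ∀ (a : A.ι) (m : V'), π (Ψ m) ∈ (A.e a).source → ∀ᶠ z in 𝓝 (A.e a (π (Ψ m))),
      lf lh' m ((A.e a).symm z) = Ψ.symm (lf lh (Ψ m) ((A.e a).symm z)) := by
    intro a m hm
    have h1 := lf_uniq lh' (s := fun p => Ψ.symm (lf lh (Ψ m) p)) (m := m)
      (Ψ.symm.continuous.continuousAt.comp (lf_cont lh _))
      (by simp only [lf_self, Ψ.symm_apply_apply])
      (by simpa only [Ψ.apply_symm_apply] using lf_right lh (Ψ m))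
    exact ((A.e a).tendsto_symm hm).eventually h1.symm
  refine ⟨fun a b m ha hb => ?_, fun a m ha => ?_, fun a m ha => ?_⟩ <;>
    obtain ⟨m, rfl⟩ := Ψ.surjective m
  · simpa only [Ψ.symm_apply_apply] using h.compat a b m ha hb
  · refine (h.hol a m ha).congr ?_
    filter_upwards [key a m ha] with z hz
    rw [hz]
  · refine (h.par a m ha).congr ?_
    filter_upwards [key a m ha] with z hz
    rw [hz]

/-- A function of two variables that has zero derivative in all charts is constant. -/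
theorem ca_const {d d' : ℕ} {W Z β E : Type} [TopologicalSpace W] [TopologicalSpace Z]
    [PreconnectedSpace W] [PreconnectedSpace Z] [NormedAddCommGroup E] [NormedSpace ℝ E]
    (cW : CA d W) (cZ : CA d' Z) (f : W → Z → β)
    (h : ∀ x z, ∃ (g : Cn d × Cn d' → E) (κ : E → β), ∀ᶠ w in 𝓝 (cW.c x x, cZ.c z z),
      f ((cW.c x).symm w.1) ((cZ.c z).symm w.2) = κ (g w) ∧
        HasFDerivAt g (0 : Cn d × Cn d' →L[ℝ] E) w) (x : W) (z : Z) (x' : W) (z' : Z) :
    f x z = f x' z' := by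
  have hl : IsLocallyConstant fun m : W × Z => f m.1 m.2 := by
    rw [IsLocallyConstant.iff_eventually_eq]
    rintro ⟨x, z⟩
    obtain ⟨g, κ, h1⟩ := h x z
    obtain ⟨r, hr, h2⟩ := Metric.eventually_nhds_iff_ball.1 h1
    have h3 : ∀ w ∈ Metric.ball (cW.c x x, cZ.c z z) r, g w = g (cW.c x x, cZ.c z z) :=
      fun w hw => (convex_ball _ _).is_const_of_fderivWithin_eq_zero (𝕜 := ℝ)
        (fun w hw => (h2 w hw).2.differentiableAt.differentiableWithinAt)
        (fun w hw => by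
          rw [fderivWithin_of_isOpen Metric.isOpen_ball hw]
          exact (h2 w hw).2.fderiv) hw (Metric.mem_ball_self hr)
    have c1 : ContinuousAt (fun m : W × Z => (cW.c x m.1, cZ.c z m.2)) (x, z) :=
      (((cW.c x).continuousAt (cW.mem x)).comp_of_eq continuousAt_fst rfl).prodMk
        (((cZ.c z).continuousAt (cZ.mem z)).comp_of_eq continuousAt_snd rfl)
    have h4 := (h2 _ (Metric.mem_ball_self hr)).1
    simp only [(cW.c x).left_inv (cW.mem x), (cZ.c z).left_inv (cZ.mem z)] at h4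
    filter_upwards [c1.eventually (Metric.ball_mem_nhds _ hr),
      prod_mem_nhds ((cW.c x).open_source.mem_nhds (cW.mem x))
        ((cZ.c z).open_source.mem_nhds (cZ.mem z))] with m h5 h6
    have h7 := (h2 _ h5).1
    simp only [(cW.c x).left_inv h6.1, (cZ.c z).left_inv h6.2] at h7
    rw [h7, h3 _ h5, h4]
  exact hl.apply_eq_of_preconnectedSpace (x, z) (x', z')

end Vale.Agent.P299.U2
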