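import Vale.Agent.P299.U2a
import Vale.Agent.P299.U2L

/-! P299, part U2: deck transformations are products. -/

open MeasureTheory Set Filter Topology Matrix
open scoped ContDiff ComplexConjugate ComplexOrder

noncomputable section

namespace Vale.Agent.P299.U2

open Vale.Agent.P271 Vale.Agent.P272

variable {n : ℕ} {X : Type} [TopologicalSpace X] {A : Atl n X} {η : Frm A} {Q : Fin 3 → EF A}
  {V : Type} [TopologicalSpace V] {π : V → X} {d₀ : ℕ} {W : Type} [TopologicalSpace W]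
  {cW : CA d₀ W}

theorem u2f_der {P P' E F : Type} [NormedAddCommGroup P] [NormedSpace ℂ P] [NormedAddCommGroup P']
    [NormedSpace ℂ P'] [NormedAddCommGroup E] [NormedSpace ℂ E] [NormedAddCommGroup F]
    [NormedSpace ℂ F] {t : P → P'} {j : F → P} (ρ : P' →L[ℂ] E) {ι : F →L[ℂ] P} {w : F}
    (hj : HasFDerivAt j ι w) (ht : AnalyticAt ℂ t (j w))
    (h : ∀ v, ρ (fderiv ℂ t (j w) (ι v)) = 0) :
    HasFDerivAt (fun w => ρ (t (j w))) (0 : F →L[ℝ] E) w :=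
  ((ρ.hasFDerivAt.comp w (ht.differentiableAt.hasFDerivAt.comp w hj)).restrictScalars
    ℝ).congr_fderiv (ContinuousLinearMap.ext h)

theorem u2f_loc (T : Tri A Q π cW) {τ : W × T.Y × T.Z → W × T.Y × T.Z} (hτ : Continuous τ)
    (h : ∀ m, π (T.Ψ (τ m)) = π (T.Ψ m)) (x : W) (y : T.Y) (z : T.Z) :
    ∃ (t : Cn d₀ × Cn T.d₁ × Cn T.d₂ → Cn d₀ × Cn T.d₁ × Cn T.d₂) (x' : W) (y' : T.Y) (z' : T.Z),
      ∀ᶠ w in 𝓝 (cW.c x x, T.cY.c y y, T.cZ.c z z),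
        τ (pt3 cW T.cY T.cZ x y z w) = pt3 cW T.cY T.cZ x' y' z' (t w) ∧ AnalyticAt ℂ t w ∧
          ∀ v, (v.1 = 0 → (fderiv ℂ t w v).1 = 0) ∧ (v.2.1 = 0 → (fderiv ℂ t w v).2.1 = 0) ∧
            (v.2.2 = 0 → (fderiv ℂ t w v).2.2 = 0) := by
  set m := τ (x, y, z)
  let E := (cW.c x).prod ((T.cY.c y).prod (T.cZ.c z))
  let E' := (cW.c m.1).prod ((T.cY.c m.2.1).prod (T.cZ.c m.2.2))
  have h0 : (x, y, z) ∈ E.source := ⟨cW.mem x, T.cY.mem y, T.cZ.mem z⟩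
  have hO := E.isOpen_inter_preimage_symm (E'.open_source.preimage hτ)
  have h1 : E (x, y, z) ∈ E.target ∩ E.symm ⁻¹' (τ ⁻¹' E'.source) := ⟨E.map_source h0, by
    rw [mem_preimage, E.left_inv h0]
    exact ⟨cW.mem _, T.cY.mem _, T.cZ.mem _⟩⟩
  refine ⟨fun w => E' (τ (E.symm w)), m.1, m.2.1, m.2.2, ?_⟩
  filter_upwards [hO.mem_nhds h1] with w hw
  obtain ⟨h2, -, h3⟩ := Gd.inv (τ := fun w => E' (τ (E.symm w)))
    (T.gd' (x := m.1) (y := m.2.1) (z := m.2.2) (E'.map_source hw.2)) (T.gd' hw.1)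
    ((E'.continuousAt hw.2).comp (f := fun w => τ (E.symm w))
      (hτ.continuousAt.comp (E.continuousAt_symm hw.1)))
    (by
      filter_upwards [hO.mem_nhds hw] with w' hw'
      exact (congrArg (fun m => π (T.Ψ m)) (E'.left_inv hw'.2)).trans (h _))
  refine ⟨(E'.left_inv hw.2).symm, h2, fun v => ⟨fun e => ?_, fun e => ?_, fun e => ?_⟩⟩
  · have h4 := h3 0 v
    rw [show pr3 0 v = 0 from Prod.ext e rfl, map_zero] at h4
    exact (congrArg Prod.fst h4).symm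
  · have h4 := h3 1 v
    rw [show pr3 1 v = 0 from Prod.ext rfl (Prod.ext e rfl), map_zero] at h4
    exact (congrArg (·.2.1) h4).symm
  · have h4 := h3 2 v
    rw [show pr3 2 v = 0 from Prod.ext rfl (Prod.ext rfl e), map_zero] at h4
    exact (congrArg (·.2.2) h4).symm

theorem Tri.prod (T : Tri A Q π cW) {τ : W × T.Y × T.Z → W × T.Y × T.Z} (hτ : Continuous τ)
    (h : ∀ m, π (T.Ψ (τ m)) = π (T.Ψ m)) :
    (∀ w y z y' z', (τ (w, y, z)).1 = (τ (w, y', z')).1) ∧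
      (∀ w y z w' z', (τ (w, y, z)).2.1 = (τ (w', y, z')).2.1) ∧
      ∀ w y z w' y', (τ (w, y, z)).2.2 = (τ (w', y', z)).2.2 := by
  have := T.sW
  refine ⟨fun x => ca_const (E := Cn d₀) T.cY T.cZ (fun y z => (τ (x, y, z)).1) fun y z => ?_,
    fun x y z => ca_const (E := Cn T.d₁) cW T.cZ (fun x z => (τ (x, y, z)).2.1) (fun x z => ?_) x z,
    fun x y z => ca_const (E := Cn T.d₂) cW T.cY (fun x y => (τ (x, y, z)).2.2) (fun x y => ?_) x y⟩
  all_goals obtain ⟨t, x', y', z', H⟩ := u2f_loc T hτ h x y z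
  · have hj : ∀ w : Cn T.d₁ × Cn T.d₂, HasFDerivAt (𝕜 := ℂ) (fun w => (cW.c x x, w)) _ w :=
      fun w => (hasFDerivAt_const _ _).prodMk (hasFDerivAt_id _)
    refine ⟨fun w => (t (cW.c x x, w)).1, (cW.c x').symm, ?_⟩
    filter_upwards [(hj _).continuousAt.eventually H] with w hw
    refine ⟨?_, u2f_der (.fst ℂ _ _) (hj w) hw.2.1 fun v => (hw.2.2 _).1 rfl⟩
    simpa only [pt3, (cW.c x).left_inv (cW.mem x)] using congrArg Prod.fst hw.1
  · have hj : ∀ w : Cn d₀ × Cn T.d₂,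
        HasFDerivAt (𝕜 := ℂ) (fun w : Cn d₀ × Cn T.d₂ => (w.1, T.cY.c y y, w.2)) _ w :=
      fun w => hasFDerivAt_fst.prodMk ((hasFDerivAt_const _ _).prodMk hasFDerivAt_snd)
    refine ⟨fun w => (t (w.1, T.cY.c y y, w.2)).2.1, (T.cY.c y').symm, ?_⟩
    filter_upwards [(hj _).continuousAt.eventually H] with w hw
    refine ⟨?_, u2f_der ((ContinuousLinearMap.fst ℂ _ _).comp (.snd ℂ (Cn d₀) (Cn T.d₁ × Cn T.d₂))) (hj w)
      hw.2.1 fun v => (hw.2.2 _).2.1 rfl⟩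
    simpa only [pt3, (T.cY.c y).left_inv (T.cY.mem y)] using congrArg (·.2.1) hw.1
  · have hj : ∀ w : Cn d₀ × Cn T.d₁,
        HasFDerivAt (𝕜 := ℂ) (fun w : Cn d₀ × Cn T.d₁ => (w.1, w.2, T.cZ.c z z)) _ w :=
      fun w => hasFDerivAt_fst.prodMk (hasFDerivAt_snd.prodMk (hasFDerivAt_const _ _))
    refine ⟨fun w => (t (w.1, w.2, T.cZ.c z z)).2.2, (T.cZ.c z').symm, ?_⟩
    filter_upwards [(hj _).continuousAt.eventually H] with w hw
    refine ⟨?_, u2f_der ((ContinuousLinearMap.snd ℂ _ _).comp (.snd ℂ (Cn d₀) (Cn T.d₁ × Cn T.d₂))) (hj w)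
      hw.2.1 fun v => (hw.2.2 _).2.2 rfl⟩
    simpa only [pt3, (T.cZ.c z).left_inv (T.cZ.mem z)] using congrArg (·.2.2) hw.1

theorem Tri.act (T : Tri A Q π cW) (Γ : Type) [Group Γ] [MulAction Γ V] [ContinuousConstSMul Γ V]
    (h : ∀ (γ : Γ) m, π (γ • m) = π m) :
    ∃ (_ : MulAction Γ W) (_ : MulAction Γ T.Y) (_ : MulAction Γ T.Z), ContinuousConstSMul Γ W ∧
      ∀ (γ : Γ) m, T.Ψ (γ • m) = γ • T.Ψ m := by
  have := T.sW
  obtain ⟨⟨x₀, y₀, z₀⟩⟩ : Nonempty (W × T.Y × T.Z) := inferInstance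
  let τ (γ : Γ) (m : W × T.Y × T.Z) := T.Ψ.symm (γ • T.Ψ m)
  have hc : ∀ γ, Continuous (τ γ) := fun γ =>
    T.Ψ.symm.continuous.comp ((continuous_const_smul γ).comp T.Ψ.continuous)
  have hp := fun γ => T.prod (hc γ) fun m => by rw [T.Ψ.apply_symm_apply, h]
  have h1 : ∀ m, τ 1 m = m := fun m => by simp only [τ, one_smul, T.Ψ.symm_apply_apply]
  have hm : ∀ γ γ' m, τ (γ * γ') m = τ γ (τ γ' m) := fun γ γ' m => by
    simp only [τ, mul_smul, T.Ψ.apply_symm_apply]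
  let aW : MulAction Γ W :=
    { smul := fun γ x => (τ γ (x, y₀, z₀)).1
      one_smul := fun x => congrArg Prod.fst (h1 _)
      mul_smul := fun γ γ' x => (congrArg Prod.fst (hm γ γ' _)).trans ((hp γ).1 _ _ _ _ _) }
  let aY : MulAction Γ T.Y :=
    { smul := fun γ y => (τ γ (x₀, y, z₀)).2.1
      one_smul := fun y => congrArg (·.2.1) (h1 _)
      mul_smul := fun γ γ' y => (congrArg (·.2.1) (hm γ γ' _)).trans ((hp γ).2.1 _ _ _ _ _) }
  let aZ : MulAction Γ T.Z :=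
    { smul := fun γ z => (τ γ (x₀, y₀, z)).2.2
      one_smul := fun z => congrArg (·.2.2) (h1 _)
      mul_smul := fun γ γ' z => (congrArg (·.2.2) (hm γ γ' _)).trans ((hp γ).2.2 _ _ _ _ _) }
  refine ⟨aW, aY, aZ, ⟨fun γ => ((hc γ).comp (continuous_id.prodMk continuous_const)).fst⟩,
    fun γ m => T.Ψ.eq_symm_apply.1 ?_⟩
  exact Prod.ext ((hp γ).1 _ _ _ _ _) (Prod.ext ((hp γ).2.1 _ _ _ _ _) ((hp γ).2.2 _ _ _ _ _))

end Vale.Agent.P299.U2
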