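import Vale.Agent.P299.U2d1
import Vale.Agent.P299.U2L

/-! P299, part U2: the blocks of the metric. -/

open MeasureTheory Set Filter Topology Matrix
open scoped ContDiff ComplexConjugate ComplexOrder

noncomputable section

namespace Vale.Agent.P299.U2

open Vale.Agent.P271 Vale.Agent.P272

variable {n : ℕ} {X : Type} [TopologicalSpace X] [MeasurableSpace X] {M : Model n X}
  {η : Frm M.toAtl} {B : EF M.toAtl} {Q : Fin 3 → EF M.toAtl}
  {V : Type} [TopologicalSpace V] {π : V → X} {d₀ : ℕ} {W : Type} [TopologicalSpace W]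
  {cW : CA d₀ W}

/-- The derivative of a block of the metric in the other directions vanishes. -/
theorem pm_slice {P : Type} [NormedAddCommGroup P] [NormedSpace ℝ P] [NormedSpace ℂ P]
    [IsScalarTower ℝ ℂ P] [FiniteDimensional ℂ P] {pr : Fin 3 → P → P} {F : P → X} {O : Set P}
    (hη : IsF M.toAtl η) (hQ : Prj M η B Q) (hO : IsOpen O) (h : ∀ p ∈ O, Gd M.toAtl Q pr F p)
    {p : P} (hp : p ∈ O) {i j : Fin 3} (hij : i ≠ j) {u v a : P} (hu : pr i u = u)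
    (hv : pr i v = v) (hv' : pr i (Complex.I • v) = Complex.I • v) (ha : pr j a = a) :
    fderiv ℝ (fun q => pm M.toAtl η F q u v) p a = 0 := by
  have key : ∀ v', pr i v' = v' → fderiv ℝ (fun q => (pm M.toAtl η F q u v').im) p a = 0 := by
    intro v' hv'
    have h0 := pm_closed hη hO h hp a u v'
    have h1 : (fun q => (pm M.toAtl η F q v' a).im) =ᶠ[𝓝 p] fun _ => 0 := by
      filter_upwards [hO.mem_nhds hp] with q hq
      rw [← hv', ← ha, pm_orth hη hQ (h q hq) hij, Complex.zero_im]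
    have h2 : (fun q => (pm M.toAtl η F q a u).im) =ᶠ[𝓝 p] fun _ => 0 := by
      filter_upwards [hO.mem_nhds hp] with q hq
      rw [← hu, ← ha, pm_orth hη hQ (h q hq) hij.symm, Complex.zero_im]
    rw [h1.fderiv_eq, h2.fderiv_eq] at h0
    simpa using h0
  have hd := ((pm_smooth hη hO h hp u v).differentiableAt one_ne_zero).hasFDerivAt
  have h1 := key v hv
  have h2 := key _ hv'
  have e : (fun q => (pm M.toAtl η F q u (Complex.I • v)).im) =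
      Complex.reCLM ∘ fun q => pm M.toAtl η F q u v := by
    funext q
    simp [pm_smul_right]
  rw [e, (Complex.reCLM.hasFDerivAt.comp p hd).fderiv] at h2
  have e' : (fun q => (pm M.toAtl η F q u v).im) =
      Complex.imCLM ∘ fun q => pm M.toAtl η F q u v := rfl
  rw [e', (Complex.imCLM.hasFDerivAt.comp p hd).fderiv] at h1
  exact Complex.ext h2 h1

theorem U2g_self {d : ℕ} {Y : Type} [TopologicalSpace Y] (c : CA d Y) (y : Y) {w : Cn d}
    (hw : w ∈ (c.c y).target) (u : Cn d) :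
    fderiv ℂ (fun w => c.c y ((c.c y).symm w)) w u = u := by
  have h : (fun w => c.c y ((c.c y).symm w)) =ᶠ[𝓝 w] id := (c.c y).eventually_right_inverse hw
  rw [h.fderiv_eq, fderiv_id]
  rfl

theorem U2g_dif {d : ℕ} {Y : Type} [TopologicalSpace Y] (c : CA d Y) {y y' : Y} {w : Cn d}
    (hw : w ∈ (c.c y).target) (h : (c.c y).symm w ∈ (c.c y').source) :
    DifferentiableAt ℂ (fun w => c.c y' ((c.c y).symm w)) w := by
  have h1 := c.hol y y' _ ((c.c y).map_target hw) h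
  rw [(c.c y).right_inv hw] at h1
  exact h1.differentiableAt

theorem U2g_ev {d : ℕ} {Y : Type} [TopologicalSpace Y] (c : CA d Y) {y y' : Y} {w : Cn d}
    (hw : w ∈ (c.c y).target) (h : (c.c y).symm w ∈ (c.c y').source) :
    ∀ᶠ w' in 𝓝 w, (c.c y').symm (c.c y' ((c.c y).symm w')) = (c.c y).symm w' := by
  filter_upwards [((c.c y).continuousAt_symm hw) ((c.c y').open_source.mem_nhds h)] with w' hw'
  exact (c.c y').left_inv hw'

theorem U2g_chg (T : Tri M.toAtl Q π cW) {x x' : W} {y y' : T.Y} {z z' : T.Z}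
    {w : Cn d₀ × Cn T.d₁ × Cn T.d₂} (hw : w ∈ T.tg x y z)
    (h0 : (cW.c x).symm w.1 ∈ (cW.c x').source)
    (h1 : (T.cY.c y).symm w.2.1 ∈ (T.cY.c y').source)
    (h2 : (T.cZ.c z).symm w.2.2 ∈ (T.cZ.c z').source) (u v : Cn d₀ × Cn T.d₁ × Cn T.d₂) :
    pm M.toAtl η (T.F x y z) w u v = pm M.toAtl η (T.F x' y' z')
      (cW.c x' ((cW.c x).symm w.1), T.cY.c y' ((T.cY.c y).symm w.2.1),
        T.cZ.c z' ((T.cZ.c z).symm w.2.2))
      (fderiv ℂ (fun w => cW.c x' ((cW.c x).symm w)) w.1 u.1,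
        fderiv ℂ (fun w => T.cY.c y' ((T.cY.c y).symm w)) w.2.1 u.2.1,
        fderiv ℂ (fun w => T.cZ.c z' ((T.cZ.c z).symm w)) w.2.2 u.2.2)
      (fderiv ℂ (fun w => cW.c x' ((cW.c x).symm w)) w.1 v.1,
        fderiv ℂ (fun w => T.cY.c y' ((T.cY.c y).symm w)) w.2.1 v.2.1,
        fderiv ℂ (fun w => T.cZ.c z' ((T.cZ.c z).symm w)) w.2.2 v.2.2) := by
  have d0 := (U2g_dif cW hw.1 h0).hasFDerivAt.comp w (hasFDerivAt_fst (𝕜 := ℂ))
  have d1 := (U2g_dif T.cY hw.2.1 h1).hasFDerivAt.comp w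
    ((hasFDerivAt_fst (𝕜 := ℂ)).comp w (hasFDerivAt_snd (𝕜 := ℂ)))
  have d2 := (U2g_dif T.cZ hw.2.2 h2).hasFDerivAt.comp w
    ((hasFDerivAt_snd (𝕜 := ℂ)).comp w (hasFDerivAt_snd (𝕜 := ℂ)))
  have hτ := d0.prodMk (d1.prodMk d2)
  have hg : (cW.c x' ((cW.c x).symm w.1), T.cY.c y' ((T.cY.c y).symm w.2.1),
      T.cZ.c z' ((T.cZ.c z).symm w.2.2)) ∈ T.tg x' y' z' :=
    ⟨(cW.c x').map_source h0, (T.cY.c y').map_source h1, (T.cZ.c z').map_source h2⟩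
  have h3 := pm_comp (η := η) (τ := fun w : Cn d₀ × Cn T.d₁ × Cn T.d₂ =>
    (cW.c x' ((cW.c x).symm w.1), T.cY.c y' ((T.cY.c y).symm w.2.1),
      T.cZ.c z' ((T.cZ.c z).symm w.2.2))) (p' := w) (T.gd' hg) hτ.differentiableAt u v
  have h4 : fderiv ℂ (fun w : Cn d₀ × Cn T.d₁ × Cn T.d₂ =>
      (cW.c x' ((cW.c x).symm w.1), T.cY.c y' ((T.cY.c y).symm w.2.1),
        T.cZ.c z' ((T.cZ.c z).symm w.2.2))) w = _ := hτ.fderiv
  rw [h4] at h3
  refine Eq.trans (pm_congr ?_ u v) h3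
  filter_upwards [continuousAt_fst (p := w) (U2g_ev cW hw.1 h0),
    (continuous_fst.comp continuous_snd).continuousAt (x := w) (U2g_ev T.cY hw.2.1 h1),
    (continuous_snd.comp continuous_snd).continuousAt (x := w) (U2g_ev T.cZ hw.2.2 h2)]
    with q e0 e1 e2
  exact congrArg (fun t => π (T.Ψ t)) (Prod.ext e0.symm (Prod.ext e1.symm e2.symm))

theorem Tri.metY (T : Tri M.toAtl Q π cW) (hη : IsF M.toAtl η) (hQ : Prj M η B Q) :
    ∃ g : T.Y → Cn T.d₁ → Mx T.d₁, ∀ x y z, ∀ w ∈ T.tg x y z, ∀ u v,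
      pm M.toAtl η (T.F x y z) w (0, u, 0) (0, v, 0) = star u ⬝ᵥ g y w.2.1 *ᵥ v := by
  have := T.sW
  obtain ⟨x₀⟩ : Nonempty W := inferInstance
  obtain ⟨z₀⟩ : Nonempty T.Z := inferInstance
  let ι : Cn T.d₁ →ₗ[ℂ] Cn d₀ × Cn T.d₁ × Cn T.d₂ :=
    (LinearMap.inr ℂ _ _).comp (LinearMap.inl ℂ _ _)
  refine ⟨fun y w₁ => Matrix.of fun j k => pm M.toAtl η (T.F x₀ y z₀)
    (cW.c x₀ x₀, w₁, T.cZ.c z₀ z₀) (ι (Pi.single j 1)) (ι (Pi.single k 1)),
    fun x y z w hw u v => ?_⟩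
  rw [← sesq_matrix ι u v]
  let f : W → T.Z → ℂ := fun x z => pm M.toAtl η (T.F x y z)
    (cW.c x x, w.2.1, T.cZ.c z z) (0, u, 0) (0, v, 0)
  have h1 : ∀ x z a c, (a, w.2.1, c) ∈ T.tg x y z →
      pm M.toAtl η (T.F x y z) (a, w.2.1, c) (0, u, 0) (0, v, 0) =
        f ((cW.c x).symm a) ((T.cZ.c z).symm c) := fun x z a c h => by
    rw [U2g_chg T h (cW.mem _) ((T.cY.c y).map_target h.2.1) (T.cZ.mem _)]
    simp only [map_zero, U2g_self T.cY y hw.2.1, (T.cY.c y).right_inv hw.2.1, f]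
  refine (h1 x z w.1 w.2.2 hw).trans (ca_const (E := ℂ) cW T.cZ f (fun x z => ?_) _ _ x₀ z₀)
  refine ⟨fun q => pm M.toAtl η (T.F x y z) (q.1, w.2.1, q.2) (0, u, 0) (0, v, 0), id, ?_⟩
  filter_upwards [prod_mem_nhds
    ((cW.c x).open_target.mem_nhds ((cW.c x).map_source (cW.mem x)))
    ((T.cZ.c z).open_target.mem_nhds ((T.cZ.c z).map_source (T.cZ.mem z)))] with q hq
  have ht : (q.1, w.2.1, q.2) ∈ T.tg x y z := ⟨hq.1, hw.2.1, hq.2⟩
  refine ⟨(h1 x z _ _ ht).symm, ?_⟩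
  have hd := ((pm_smooth hη (T.isOpen_tg x y z) (fun p hp => T.gd' hp) ht (0, u, 0)
    (0, v, 0)).differentiableAt one_ne_zero).hasFDerivAt.comp q
    ((hasFDerivAt_fst (𝕜 := ℝ)).prodMk
      ((hasFDerivAt_const w.2.1 q).prodMk (hasFDerivAt_snd (𝕜 := ℝ))))
  refine hd.congr_fderiv (ContinuousLinearMap.ext fun b => ?_)
  have s0 := pm_slice hη hQ (T.isOpen_tg x y z) (fun p hp => T.gd' hp) ht (i := 1) (j := 0)
    (by decide) (u := (0, u, 0)) (v := (0, v, 0)) (a := (b.1, 0, 0)) rfl rfl (by simp [pr3]) rfl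
  have s2 := pm_slice hη hQ (T.isOpen_tg x y z) (fun p hp => T.gd' hp) ht (i := 1) (j := 2)
    (by decide) (u := (0, u, 0)) (v := (0, v, 0)) (a := (0, 0, b.2)) rfl rfl (by simp [pr3]) rfl
  have e : ((b.1, 0, b.2) : Cn d₀ × Cn T.d₁ × Cn T.d₂) = (b.1, 0, 0) + (0, 0, b.2) := by simp
  change fderiv ℝ (fun q => pm M.toAtl η (T.F x y z) q (0, u, 0) (0, v, 0)) (q.1, w.2.1, q.2)
    (b.1, 0, b.2) = 0
  rw [e, map_add, s0, s2, add_zero]

theorem Tri.metZ (T : Tri M.toAtl Q π cW) (hη : IsF M.toAtl η) (hQ : Prj M η B Q) :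
    ∃ g : T.Z → Cn T.d₂ → Mx T.d₂, ∀ x y z, ∀ w ∈ T.tg x y z, ∀ u v,
      pm M.toAtl η (T.F x y z) w (0, 0, u) (0, 0, v) = star u ⬝ᵥ g z w.2.2 *ᵥ v := by
  have := T.sW
  obtain ⟨x₀⟩ : Nonempty W := inferInstance
  obtain ⟨y₀⟩ : Nonempty T.Y := inferInstance
  let ι : Cn T.d₂ →ₗ[ℂ] Cn d₀ × Cn T.d₁ × Cn T.d₂ :=
    (LinearMap.inr ℂ _ _).comp (LinearMap.inr ℂ _ _)
  refine ⟨fun z w₂ => Matrix.of fun j k => pm M.toAtl η (T.F x₀ y₀ z)
    (cW.c x₀ x₀, T.cY.c y₀ y₀, w₂) (ι (Pi.single j 1)) (ι (Pi.single k 1)),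
    fun x y z w hw u v => ?_⟩
  rw [← sesq_matrix ι u v]
  let f : W → T.Y → ℂ := fun x y => pm M.toAtl η (T.F x y z)
    (cW.c x x, T.cY.c y y, w.2.2) (0, 0, u) (0, 0, v)
  have h1 : ∀ x y a c, (a, c, w.2.2) ∈ T.tg x y z →
      pm M.toAtl η (T.F x y z) (a, c, w.2.2) (0, 0, u) (0, 0, v) =
        f ((cW.c x).symm a) ((T.cY.c y).symm c) := fun x y a c h => by
    rw [U2g_chg T h (cW.mem _) (T.cY.mem _) ((T.cZ.c z).map_target h.2.2)]
    simp only [map_zero, U2g_self T.cZ z hw.2.2, (T.cZ.c z).right_inv hw.2.2, f]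
  refine (h1 x y w.1 w.2.1 hw).trans (ca_const (E := ℂ) cW T.cY f (fun x y => ?_) _ _ x₀ y₀)
  refine ⟨fun q => pm M.toAtl η (T.F x y z) (q.1, q.2, w.2.2) (0, 0, u) (0, 0, v), id, ?_⟩
  filter_upwards [prod_mem_nhds
    ((cW.c x).open_target.mem_nhds ((cW.c x).map_source (cW.mem x)))
    ((T.cY.c y).open_target.mem_nhds ((T.cY.c y).map_source (T.cY.mem y)))] with q hq
  have ht : (q.1, q.2, w.2.2) ∈ T.tg x y z := ⟨hq.1, hq.2, hw.2.2⟩
  refine ⟨(h1 x y _ _ ht).symm, ?_⟩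
  have hd := ((pm_smooth hη (T.isOpen_tg x y z) (fun p hp => T.gd' hp) ht (0, 0, u)
    (0, 0, v)).differentiableAt one_ne_zero).hasFDerivAt.comp q
    ((hasFDerivAt_fst (𝕜 := ℝ)).prodMk
      ((hasFDerivAt_snd (𝕜 := ℝ)).prodMk (hasFDerivAt_const w.2.2 q)))
  refine hd.congr_fderiv (ContinuousLinearMap.ext fun b => ?_)
  have s0 := pm_slice hη hQ (T.isOpen_tg x y z) (fun p hp => T.gd' hp) ht (i := 2) (j := 0)
    (by decide) (u := (0, 0, u)) (v := (0, 0, v)) (a := (b.1, 0, 0)) rfl rfl (by simp [pr3]) rfl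
  have s2 := pm_slice hη hQ (T.isOpen_tg x y z) (fun p hp => T.gd' hp) ht (i := 2) (j := 1)
    (by decide) (u := (0, 0, u)) (v := (0, 0, v)) (a := (0, b.2, 0)) rfl rfl (by simp [pr3]) rfl
  have e : ((b.1, b.2, 0) : Cn d₀ × Cn T.d₁ × Cn T.d₂) = (b.1, 0, 0) + (0, b.2, 0) := by simp
  change fderiv ℝ (fun q => pm M.toAtl η (T.F x y z) q (0, 0, u) (0, 0, v)) (q.1, q.2, w.2.2)
    (b.1, b.2, 0) = 0
  rw [e, map_add, s0, s2, add_zero]

end Vale.Agent.P299.U2
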