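import Vale.Agent.P299.U2K
import Vale.Agent.P299.U2L
import Vale.Agent.P278.Mono
import Vale.Agent.P278F.Osg

/-! P299, part U2: the developing map. -/

open MeasureTheory Set Filter Topology Matrix
open scoped ContDiff ComplexConjugate ComplexOrder

noncomputable section

namespace Vale.Agent.P299.U2

open Vale.Agent.P271 Vale.Agent.P272

variable {n : ℕ} {X : Type} [TopologicalSpace X] [MeasurableSpace X] {M : Model n X}
  {η : Frm M.toAtl} {B : EF M.toAtl}

theorem U2h1_prim {β : Cn n → Cn n} {c : Cn n} (h : ∀ᶠ z in 𝓝 c, AnalyticAt ℂ β z ∧ ∀ u v,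
    fderiv ℂ (fun y => β y ⬝ᵥ v) z u = fderiv ℂ (fun y => β y ⬝ᵥ u) z v) :
    ∃ P : Cn n → ℂ, ∀ᶠ z in 𝓝 c, DifferentiableAt ℂ P z ∧ ∀ v, fderiv ℂ P z v = β z ⬝ᵥ v := by
  obtain ⟨L, hL⟩ : ∃ L : Cn n →L[ℂ] Cn n →L[ℂ] ℂ, ∀ b v, L b v = b ⬝ᵥ v :=
    ⟨∑ j, (ContinuousLinearMap.proj j : Cn n →L[ℂ] ℂ).smulRight
      (ContinuousLinearMap.proj j : Cn n →L[ℂ] ℂ), fun b v => by simp [dotProduct]⟩
  obtain ⟨r, hr, hb⟩ := Metric.eventually_nhds_iff_ball.1 h
  have hd : ∀ z ∈ Metric.ball c r, DifferentiableAt ℂ (fun y => L (β y)) z := fun z hz =>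
    L.differentiableAt.comp z (hb z hz).1.differentiableAt
  have he : ∀ z ∈ Metric.ball c r, ∀ x y, fderiv ℝ (fun y => L (β y)) z x y =
      fderiv ℂ (fun w => β w ⬝ᵥ y) z x := fun z hz x y => by
    have h1 := ((ContinuousLinearMap.apply ℂ ℂ y).hasFDerivAt.comp z (hd z hz).hasFDerivAt).fderiv
    have h2 : (fun w => β w ⬝ᵥ y) = ContinuousLinearMap.apply ℂ ℂ y ∘ fun w => L (β w) :=
      funext fun w => (hL _ _).symm
    rw [h2, h1, ((hd z hz).hasFDerivAt.restrictScalars ℝ).fderiv]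
    rfl
  obtain ⟨P, hP⟩ : ∃ P : Cn n → ℂ, ∀ z ∈ Metric.ball c r, HasFDerivAt P (L (β z)) z :=
    (convex_ball c r).exists_forall_hasFDerivAt_of_fderiv_symmetric Metric.isOpen_ball
      (fun z hz => ((hd z hz).restrictScalars ℝ).differentiableWithinAt) fun z hz x y => by
        rw [he z hz, he z hz, (hb z hz).2]
  refine ⟨P, Eventually.mono (Metric.ball_mem_nhds c hr) fun z hz =>
    ⟨(hP z hz).differentiableAt, fun v => ?_⟩⟩
  rw [(hP z hz).fderiv, hL]

/-- The condition on the developing map at one point. -/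
def U2h1D (S : Pre M η B) (x : S.V → Cn S.q) (m : S.V) : Prop :=
  ∀ a, S.π m ∈ (M.e a).source →
    AnalyticAt ℂ (fun z => x (lf S.lh m ((M.e a).symm z))) (M.e a (S.π m)) ∧
    ∀ v i, fderiv ℂ (fun z => x (lf S.lh m ((M.e a).symm z))) (M.e a (S.π m)) v i =
      star (S.ξ i a m) ⬝ᵥ LM (η a) (M.e a (S.π m)) *ᵥ v

variable {S : Pre M η B} {x x' : S.V → Cn S.q} {m : S.V} {a : M.ι}

theorem U2h1_t1 (ha : S.π m ∈ (M.e a).source) :
    Tendsto (M.e a).symm (𝓝 (M.e a (S.π m))) (𝓝 (S.π m)) := (M.e a).tendsto_symm ha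

theorem U2h1_t2 (ha : S.π m ∈ (M.e a).source) :
    Tendsto (fun z => lf S.lh m ((M.e a).symm z)) (𝓝 (M.e a (S.π m))) (𝓝 m) := by
  have h := (lf_cont S.lh m).tendsto
  rw [lf_self] at h
  exact h.comp (U2h1_t1 ha)

theorem U2h1_t3 (ha : S.π m ∈ (M.e a).source) :
    Tendsto (fun p => M.e a (S.π p)) (𝓝 m) (𝓝 (M.e a (S.π m))) :=
  ((M.e a).continuousAt ha).tendsto.comp S.lh.continuous.continuousAt

theorem U2h1_src (ha : S.π m ∈ (M.e a).source) : ∀ᶠ p in 𝓝 m, S.π p ∈ (M.e a).source :=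
  S.lh.continuous.continuousAt.eventually ((M.e a).open_source.mem_nhds ha)

theorem U2h1D.congr (h : U2h1D S x m) (he : x' =ᶠ[𝓝 m] x) : U2h1D S x' m := fun a ha => by
  have h1 : (fun z => x' (lf S.lh m ((M.e a).symm z))) =ᶠ[𝓝 (M.e a (S.π m))]
      fun z => x (lf S.lh m ((M.e a).symm z)) := (U2h1_t2 ha).eventually he
  rw [h1.fderiv_eq]
  exact ⟨(h a ha).1.congr h1.symm, (h a ha).2⟩

theorem U2h1D.add (h : U2h1D S x m) (c : Cn S.q) : U2h1D S (fun p => x p + c) m := fun a ha => by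
  rw [fderiv_add_const]
  exact ⟨(h a ha).1.add analyticAt_const, (h a ha).2⟩

theorem U2h1_uniq (h : ∀ᶠ p in 𝓝 m, U2h1D S x p) (h' : ∀ᶠ p in 𝓝 m, U2h1D S x' p) :
    ∀ᶠ p in 𝓝 m, x p - x' p = x m - x' m := by
  obtain ⟨a, ha⟩ := M.cover (S.π m)
  have h1 : ∀ᶠ z in 𝓝 (M.e a (S.π m)), HasFDerivAt (fun z => x (lf S.lh m ((M.e a).symm z)) -
      x' (lf S.lh m ((M.e a).symm z))) (0 : Cn n →L[ℂ] Cn S.q) z := by
    filter_upwards [(U2h1_t2 ha).eventually ((h.and h').and ((lf_ev S.lh m).and (U2h1_src ha))),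
      (U2h1_t1 ha).eventually (lf_right S.lh m),
      (M.e a).open_target.mem_nhds ((M.e a).map_source ha)] with z ⟨⟨g1, g2⟩, g3, g4⟩ g5 g6
    have e : M.e a (S.π (lf S.lh m ((M.e a).symm z))) = z := by rw [g5, (M.e a).right_inv g6]
    have g7 := (U2h1_t1 g4).eventually g3
    obtain ⟨a1, a2⟩ := g1 a g4
    obtain ⟨b1, b2⟩ := g2 a g4
    have g8 := a1.differentiableAt.hasFDerivAt.sub b1.differentiableAt.hasFDerivAt
    rw [sub_eq_zero.2 (ContinuousLinearMap.ext fun v => funext fun i =>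
      (a2 v i).trans (b2 v i).symm)] at g8
    rw [e] at g7 g8
    exact g8.congr_of_eventuallyEq (g7.mono fun w hw => by simp only [Pi.sub_apply, hw])
  obtain ⟨r, hr, hb⟩ := Metric.eventually_nhds_iff_ball.1 h1
  filter_upwards [(U2h1_t3 ha).eventually (Metric.ball_mem_nhds _ hr), U2h1_src ha,
    lf_left S.lh m] with p g1 g2 g3
  have g4 := Metric.isOpen_ball.is_const_of_fderiv_eq_zero (𝕜 := ℂ)
    (convex_ball _ r).isPreconnected (fun z hz => (hb z hz).differentiableAt.differentiableWithinAt)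
    (fun z hz => (hb z hz).fderiv) g1 (Metric.mem_ball_self hr)
  rwa [(M.e a).left_inv g2, (M.e a).left_inv ha, g3, lf_self] at g4

theorem U2h1_loc (hη : IsF M.toAtl η) (m : S.V) : ∃ x, ∀ᶠ p in 𝓝 m, U2h1D S x p := by
  obtain ⟨a, ha⟩ := M.cover (S.π m)
  have ht := (M.e a).open_target.mem_nhds ((M.e a).map_source ha)
  choose P hP using fun i => U2h1_prim (c := M.e a (S.π m))
    (β := fun z => star (LM (η a) z *ᵥ S.ξ i a (lf S.lh m ((M.e a).symm z)))) (by
      filter_upwards [((S.pf i).hol a m ha).eventually_analyticAt,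
        ((S.pf i).par a m ha).eventually_analyticAt, ht] with z h1 h2 h3
      exact ⟨h2, pf_closed (hη.smAt h3) h1 h2⟩)
  have h1 := eventually_all.2 hP
  refine ⟨fun p i => P i (M.e a (S.π p)), ?_⟩
  filter_upwards [(U2h1_t3 ha).eventually h1.eventually_nhds, U2h1_src ha, lf_left S.lh m]
    with p g1 g2 g3 b hb
  have hov : M.e b (S.π p) ∈ M.ov b a :=
    ⟨(M.e b).map_source hb, by rw [mem_preimage, (M.e b).left_inv hb]; exact g2⟩
  have e1 : M.tr b a (M.e b (S.π p)) = M.e a (S.π p) := by rw [Atl.tr, (M.e b).left_inv hb]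
  have e2 : (fun z i => P i (M.e a (S.π (lf S.lh p ((M.e b).symm z))))) =ᶠ[𝓝 (M.e b (S.π p))]
      fun z i => P i (M.tr b a z) :=
    ((U2h1_t1 hb).eventually (lf_right S.lh p)).mono fun z hz => by simp only [hz, Atl.tr]
  have hT := M.analyticOnNhd_tr b a _ hov
  have hA : ∀ i, AnalyticAt ℂ (P i) (M.tr b a (M.e b (S.π p))) := fun i => by
    rw [e1]
    exact P278F.analyticAt_of_eventually (g1.mono fun z hz => (hz i).1)
  refine ⟨(analyticAt_pi_iff.2 fun i => (hA i).comp hT).congr e2.symm, fun v i => ?_⟩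
  have g4 := (hasFDerivAt_pi.2 fun i => (hA i).differentiableAt.hasFDerivAt.comp _
    hT.differentiableAt.hasFDerivAt).fderiv
  rw [e2.fderiv_eq]
  refine (congrFun (DFunLike.congr_fun g4 v) i).trans ?_
  rw [ContinuousLinearMap.pi_apply, ContinuousLinearMap.comp_apply, e1,
    (g1.self_of_nhds i).2, (M.e a).left_inv g2, g3, (S.pf i).compat b a p hb g2,
    hη.compat b a _ hov, e1, ← DM_mulVec, star_mulVec, star_mulVec,
    (LM_herm (hη.smAt ((M.e a).map_source g2))).eq]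
  simp only [dotProduct_mulVec, vecMul_vecMul, Matrix.mul_assoc]

theorem exists_dev (hη : IsF M.toAtl η) (S : Pre M η B) : ∃ x, Dev S x := by
  let cs : ChartedSpace (Cn n) S.V :=
    { atlas := range fun m => (S.lh m).choose.trans (M.e (ch M.toAtl (S.π m)))
      chartAt := fun m => (S.lh m).choose.trans (M.e (ch M.toAtl (S.π m)))
      mem_chart_source := fun m => ⟨(S.lh m).choose_spec.1, by
        have h := ch_mem M.toAtl (S.π m)
        rw [congrFun (S.lh m).choose_spec.2 m] at h ⊢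
        exact h⟩
      chart_mem_atlas := fun m => mem_range_self _ }
  have : LocallyPathConnectedSpace S.V := ChartedSpace.locallyPathConnectedSpace (Cn n) S.V
  obtain ⟨m₀⟩ : Nonempty S.V := inferInstance
  obtain ⟨x₀, h₀⟩ := U2h1_loc hη m₀
  obtain ⟨x, -, hx⟩ := P278.monodromy (fun m (s : S.V → Cn S.q) => ∀ᶠ p in 𝓝 m, U2h1D S s p)
    (fun m s s' h he => (h.and he.eventuallyEq_nhds).mono fun p hp => hp.1.congr hp.2)
    (fun m₁ => by
      obtain ⟨y, hy⟩ := U2h1_loc hη m₁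
      obtain ⟨U, ⟨h1, h2, h3⟩, h4⟩ :=
        (LocallyConnectedSpace.open_connected_basis m₁).mem_iff.1 hy.eventually_nhds
      refine ⟨U, h1, h2, fun m hm s hs => ⟨fun p => y p + (s m - y m), ?_, fun p hp =>
        Eventually.mono (h4 hp) fun q hq => hq.add _⟩, fun s s' hs hs' m hm he p hp => ?_⟩
      · filter_upwards [U2h1_uniq hs (h4 hm)] with p hp
        rw [← hp, add_sub_cancel]
      · filter_upwards [h1.mem_nhds hp] with q hq
        have h5 := h3.isPreconnected.induction₂' (fun p q => s p - s' p = s q - s' q)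
          (fun z hz => ((U2h1_uniq (hs z hz) (hs' z hz)).filter_mono nhdsWithin_le_nhds).mono
            fun w hw => ⟨hw.symm, hw⟩) (fun _ _ _ _ _ _ g1 g2 => g1.trans g2) hq hm
        rwa [he.self_of_nhds, sub_self, sub_eq_zero] at h5) h₀
  exact ⟨x, fun a m ha => (hx m).self_of_nhds a ha⟩

end Vale.Agent.P299.U2
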