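import Vale.Agent.P299.U2L

/-! P299, part U2: equivariance of the developing map. -/

open MeasureTheory Set Filter Topology Matrix
open scoped ContDiff ComplexConjugate ComplexOrder

noncomputable section

namespace Vale.Agent.P299.U2

open Vale.Agent.P271 Vale.Agent.P272

variable {n : ℕ} {X : Type} [TopologicalSpace X] [MeasurableSpace X] {M : Model n X}
  {η : Frm M.toAtl} {B : EF M.toAtl}

omit [MeasurableSpace X] in
theorem U2h2_const {V E : Type} [TopologicalSpace V] [PreconnectedSpace V] [NormedAddCommGroup E]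
    [NormedSpace ℂ E] {π : V → X} (lh : IsLocalHomeomorph π) (A : Atl n X) {f : V → E}
    (h : ∀ a m, π m ∈ (A.e a).source → HasFDerivAt (fun z => f (lf lh m ((A.e a).symm z)))
      (0 : Cn n →L[ℂ] E) (A.e a (π m))) (m m' : V) : f m = f m' := by
  refine IsLocallyConstant.apply_eq_of_preconnectedSpace
    ((IsLocallyConstant.iff_eventually_eq f).2 fun m => ?_) m m'
  obtain ⟨a, ha⟩ := A.cover (π m)
  have t1 : Tendsto (A.e a).symm (𝓝 (A.e a (π m))) (𝓝 (π m)) := (A.e a).tendsto_symm ha
  have t2 : Tendsto (fun z => lf lh m ((A.e a).symm z)) (𝓝 (A.e a (π m))) (𝓝 m) := by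
    have t := lf_cont lh m
    rw [ContinuousAt, lf_self] at t
    exact t.comp t1
  have h1 : ∀ᶠ z in 𝓝 (A.e a (π m)), HasFDerivAt (fun z => f (lf lh m ((A.e a).symm z)))
      (0 : Cn n →L[ℂ] E) z := by
    filter_upwards [t2.eventually (lf_ev lh m), t1.eventually (lf_right lh m),
      (A.e a).open_target.mem_nhds ((A.e a).map_source ha)] with z e1 e2 hz
    have h2 := h a (lf lh m ((A.e a).symm z)) (by rw [e2]; exact (A.e a).map_target hz)
    rw [e2] at e1
    rw [e2, (A.e a).right_inv hz] at h2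
    refine h2.congr_of_eventuallyEq ?_
    filter_upwards [((A.e a).continuousAt_symm hz).eventually e1] with w hw
    rw [hw]
  obtain ⟨ε, hε, hb⟩ := Metric.eventually_nhds_iff_ball.1 h1
  have t3 : ContinuousAt (fun m' => A.e a (π m')) m :=
    ((A.e a).continuousAt ha).comp lh.continuous.continuousAt
  filter_upwards [t3.eventually (Metric.ball_mem_nhds _ hε), lf_left lh m,
    lh.continuous.continuousAt.eventually ((A.e a).open_source.mem_nhds ha)] with m' e1 e2 e3
  have h3 := Metric.isOpen_ball.is_const_of_fderiv_eq_zero (𝕜 := ℂ)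
    (convex_ball (A.e a (π m)) ε).isPreconnected
    (fun z hz => (hb z hz).differentiableAt.differentiableWithinAt) (fun z hz => (hb z hz).fderiv)
    e1 (Metric.mem_ball_self hε)
  rwa [(A.e a).left_inv e3, (A.e a).left_inv ha, e2, lf_self] at h3

theorem dev_equiv (S : Pre M η B) {x : S.V → Cn S.q} (hx : Dev S x) (γ : S.Γ) :
    ∃ U ∈ Matrix.unitaryGroup (Fin S.q) ℂ, ∃ b, ∀ m, x (γ • m) = U *ᵥ x m + b := by
  obtain ⟨U, hU⟩ := S.inv γ
  have hπ : ∀ m, S.π (γ • m) = S.π m := fun m => S.tp.cov.map_smul γ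
  have hs : ∀ a m, S.π m ∈ (M.e a).source → ∀ i (w : Cn n),
      star (S.ξ i a (γ • m)) ⬝ᵥ w = ∑ j, star (U i j) * (star (S.ξ j a m) ⬝ᵥ w) := by
    intro a m hm i w
    simp only [hU i a m hm, star_sum, star_smul, sum_dotProduct, smul_dotProduct, smul_eq_mul]
  obtain ⟨m₀⟩ : Nonempty S.V := inferInstance
  refine ⟨U.map star, ?_, x (γ • m₀) - U.map star *ᵥ x m₀, fun m => ?_⟩
  · obtain ⟨a, ha⟩ := M.cover (S.π m₀)
    rw [Matrix.mem_unitaryGroup_iff]
    ext i j
    have h1 := S.on i j a (γ • m₀) (by rwa [hπ])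
    rw [hπ, hs a m₀ ha, hU j a m₀ ha] at h1
    simp only [Matrix.mulVec_sum, mulVec_smul, dotProduct_sum, dotProduct_smul, S.on _ _ a m₀ ha,
      smul_eq_mul, mul_ite, mul_one, mul_zero, Finset.sum_ite_eq, Finset.mem_univ, if_true] at h1
    rw [one_apply, ← h1, mul_apply]
    simp only [star_apply, map_apply, star_star]
  · rw [← sub_eq_iff_eq_add']
    refine U2h2_const S.lh M.toAtl (f := fun m => x (γ • m) - U.map star *ᵥ x m)
      (fun a m hm => ?_) m m₀
    have := S.tp.cov.toContinuousConstSMul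
    obtain ⟨a1, d1⟩ := hx a (γ • m) (by rwa [hπ])
    obtain ⟨a2, d2⟩ := hx a m hm
    have e : (fun p => γ • lf S.lh m p) =ᶠ[𝓝 (S.π (γ • m))] lf S.lh (γ • m) := by
      refine lf_uniq S.lh ?_ ?_ ?_ <;> rw [hπ]
      · exact (lf_cont S.lh m).const_smul γ
      · rw [lf_self]
      · filter_upwards [lf_right S.lh m] with p hp
        rw [hπ, hp]
    rw [hπ] at a1 d1 e
    have f1 := a1.differentiableAt.hasFDerivAt.congr_of_eventuallyEq
      (f₁ := fun z => x (γ • lf S.lh m ((M.e a).symm z))) (by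
        filter_upwards [((M.e a).tendsto_symm hm).eventually e] with z hz
        rw [hz])
    have f2 := ((LinearMap.toContinuousLinearMap (U.map star).mulVecLin).hasFDerivAt.comp _
      a2.differentiableAt.hasFDerivAt)
    refine (f1.sub f2).congr_fderiv ?_
    ext v i
    simp only [ContinuousLinearMap.sub_apply, ContinuousLinearMap.comp_apply,
      LinearMap.coe_toContinuousLinearMap', mulVecLin_apply, Pi.sub_apply, d1, hs a m hm,
      ContinuousLinearMap.zero_apply, Pi.zero_apply]
    rw [sub_eq_zero, mulVec, dotProduct]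
    simp only [d2, map_apply]

end Vale.Agent.P299.U2
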