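import Vale.Agent.P299.U2p
import Vale.Agent.P299.U2L

/-! P299, part U2: the developing map factors through the first factor. -/

open MeasureTheory Set Filter Topology Matrix
open scoped ContDiff ComplexConjugate ComplexOrder

noncomputable section

namespace Vale.Agent.P299.U2

open Vale.Agent.P271 Vale.Agent.P272

variable {n : ℕ} {X : Type} [TopologicalSpace X] [MeasurableSpace X] {M : Model n X}
  {η : Frm M.toAtl} {B : EF M.toAtl}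

theorem U2i_coef (S : Pre M η B) {a : M.ι} {m : S.V} (hm : S.π m ∈ (M.e a).source)
    (t : Fin S.q → ℂ) (k : Fin S.q) :
    star (S.ξ k a m) ⬝ᵥ LM (η a) (M.e a (S.π m)) *ᵥ ∑ i, t i • S.ξ i a m = t k := by
  rw [Matrix.mulVec_sum, dotProduct_sum]
  simp only [Matrix.mulVec_smul, dotProduct_smul, S.on _ _ a m hm, smul_eq_mul, mul_ite, mul_one,
    mul_zero, Finset.sum_ite_eq, Finset.mem_univ, if_true]

theorem U2i_zero (S : Pre M η B) {a : M.ι} {m : S.V} (hm : S.π m ∈ (M.e a).source) {v : Cn n}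
    (h : S.Q 0 a (M.e a (S.π m)) *ᵥ v = 0) (k : Fin S.q) :
    star (S.ξ k a m) ⬝ᵥ LM (η a) (M.e a (S.π m)) *ᵥ v = 0 := by
  have h1 := U2i_coef S hm (fun i => star (S.ξ i a m) ⬝ᵥ LM (η a) (M.e a (S.π m)) *ᵥ v) k
  rw [← S.span a m hm v, h, Matrix.mulVec_zero, dotProduct_zero] at h1
  exact h1.symm

theorem U2i_met (S : Pre M η B) {a : M.ι} {m : S.V} (hm : S.π m ∈ (M.e a).source) {u : Cn n}
    (h : S.Q 0 a (M.e a (S.π m)) *ᵥ u = u) (v : Cn n) :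
    star u ⬝ᵥ LM (η a) (M.e a (S.π m)) *ᵥ v =
      star (fun i => star (S.ξ i a m) ⬝ᵥ LM (η a) (M.e a (S.π m)) *ᵥ u) ⬝ᵥ
        fun i => star (S.ξ i a m) ⬝ᵥ LM (η a) (M.e a (S.π m)) *ᵥ v := by
  have h1 := S.span a m hm u
  rw [h] at h1
  generalize hc : (fun i => star (S.ξ i a m) ⬝ᵥ LM (η a) (M.e a (S.π m)) *ᵥ u) = c
  have h2 : u = ∑ i, c i • S.ξ i a m := by
    rw [← hc]
    exact h1
  rw [h2, star_sum, sum_dotProduct]
  refine Finset.sum_congr rfl fun i _ => ?_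
  rw [star_smul, smul_dotProduct, smul_eq_mul]
  rfl

section
variable (S : Pre M η B) {d₀ : ℕ} {W : Type} [TopologicalSpace W]
  {cW : CA d₀ W} (T : Tri M.toAtl S.Q S.π cW) {x : S.V → Cn S.q}

/-- The developing map in product coordinates. -/
def U2i_H (x : S.V → Cn S.q) (x' : W) (y : T.Y) (z : T.Z) (w : Cn d₀ × Cn T.d₁ × Cn T.d₂) :
    Cn S.q := x (T.Ψ (pt3 cW T.cY T.cZ x' y z w))

theorem U2i_an (hx : Dev S x) {x' : W} {y : T.Y} {z : T.Z} {w : Cn d₀ × Cn T.d₁ × Cn T.d₂}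
    (hw : w ∈ T.tg x' y z) {a : M.ι} (ha : T.F x' y z w ∈ (M.e a).source) :
    AnalyticAt ℂ (U2i_H S T x x' y z) w ∧ ∀ v, fderiv ℂ (U2i_H S T x x' y z) w v = fun i =>
      star (S.ξ i a (T.Ψ (pt3 cW T.cY T.cZ x' y z w))) ⬝ᵥ LM (η a) (M.e a (T.F x' y z w)) *ᵥ
        DF M.toAtl a (T.F x' y z) w v := by
  have hg := T.gd' hw
  have hp : ContinuousAt (pt3 cW T.cY T.cZ x' y z) w :=
    (ContinuousAt.comp (f := fun w : Cn d₀ × Cn T.d₁ × Cn T.d₂ => w.1)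
      ((cW.c x').continuousAt_symm hw.1) continuousAt_fst).prodMk
    ((ContinuousAt.comp (f := fun w : Cn d₀ × Cn T.d₁ × Cn T.d₂ => w.2.1)
      ((T.cY.c y).continuousAt_symm hw.2.1) continuous_snd.fst.continuousAt).prodMk
    (ContinuousAt.comp (f := fun w : Cn d₀ × Cn T.d₁ × Cn T.d₂ => w.2.2)
      ((T.cZ.c z).continuousAt_symm hw.2.2) continuous_snd.snd.continuousAt))
  have hc : ContinuousAt (fun w => T.Ψ (pt3 cW T.cY T.cZ x' y z w)) w :=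
    T.Ψ.continuous.continuousAt.comp hp
  obtain ⟨h1, h2⟩ := hx a (T.Ψ (pt3 cW T.cY T.cZ x' y z w)) ha
  have he : U2i_H S T x x' y z =ᶠ[𝓝 w]
      (fun p => x (lf S.lh (T.Ψ (pt3 cW T.cY T.cZ x' y z w)) ((M.e a).symm p))) ∘
        fun w' => M.e a (T.F x' y z w') := by
    filter_upwards [hc.eventually (lf_left S.lh _),
      hg.cont.eventually ((M.e a).open_source.mem_nhds ha)] with w' k1 k2
    show x _ = x (lf S.lh _ ((M.e a).symm (M.e a (T.F x' y z w'))))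
    rw [(M.e a).left_inv k2]
    exact congrArg x k1.symm
  refine ⟨(AnalyticAt.comp (f := fun w' => M.e a (T.F x' y z w')) h1 (hg.an a ha)).congr he.symm,
    fun v => funext fun i => ?_⟩
  rw [he.fderiv_eq, fderiv_comp w (f := fun w' => M.e a (T.F x' y z w')) h1.differentiableAt
    (hg.an a ha).differentiableAt]
  exact h2 _ i

theorem U2i_vert (hx : Dev S x) {x' : W} {y : T.Y} {z : T.Z} {w : Cn d₀ × Cn T.d₁ × Cn T.d₂}
    (hw : w ∈ T.tg x' y z) (v : Cn T.d₁ × Cn T.d₂) :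
    fderiv ℂ (U2i_H S T x x' y z) w (0, v) = 0 := by
  obtain ⟨a, ha⟩ := M.cover (T.F x' y z w)
  rw [(U2i_an S T hx hw ha).2]
  refine funext fun i => U2i_zero S ha ?_ i
  exact ((T.gd' hw).blk a ha 0 (0, v)).trans (map_zero _)

theorem U2i_const (hx : Dev S x) (w : W) (y : T.Y) (z : T.Z) (y' : T.Y) (z' : T.Z) :
    x (T.Ψ (w, y, z)) = x (T.Ψ (w, y', z')) := by
  refine ca_const (E := Cn S.q) T.cY T.cZ (fun y z => x (T.Ψ (w, y, z))) (fun y z => ?_) y z y' z'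
  refine ⟨fun p => U2i_H S T x w y z (cW.c w w, p), id, ?_⟩
  have h0 : (cW.c w w, T.cY.c y y, T.cZ.c z z) ∈ T.tg w y z :=
    ⟨(cW.c w).map_source (cW.mem w), (T.cY.c y).map_source (T.cY.mem y),
      (T.cZ.c z).map_source (T.cZ.mem z)⟩
  have hc : Continuous fun p : Cn T.d₁ × Cn T.d₂ => (cW.c w w, p) :=
    continuous_const.prodMk continuous_id
  filter_upwards [hc.continuousAt.eventually ((T.isOpen_tg w y z).mem_nhds h0)] with p hp
  refine ⟨?_, ?_⟩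
  · show x (T.Ψ (w, _, _)) = x (T.Ψ ((cW.c w).symm (cW.c w w), _, _))
    rw [(cW.c w).left_inv (cW.mem w)]
  · obtain ⟨a, ha⟩ := M.cover (T.F w y z (cW.c w w, p))
    have h1 := HasFDerivAt.comp (f := fun p : Cn T.d₁ × Cn T.d₂ => (cW.c w w, p)) p
      (U2i_an S T hx hp ha).1.differentiableAt.hasFDerivAt (hasFDerivAt_prodMk_right (cW.c w w) p)
    have h2 : (fderiv ℂ (U2i_H S T x w y z) (cW.c w w, p)).comp
        (ContinuousLinearMap.inr ℂ (Cn d₀) (Cn T.d₁ × Cn T.d₂)) = 0 :=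
      ContinuousLinearMap.ext fun v => U2i_vert S T hx hp v
    rw [h2] at h1
    exact h1.restrictScalars ℝ

theorem U2i_der (hx : Dev S x) {x₀ : W → Cn S.q} (h₀ : ∀ w y z, x (T.Ψ (w, y, z)) = x₀ w)
    {x' : W} {y : T.Y} {z : T.Z} {w : Cn d₀ × Cn T.d₁ × Cn T.d₂}
    (hw : w ∈ T.tg x' y z) {a : M.ι} (ha : T.F x' y z w ∈ (M.e a).source) :
    AnalyticAt ℂ (fun w' => x₀ ((cW.c x').symm w')) w.1 ∧
      ∀ u, fderiv ℂ (fun w' => x₀ ((cW.c x').symm w')) w.1 u = fun i =>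
        star (S.ξ i a (T.Ψ (pt3 cW T.cY T.cZ x' y z w))) ⬝ᵥ LM (η a) (M.e a (T.F x' y z w)) *ᵥ
          DF M.toAtl a (T.F x' y z) w (u, 0, 0) := by
  obtain ⟨h1, h2⟩ := U2i_an S T hx hw ha
  have e : (fun w' => x₀ ((cW.c x').symm w')) =
      U2i_H S T x x' y z ∘ fun w' : Cn d₀ => (w', w.2) := funext fun w' => (h₀ _ _ _).symm
  rw [e]
  refine ⟨AnalyticAt.comp (f := fun w' : Cn d₀ => (w', w.2)) h1
    (analyticAt_id.prod analyticAt_const), fun u => ?_⟩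
  have h3 := HasFDerivAt.comp (f := fun w' : Cn d₀ => (w', w.2)) w.1
    h1.differentiableAt.hasFDerivAt (hasFDerivAt_prodMk_left w.1 w.2)
  rw [h3.fderiv]
  exact h2 (u, 0, 0)

end

theorem Tri.dev (hη : IsF M.toAtl η) (S : Pre M η B) {d₀ : ℕ} {W : Type} [TopologicalSpace W]
    {cW : CA d₀ W} (T : Tri M.toAtl S.Q S.π cW) {x : S.V → Cn S.q} (hx : Dev S x) :
    ∃ x₀ : W → Cn S.q, (∀ w y z, x (T.Ψ (w, y, z)) = x₀ w) ∧ LB cW x₀ ∧
      ∀ x' y z, ∀ w ∈ T.tg x' y z, ∀ u v,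
        pm M.toAtl η (T.F x' y z) w (u, 0, 0) (v, 0, 0) =
          star (fderiv ℂ (fun w' => x₀ ((cW.c x').symm w')) w.1 u) ⬝ᵥ
            fderiv ℂ (fun w' => x₀ ((cW.c x').symm w')) w.1 v := by
  obtain ⟨y₀⟩ : Nonempty T.Y := inferInstance
  obtain ⟨z₀⟩ : Nonempty T.Z := inferInstance
  obtain ⟨x₀, h₀⟩ : ∃ x₀ : W → Cn S.q, ∀ w y z, x (T.Ψ (w, y, z)) = x₀ w :=
    ⟨fun w => x (T.Ψ (w, y₀, z₀)), fun w y z => U2i_const S T hx w y z y₀ z₀⟩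
  refine ⟨x₀, h₀, fun x' w hw => ?_, fun x' y z w hw u v => ?_⟩
  · have h0 : (w, T.cY.c y₀ y₀, T.cZ.c z₀ z₀) ∈ T.tg x' y₀ z₀ :=
      ⟨hw, (T.cY.c y₀).map_source (T.cY.mem y₀), (T.cZ.c z₀).map_source (T.cZ.mem z₀)⟩
    obtain ⟨a, ha⟩ := M.cover (T.F x' y₀ z₀ (w, T.cY.c y₀ y₀, T.cZ.c z₀ z₀))
    obtain ⟨h1, h2⟩ := U2i_der S T hx h₀ h0 ha
    have hg := T.gd' h0
    refine ⟨h1, (injective_iff_map_eq_zero _).2 fun u hu => ?_, fun t => ?_⟩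
    · have k1 := (h2 u).symm.trans hu
      have k2 := S.span a _ ha (DF M.toAtl a (T.F x' y₀ z₀) (w, T.cY.c y₀ y₀, T.cZ.c z₀ z₀) (u, 0, 0))
      have k3 := (hg.blk a ha 0 (u, 0, 0)).symm.trans (k2.trans (Finset.sum_eq_zero fun i _ =>
        smul_eq_zero_of_left (congrFun k1 i) _))
      exact congrArg Prod.fst ((hg.bij a ha).1 (k3.trans (map_zero _).symm))
    · obtain ⟨v, hv⟩ := (hg.bij a ha).2 (∑ i, t i • S.ξ i a
        (T.Ψ (pt3 cW T.cY T.cZ x' y₀ z₀ (w, T.cY.c y₀ y₀, T.cZ.c z₀ z₀))))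
      have k2 := S.span a _ ha (DF M.toAtl a (T.F x' y₀ z₀) (w, T.cY.c y₀ y₀, T.cZ.c z₀ z₀) v)
      have k3 : DF M.toAtl a (T.F x' y₀ z₀) (w, T.cY.c y₀ y₀, T.cZ.c z₀ z₀) (v.1, 0, 0) = _ :=
        (hg.blk a ha 0 v).symm.trans k2
      refine ⟨v.1, (h2 v.1).trans (funext fun i => ?_)⟩
      rw [k3]
      refine (U2i_coef S ha _ i).trans ?_
      rw [hv]
      exact U2i_coef S ha t i
  · obtain ⟨a, ha⟩ := M.cover (T.F x' y z w)
    obtain ⟨-, h2⟩ := U2i_der S T hx h₀ hw ha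
    rw [pm_eq hη (T.gd' hw) ha, h2, h2]
    exact U2i_met S ha ((T.gd' hw).blk a ha 0 (u, 0, 0)) _

end Vale.Agent.P299.U2
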