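import Vale.Agent.P299.U2D
import Vale.Agent.P278.Mono

/-! P299, part U2: cocompact developing maps are homeomorphisms. -/

open MeasureTheory Set Filter Topology Matrix
open scoped ContDiff ComplexConjugate ComplexOrder

noncomputable section

namespace Vale.Agent.P299.U2

open Vale.Agent.P271 Vale.Agent.P272

theorem LB.locHomeo {d q : ℕ} {W : Type} [TopologicalSpace W] {cW : CA d W} {f : W → Cn q}
    (h : LB cW f) : IsLocalHomeomorph f := by
  refine IsLocalHomeomorph.mk f fun x => ?_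
  have hx : cW.c x x ∈ (cW.c x).target := (cW.c x).map_source (cW.mem x)
  obtain ⟨ha, hb⟩ := h x _ hx
  let L : Cn d ≃L[ℂ] Cn q := ContinuousLinearEquiv.ofBijective
    (fderiv ℂ (fun w' => f ((cW.c x).symm w')) (cW.c x x))
    (LinearMap.ker_eq_bot.2 hb.1) (LinearMap.range_eq_top.2 hb.2)
  have hs : HasStrictFDerivAt (fun w' => f ((cW.c x).symm w')) (L : Cn d →L[ℂ] Cn q)
      (cW.c x x) := ha.hasStrictFDerivAt
  refine ⟨(cW.c x).trans (hs.toOpenPartialHomeomorph _), ⟨cW.mem x, ?_⟩, fun y hy => ?_⟩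
  · exact hs.mem_toOpenPartialHomeomorph_source
  · have h1 : y ∈ (cW.c x).source := hy.1
    show f y = f ((cW.c x).symm (cW.c x y))
    rw [(cW.c x).left_inv h1]

/-- A continuous section of `x` through `w` on the ball of radius `r`. -/
def U2j_sec {W E : Type} [TopologicalSpace W] [NormedAddCommGroup E] (x : W → E) (w : W)
    (r : ℝ) : Prop :=
  ∃ s : E → W, ContinuousOn s (Metric.ball (x w) r) ∧ s (x w) = w ∧
    ∀ t ∈ Metric.ball (x w) r, x (s t) = t

theorem U2j_sec_mono {W E : Type} [TopologicalSpace W] [NormedAddCommGroup E] {x : W → E}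
    {w : W} {r r' : ℝ} (h : U2j_sec x w r) (hr : r' ≤ r) : U2j_sec x w r' := by
  obtain ⟨s, h1, h2, h3⟩ := h
  exact ⟨s, h1.mono (Metric.ball_subset_ball hr), h2,
    fun t ht => h3 t (Metric.ball_subset_ball hr ht)⟩

theorem U2j_cpt {W E : Type} [TopologicalSpace W] [NormedAddCommGroup E] {x : W → E}
    (hx : IsLocalHomeomorph x) {K : Set W} (hK : IsCompact K) :
    ∃ r, 0 < r ∧ ∀ k ∈ K, U2j_sec x k r := by
  refine hK.induction_on (p := fun S => ∃ r, 0 < r ∧ ∀ k ∈ S, U2j_sec x k r)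
    ⟨1, one_pos, fun _ h => h.elim⟩ ?_ ?_ ?_
  · rintro S T hST ⟨r, hr, h⟩
    exact ⟨r, hr, fun k hk => h k (hST hk)⟩
  · rintro S T ⟨r, hr, h⟩ ⟨r', hr', h'⟩
    refine ⟨min r r', lt_min hr hr', fun k hk => ?_⟩
    rcases hk with hk | hk
    · exact U2j_sec_mono (h k hk) (min_le_left _ _)
    · exact U2j_sec_mono (h' k hk) (min_le_right _ _)
  · intro k _
    obtain ⟨e, hk, he⟩ := hx k
    have h1 : x k ∈ e.target := by rw [he]; exact e.map_source hk
    obtain ⟨r, hr, hb⟩ := Metric.isOpen_iff.1 e.open_target _ h1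
    refine ⟨e.source ∩ x ⁻¹' Metric.ball (x k) (r / 2), mem_nhdsWithin_of_mem_nhds ?_,
      r / 2, by positivity, fun k' hk' => ?_⟩
    · exact inter_mem (e.open_source.mem_nhds hk)
        (hx.continuous.continuousAt.preimage_mem_nhds (Metric.ball_mem_nhds _ (by positivity)))
    · have h2 : Metric.ball (x k') (r / 2) ⊆ e.target := by
        refine Subset.trans (fun t ht => ?_) hb
        have h3 : dist (x k') (x k) < r / 2 := hk'.2
        have h4 : dist t (x k') < r / 2 := ht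
        have h5 := dist_triangle t (x k') (x k)
        show dist t (x k) < r
        linarith
      refine ⟨e.symm, e.continuousOn_symm.mono h2, ?_, fun t ht => ?_⟩
      · rw [he]; exact e.left_inv hk'.1
      · rw [he]; exact e.right_inv (h2 ht)

theorem U2j_unif {W E Γ : Type} [TopologicalSpace W]
    [NormedAddCommGroup E] [Group Γ] [MulAction Γ W] [ContinuousConstSMul Γ W]
    {x : W → E} (hx : IsLocalHomeomorph x) {K : Set W} (hK : IsCompact K)
    (hc : ∀ w : W, ∃ γ : Γ, γ • w ∈ K) {C : ℝ}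
    (h : ∀ γ : Γ, ∃ α : E → E, Function.Injective α ∧ (∀ s t, ‖α s - α t‖ ≤ C * ‖s - t‖) ∧
      ∀ w, x (γ • w) = α (x w)) : ∃ r, 0 < r ∧ ∀ w, U2j_sec x w r := by
  obtain ⟨r, hr, hs⟩ := U2j_cpt hx hK
  have hm : 0 < max C 1 := lt_max_of_lt_right one_pos
  refine ⟨r / max C 1, div_pos hr hm, fun w => ?_⟩
  obtain ⟨γ, hγ⟩ := hc w
  obtain ⟨α, hi, hl, hα⟩ := h γ
  obtain ⟨s, h1, h2, h3⟩ := hs _ hγ
  have hl' : ∀ s t, dist (α s) (α t) ≤ max C 1 * dist s t := fun s t => by
    rw [dist_eq_norm, dist_eq_norm]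
    exact (hl s t).trans (mul_le_mul_of_nonneg_right (le_max_left _ _) (norm_nonneg _))
  have hca : Continuous α :=
    (LipschitzWith.of_dist_le_mul (K := ⟨max C 1, hm.le⟩) hl').continuous
  have hmaps : ∀ t ∈ Metric.ball (x w) (r / max C 1), α t ∈ Metric.ball (x (γ • w)) r := by
    intro t ht
    rw [hα, Metric.mem_ball]
    have h4 : dist t (x w) < r / max C 1 := ht
    rw [lt_div_iff₀ hm] at h4
    have h5 := hl' t (x w)
    linarith [mul_comm (max C 1) (dist t (x w))]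
  refine ⟨fun t => γ⁻¹ • s (α t), ?_, ?_, fun t ht => ?_⟩
  · exact (h1.comp hca.continuousOn hmaps).const_smul γ⁻¹
  · show γ⁻¹ • s (α (x w)) = w
    rw [← hα, h2, inv_smul_smul]
  · apply hi
    show α (x (γ⁻¹ • s (α t))) = α t
    rw [← hα, smul_inv_smul, h3 _ (hmaps t ht)]

theorem U2j_glob {W E : Type} [TopologicalSpace W] [T2Space W]
    [NormedAddCommGroup E] [NormedSpace ℝ E] {x : W → E} (hx : IsLocalHomeomorph x) {r : ℝ}
    (hr : 0 < r) (hs : ∀ w, U2j_sec x w r) (w₀ : W) :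
    ∃ S : E → W, Continuous S ∧ S (x w₀) = w₀ ∧ ∀ t, x (S t) = t := by
  have sep : IsSeparatedMap x := T2Space.isSeparatedMap x
  have inj := hx.isLocallyInjective
  have good : ∀ (s : E → W) (U : Set E), IsOpen U → ContinuousOn s U → (∀ t ∈ U, x (s t) = t) →
      ∀ y ∈ U, ∀ᶠ t in 𝓝 y, ContinuousAt s t ∧ x (s t) = t := by
    intro s U hU h1 h2 y hy
    filter_upwards [hU.mem_nhds hy] with t ht
    exact ⟨h1.continuousAt (hU.mem_nhds ht), h2 t ht⟩
  have hmain : ∀ s₀ : E → W, (∀ᶠ t in 𝓝 (x w₀), ContinuousAt s₀ t ∧ x (s₀ t) = t) →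
      ∃ S : E → W, S =ᶠ[𝓝 (x w₀)] s₀ ∧ ∀ y, ∀ᶠ t in 𝓝 y, ContinuousAt S t ∧ x (S t) = t := by
    intro s₀ h₀
    refine P278.monodromy (fun y s => ∀ᶠ t in 𝓝 y, ContinuousAt s t ∧ x (s t) = t) ?_ ?_ h₀
    · intro y s s' h1 h2
      filter_upwards [h1, h2.eventuallyEq_nhds] with t ht ht'
      exact ⟨ht.1.congr ht'.symm, by rw [ht'.eq_of_nhds]; exact ht.2⟩
    · intro y₀
      refine ⟨Metric.ball y₀ (r / 2), Metric.isOpen_ball, Metric.mem_ball_self (by positivity),
        fun y hy s h1 => ?_, fun s s' h1 h2 y hy h3 z hz => ?_⟩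
      · obtain ⟨s', h2, h3, h4⟩ := hs (s y)
        have h5 := h1.self_of_nhds
        rw [h5.2] at h2 h3 h4
        have h6 : Metric.ball y₀ (r / 2) ⊆ Metric.ball y r := fun t ht => by
          have h7 : dist t y₀ < r / 2 := ht
          have h8 : dist y y₀ < r / 2 := hy
          have h9 := dist_triangle_right t y y₀
          show dist t y < r
          linarith
        have h7 := good s' _ Metric.isOpen_ball h2 h4
        refine ⟨s', ?_, fun z hz => h7 z (h6 hz)⟩
        have h8 := h7 y (Metric.mem_ball_self hr)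
        obtain ⟨U, hU, hyU, hUi⟩ := inj (s y)
        have h9 : ∀ᶠ t in 𝓝 y, s t ∈ U := h5.1.preimage_mem_nhds (hU.mem_nhds hyU)
        have h10 : ∀ᶠ t in 𝓝 y, s' t ∈ U :=
          h8.self_of_nhds.1.preimage_mem_nhds (hU.mem_nhds (by rw [h3]; exact hyU))
        filter_upwards [h1, h8, h9, h10] with t a1 a2 a3 a4
        exact hUi a4 a3 (a2.2.trans a1.2.symm)
      · have h4 : EqOn s s' (Metric.ball y₀ (r / 2)) :=
          sep.eqOn_of_comp_eqOn inj (convex_ball y₀ (r / 2)).isPreconnected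
            (fun t ht => (h1 t ht).self_of_nhds.1.continuousWithinAt)
            (fun t ht => (h2 t ht).self_of_nhds.1.continuousWithinAt)
            (fun t ht => (h1 t ht).self_of_nhds.2.trans (h2 t ht).self_of_nhds.2.symm)
            hy h3.eq_of_nhds
        exact h4.eventuallyEq_of_mem (Metric.isOpen_ball.mem_nhds hz)
  obtain ⟨s₀, h1, h2, h3⟩ := hs w₀
  obtain ⟨S, h4, h5⟩ := hmain s₀ (good s₀ _ Metric.isOpen_ball h1 h3 _ (Metric.mem_ball_self hr))
  exact ⟨S, continuous_iff_continuousAt.2 fun y => (h5 y).self_of_nhds.1,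
    h4.eq_of_nhds.trans h2, fun y => (h5 y).self_of_nhds.2⟩

theorem homeo_of_coc {W E Γ : Type} [TopologicalSpace W] [T2Space W] [ConnectedSpace W]
    [NormedAddCommGroup E] [NormedSpace ℝ E] [Group Γ] [MulAction Γ W] [ContinuousConstSMul Γ W]
    {x : W → E} (hx : IsLocalHomeomorph x) {K : Set W} (hK : IsCompact K)
    (hc : ∀ w : W, ∃ γ : Γ, γ • w ∈ K) {C : ℝ}
    (h : ∀ γ : Γ, ∃ α : E → E, Function.Injective α ∧ (∀ s t, ‖α s - α t‖ ≤ C * ‖s - t‖) ∧
      ∀ w, x (γ • w) = α (x w)) : ∃ e : W ≃ₜ E, ∀ w, e w = x w := by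
  obtain ⟨r, hr, hs⟩ := U2j_unif hx hK hc h
  obtain ⟨w₀⟩ : Nonempty W := inferInstance
  obtain ⟨S, h1, h2, h3⟩ := U2j_glob hx hr hs w₀
  have h4 : (fun w => S (x w)) = id :=
    (T2Space.isSeparatedMap x).eq_of_comp_eq hx.isLocallyInjective (h1.comp hx.continuous)
      continuous_id (funext fun w => h3 (x w)) w₀ h2
  exact ⟨⟨⟨x, S, fun w => congrFun h4 w, h3⟩, hx.continuous, h1⟩, fun _ => rfl⟩

theorem unitary_lip {q : ℕ} {U : Mx q} (hU : U ∈ Matrix.unitaryGroup (Fin q) ℂ) (b : Cn q) :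
    Function.Injective (fun s : Cn q => U *ᵥ s + b) ∧
      ∀ s t : Cn q, ‖U *ᵥ s + b - (U *ᵥ t + b)‖ ≤ q * ‖s - t‖ := by
  refine ⟨fun s t hst => ?_, fun s t => ?_⟩
  · have h1 : U *ᵥ s = U *ᵥ t := add_right_cancel hst
    have h2 : star U * U = 1 := Matrix.mem_unitaryGroup_iff'.1 hU
    have h3 := congrArg (fun v => star U *ᵥ v) h1
    simpa only [Matrix.mulVec_mulVec, h2, Matrix.one_mulVec] using h3
  · rw [add_sub_add_right_eq_sub, ← Matrix.mulVec_sub,
      pi_norm_le_iff_of_nonneg (by positivity)]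
    intro i
    calc ‖(U *ᵥ (s - t)) i‖ = ‖∑ j, U i j * (s - t) j‖ := rfl
      _ ≤ ∑ j : Fin q, ‖s - t‖ := by
        refine norm_sum_le_of_le _ fun j _ => ?_
        rw [norm_mul]
        calc ‖U i j‖ * ‖(s - t) j‖ ≤ 1 * ‖s - t‖ :=
              mul_le_mul (entry_norm_bound_of_unitary hU i j) (norm_le_pi_norm _ j)
                (norm_nonneg _) zero_le_one
          _ = _ := one_mul _
      _ = q * ‖s - t‖ := by simp

end Vale.Agent.P299.U2
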