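import Vale.Agent.P299.U2a

/-! P299, part U2: replacing the first factor. -/

open MeasureTheory Set Filter Topology Matrix
open scoped ContDiff ComplexConjugate ComplexOrder

noncomputable section

namespace Vale.Agent.P299.U2

open Vale.Agent.P271 Vale.Agent.P272

variable {n : ℕ} {X : Type} [TopologicalSpace X] {A : Atl n X} {η : Frm A} {Q : Fin 3 → EF A}
  {V : Type} [TopologicalSpace V] {π : V → X} {d₀ : ℕ} {W : Type} [TopologicalSpace W]
  {cW : CA d₀ W}

theorem U2k_sigma {q : ℕ} (e : W ≃ₜ Cn q) (he : LB cW e) (w : Cn q) :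
    AnalyticAt ℂ (fun w' => cW.c (e.symm w) (e.symm w')) w ∧
      Function.Bijective (fderiv ℂ (fun w' => cW.c (e.symm w) (e.symm w')) w) ∧
      ∀ᶠ w' in 𝓝 w, (cW.c (e.symm w)).symm (cW.c (e.symm w) (e.symm w')) = e.symm w' := by
  set x := e.symm w with hx
  have hm := cW.mem x
  have hev : ∀ᶠ w' in 𝓝 w, e.symm w' ∈ (cW.c x).source :=
    e.symm.continuous.continuousAt.preimage_mem_nhds ((cW.c x).open_source.mem_nhds hm)
  have hl : ∀ᶠ w' in 𝓝 w, (cW.c x).symm (cW.c x (e.symm w')) = e.symm w' :=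
    hev.mono fun w' h => (cW.c x).left_inv h
  have hc : ContinuousAt (fun w' => cW.c x (e.symm w')) w :=
    ContinuousAt.comp (g := cW.c x) ((cW.c x).continuousAt hm) e.symm.continuous.continuousAt
  obtain ⟨hf, hb⟩ := he x (cW.c x x) ((cW.c x).map_source hm)
  have hid : ∀ᶠ w' in 𝓝 w, e ((cW.c x).symm (cW.c x (e.symm w'))) = id w' :=
    hl.mono fun w' h => by rw [h, e.apply_symm_apply]; rfl
  have han : AnalyticAt ℂ (fun w' => cW.c x (e.symm w')) w :=
    an_of_comp (f := fun w' => e ((cW.c x).symm w')) (g := id) hc hf hb analyticAt_id hid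
  refine ⟨han, ?_, hl⟩
  have h1 := HasFDerivAt.comp (g := fun w' => e ((cW.c x).symm w')) w
    hf.differentiableAt.hasFDerivAt han.differentiableAt.hasFDerivAt
  have h2 : HasFDerivAt ((fun w' => e ((cW.c x).symm w')) ∘ fun w' => cW.c x (e.symm w'))
      (ContinuousLinearMap.id ℂ (Cn q)) w := (hasFDerivAt_id w).congr_of_eventuallyEq hid
  have h3 := h1.unique h2
  have h4 : ∀ v, fderiv ℂ (fun w' => e ((cW.c x).symm w')) (cW.c x x)
      (fderiv ℂ (fun w' => cW.c x (e.symm w')) w v) = v := fun v => congrArg (fun L => L v) h3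
  refine ⟨fun u v huv => ?_, fun u => ⟨_, hb.1 (h4 _)⟩⟩
  rw [← h4 u, huv, h4]

theorem Tri.flat (T : Tri A Q π cW) {q : ℕ} (e : W ≃ₜ Cn q) (he : LB cW e) :
    ∃ T' : Tri A Q π (idCA q), ∀ w y z, ∃ y' z', T'.Ψ (w, y, z) = T.Ψ (e.symm w, y', z') := by
  refine ⟨{
    t2W := inferInstance
    sW := SimplyConnectedSpace.ofContractible _
    d₁ := T.d₁
    d₂ := T.d₂
    Y := T.Y
    Z := T.Z
    cY := T.cY
    cZ := T.cZ
    Ψ := (e.symm.prodCongr (Homeomorph.refl _)).trans T.Ψ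
    gd := fun _ y z w _ hy hz => ?_ }, fun w y z => ⟨y, z, rfl⟩⟩
  obtain ⟨han, hb, hl⟩ := U2k_sigma e he w.1
  set x := e.symm w.1 with hx
  set σ : Cn q → Cn d₀ := fun w' => cW.c x (e.symm w') with hσ
  let τ : Cn q × Cn T.d₁ × Cn T.d₂ → Cn d₀ × Cn T.d₁ × Cn T.d₂ := fun w' => (σ w'.1, w'.2)
  have hτ : AnalyticAt ℂ τ w :=
    (AnalyticAt.comp (g := σ) han analyticAt_fst).prod analyticAt_snd
  have hd : HasFDerivAt τ (((fderiv ℂ σ w.1).comp (ContinuousLinearMap.fst ℂ _ _)).prod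
      (ContinuousLinearMap.snd ℂ _ _)) w :=
    (HasFDerivAt.comp (g := σ) w han.differentiableAt.hasFDerivAt hasFDerivAt_fst).prodMk
      hasFDerivAt_snd
  have hv : ∀ v, fderiv ℂ τ w v = (fderiv ℂ σ w.1 v.1, v.2) := fun v => by
    rw [hd.fderiv]; rfl
  have hbij : Function.Bijective (fderiv ℂ τ w) := by
    have : (fderiv ℂ τ w : _ → _) = Prod.map (fderiv ℂ σ w.1) id := funext hv
    rw [this]
    exact hb.prodMap Function.bijective_id
  have hG := Gd.comp (pr' := pr3) (T.gd x y z (τ w) ((cW.c x).map_source (cW.mem x)) hy hz) hτ hbij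
    (fun i v => by
      rw [hv, hv]
      fin_cases i <;> simp [pr3])
  refine hG.congr ?_
  have hl' : ∀ᶠ w' : Cn q × Cn T.d₁ × Cn T.d₂ in 𝓝 w, (cW.c x).symm (σ w'.1) = e.symm w'.1 :=
    continuous_fst.continuousAt.eventually hl
  filter_upwards [hl'] with w' h
  show π (T.Ψ (e.symm w'.1, _, _)) = π (T.Ψ ((cW.c x).symm (σ w'.1), _, _))
  rw [h]

end Vale.Agent.P299.U2
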