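import Vale.Agent.P299.PartB
import Vale.Agent.P299.U2c2
import Vale.Agent.P299.U2d3
import Vale.Agent.P299.U2e2
import Vale.Agent.P299.U2f
import Vale.Agent.P299.U2g
import Vale.Agent.P299.U2h1
import Vale.Agent.P299.U2h2
import Vale.Agent.P299.U2i
import Vale.Agent.P299.U2j
import Vale.Agent.P299.U2k

/-! P299, part U2: the product decomposition of the universal cover. -/

open MeasureTheory Set Filter Topology Matrix
open scoped ContDiff ENNReal ComplexConjugate ComplexOrder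

noncomputable section

namespace Vale.Agent.P299

open Vale.Agent.P271 Vale.Agent.P272

variable {n : ℕ} {X : Type} [TopologicalSpace X] [T2Space X] [CompactSpace X] [ConnectedSpace X]
  [MeasurableSpace X] [BorelSpace X] {M : Model n X} {η : Frm M.toAtl} {B : EF M.toAtl}

namespace U2

omit [T2Space X] [CompactSpace X] [ConnectedSpace X] [BorelSpace X] in
theorem pi_smul (S : Pre M η B) (γ : S.Γ) (m : S.V) : S.π (γ • m) = S.π m :=
  S.tp.cov.apply_eq_iff_mem_orbit.2 ⟨γ, rfl⟩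

omit [T2Space X] [BorelSpace X] in
/-- A decomposition whose first coordinate is the developing map. -/
theorem exists_flat (hη : Kae M.toAtl η) (S : Pre M η B) {x : S.V → Cn S.q} (hx : Dev S x) :
    ∃ T : Tri M.toAtl S.Q S.π (idCA S.q), ∀ w y z, x (T.Ψ (w, y, z)) = w := by
  obtain ⟨d, hd⟩ := rank_const S.prj
  obtain ⟨C, hC, hg⟩ := atlV hη (prod_chart hη S.prj hd) S.tp.cov.isCoveringMap
  obtain ⟨W, _, cW, ⟨T⟩⟩ := exists_tri C hC hg
  obtain ⟨x₀, h1, h2, -⟩ := T.dev hη.1 S hx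
  have := S.tp.cov.toContinuousConstSMul
  obtain ⟨_, _, _, hc, ha⟩ := T.act S.Γ (pi_smul S)
  have := T.t2W
  have := T.sW
  obtain ⟨K, hK, hK'⟩ := S.tp.coc
  obtain ⟨y₀⟩ : Nonempty T.Y := inferInstance
  obtain ⟨z₀⟩ : Nonempty T.Z := inferInstance
  obtain ⟨e, he⟩ := homeo_of_coc (Γ := S.Γ) h2.locHomeo
    (hK.image (continuous_fst.comp T.Ψ.symm.continuous)) (C := S.q) (fun w => by
      obtain ⟨γ, hγ⟩ := hK' (T.Ψ (w, y₀, z₀))
      refine ⟨γ, _, hγ, ?_⟩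
      rw [← ha, Function.comp_apply, T.Ψ.symm_apply_apply]
      rfl) fun γ => by
      obtain ⟨U, hU, b, hb⟩ := dev_equiv S hx γ
      refine ⟨_, (unitary_lip hU b).1, (unitary_lip hU b).2, fun w => ?_⟩
      rw [← h1 w y₀ z₀, ← hb, ← ha, ← h1 (γ • w) (γ • y₀) (γ • z₀)]
      rfl
  have e0 : (e : W → Cn S.q) = x₀ := funext he
  obtain ⟨T', hT'⟩ := T.flat e (e0 ▸ h2)
  refine ⟨T', fun w y z => ?_⟩
  obtain ⟨y', z', h⟩ := hT' w y z
  rw [h, h1, ← he, e.apply_symm_apply]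

end U2

open U2 in
theorem partU2 (hη : KY M η) (S : Pre M η B) : Nonempty (Spl M η B) := by
  obtain ⟨x, hx⟩ := exists_dev hη.kae.1 S
  obtain ⟨T, hT⟩ := exists_flat hη.kae S hx
  have := S.tp.cov.toContinuousConstSMul
  obtain ⟨_, _, _, -, ha⟩ := T.act S.Γ (pi_smul S)
  obtain ⟨gY, hY⟩ := T.metY hη.kae.1 S.prj
  obtain ⟨gZ, hZ⟩ := T.metZ hη.kae.1 S.prj
  obtain ⟨x₀, h1, -, h3⟩ := T.dev hη.kae.1 S hx
  obtain ⟨y₀⟩ : Nonempty T.Y := inferInstance
  obtain ⟨z₀⟩ : Nonempty T.Z := inferInstance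
  have h0 : x₀ = id := funext fun w => (h1 w y₀ z₀).symm.trans (hT w y₀ z₀)
  subst h0
  have lh : IsLocalHomeomorph fun m => S.π (T.Ψ m) := S.lh.comp T.Ψ.isLocalHomeomorph
  have hg : ∀ y z (w : Cn S.q × Cn T.d₁ × Cn T.d₂), w.2.1 ∈ (T.cY.c y).target →
      w.2.2 ∈ (T.cZ.c z).target → w ∈ T.tg 0 y z := fun y z w a b => ⟨mem_univ _, a, b⟩
  refine ⟨
    { q := S.q, d₁ := T.d₁, d₂ := T.d₂, Y := T.Y, Z := T.Z, cY := T.cY, cZ := T.cZ, Γ := S.Γ
      π := fun m => S.π (T.Ψ m)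
      lh := lh
      tp := top_transport T.Ψ ha S.tp
      aff := fun γ => ?_
      Q := S.Q
      prj := S.prj
      gY := gY
      gZ := gZ
      an := fun a y z w b c h => ⟨(T.gd' (hg y z w b c)).an a h, (T.gd' (hg y z w b c)).bij a h⟩
      met := fun a y z w b c h v v' => ?_
      blk := fun a y z w b c h i v => (T.gd' (hg y z w b c)).blk a h i v
      max := fun ζ hζ a m hm => ?_ }⟩
  · obtain ⟨U, hU, b, hb⟩ := dev_equiv S hx γ
    refine ⟨U, hU, b, fun w => ?_⟩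
    rw [← hT (γ • w) (γ • y₀) (γ • z₀), ← hT w y₀ z₀, ← hb, ← ha, hT w y₀ z₀]
    rfl
  · have k := T.gd' (hg y z w b c)
    refine (pm_eq hη.kae.1 k h v v').symm.trans ?_
    rw [pm_split hη.kae.1 S.prj k, hY _ _ _ _ (hg y z w b c), hZ _ _ _ _ (hg y z w b c),
      h3 _ _ _ _ (hg y z w b c)]
    have e : (fun w' : Cn S.q => id (((idCA S.q).c 0).symm w')) = id := rfl
    rw [e, fderiv_id]
    rfl
  · have k := S.max _ (pf_transport S.lh T.Ψ lh hζ) a (T.Ψ m) hm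
    rwa [T.Ψ.symm_apply_apply] at k

end Vale.Agent.P299
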