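import Vale.Agent.P299.PartM1
import Vale.Agent.P299.M2h
import Vale.Agent.P299.M2j
import Vale.Agent.P299.M2k
import Vale.Agent.P299.M2l
import Vale.Agent.P299.M2m

/-! P299, part M2: existence theorems on complete Kaehler Riemann domains. -/

open MeasureTheory Set Filter Topology Matrix
open scoped ContDiff ENNReal ComplexConjugate ComplexOrder InnerProductSpace

noncomputable section

namespace Vale.Agent.P299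

open Vale.Agent.P271A

variable {n N : ℕ} {Y : Type} [TopologicalSpace Y] [T2Space Y] [SecondCountableTopology Y]
  [MeasurableSpace Y] [BorelSpace Y] {D : RD n Y}

omit [T2Space Y] [SecondCountableTopology Y] [BorelSpace Y] in
theorem pm2_low_sub (Ψ : Y → ℝ) (a b : Y → W (Fin n)) :
    low D Ψ (a - b) = low D Ψ a - low D Ψ b := by
  funext y
  simp [low, mulVec_sub]

omit [T2Space Y] [SecondCountableTopology Y] [BorelSpace Y] in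
theorem pm2_low_add (Ψ : Y → ℝ) (a b : Y → W (Fin n)) :
    low D Ψ (a + b) = low D Ψ a + low D Ψ b := by
  funext y
  simp [low, mulVec_add]

omit [T2Space Y] [SecondCountableTopology Y] [BorelSpace Y] in
theorem pm2_low_smul (Ψ : Y → ℝ) (c : ℂ) (a : Y → W (Fin n)) :
    low D Ψ (c • a) = c • low D Ψ a := by
  funext y
  simp [low, mulVec_smul]

omit [T2Space Y] [SecondCountableTopology Y] [BorelSpace Y] in
theorem pm2_nR_zero (Ψ Φ : Y → ℝ) : nR D Ψ Φ 0 = 0 := by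
  simp [nR, nV, q2]

omit [T2Space Y] [SecondCountableTopology Y] [BorelSpace Y] in
theorem pm2_nR_nonneg (Ψ Φ : Y → ℝ) (a : Y → W (Fin n)) : 0 ≤ nR D Ψ Φ a := ENNReal.toReal_nonneg

theorem pm2_nR_smul (Ψ Φ : Y → ℝ) (c : ℝ) (a : Y → W (Fin n)) :
    nR D Ψ Φ ((c : ℂ) • a) = c ^ 2 * nR D Ψ Φ a := by
  unfold nR
  rw [nV_smul, ENNReal.toReal_mul, ENNReal.toReal_ofReal (by positivity), Complex.norm_real,
    Real.norm_eq_abs, sq_abs]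

omit [T2Space Y] [SecondCountableTopology Y] [BorelSpace Y] in
theorem pm2_nV_eq {Ψ Φ : Y → ℝ} {a : Y → W (Fin n)} (ha : L2V D Ψ Φ a) :
    nV D Ψ Φ a = ENNReal.ofReal (nR D Ψ Φ a) := (ENNReal.ofReal_toReal ha.2.ne).symm

theorem pm2_dg_smul {q : ℕ} {x : W (Fin n)} (h : Dg q x) (c : ℂ) : Dg q (c • x) := by
  intro I hI
  simp [h I hI]

theorem pm2_dg_add {q : ℕ} {x z : W (Fin n)} (h : Dg q x) (h' : Dg q z) : Dg q (x + z) := by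
  intro I hI
  simp [h I hI, h' I hI]

theorem pm2_cs {Ψ Φ : Y → ℝ} (hΨ : Kah D Ψ) (hΦ : D.SmR Φ) {a b : Y → W (Fin n)}
    (ha : L2V D Ψ Φ a) (hb : L2V D Ψ Φ b) :
    (ip2 D Ψ Φ a b).re ^ 2 ≤ nR D Ψ Φ a * nR D Ψ Φ b := by
  obtain ⟨H, _, _, _, ⟨e⟩⟩ := exists_emb hΨ hΦ
  rw [← e.inner a b ha hb, ← e.norm_sq hΨ hΦ ha, ← e.norm_sq hΨ hΦ hb, ← mul_pow]
  have h1 := (Complex.abs_re_le_norm ⟪e.J a, e.J b⟫_ℂ).trans (norm_inner_le_norm (e.J a) (e.J b))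
  exact sq_le_sq' (abs_le.1 h1).1 (abs_le.1 h1).2

theorem pm2_core {Ψ Φ : Y → ℝ} (hΨ : Kah D Ψ) (hc : Cplt D Ψ) (hΦ : D.SmR Φ) {q : ℕ} {δ C : ℝ}
    (hδ : 0 ≤ δ) (hC : 0 ≤ C) (hco : Coer D Ψ Φ (q + 1) δ C) {η : Y → W (Fin n)} (hη : SmW D η)
    (hq : ∀ y, Dg (q + 1) (η y)) (hd : dbar D η = 0) (h2 : nF D Ψ Φ η < ⊤) :
    ∃ v, SmW D v ∧ (∀ y, Dg (q + 1) (v y)) ∧ L2V D Ψ Φ v ∧ L2V D Ψ Φ (dvg D Φ v) ∧
      Tv D Ψ v = 0 ∧ η - low D Ψ ((δ : ℂ) • v) = dbar D (low D Ψ ((-1 : ℂ) • dvg D Φ v)) ∧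
      (δ * nR D Ψ Φ v + nR D Ψ Φ (dvg D Φ v)) ^ 2 ≤ (nF D Ψ Φ η).toReal * nR D Ψ Φ v ∧
      nR D Ψ Φ v ≤ C * (δ * nR D Ψ Φ v + nR D Ψ Φ (dvg D Φ v)) := by
  have hs : SmW D (rais D Ψ η) := hη.rais hΨ
  have he : L2V D Ψ Φ (rais D Ψ η) := L2V.of_sm hs (by rw [nV_rais hΨ]; exact h2)
  obtain ⟨v, hv, hvq, h0, h1, h3, heq, hen, hle⟩ :=
    res hΨ hΦ hδ hC hco hs he fun y => (hq y).gm _
  have hdv := hv.m2dvg (Φ := Φ) hΦ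
  have hTv := hv.Tv hΨ
  have hb : box D Ψ Φ v = Tv D Ψ (dvg D Φ v) + dvg D Φ (Tv D Ψ v) := rfl
  have hTe : Tv D Ψ (rais D Ψ η) = 0 := by
    unfold Tv
    rw [low_rais hΨ, hd]
    funext y
    simp [rais]
  have hA := hdv.Tv hΨ
  have hB := hTv.m2dvg (Φ := Φ) hΦ
  have e1 : rais D Ψ η = (δ : ℂ) • v + (-1 : ℂ) • (Tv D Ψ (dvg D Φ v) + dvg D Φ (Tv D Ψ v)) := by
    rw [← heq, hb, neg_one_smul, sub_eq_add_neg]
  have e2 : (δ : ℂ) • Tv D Ψ v = Tv D Ψ (dvg D Φ (Tv D Ψ v)) := by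
    rw [e1, Tv_add hΨ (hv.m2smul _) ((hA.m2add hB).m2smul _), Tv_smul hΨ hv,
      Tv_smul hΨ (hA.m2add hB), Tv_add hΨ hA hB, Tv_Tv hΨ hdv, zero_add, neg_one_smul,
      add_neg_eq_zero] at hTe
    exact hTe
  have e3 := cut_dvg hΨ hc hΦ hδ hTv h3 e2
  have e4 := cut_zero hΨ hc hΦ hv h0 h3 e3
  rw [e4, pm2_nR_zero, add_zero] at hen hle
  refine ⟨v, hv, hvq, h0, h1, e4, ?_, ?_, hle⟩
  · have e5 : low D Ψ (rais D Ψ η) = low D Ψ ((δ : ℂ) • v) +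
        (-1 : ℂ) • dbar D (low D Ψ (dvg D Φ v)) := by
      rw [e1, e3, add_zero, pm2_low_add, pm2_low_smul Ψ (-1)]
      unfold Tv
      rw [low_rais hΨ]
    rw [low_rais hΨ] at e5
    rw [pm2_low_smul Ψ (-1), m2dbar_smul (hdv.m2low hΨ)]
    exact sub_eq_of_eq_add' e5
  · rw [hen, ← nV_rais hΨ]
    exact pm2_cs hΨ hΦ he h0

/-- The Hoermander-Andreotti-Vesentini theorem with smooth solutions. -/
theorem solve {Ψ Φ : Y → ℝ} (hΨ : Kah D Ψ) (hc : Cplt D Ψ) (hΦ : D.SmR Φ) {c : ℝ} (hc0 : 0 < c)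
    (hcv : ∀ y v, c * D.levi Ψ y v ≤ D.levi Φ y v) {q : ℕ} {η : Y → W (Fin n)} (hη : SmW D η)
    (hq : ∀ y, Dg (q + 1) (η y)) (hd : dbar D η = 0) (h2 : nF D Ψ Φ η < ⊤) :
    ∃ w, SmW D w ∧ (∀ y, Dg q (w y)) ∧ dbar D w = η ∧
      nF D Ψ Φ w ≤ ENNReal.ofReal c⁻¹ * nF D Ψ Φ η := by
  have hi : 0 ≤ c⁻¹ := (inv_pos.2 hc0).le
  obtain ⟨v, hv, hvq, h0, h1, -, heq, ha, hb⟩ :=
    pm2_core hΨ hc hΦ le_rfl hi (coer_pos hΨ hΦ hc0 hcv q) hη hq hd h2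
  refine ⟨low D Ψ ((-1 : ℂ) • dvg D Φ v), ((hv.m2dvg hΦ).m2smul _).m2low hΨ,
    fun y => (pm2_dg_smul (m2dvg_deg hvq y) _).gm _, ?_, ?_⟩
  · rw [← heq, pm2_low_smul]
    simp
  · rw [zero_mul, zero_add] at ha hb
    have hE : 0 ≤ (nF D Ψ Φ η).toReal := ENNReal.toReal_nonneg
    have hA := pm2_nR_nonneg (D := D) Ψ Φ (dvg D Φ v)
    have h3 : nR D Ψ Φ (dvg D Φ v) ≤ c⁻¹ * (nF D Ψ Φ η).toReal := by
      have h4 := ha.trans (mul_le_mul_of_nonneg_left hb hE)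
      rcases hA.eq_or_lt with h5 | h5
      · rw [← h5]; positivity
      · refine le_of_mul_le_mul_right ?_ h5
        nlinarith
    rw [nF_low hΨ, nV_smul, pm2_nV_eq h1]
    simp only [norm_neg, norm_one, one_pow, ENNReal.ofReal_one, one_mul]
    refine (ENNReal.ofReal_le_ofReal h3).trans_eq ?_
    rw [ENNReal.ofReal_mul hi, ENNReal.ofReal_toReal h2.ne]

variable (D) in
/-- Fields whose form is cohomologous to `η`. -/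
def pm2Good (Ψ Φ : Y → ℝ) (q : ℕ) (η g : Y → W (Fin n)) : Prop :=
  SmW D g ∧ (∀ y, Dg (q + 1) (g y)) ∧ L2V D Ψ Φ g ∧ ∃ w, SmW D w ∧ (∀ y, Dg q (w y)) ∧
    L2V D Ψ Φ w ∧ η - low D Ψ g = dbar D (low D Ψ w)

theorem pm2Good.conv {Ψ Φ : Y → ℝ} (hΨ : Kah D Ψ) (hΦ : D.SmR Φ) {q : ℕ}
    {η a b : Y → W (Fin n)} (ha : pm2Good D Ψ Φ q η a) (hb : pm2Good D Ψ Φ q η b) {s t : ℝ}
    (hst : s + t = 1) : pm2Good D Ψ Φ q η ((s : ℂ) • a + (t : ℂ) • b) := by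
  obtain ⟨a1, a2, a3, u, u1, u2, u3, u4⟩ := ha
  obtain ⟨b1, b2, b3, w, w1, w2, w3, w4⟩ := hb
  refine ⟨(a1.m2smul _).m2add (b1.m2smul _),
    fun y => pm2_dg_add (pm2_dg_smul (a2 y) _) (pm2_dg_smul (b2 y) _),
    (a3.smul _).add hΨ hΦ (b3.smul _), (s : ℂ) • u + (t : ℂ) • w,
    (u1.m2smul _).m2add (w1.m2smul _),
    fun y => pm2_dg_add (pm2_dg_smul (u2 y) _) (pm2_dg_smul (w2 y) _),
    (u3.smul _).add hΨ hΦ (w3.smul _), ?_⟩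
  simp only [pm2_low_add, pm2_low_smul]
  rw [dbar_add ((u1.m2low hΨ).m2smul _) ((w1.m2low hΨ).m2smul _), m2dbar_smul (u1.m2low hΨ),
    m2dbar_smul (w1.m2low hΨ), ← u4, ← w4]
  have h1 : η = (s : ℂ) • η + (t : ℂ) • η := by
    rw [← add_smul, ← Complex.ofReal_add, hst, Complex.ofReal_one, one_smul]
  rw [smul_sub, smul_sub]
  nth_rewrite 1 [h1]
  abel

theorem pm2_step {Ψ Φ ϑ : Y → ℝ} (hΨ : Kah D Ψ) (hc : Cplt D Ψ) (hϑ : D.SmR ϑ)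
    (hϑ0 : ∀ y v, 0 ≤ D.levi ϑ y v) {B : ℝ}
    (hap : ∀ ε > (0 : ℝ), ∃ Φ', D.SmR Φ' ∧ (∀ y, |Φ' y - Φ y| ≤ B) ∧
      ∀ y v, D.levi ϑ y v - ε * D.levi Ψ y v ≤ D.levi Φ' y v)
    {q : ℕ} {η : Y → W (Fin n)} (hη : SmW D η) (hq : ∀ y, Dg (q + 1) (η y))
    (hd : dbar D η = 0) (h2 : nF D Ψ Φ η < ⊤) :
    ∃ M : ℝ, 0 ≤ M ∧ ∀ δ > (0 : ℝ), ∃ g, pm2Good D Ψ Φ q η g ∧ nR D Ψ Φ g ≤ M ∧
      nH D Ψ Φ ϑ g ≤ ENNReal.ofReal (δ * (q + 2) * M) := by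
  have hE : 0 ≤ (nF D Ψ Φ η).toReal := ENNReal.toReal_nonneg
  have hB := (Real.exp_pos B).le
  refine ⟨Real.exp B * (Real.exp B * (nF D Ψ Φ η).toReal), by positivity, fun δ hδ => ?_⟩
  obtain ⟨Φ', hΦ', hb, hl⟩ := hap δ hδ
  have hb' : ∀ y, |Φ y - Φ' y| ≤ B := fun y => by rw [abs_sub_comm]; exact hb y
  have k1 : nF D Ψ Φ' η ≤ ENNReal.ofReal (Real.exp B) * nF D Ψ Φ η := by
    rw [← nV_rais hΨ, ← nV_rais hΨ]
    exact nV_le hΨ hb' _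
  have k0 : ENNReal.ofReal (Real.exp B) * nF D Ψ Φ η < ⊤ :=
    ENNReal.mul_lt_top ENNReal.ofReal_lt_top h2
  have k2 : (nF D Ψ Φ' η).toReal ≤ Real.exp B * (nF D Ψ Φ η).toReal := by
    refine (ENNReal.toReal_mono k0.ne k1).trans_eq ?_
    rw [ENNReal.toReal_mul, ENNReal.toReal_ofReal hB]
  obtain ⟨v, hv, hvq, h0, h1, hT, heq, ha, -⟩ :=
    pm2_core hΨ hc hΦ' hδ.le (inv_pos.2 hδ).le (coer_del hΨ hδ (q + 1)) hη hq hd (k1.trans_lt k0)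
  have chg : ∀ a, L2V D Ψ Φ' a → L2V D Ψ Φ a := fun a h =>
    ⟨h.1, (nV_le hΨ hb a).trans_lt (ENNReal.mul_lt_top ENNReal.ofReal_lt_top h.2)⟩
  generalize hM : Real.exp B * (nF D Ψ Φ η).toReal = M at k2 ⊢
  have hM0 : 0 ≤ M := by rw [← hM]; positivity
  have hV := pm2_nR_nonneg (D := D) Ψ Φ' v
  have hA := pm2_nR_nonneg (D := D) Ψ Φ' (dvg D Φ' v)
  have ha' := ha.trans (mul_le_mul_of_nonneg_right k2 hV)
  have hδV := mul_nonneg hδ.le hV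
  have b1 : δ ^ 2 * nR D Ψ Φ' v ≤ M := by
    rcases hV.eq_or_lt with h5 | h5
    · rw [← h5, mul_zero]; exact hM0
    · refine le_of_mul_le_mul_right ?_ h5
      nlinarith [mul_nonneg hδV hA, sq_nonneg (nR D Ψ Φ' (dvg D Φ' v))]
  have b2 : δ * nR D Ψ Φ' (dvg D Φ' v) ≤ M := by
    refine (sq_le_sq₀ (mul_nonneg hδ.le hA) hM0).1 ?_
    have b3 : nR D Ψ Φ' (dvg D Φ' v) ^ 2 ≤ M * nR D Ψ Φ' v := by
      nlinarith [mul_nonneg hδV hA, sq_nonneg (δ * nR D Ψ Φ' v)]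
    have b4 := mul_le_mul_of_nonneg_left b3 (sq_nonneg δ)
    have b5 := mul_le_mul_of_nonneg_left b1 hM0
    nlinarith
  have g0 : L2V D Ψ Φ' ((δ : ℂ) • v) := h0.smul _
  have gq : ∀ y, Dg (q + 1) (((δ : ℂ) • v) y) := fun y => pm2_dg_smul (hvq y) _
  have gd : dvg D Φ' ((δ : ℂ) • v) = (δ : ℂ) • dvg D Φ' v := m2dvg_smul hv _
  have gT : Tv D Ψ ((δ : ℂ) • v) = (0 : ℂ) • v := by
    rw [Tv_smul hΨ hv, hT, smul_zero, zero_smul]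
  have hk := bkn_le hΨ hc hΦ' hϑ hϑ0 hδ.le hl (hv.m2smul (δ : ℂ)) gq g0
    (by rw [gd]; exact h1.smul _) (by rw [gT]; exact h0.smul _)
  rw [gd, gT, zero_smul, pm2_nR_zero, pm2_nR_smul, pm2_nR_smul, add_zero] at hk
  refine ⟨(δ : ℂ) • v, ⟨hv.m2smul _, gq, chg _ g0, (-1 : ℂ) • dvg D Φ' v,
    (hv.m2dvg hΦ').m2smul _, fun y => pm2_dg_smul (m2dvg_deg hvq y) _, chg _ (h1.smul _), heq⟩,
    ?_, ?_⟩
  · have k3 := nV_le hΨ hb ((δ : ℂ) • v)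
    rw [pm2_nV_eq g0, ← ENNReal.ofReal_mul hB, pm2_nR_smul] at k3
    refine (ENNReal.toReal_le_of_le_ofReal (by positivity) k3).trans ?_
    exact mul_le_mul_of_nonneg_left b1 hB
  · refine (nH_le hb _).trans ?_
    refine (mul_le_mul_right hk _).trans ?_
    rw [← ENNReal.ofReal_mul hB]
    refine ENNReal.ofReal_le_ofReal ?_
    have b6 := mul_le_mul_of_nonneg_left b2 hδ.le
    have b7 := mul_le_mul_of_nonneg_left b1 (by positivity : 0 ≤ δ * ((q + 1 : ℕ) : ℝ))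
    have b8 := mul_le_mul_of_nonneg_left (add_le_add b6 b7) hB
    push_cast at b8 ⊢
    nlinarith

/-- The Hodge decomposition for weights that are semipositive up to bounded perturbations. -/
theorem hodge {Ψ Φ ϑ : Y → ℝ} (hΨ : Kah D Ψ) (hc : Cplt D Ψ) (hΦ : D.SmR Φ) (hϑ : D.SmR ϑ)
    (hϑ0 : ∀ y v, 0 ≤ D.levi ϑ y v) {B : ℝ}
    (hap : ∀ ε > (0 : ℝ), ∃ Φ', D.SmR Φ' ∧ (∀ y, |Φ' y - Φ y| ≤ B) ∧
      ∀ y v, D.levi ϑ y v - ε * D.levi Ψ y v ≤ D.levi Φ' y v)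
    {q : ℕ} {η : Y → W (Fin n)} (hη : SmW D η) (hq : ∀ y, Dg (q + 1) (η y))
    (hd : dbar D η = 0) (h2 : nF D Ψ Φ η < ⊤) :
    ∃ v, HolW D v ∧ (∀ y, Dg (q + 1) (v y)) ∧ nV D Ψ Φ v < ⊤ ∧
      (∀ y, Kill (LMd D ϑ y) (v y)) ∧ ∀ ε > (0 : ℝ≥0∞), ∃ w, SmW D w ∧ (∀ y, Dg q (w y)) ∧
        nF D Ψ Φ w < ⊤ ∧ nF D Ψ Φ (dbar D w) < ⊤ ∧
        nF D Ψ Φ (η - low D Ψ v - dbar D w) ≤ ε := by
  obtain ⟨M, hM, hst⟩ := pm2_step hΨ hc hϑ hϑ0 hap hη hq hd h2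
  obtain ⟨H, _, _, _, ⟨e⟩⟩ := exists_emb hΨ hΦ
  let r : ℕ → ℝ := fun m => 1 / ((m : ℝ) + 1)
  have hr : ∀ m, 0 < r m := fun m => Nat.one_div_pos_of_nat
  have hr0 : Tendsto r atTop (𝓝 0) := tendsto_one_div_add_atTop_nhds_zero_nat
  let S : ℕ → Set H := fun m => {x | ∃ g, pm2Good D Ψ Φ q η g ∧
    nH D Ψ Φ ϑ g ≤ ENNReal.ofReal (r m * (q + 2) * M) ∧ e.J g = x} ∩ Metric.closedBall 0 √M
  have hconv : ∀ m, Convex ℝ (S m) := by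
    refine fun m => Convex.inter ?_ (convex_closedBall _ _)
    rintro _ ⟨a, ha, ha', rfl⟩ _ ⟨b, hb, hb', rfl⟩ s t hs ht h1
    refine ⟨(s : ℂ) • a + (t : ℂ) • b, ha.conv hΨ hΦ hb h1, ?_, ?_⟩
    · refine (nH_conv hΨ hΦ hϑ hϑ0 ha.1 hb.1 hs ht h1).trans ?_
      refine (add_le_add (mul_le_mul_right ha' _) (mul_le_mul_right hb' _)).trans_eq ?_
      rw [← add_mul, ← ENNReal.ofReal_add hs ht, h1, ENNReal.ofReal_one, one_mul]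
    · rw [e.add hΨ hΦ (ha.2.2.1.smul _) (hb.2.2.1.smul _), e.smul hΨ hΦ ha.2.2.1,
        e.smul hΨ hΦ hb.2.2.1, Complex.coe_smul, Complex.coe_smul]
  have hne : ∀ m, (S m).Nonempty := by
    intro m
    obtain ⟨g, hg, g1, g2⟩ := hst (r m) (hr m)
    refine ⟨e.J g, ⟨g, hg, g2, rfl⟩, ?_⟩
    rw [mem_closedBall_zero_iff]
    refine Real.le_sqrt_of_sq_le ?_
    rw [e.norm_sq hΨ hΦ hg.2.2.1]
    exact g1
  have hanti : Antitone S := by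
    rintro m k hmk x ⟨⟨g, hg, g2, rfl⟩, hx⟩
    refine ⟨⟨g, hg, g2.trans (ENNReal.ofReal_le_ofReal ?_), rfl⟩, hx⟩
    have : r k ≤ r m := Nat.one_div_le_one_div hmk
    gcongr
  obtain ⟨x, hx⟩ := hil_nested S hconv hne hanti (C := √M)
    fun m x hx => mem_closedBall_zero_iff.1 hx.2
  obtain ⟨v₀, h0, rfl⟩ := e.surj x
  have hg : ∀ m, ∃ g, pm2Good D Ψ Φ q η g ∧
      nH D Ψ Φ ϑ g ≤ ENNReal.ofReal (r m * (q + 2) * M) ∧ nR D Ψ Φ (g - v₀) ≤ r m ^ 2 := by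
    intro m
    obtain ⟨_, ⟨⟨g, hg, g2, rfl⟩, -⟩, hx⟩ := Metric.mem_closure_iff.1 (hx m) _ (hr m)
    refine ⟨g, hg, g2, ?_⟩
    rw [← e.norm_sq hΨ hΦ (hg.2.2.1.sub hΨ hΦ h0), e.sub hΨ hΦ hg.2.2.1 h0, ← dist_eq_norm,
      dist_comm]
    gcongr
  choose g hg g1 g2 using hg
  have t1 : Tendsto (fun m => nR D Ψ Φ (g m - v₀)) atTop (𝓝 0) := by
    refine squeeze_zero (fun m => pm2_nR_nonneg _ _ _) g2 ?_
    simpa using hr0.pow 2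
  have t2 : Tendsto (fun m => nH D Ψ Φ ϑ (g m)) atTop (𝓝 0) := by
    refine tendsto_of_tendsto_of_tendsto_of_le_of_le tendsto_const_nhds ?_ (fun m => zero_le) g1
    simpa using ENNReal.tendsto_ofReal ((hr0.mul_const ((q : ℝ) + 2)).mul_const M)
  obtain ⟨v, hv, hvq, hk, hae⟩ := hodge_lim hΨ hΦ hϑ hϑ0 (fun m => (hg m).1)
    (fun m => (hg m).2.1) (fun m => (hg m).2.2.1) h0 t1 t2
  refine ⟨v, hv, hvq, (h0.congr hae).2, hk, fun ε hε => ?_⟩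
  have t3 := ENNReal.tendsto_ofReal t1
  rw [ENNReal.ofReal_zero] at t3
  obtain ⟨m, hm⟩ := (t3.eventually (eventually_le_nhds hε)).exists
  obtain ⟨a1, -, a3, w, w1, w2, w3, w4⟩ := hg m
  refine ⟨low D Ψ w, w1.m2low hΨ, fun y => (w2 y).gm _, ?_, ?_, ?_⟩
  · rw [nF_low hΨ]
    exact w3.2
  · have he : L2V D Ψ Φ (rais D Ψ η) := L2V.of_sm (hη.rais hΨ) (by rw [nV_rais hΨ]; exact h2)
    rw [← w4, ← low_rais hΨ η, ← pm2_low_sub, nF_low hΨ]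
    exact (he.sub hΨ hΦ a3).2
  · have e1 : η - low D Ψ v - dbar D (low D Ψ w) = low D Ψ (g m - v) := by
      rw [← w4, pm2_low_sub]
      abel
    have e2 : g m - v =ᵐ[D.μ] g m - v₀ := hae.mono fun y hy => by simp [hy]
    rw [e1, nF_low hΨ, nV_congr e2, pm2_nV_eq (a3.sub hΨ hΦ h0)]
    exact hm

end Vale.Agent.P299
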