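import Vale.Agent.P299.ZF

/-! P299, part Z: the analytic inputs in abstract form. -/

open MeasureTheory Set Filter Topology Matrix
open scoped ContDiff ENNReal ComplexConjugate ComplexOrder

noncomputable section

namespace Vale.Agent.P299

open Vale.Agent.P271A

variable {n N : ℕ} {Y : Type} [TopologicalSpace Y] [T2Space Y] [SecondCountableTopology Y]
  [MeasurableSpace Y] [BorelSpace Y] {D : RD n Y} {Ψ Φ Φ' ϑ : Y → ℝ}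

theorem zh_cmp (hΨ : Kah D Ψ) {B : ℝ} (hB : ∀ y, Φ' y - Φ y ≤ B) (u : ZSF D) :
    zNF D Ψ Φ u ≤ ENNReal.ofReal (Real.exp B) ^ (1 / 2 : ℝ) * zNF D Ψ Φ' u := by
  refine zNF_le (Real.exp_pos B).le fun y => ?_
  rw [mul_left_comm, ← Real.exp_add]
  refine mul_le_mul_of_nonneg_left (Real.exp_le_exp.2 (by linarith [hB y]))
    (zq2_nonneg (Gm_posDef (hΨ.2 y).inv).posSemidef _)

theorem zh_ne (x : ℝ) : ENNReal.ofReal x ^ (1 / 2 : ℝ) ≠ ⊤ :=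
  ENNReal.rpow_ne_top_of_nonneg (by norm_num) ENNReal.ofReal_ne_top

theorem zsol_of (hΨ : Kah D Ψ) (hc : Cplt D Ψ) (hΦ' : D.SmR Φ') {B c : ℝ} (hc0 : 0 < c)
    (hB : ∀ y, |Φ' y - Φ y| ≤ B) (hcv : ∀ y v, c * D.levi Ψ y v ≤ D.levi Φ' y v) :
    ZSol (zdF D) (zGF D) (zNF D Ψ Φ) := by
  intro q
  refine ⟨ENNReal.ofReal (Real.exp B) ^ (1 / 2 : ℝ) * (ENNReal.ofReal c⁻¹ ^ (1 / 2 : ℝ) *
    ENNReal.ofReal (Real.exp B) ^ (1 / 2 : ℝ)),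
    ENNReal.mul_ne_top (zh_ne _) (ENNReal.mul_ne_top (zh_ne _) (zh_ne _)), fun η hq hd h2 => ?_⟩
  have h1 : zNF D Ψ Φ' η ≤ ENNReal.ofReal (Real.exp B) ^ (1 / 2 : ℝ) * zNF D Ψ Φ η :=
    zh_cmp hΨ (fun y => by linarith [(abs_le.1 (hB y)).1]) η
  obtain ⟨w, hw, hwq, hwd, hwn⟩ := solve hΨ hc hΦ' hc0 hcv η.2 hq (congrArg Subtype.val hd)
    (zNF_ne_top.1 (ne_top_of_le_ne_top (ENNReal.mul_ne_top (zh_ne _) h2) h1))
  refine ⟨⟨w, hw⟩, hwq, Subtype.ext hwd, ?_⟩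
  have h3 : zNF D Ψ Φ' ⟨w, hw⟩ ≤ ENNReal.ofReal c⁻¹ ^ (1 / 2 : ℝ) * zNF D Ψ Φ' η :=
    zNF_le_of_nF hwn
  refine (zh_cmp hΨ (fun y => (abs_le.1 (hB y)).2) _).trans ?_
  rw [mul_assoc, mul_assoc]
  gcongr
  exact h3.trans (by gcongr)

theorem zsmW_low (hΨ : Kah D Ψ) {v : Y → W (Fin n)} (hv : SmW D v) : SmW D (low D Ψ v) :=
  fun I => RD.Sm.sum Finset.univ fun J _ => (sm_Gm (sm_LMd hΨ.1) I J).mul (hv J)

variable {A : AD n N Y} {b : A.BD}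

theorem zh_q2_add {κ : Type} [Fintype κ] [DecidableEq κ] {H : Matrix κ κ ℂ} (hH : H.PosSemidef)
    (v w : κ → ℂ) : q2 H (v + w) ≤ 2 * q2 H v + 2 * q2 H w := by
  have h1 := zsqrt_q2_add hH v w
  have h2 := Real.sq_sqrt (zq2_nonneg hH (v + w))
  have h3 := Real.sq_sqrt (zq2_nonneg hH v)
  have h4 := Real.sq_sqrt (zq2_nonneg hH w)
  have h5 := pow_le_pow_left₀ (Real.sqrt_nonneg _) h1 2
  nlinarith [sq_nonneg (√(q2 H v) - √(q2 H w))]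

theorem zh_nV_add (hΨ : Kah D Ψ) (hΦ : D.SmR Φ) {v w : Y → W (Fin n)} (hv : SmW D v)
    (h1 : nV D Ψ Φ v < ⊤) (h2 : nV D Ψ Φ w < ⊤) : nV D Ψ Φ (v + w) < ⊤ := by
  have hm : Measurable fun y =>
      ENNReal.ofReal (q2 (Gm (LMd D Ψ y)) (v y) * Real.exp (-Φ y)) :=
    ((zcont_q2V hΨ hv).mul (Real.continuous_exp.comp hΦ.continuous.neg)).measurable.ennreal_ofReal
  refine lt_of_le_of_lt ?_ (ENNReal.mul_lt_top (ENNReal.ofReal_lt_top (r := 2))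
    (ENNReal.add_lt_top.2 ⟨h1, h2⟩))
  unfold nV
  rw [← lintegral_add_left hm, ← lintegral_const_mul' _ _ ENNReal.ofReal_ne_top]
  refine lintegral_mono fun y => ?_
  have hH := (Gm_posDef (hΨ.2 y)).posSemidef
  have h3 := zq2_nonneg hH (v y)
  have h4 := zq2_nonneg hH (w y)
  have h5 := mul_le_mul_of_nonneg_right (zh_q2_add hH (v y) (w y)) (Real.exp_pos (-Φ y)).le
  rw [← ENNReal.ofReal_add (by positivity) (by positivity), ← ENNReal.ofReal_mul zero_le_two]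
  exact ENNReal.ofReal_le_ofReal (h5.trans_eq (by ring))

theorem zh_ZV_mul (hΨ : Kah A.D Ψ) {g : Y → ℂ} (hg : A.D.Hol g) {C : ℝ} (hC : 0 ≤ C)
    (h : ∀ y, ‖g y‖ ^ 2 * Real.exp (-Φ' y) ≤ C * Real.exp (-Φ y)) {v : Y → W (Fin n)}
    (hv : b.ZV Ψ Φ v) : b.ZV Ψ Φ' fun y => g y • v y := by
  refine ⟨fun I => hg.mul (hv.hol I), ?_, fun y k => ?_, fun i y => ?_⟩
  · refine lt_of_le_of_lt ?_ (ENNReal.mul_lt_top (ENNReal.ofReal_lt_top (r := C)) hv.l2)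
    unfold nV
    rw [← lintegral_const_mul' _ _ ENNReal.ofReal_ne_top]
    refine lintegral_mono fun y => ?_
    have h3 := zq2_nonneg (Gm_posDef (hΨ.2 y)).posSemidef (v y)
    have h5 := mul_le_mul_of_nonneg_left (h y) h3
    rw [← ENNReal.ofReal_mul hC, zq2_smul]
    refine ENNReal.ofReal_le_ofReal (le_of_eq_of_le ?_ (h5.trans_eq ?_)) <;> ring
  · rw [Matrix.mulVec_smul, hv.kill y k, smul_zero]
  · rw [Matrix.mulVec_smul, hv.vert i y, smul_zero]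

theorem AD.BD.zmem_HF (hΨ : Kah A.D Ψ) (hΦ : A.D.SmR Φ) {u : ZSF A.D} :
    u ∈ b.ZF Ψ Φ ↔ ∃ v, b.ZV Ψ Φ v ∧ u.1 = low A.D Ψ v := by
  refine ⟨fun hu => ?_, fun hu => Submodule.subset_span hu⟩
  induction hu using Submodule.span_induction with
  | mem x hx => exact hx
  | zero =>
    refine ⟨0, ⟨fun _ => RD.hol_const 0, by simp [nV, q2], fun y k => Matrix.mulVec_zero _,
      fun i y => Matrix.mulVec_zero _⟩, funext fun y => (Matrix.mulVec_zero _).symm⟩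
  | add x z _ _ hx hz =>
    obtain ⟨v, hv, ev⟩ := hx
    obtain ⟨w, hw, ew⟩ := hz
    refine ⟨v + w, ⟨fun I => (hv.hol I).add (hw.hol I),
      zh_nV_add hΨ hΦ (fun I => (hv.hol I).sm) hv.l2 hw.l2, fun y k => ?_, fun i y => ?_⟩,
      funext fun y => ?_⟩
    · rw [Pi.add_apply, Matrix.mulVec_add, hv.kill y k, hw.kill y k, add_zero]
    · rw [Pi.add_apply, Matrix.mulVec_add, hv.vert i y, hw.vert i y, add_zero]
    · rw [Submodule.coe_add, ev, ew]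
      exact (Matrix.mulVec_add _ _ _).symm
  | smul c x _ hx =>
    obtain ⟨v, hv, ev⟩ := hx
    refine ⟨fun y => c • v y, zh_ZV_mul hΨ (RD.hol_const c) (sq_nonneg ‖c‖) (fun _ => le_rfl) hv,
      funext fun y => ?_⟩
    rw [Submodule.coe_smul, ev]
    exact (Matrix.mulVec_smul _ c (v y)).symm

theorem AD.BD.zhod_of (hΨ : Kah A.D Ψ) (hc : Cplt A.D Ψ) (hΦ : A.D.SmR Φ) (hϑ : A.D.SmR ϑ)
    (hϑ0 : ∀ y v, 0 ≤ A.D.levi ϑ y v) {B : ℝ}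
    (hap : ∀ ε > (0 : ℝ), ∃ Φ', A.D.SmR Φ' ∧ (∀ y, |Φ' y - Φ y| ≤ B) ∧
      ∀ y v, A.D.levi ϑ y v - ε * A.D.levi Ψ y v ≤ A.D.levi Φ' y v)
    (hV : ∀ q v, HolW A.D v → (∀ y, Dg (q + 1) (v y)) → nV A.D Ψ Φ v < ⊤ →
      (∀ y, Kill (LMd A.D ϑ y) (v y)) → b.ZV Ψ Φ v) :
    ZHod (zdF A.D) (zGF A.D) (zNF A.D Ψ Φ) (b.ZF Ψ Φ) := by
  intro q η hq hd h2
  obtain ⟨v, hv, hvq, hv2, hk, hε⟩ := hodge hΨ hc hΦ hϑ hϑ0 hap η.2 hq (congrArg Subtype.val hd)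
    (zNF_ne_top.1 h2)
  refine ⟨⟨low A.D Ψ v, zsmW_low hΨ fun I => (hv I).sm⟩,
    Submodule.subset_span ⟨v, hV q v hv hvq hv2 hk, rfl⟩, fun ε hε0 => ?_⟩
  obtain ⟨w, hw, hwq, h3, h4, h5⟩ := hε (ε ^ 2) (ENNReal.pow_pos hε0 2)
  refine ⟨⟨w, hw⟩, hwq, zNF_ne_top.2 h3, zNF_ne_top.2 h4, ?_⟩
  refine (ENNReal.rpow_le_rpow h5 (by norm_num : (0 : ℝ) ≤ 1 / 2)).trans_eq ?_
  rw [← ENNReal.rpow_natCast, ← ENNReal.rpow_mul]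
  norm_num

theorem AD.BD.zort_of (hΨ : Kah A.D Ψ) (hc : Cplt A.D Ψ) (hΦ : A.D.SmR Φ)
    (hk : ∀ v, b.ZV Ψ Φ v → ∀ y, Kill (LMd A.D Φ y) (v y)) :
    ZOrt (zdF A.D) (zNF A.D Ψ Φ) (b.ZF Ψ Φ) := by
  intro h hh w h1 h2
  obtain ⟨v, hv, ev⟩ := (AD.BD.zmem_HF hΨ hΦ).1 hh
  have h4 : nF A.D Ψ Φ (zdF A.D w).1 < ⊤ := zNF_ne_top.1 h2
  have h3 := orth hΨ hc hΦ hv.hol (hk v hv) hv.l2 w.2 (zNF_ne_top.1 h1) h4
  rw [← ev] at h3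
  have h5 : nF A.D Ψ Φ h.1 ≤ nF A.D Ψ Φ (h - zdF A.D w).1 := h3
  exact ENNReal.rpow_le_rpow h5 (by norm_num : (0 : ℝ) ≤ 1 / 2)

theorem AD.BD.zmul_HF (hΨ : Kah A.D Ψ) (hΦ : A.D.SmR Φ) {g : Y → ℂ} (hg : A.D.Hol g)
    (h : ∀ y, ‖g y‖ ^ 2 * Real.exp (-Φ' y) ≤ Real.exp (-Φ y)) {u : ZSF A.D} (hu : u ∈ b.ZF Ψ Φ) :
    zmul hg.sm u ∈ b.ZF Ψ Φ' := by
  obtain ⟨v, hv, ev⟩ := (AD.BD.zmem_HF hΨ hΦ).1 hu
  refine Submodule.subset_span ⟨fun y => g y • v y,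
    zh_ZV_mul hΨ hg zero_le_one (fun y => (h y).trans_eq (one_mul _).symm) hv, funext fun y => ?_⟩
  change g y • u.1 y = _
  rw [ev]
  exact (Matrix.mulVec_smul _ (g y) (v y)).symm

end Vale.Agent.P299
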