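import Vale.Agent.P299.ZJ

/-! P299, part Z: vertical polyvector fields. -/

open MeasureTheory Set Filter Topology Matrix
open scoped ContDiff ENNReal ComplexConjugate ComplexOrder

noncomputable section

namespace Vale.Agent.P299

open Vale.Agent.P271A

variable {n N : ℕ} {Y : Type} [TopologicalSpace Y] [T2Space Y] [SecondCountableTopology Y]
  [MeasurableSpace Y] [BorelSpace Y] {A : AD n N Y} {Ψ Φ : Y → ℝ}

/-- The covectors that contract `v` to zero. -/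
def zkK {ι : Type} [Fintype ι] [LinearOrder ι] (v : W ι) : Submodule ℂ (ι → ℂ) where
  carrier := {ξ | ctr ξ *ᵥ v = 0}
  add_mem' {a b} ha hb := by
    have e : ctr (a + b) = ctr a + ctr b := by simp [ctr, add_smul, Finset.sum_add_distrib]
    rw [mem_ofPred_eq, e, add_mulVec, ha, hb, add_zero]
  zero_mem' := by simp [ctr]
  smul_mem' c a ha := by
    have e : ctr (c • a) = c • ctr a := by simp [ctr, Finset.smul_sum, smul_smul]
    rw [mem_ofPred_eq, e, smul_mulVec, ha, smul_zero]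

theorem zk_mem {ι : Type} [Fintype ι] [LinearOrder ι] {v : W ι} {ξ : ι → ℂ} :
    ξ ∈ zkK v ↔ ctr ξ *ᵥ v = 0 := Iff.rfl

theorem zk_comb {ι : Type} [Fintype ι] [LinearOrder ι] {v : W ι} {θ θ' : Matrix ι ι ℂ}
    (h : Kill θ v) (h' : Kill θ' v) (a b : ℂ) : Kill (a • θ + b • θ') v := fun k =>
  zk_mem.1 ((zkK v).add_mem ((zkK v).smul_mem a (zk_mem.2 (h k)))
    ((zkK v).smul_mem b (zk_mem.2 (h' k))))

/-- Hint: `ctr` is linear in the covector; the rows of `LMd_lg` are combinations of the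
`dzv D (a i) y`. -/
theorem zkill_lg {D : RD n Y} {κ : Type} [Fintype κ] {a : κ → Y → ℂ} (ha : ∀ i, D.Hol (a i))
    (h0 : ∀ y, ∃ i, a i y ≠ 0) {y : Y} {v : W (Fin n)} (hv : ∀ i, ctr (dzv D (a i) y) *ᵥ v = 0) :
    Kill (LMd D (lg a) y) v := by
  intro k
  rw [LMd_lg ha h0 y, ← zk_mem]
  refine (zkK v).smul_mem _ ?_
  have es : ∀ M : κ × κ → Matrix (Fin n) (Fin n) ℂ, (∑ e, M e) k = ∑ e, M e k := fun M => by
    funext j
    rw [Matrix.sum_apply, Finset.sum_apply]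
  rw [es]
  refine (zkK v).sum_mem fun e _ => ?_
  have h := (zkK v).smul_mem
    ((star fun j => a e.1 y * D.dz j (a e.2) y - a e.2 y * D.dz j (a e.1) y) k)
    ((zkK v).sub_mem ((zkK v).smul_mem (a e.1 y) (zk_mem.2 (hv e.2)))
      ((zkK v).smul_mem (a e.2 y) (zk_mem.2 (hv e.1))))
  exact h

/-- Hint: `zkill_lg` for `a` and `f` (`f_a`, `RD.dX_mul`), `LMd_add` twice. -/
theorem AD.BD.ZV.zkill_W (hA : A.Good) {b : A.BD} {v : Y → W (Fin n)} (hv : b.ZV Ψ Φ v)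
    (t s : ℤ) (y : Y) : Kill (LMd A.D (b.zW t s) y) (v y) := by
  have ha : Kill (LMd A.D (lg b.a) y) (v y) := zkill_lg b.zhol_a b.zne_a fun i => hv.vert i y
  have hf : Kill (LMd A.D (lg b.f) y) (v y) := by
    refine zkill_lg b.zhol_f b.zne_f fun j => ?_
    obtain ⟨i, i', h⟩ := b.f_a j
    have e : dzv A.D (b.f j) y = b.a i' y • dzv A.D (b.a i) y + b.a i y • dzv A.D (b.a i') y := by
      funext k
      have h1 := RD.dX_mul (ξ := zv k) (b.zhol_a i).sm (b.zhol_a i').sm y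
      rw [h]
      change A.D.dX (zv k) (fun p => b.a i p * b.a i' p) y =
        b.a i' y * A.D.dX (zv k) (b.a i) y + b.a i y * A.D.dX (zv k) (b.a i') y
      rw [h1, mul_comm]
    rw [e]
    exact zk_mem.1 ((zkK _).add_mem ((zkK _).smul_mem _ (zk_mem.2 (hv.vert i y)))
      ((zkK _).smul_mem _ (zk_mem.2 (hv.vert i' y))))
  have sa := zsm_lg b.zhol_a b.zne_a
  have e : b.zW t s = fun p => 1 * (1 * A.φ p + (t : ℝ) * lg b.a p) + (s : ℝ) * lg b.f p := by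
    funext p
    rw [one_mul, one_mul]
    rfl
  rw [e, LMd_add (((RD.smR_const 1).mul hA.hφ).add ((RD.smR_const _).mul sa))
    (zsm_lg b.zhol_f b.zne_f), LMd_add hA.hφ sa]
  exact zk_comb (zk_comb (hv.kill y) ha _ _) hf _ _

/-- Hint: `LMd_add`, `kill_add`, `LMd_psd`; `Kill.ctr` with the term `e = (0, i)` of `zlevi_lg`
(`a 0 = 1`). -/
theorem AD.BD.zv_of_kill (hA : A.Good) (b : A.BD) {v : Y → W (Fin n)} (hv : HolW A.D v)
    (h2 : nV A.D Ψ Φ v < ⊤) (hk : ∀ y, Kill (LMd A.D (fun p => A.φ p + lg b.a p) y) (v y)) :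
    b.ZV Ψ Φ v := by
  have sa := zsm_lg b.zhol_a b.zne_a
  have pa : ∀ y, (LMd A.D (lg b.a) y).PosSemidef := fun y =>
    (LMd_psd sa).2 (zpsh_lg b.zhol_a b.zne_a y)
  have key : ∀ y, Kill (LMd A.D A.φ y) (v y) ∧ Kill (LMd A.D (lg b.a) y) (v y) := fun y => by
    refine kill_add ((LMd_psd hA.hφ).2 (hA.psh y)) (pa y) ?_
    have h := LMd_add hA.hφ sa 1 1 y
    simp only [one_mul, Complex.ofReal_one, one_smul] at h
    rw [← h]
    exact hk y
  refine ⟨hv, h2, fun y => (key y).1, fun i y => ?_⟩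
  refine (key y).2.ctr (pa y) (C := 2 * (∑ i, ‖b.a i y‖ ^ 2) ^ 2) fun w => ?_
  rw [q2_LMd, zlevi_lg b.zhol_a b.zne_a y w]
  have e : dzv A.D (b.a i) y = fun j => b.a ((0, i) : _ × _).1 y * A.D.dz j (b.a ((0, i) : _ × _).2) y -
      b.a ((0, i) : _ × _).2 y * A.D.dz j (b.a ((0, i) : _ × _).1) y := by
    funext j
    have h1 : A.D.dz j (1 : Y → ℂ) y = 0 := RD.dX_const 1 y
    simp only [h1, b.a0, Pi.one_apply, one_mul, mul_zero, sub_zero, dzv]
  rw [e]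
  exact Finset.single_le_sum (f := fun e : Fin (b.α + 1) × Fin (b.α + 1) =>
    ‖(fun j => b.a e.1 y * A.D.dz j (b.a e.2) y - b.a e.2 y * A.D.dz j (b.a e.1) y) ⬝ᵥ w‖ ^ 2)
    (fun _ _ => sq_nonneg _) (Finset.mem_univ (0, i))

/-- Hint: `u y = τ y ^ j • v y` satisfies `hA.isV` with `m = j * k`: `Gm_mono` with `geρ`
(`LMd_psd`, `LMd_add`), and `‖τ‖ ^ (2 j) exp (-(j k) φ) ≤ C ^ j exp (-j lg a + j lg f)` by `zup_pow`.
Then `(b.a_fi i).2.2 u` and `τ_ne`. -/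
theorem AD.BD.zv_bd (hA : A.Good) {b : A.BD} (h : b.Gam Ψ) {j q : ℕ} (hj : j = 0 ∨ b.m0 ≤ j)
    {v : Y → W (Fin n)} (hv : HolW A.D v) (hq : ∀ y, Dg q (v y))
    (h2 : nV A.D Ψ (b.zW j (-j)) v < ⊤) (hk : ∀ y, Kill (LMd A.D A.φ y) (v y)) :
    b.ZV Ψ (b.zW j (-j)) v := by
  obtain ⟨C, hC0, hC⟩ := b.zup_pow j
  have hle : ∀ y, q2 (Gm (LMd A.D A.ρ y)) (v y) ≤ q2 (Gm (LMd A.D Ψ y)) (v y) := fun y => by
    refine Gm_mono (hA.pos.2 y).posSemidef ?_ _
    have e := LMd_add h.kah.1 hA.pos.1 1 (-1) y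
    have e' : LMd A.D Ψ y - LMd A.D A.ρ y = LMd A.D (fun p => 1 * Ψ p + -1 * A.ρ p) y := by
      rw [e]
      simp [sub_eq_add_neg]
    have s1 := (RD.smR_const (D := A.D) 1).mul h.kah.1
    have s2 := (RD.smR_const (D := A.D) (-1)).mul hA.pos.1
    rw [e', LMd_psd (s1.add s2)]
    intro w
    rw [RD.levi_add s1 s2, RD.levi_const_mul h.kah.1, RD.levi_const_mul hA.pos.1]
    linarith [h.geρ y w]
  have hu : A.IsV q (j * b.k) fun y => b.τ y ^ j • v y := by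
    refine hA.isV (fun I => (b.τ_hol.pow j).mul (hv I)) (fun y I hI => ?_) (fun y k => ?_) ?_
    · rw [Pi.smul_apply, hq y I hI, smul_zero]
    · rw [mulVec_smul, hk y k, smul_zero]
    · refine lt_of_le_of_lt ?_ (ENNReal.mul_lt_top (ENNReal.ofReal_lt_top (r := C)) h2)
      unfold nV
      rw [← lintegral_const_mul' _ _ ENNReal.ofReal_ne_top]
      refine lintegral_mono fun y => ?_
      rw [← ENNReal.ofReal_mul hC0]
      refine ENNReal.ofReal_le_ofReal ?_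
      rw [zq2_smul]
      have h0 : 0 ≤ q2 (Gm (LMd A.D A.ρ y)) (v y) :=
        Fock_q2_nonneg (Gm_psd (hA.pos.2 y).posSemidef) _
      have h1 := mul_le_mul (hC y) (hle y) h0 (mul_nonneg hC0 (Real.exp_pos _).le)
      calc _ = ‖b.τ y ^ j‖ ^ 2 * Real.exp (-((((j * b.k : ℕ) : ℝ) + 1) * A.φ y)) *
            q2 (Gm (LMd A.D A.ρ y)) (v y) := by ring
        _ ≤ _ := h1
        _ = _ := by ring
  have hU : A.U b.m0 fun y => b.τ y ^ j • v y := by
    refine ⟨q, j * b.k, ?_, hu⟩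
    rcases hj with rfl | hj
    · exact Or.inl (zero_mul _)
    · exact Or.inr (hj.trans (Nat.le_mul_of_pos_right _ b.k_pos))
  refine ⟨hv, h2, hk, fun i y => ?_⟩
  have h1 := (b.a_fi i).2.2 _ hU y
  have e : (fun k => (1 : Y → ℂ) y * A.D.dz k (b.a i) y - b.a i y * A.D.dz k (1 : Y → ℂ) y -
      ((0 : ℕ) : ℂ) * (b.a i y * (1 : Y → ℂ) y * A.D.dz k (fun p => (A.φ p : ℂ)) y)) =
      dzv A.D (b.a i) y := by
    funext k
    have h3 : A.D.dz k (1 : Y → ℂ) y = 0 := RD.dX_const 1 y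
    simp [h3, dzv]
  rw [e, mulVec_smul] at h1
  exact (smul_eq_zero.1 h1).resolve_left (pow_ne_zero _ (b.τ_ne y))

end Vale.Agent.P299
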