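import Vale.Agent.P299.ZB

/-! P299, part Z: exactness of the bottom row. -/

open Finset
open scoped ENNReal

noncomputable section

namespace Vale.Agent.P299

variable {M : Type} [AddCommGroup M] [Module ℂ M]

variable {d δ κ : M →ₗ[ℂ] M} {P : ℕ → ℕ → Submodule ℂ M} {N : M → ℝ≥0∞} {H : Submodule ℂ M}

theorem zc_eps {C ε : ℝ≥0∞} (hC : C ≠ ⊤) (hε : 0 < ε) : ∃ e > (0 : ℝ≥0∞), e ≠ ⊤ ∧ C * e ≤ ε := by
  refine ⟨min 1 (ε / C), lt_min one_pos (ENNReal.div_pos hε.ne' hC), ?_, ?_⟩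
  · exact ne_top_of_le_ne_top ENNReal.one_ne_top (min_le_left _ _)
  · exact (mul_le_mul_right (min_le_right _ _) C).trans ENNReal.mul_div_le

theorem ZDC.approx (h : ZDC d δ κ P N) (hH : ∀ u ∈ H, δ u ∈ H) (hc : ∀ p, ZCR d (P (p + 1)) N)
    (hh : ∀ p, ZHod d (P p) N H) (ho : ZOrt d N H) (p q : ℕ) :
    ∀ η ∈ P (p + 1) q, δ η = 0 → d η = 0 → N η ≠ ⊤ → ∀ ε > (0 : ℝ≥0∞),
      ∃ c ∈ P p q, d c = 0 ∧ N c ≠ ⊤ ∧ N (η - δ c) ≤ ε := by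
  obtain ⟨B, hB, b1, b2, b3⟩ := h.bd'
  induction p generalizing q with
  | zero =>
    intro η hη e1 e2 n1 ε _
    have hκ := h.κP _ _ η hη
    refine ⟨κ η, hκ, h.inj (h.dP _ _ _ hκ) (by rw [← h.dδ, h.δκ e1, e2]), zb_ne (b2 η) hB n1, ?_⟩
    rw [h.δκ e1, sub_self, h.sn.zero]
    exact zero_le
  | succ p ih =>
    intro η hη e1 e2 n1 ε hε
    have hκ := h.κP _ _ η hη
    have f1 : N (κ η) ≠ ⊤ := zb_ne (b2 η) hB n1
    have f2 : N (d (κ η)) ≠ ⊤ := ne_top_of_le_ne_top (by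
      rw [e2, h.sn.zero]; finiteness) (b3 η)
    obtain ⟨C, hC, hc⟩ := hc p q
    obtain ⟨e, he, he', hε'⟩ := zc_eps (C := B * (C * ((B + 1) + (B + 1)))) (by finiteness) hε
    obtain ⟨c, hc1, hc2, hc3, hc4⟩ := ih (q + 1) (d (κ η)) (h.dP _ _ _ hκ)
      (by rw [← h.dδ, h.δκ e1, e2]) (h.dd _) f2 e he
    obtain ⟨g, hg, hw⟩ := hh p q c hc1 hc2 hc3
    obtain ⟨w, hw1, hw2, hw3, hw4⟩ := hw e he
    have g1 : N (κ η - δ w) ≠ ⊤ := h.sn.sub_ne f1 (zb_ne (b1 w) hB hw2)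
    have g2 : N (d (κ η - δ w)) ≠ ⊤ := by
      rw [map_sub, h.dδ]; exact h.sn.sub_ne f2 (zb_ne (b1 _) hB hw3)
    have n2 : N (δ g - d (κ η - δ w)) ≤ (B + 1) * e := by
      have e3 : δ g - d (κ η - δ w) = -δ (c - g - d w) - (d (κ η) - δ c) := by
        simp only [map_sub, h.dδ]; abel
      rw [e3, add_mul, one_mul]
      refine (h.sn.sub _ _).trans (add_le_add ?_ hc4)
      rw [h.sn.neg]
      exact (b1 _).trans (by gcongr)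
    have n3 : N (d (κ η - δ w)) ≤ ((B + 1) + (B + 1)) * e := by
      have := h.sn.sub (δ g) (δ g - d (κ η - δ w))
      rw [sub_sub_cancel] at this
      rw [add_mul]
      exact this.trans (add_le_add ((ho _ (hH g hg) _ g1 g2).trans n2) n2)
    have m1 : κ η - δ w ∈ P (p + 1) q := sub_mem hκ (h.δP _ _ w hw1)
    obtain ⟨r, hr, e4, n4⟩ := hc _ m1 g1 g2
    refine ⟨κ η - δ w - r, sub_mem m1 hr, by rw [map_sub, e4, sub_self],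
      h.sn.sub_ne g1 (zb_ne n4 hC g2), le_trans ?_ hε'⟩
    have e5 : η - δ (κ η - δ w - r) = δ r := by
      rw [map_sub, map_sub, h.δκ e1, h.δδ]; abel
    rw [e5, mul_assoc, mul_assoc]
    exact (b1 r).trans (by gcongr; exact n4.trans (by gcongr))

theorem ZDC.euler (h : ZDC d δ κ P N) (hH : ∀ u ∈ H, δ u ∈ H) (hc : ∀ p, ZCR d (P (p + 1)) N)
    (hh : ∀ p, ZHod d (P p) N H) (ho : ZOrt d N H) (hf : ∀ p, ZFd d (P p) N) {k : ℕ}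
    (hk : P (k + 1) 0 = ⊥) :
    ∑ p ∈ range (k + 1), (-1 : ℤ) ^ p * (Module.finrank ℂ (ZO d (P p) N) : ℤ) = 0 := by
  obtain ⟨B, hB, b1, -, -⟩ := h.bd'
  have hδ : ∀ p, ∀ u ∈ ZO d (P p) N, δ u ∈ ZO d (P (p + 1)) N := fun p u hu => by
    obtain ⟨h1, h2, h3⟩ := (mem_ZO h.sn).1 hu
    exact (mem_ZO h.sn).2 ⟨h.δP _ _ u h1, by rw [h.dδ, h2, map_zero], zb_ne (b1 u) hB h3⟩
  refine zeuler (fun p => ZO d (P p) N) (fun p => (hf p).1) δ hδ h.δδ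
    (fun u hu => h.inj ((mem_ZO h.sn).1 hu).1) (fun p u hu h0 => ?_) ?_
  · have := (hf (p + 1)).1
    obtain ⟨h1, h2, h3⟩ := (mem_ZO h.sn).1 hu
    refine zfd_closed h.sn (U := (ZO d (P p) N).map δ) (fun u hu => ((mem_ZO h.sn).1 hu).2.2)
      (hf (p + 1)).2 (by rintro _ ⟨v, hv, rfl⟩; exact hδ p v hv) hu fun ε hε => ?_
    obtain ⟨c, c1, c2, c3, c4⟩ := h.approx hH hc hh ho p 0 u h1 h0 h2 h3 ε hε
    exact ⟨δ c, ⟨c, (mem_ZO h.sn).2 ⟨c1, c2, c3⟩, rfl⟩, c4⟩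
  · refine (Submodule.eq_bot_iff _).2 fun u hu => ?_
    have := ((mem_ZO h.sn).1 hu).1
    rwa [hk, Submodule.mem_bot] at this

end Vale.Agent.P299
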