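import Vale.Agent.P299.ZDefs

/-! P299, part Z: the Koszul double complex. -/

open Finset
open scoped ENNReal

noncomputable section

namespace Vale.Agent.P299

variable {M : Type} [AddCommGroup M] [Module ℂ M]

variable {ι : Type} [Fintype ι] [LinearOrder ι] {d : M →ₗ[ℂ] M} {G : ℕ → Submodule ℂ M}
  {N : ℕ → M → ℝ≥0∞} {x y : ι → M →ₗ[ℂ] M} {H : ℕ → Submodule ℂ M}

/-- Hint: `zop_apply`, `Matrix.mul_apply`, `Finset.sum_comm`. -/
theorem zop_zop (m m' : Matrix (Finset ι) (Finset ι) ℂ) (x x' : M →ₗ[ℂ] M) (u : Finset ι → M) :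
    zop m x (zop m' x' u) = zop (m * m') (x ∘ₗ x') u := by
  funext I
  simp only [zop_apply, Matrix.mul_apply, map_sum, map_smul, Finset.smul_sum, Finset.sum_smul,
    smul_smul, LinearMap.comp_apply]
  exact Finset.sum_comm

theorem zan_card {j : ι} {I J : Finset ι} (h : an j I J ≠ 0) :
    J.card = I.card + 1 ∧ ‖an j I J‖ₑ ≤ 1 := by
  rw [an, Matrix.of_apply] at h ⊢
  split_ifs at h ⊢ with h1
  · exact ⟨by rw [h1.2, Finset.card_insert_of_notMem h1.1], by simp [sg]⟩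
  · exact absurd rfl h

theorem zcr_card {j : ι} {I J : Finset ι} (h : cr j I J ≠ 0) :
    I.card = J.card + 1 ∧ ‖cr j I J‖ₑ ≤ 1 := by
  rw [FockA.cr_apply] at h ⊢
  split_ifs at h ⊢ with h1
  · exact ⟨by rw [h1.2, Finset.card_insert_of_notMem h1.1], by simp [sg]⟩
  · exact absurd rfl h

theorem zsn_zN (h : ∀ t, ZSN (N t)) : ZSN (zN ι N) := by
  refine ⟨fun u v => ?_, fun c u => ?_⟩
  · rw [zN, zN, zN, ← Finset.sum_add_distrib]
    exact Finset.sum_le_sum fun I _ => (h _).add _ _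
  · rw [zN, zN, Finset.mul_sum]
    exact Finset.sum_congr rfl fun I _ => (h _).smul _ _

/-- Hint: `ZSN.sum`, `ZSN.smul`, `Finset.sum_comm`. -/
theorem zN_zop (h : ∀ t, ZSN (N t)) {m : Matrix (Finset ι) (Finset ι) ℂ} {x : M →ₗ[ℂ] M}
    {C : ℝ≥0∞} (hm : ∀ I J, m I J ≠ 0 → ‖m I J‖ₑ ≤ 1 ∧ ∀ a, N I.card (x a) ≤ C * N J.card a)
    (u : Finset ι → M) : zN ι N (zop m x u) ≤ Fintype.card (Finset ι) * C * zN ι N u := by
  have h1 : ∀ I, N I.card (zop m x u I) ≤ C * zN ι N u := fun I => by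
    rw [zop_apply, zN, Finset.mul_sum]
    refine ((h _).sum _ _).trans (Finset.sum_le_sum fun J _ => ?_)
    rw [(h _).smul]
    by_cases h0 : m I J = 0
    · simp [h0]
    · exact (mul_le_mul' (hm I J h0).1 ((hm I J h0).2 _)).trans_eq (one_mul _)
  refine (Finset.sum_le_sum fun I _ => h1 I).trans_eq ?_
  rw [Finset.sum_const, Finset.card_univ, nsmul_eq_mul, mul_assoc]

omit [LinearOrder ι] in
theorem zd_add (m m' : Matrix (Finset ι) (Finset ι) ℂ) (x : M →ₗ[ℂ] M) (u : Finset ι → M) :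
    zop (m + m') x u = zop m x u + zop m' x u := by
  funext I
  simp only [zop_apply, Matrix.add_apply, add_smul, Finset.sum_add_distrib, Pi.add_apply]

omit [LinearOrder ι] in
theorem zd_neg (m : Matrix (Finset ι) (Finset ι) ℂ) (x : M →ₗ[ℂ] M) (u : Finset ι → M) :
    zop (-m) x u = -zop m x u := by
  funext I
  simp only [zop_apply, Matrix.neg_apply, neg_smul, Finset.sum_neg_distrib, Pi.neg_apply]

theorem zd_ite (i j : ι) (x : M →ₗ[ℂ] M) (u : Finset ι → M) (I : Finset ι) :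
    zop (if i = j then 1 else 0) x u I = if i = j then x (u I) else 0 := by
  split_ifs <;> simp [zop_apply, Matrix.one_apply]

omit [LinearOrder ι] in
theorem zd_left (m : Matrix (Finset ι) (Finset ι) ℂ) (x : M →ₗ[ℂ] M) (u : Finset ι → M) :
    zd ι d (zop m x u) = zop m (d ∘ₗ x) u := by
  funext I
  simp only [zd_apply, zop_apply, map_sum, map_smul, LinearMap.comp_apply]

omit [LinearOrder ι] in
theorem zd_right (m : Matrix (Finset ι) (Finset ι) ℂ) (x : M →ₗ[ℂ] M) (u : Finset ι → M) :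
    zop m x (zd ι d u) = zop m (x ∘ₗ d) u := by
  funext I
  simp only [zd_apply, zop_apply, LinearMap.comp_apply]

omit [LinearOrder ι] in
theorem zd_sub (m : Matrix (Finset ι) (Finset ι) ℂ) (x x' : M →ₗ[ℂ] M) (u : Finset ι → M) :
    zop m (x - x') u = zop m x u - zop m x' u := by
  funext I
  simp only [zop_apply, LinearMap.sub_apply, smul_sub, Finset.sum_sub_distrib, Pi.sub_apply]

omit [LinearOrder ι] in
theorem zd_mem {m : Matrix (Finset ι) (Finset ι) ℂ} {x : M →ₗ[ℂ] M} {p p' q : ℕ}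
    (hm : ∀ I J, m I J ≠ 0 → J.card = p → I.card = p') (hx : ∀ a ∈ G q, x a ∈ G q)
    {u : Finset ι → M} (hu : u ∈ zP ι G p q) : zop m x u ∈ zP ι G p' q := by
  intro I
  rw [zop_apply]
  refine ⟨Submodule.sum_mem _ fun J _ => Submodule.smul_mem _ _ (hx _ (hu J).1),
    fun hI => Finset.sum_eq_zero fun J _ => ?_⟩
  by_cases h0 : m I J = 0
  · rw [h0, zero_smul]
  · rw [(hu J).2 fun e => hI (hm I J h0 e), map_zero, smul_zero]

theorem zd_bd (h : ∀ t, ZSN (N t)) {m : ι → Matrix (Finset ι) (Finset ι) ℂ} {C : ℝ≥0∞}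
    (hm : ∀ i I J, m i I J ≠ 0 → ‖m i I J‖ₑ ≤ 1 ∧ ∀ a, N I.card (x i a) ≤ C * N J.card a)
    (u : Finset ι → M) : zN ι N (∑ i, zop (m i) (x i) u) ≤
      Fintype.card ι * (Fintype.card (Finset ι) * C) * zN ι N u := by
  refine ((zsn_zN h).sum _ _).trans ((Finset.sum_le_sum fun i _ => zN_zop h (hm i) u).trans_eq ?_)
  rw [Finset.sum_const, Finset.card_univ, nsmul_eq_mul, ← mul_assoc]

theorem zd_δ (x : ι → M →ₗ[ℂ] M) (u : Finset ι → M) : zδ x u = ∑ i, zop (cr i) (x i) u :=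
  LinearMap.sum_apply _ _ _

theorem zd_κ (y : ι → M →ₗ[ℂ] M) (u : Finset ι → M) : zκ y u = ∑ i, zop (an i) (y i) u :=
  LinearMap.sum_apply _ _ _

/-- Hints.  `δδ`: the double sum `S` of `zop (cr i * cr j) (x i ∘ₗ x j) u` equals `-S` by
`cr_cr`, `xx`, `sum_comm`.  `hom`: `an_cr`, `xy`, `one`.  The commutator is the sum of
`zop (an i) (d ∘ₗ y i - y i ∘ₗ d)`. -/
theorem ZKos.dc (h : ZKos d G N x y) : ZDC (zd ι d) (zδ x) (zκ y) (zP ι G) (zN ι N) := by
  refine ⟨zsn_zN h.sn, fun u => funext fun I => h.dd _, fun u => ?_, fun u => ?_, fun u => ?_,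
    fun p q u hu I => ⟨h.dG _ _ (hu I).1, fun hI => ?_⟩, fun p q u hu => ?_, fun p q u hu => ?_,
    fun q u hu => ?_, ?_⟩
  · rw [zd_δ, zd_δ, map_sum]
    refine Finset.sum_congr rfl fun i _ => ?_
    rw [zd_left, zd_right, LinearMap.ext (f := d ∘ₗ x i) (g := x i ∘ₗ d) (h.dx i)]
  · have h1 : zδ x (zδ x u) = ∑ i, ∑ j, zop (cr i * cr j) (x i ∘ₗ x j) u := by
      simp only [zd_δ, map_sum, zop_zop]
      exact Finset.sum_comm
    have h2 : zδ x (zδ x u) = -zδ x (zδ x u) := by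
      rw [h1]
      conv_lhs => rw [Finset.sum_comm]
      simp only [← Finset.sum_neg_distrib]
      refine Finset.sum_congr rfl fun i _ => Finset.sum_congr rfl fun j _ => ?_
      rw [cr_cr j i, zd_neg, LinearMap.ext (f := x j ∘ₗ x i) (g := x i ∘ₗ x j) (h.xx j i)]
    have h3 : (2 : ℂ) • zδ x (zδ x u) = 0 := by
      rw [two_smul]
      exact add_eq_zero_iff_eq_neg.2 h2
    exact (smul_eq_zero.1 h3).resolve_left two_ne_zero
  · have h1 : zδ x (zκ y u) = ∑ j, ∑ i, zop (cr i * an j) (x i ∘ₗ y j) u := by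
      simp only [zd_δ, zd_κ, map_sum, zop_zop]
    have h2 : zκ y (zδ x u) = ∑ j, ∑ i, zop (an j * cr i) (x i ∘ₗ y j) u := by
      simp only [zd_δ, zd_κ, map_sum, zop_zop]
      rw [Finset.sum_comm]
      refine Finset.sum_congr rfl fun j _ => Finset.sum_congr rfl fun i _ => ?_
      rw [LinearMap.ext (f := x i ∘ₗ y j) (g := y j ∘ₗ x i) (h.xy i j)]
    rw [add_comm, h1, h2]
    funext I
    simp only [← Finset.sum_add_distrib, ← zd_add, an_cr, Finset.sum_apply, zd_ite,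
      Finset.sum_ite_eq, Finset.mem_univ, if_true, LinearMap.comp_apply, h.one]
  · rw [zd_apply, (hu I).2 hI, map_zero]
  · rw [zd_δ]
    exact Submodule.sum_mem _ fun i _ =>
      zd_mem (fun I J h0 e => by rw [(zcr_card h0).1, e]) (h.xG i q) hu
  · rw [zd_κ]
    exact Submodule.sum_mem _ fun i _ =>
      zd_mem (fun I J h0 e => by have := (zan_card h0).1; omega) (h.yG i q) hu
  · rw [zd_κ]
    refine Finset.sum_eq_zero fun i _ => funext fun I => ?_
    exact (zd_mem (p' := I.card + 1) (fun I J h0 e => by have := (zan_card h0).1; omega)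
      (h.yG i q) hu I).2 (by omega)
  · obtain ⟨C, hC, hb⟩ := h.bd
    refine ⟨Fintype.card ι * (Fintype.card (Finset ι) * C),
      ENNReal.mul_ne_top (ENNReal.natCast_ne_top _)
        (ENNReal.mul_ne_top (ENNReal.natCast_ne_top _) hC), fun u => ⟨?_, ?_, ?_⟩⟩
    · rw [zd_δ]
      refine zd_bd h.sn (fun i I J h0 => ⟨(zcr_card h0).2, fun a => ?_⟩) u
      rw [(zcr_card h0).1]
      exact (hb _ i a).1
    · rw [zd_κ]
      refine zd_bd h.sn (fun i I J h0 => ⟨(zan_card h0).2, fun a => ?_⟩) u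
      rw [(zan_card h0).1]
      exact (hb _ i a).2.1
    · simp only [zd_κ, map_sum, zd_left, zd_right, ← Finset.sum_sub_distrib, ← zd_sub]
      refine zd_bd (x := fun i => d ∘ₗ y i - y i ∘ₗ d) h.sn
        (fun i I J h0 => ⟨(zan_card h0).2, fun a => ?_⟩) u
      rw [(zan_card h0).1]
      exact (hb _ i a).2.2

theorem zδ_mem (hx : ∀ t i, ∀ u ∈ H t, x i u ∈ H (t + 1)) : ∀ u ∈ zH ι H, zδ x u ∈ zH ι H := by
  intro u hu
  rw [zd_δ]
  refine Submodule.sum_mem _ fun i _ I _ => ?_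
  show zop (cr i) (x i) u I ∈ H I.card
  rw [zop_apply]
  refine Submodule.sum_mem _ fun J _ => ?_
  by_cases h0 : cr i I J = 0
  · rw [h0, zero_smul]
    exact zero_mem _
  · rw [(zcr_card h0).1]
    exact Submodule.smul_mem _ _ (hx _ i _ (hu J (Set.mem_univ J)))

omit [LinearOrder ι] in
theorem zP_top (G : ℕ → Submodule ℂ M) (q : ℕ) : zP ι G (Fintype.card ι + 1) q = ⊥ :=
  (Submodule.eq_bot_iff _).2 fun _ hu => funext fun I =>
    (hu I).2 (Nat.lt_succ_of_le (Finset.card_le_univ I)).ne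

end Vale.Agent.P299
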