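import Vale.Agent.P299.ZDefs

/-! P299, part Z: transfer between the columns and the total space.  All proofs work
componentwise: for `I.card = p` choose the object given by the column, otherwise take zero. -/

open Finset
open scoped ENNReal

noncomputable section

namespace Vale.Agent.P299

variable {M : Type} [AddCommGroup M] [Module ℂ M]

variable {ι : Type} [Fintype ι] [LinearOrder ι] {d : M →ₗ[ℂ] M} {G : ℕ → Submodule ℂ M}
  {N : ℕ → M → ℝ≥0∞} {H : ℕ → Submodule ℂ M} {p : ℕ}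

omit [AddCommGroup M] [Module ℂ M] [LinearOrder ι] in
theorem ze_ne {u : Finset ι → M} : zN ι N u ≠ ⊤ ↔ ∀ I, N I.card (u I) ≠ ⊤ := by
  unfold zN
  rw [ENNReal.sum_ne_top]
  simp only [mem_univ, true_imp_iff]

omit [AddCommGroup M] [Module ℂ M] [LinearOrder ι] in
theorem ze_le {u v : Finset ι → M} {C : ℝ≥0∞} (h : ∀ I, N I.card (u I) ≤ C * N I.card (v I)) :
    zN ι N u ≤ C * zN ι N v := by
  unfold zN
  rw [mul_sum]
  exact sum_le_sum fun I _ => h I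

theorem ZSol.tot (hN : ∀ t, ZSN (N t)) (h : ZSol d G (N p)) :
    ZSol (zd ι d) (zP ι G p) (zN ι N) := by
  intro q
  obtain ⟨C, hC, h⟩ := h q
  refine ⟨C, hC, fun η hη hd hf => ?_⟩
  have key : ∀ I : Finset ι, ∃ w, (w ∈ G q ∧ (I.card ≠ p → w = 0)) ∧ d w = η I ∧
      N I.card w ≤ C * N I.card (η I) := fun I => by
    by_cases hI : I.card = p
    · obtain ⟨w, h1, h2, h3⟩ := h (η I) (hη I).1 (congrFun hd I) (hI ▸ ze_ne.1 hf I)
      exact ⟨w, ⟨h1, fun h => absurd hI h⟩, h2, hI ▸ h3⟩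
    · exact ⟨0, ⟨zero_mem _, fun _ => rfl⟩, by rw [map_zero, (hη I).2 hI], by
        rw [(hN _).zero]; exact zero_le⟩
  choose w h1 h2 h3 using key
  exact ⟨w, h1, funext h2, ze_le h3⟩

theorem ZCR.tot (hN : ∀ t, ZSN (N t)) (h : ZCR d G (N p)) :
    ZCR (zd ι d) (zP ι G p) (zN ι N) := by
  intro q
  obtain ⟨C, hC, h⟩ := h q
  refine ⟨C, hC, fun w hw hf hf' => ?_⟩
  have key : ∀ I : Finset ι, ∃ y, (y ∈ G q ∧ (I.card ≠ p → y = 0)) ∧ d y = d (w I) ∧
      N I.card y ≤ C * N I.card (d (w I)) := fun I => by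
    by_cases hI : I.card = p
    · obtain ⟨y, h1, h2, h3⟩ := h (w I) (hw I).1 (hI ▸ ze_ne.1 hf I) (hI ▸ ze_ne.1 hf' I)
      exact ⟨y, ⟨h1, fun h => absurd hI h⟩, h2, hI ▸ h3⟩
    · exact ⟨0, ⟨zero_mem _, fun _ => rfl⟩, by rw [(hw I).2 hI], by
        rw [(hN _).zero]; exact zero_le⟩
  choose y h1 h2 h3 using key
  exact ⟨y, h1, funext h2, ze_le h3⟩

/-- Hint: use `ε / Fintype.card (Finset ι)` for each component (`ENNReal.exists_pos_sum_of_countable`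
or `ENNReal.mul_div_le`). -/
theorem ZHod.tot (hN : ∀ t, ZSN (N t)) (h : ZHod d G (N p) (H p)) :
    ZHod (zd ι d) (zP ι G p) (zN ι N) (zH ι H) := by
  intro q η hη hd hf
  have key : ∀ I : Finset ι, ∃ k ∈ H I.card, ∀ ε > (0 : ℝ≥0∞), ∃ w,
      (w ∈ G q ∧ (I.card ≠ p → w = 0)) ∧ N I.card w ≠ ⊤ ∧ N I.card (d w) ≠ ⊤ ∧
        N I.card (η I - k - d w) ≤ ε := fun I => by
    by_cases hI : I.card = p
    · obtain ⟨k, hk, h1⟩ := h q (η I) (hη I).1 (congrFun hd I) (hI ▸ ze_ne.1 hf I)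
      refine ⟨k, hI ▸ hk, fun ε hε => ?_⟩
      obtain ⟨w, a1, a2, a3, a4⟩ := h1 ε hε
      exact ⟨w, ⟨a1, fun h => absurd hI h⟩, hI ▸ a2, hI ▸ a3, hI ▸ a4⟩
    · refine ⟨0, zero_mem _, fun ε _ => ⟨0, ⟨zero_mem _, fun _ => rfl⟩, ?_, ?_, ?_⟩⟩ <;>
        simp [(hη I).2 hI, (hN _).zero]
  choose k hk h1 using key
  refine ⟨k, fun I _ => hk I, fun ε hε => ?_⟩
  obtain ⟨e, he, hs⟩ := ENNReal.exists_pos_sum_of_countable' hε.ne' (Finset ι)
  choose w a1 a2 a3 a4 using fun I => h1 I (e I) (he I)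
  refine ⟨w, a1, ze_ne.2 a2, ze_ne.2 a3, le_trans (sum_le_sum fun I _ => a4 I) ?_⟩
  rw [tsum_fintype] at hs
  exact hs.le

theorem ZOrt.tot (h : ∀ t, ZOrt d (N t) (H t)) : ZOrt (zd ι d) (zN ι N) (zH ι H) := by
  intro k hk w h1 h2
  exact sum_le_sum fun I _ => h _ (k I) (hk I trivial) (w I) (ze_ne.1 h1 I) (ze_ne.1 h2 I)

/-- Hint: apply `h` to `Pi.single ∅ w` and take the component `∅`. -/
theorem ZCR.of_tot (hN : ∀ t, ZSN (N t)) (h : ZCR (zd ι d) (zP ι G 0) (zN ι N)) :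
    ZCR d G (N 0) := by
  intro q
  obtain ⟨C, hC, h⟩ := h q
  refine ⟨C, hC, fun w hw hf hf' => ?_⟩
  have e : ∀ v : M, zN ι N (Pi.single ∅ v) = N 0 v := fun v => by
    unfold zN
    rw [sum_eq_single ∅ (fun I _ hI => by rw [Pi.single_eq_of_ne hI, (hN _).zero])
      fun h => absurd (mem_univ _) h, Pi.single_eq_same, card_empty]
  have e' : zd ι d (Pi.single ∅ w) = Pi.single ∅ (d w) := funext fun I => by
    rw [zd_apply]
    exact Pi.apply_single (fun _ => d) (fun _ => map_zero d) ∅ w I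
  obtain ⟨y, h1, h2, h3⟩ := h (Pi.single ∅ w) (fun I => by
    by_cases hI : I = ∅
    · subst hI
      exact ⟨by rwa [Pi.single_eq_same], fun h => absurd card_empty h⟩
    · rw [Pi.single_eq_of_ne hI]
      exact ⟨zero_mem _, fun _ => rfl⟩) (by rwa [e]) (by rwa [e', e])
  rw [e'] at h2 h3
  rw [e] at h3
  refine ⟨y ∅, (h1 ∅).1, (congrFun h2 ∅).trans (Pi.single_eq_same _ _), le_trans ?_ h3⟩
  exact single_le_sum (f := fun I : Finset ι => N I.card (y I)) (fun _ _ => zero_le) (mem_univ ∅)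

/-- Hint: `mem_ZO` with `hT`; the space is linearly equivalent to
`{I : Finset ι // I.card = p} → ZO d G (N p)`; `Module.finrank_pi_fintype`, `Fintype.card_finset_len`. -/
theorem ZFd.tot (hN : ∀ t, ZSN (N t)) (hT : ZSN (zN ι N)) (h : ZFd d G (N p)) :
    ZFd (zd ι d) (zP ι G p) (zN ι N) ∧ Module.finrank ℂ (ZO (zd ι d) (zP ι G p) (zN ι N)) =
      (Fintype.card ι).choose p * Module.finrank ℂ (ZO d G (N p)) := by
  have m : ∀ u ∈ ZO (zd ι d) (zP ι G p) (zN ι N), ∀ I : Finset ι, I.card = p →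
      u I ∈ ZO d G (N p) := fun u hu I hI => by
    obtain ⟨h1, h2, h3⟩ := (mem_ZO hT).1 hu
    exact (mem_ZO (hN p)).2 ⟨(h1 I).1, congrFun h2 I, hI ▸ ze_ne.1 h3 I⟩
  have z : ∀ u ∈ ZO (zd ι d) (zP ι G p) (zN ι N), ∀ I : Finset ι, I.card ≠ p → u I = 0 :=
    fun u hu I hI => (((mem_ZO hT).1 hu).1 I).2 hI
  let T : ZO (zd ι d) (zP ι G p) (zN ι N) →ₗ[ℂ] ({I : Finset ι // I.card = p} → ZO d G (N p)) :=
    { toFun := fun u I => ⟨u.1 I.1, m u.1 u.2 I.1 I.2⟩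
      map_add' := fun _ _ => rfl
      map_smul' := fun _ _ => rfl }
  have hb : Function.Bijective T := by
    refine ⟨fun u v e => Subtype.ext (funext fun I => ?_), fun v => ?_⟩
    · by_cases hI : I.card = p
      · exact congrArg Subtype.val (congrFun e ⟨I, hI⟩)
      · rw [z _ u.2 I hI, z _ v.2 I hI]
    · have a : ∀ I : Finset ι, ∃ x, (x ∈ G 0 ∧ (I.card ≠ p → x = 0)) ∧ d x = 0 ∧
          N I.card x ≠ ⊤ ∧ ∀ hI : I.card = p, x = v ⟨I, hI⟩ := fun I => by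
        by_cases hI : I.card = p
        · obtain ⟨h1, h2, h3⟩ := (mem_ZO (hN p)).1 (v ⟨I, hI⟩).2
          exact ⟨v ⟨I, hI⟩, ⟨h1, fun h => absurd hI h⟩, h2, hI ▸ h3, fun _ => rfl⟩
        · exact ⟨0, ⟨zero_mem _, fun _ => rfl⟩, map_zero _, by simp [(hN _).zero],
            fun h => absurd h hI⟩
      choose x a1 a2 a3 a4 using a
      exact ⟨⟨x, (mem_ZO hT).2 ⟨a1, funext a2, ze_ne.2 a3⟩⟩,
        funext fun I => Subtype.ext (a4 I.1 I.2)⟩
  have := h.1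
  let e := LinearEquiv.ofBijective T hb
  refine ⟨⟨e.symm.finiteDimensional, fun u hu h0 => funext fun I => ?_⟩, ?_⟩
  · by_cases hI : I.card = p
    · exact h.2 _ (m u hu I hI) (hI ▸ (sum_eq_zero_iff.1 h0) I (mem_univ I))
    · exact z u hu I hI
  · rw [e.finrank_eq, Module.finrank_pi_fintype, sum_const, card_univ, Fintype.card_finset_len,
      smul_eq_mul]

end Vale.Agent.P299
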