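import Vale.Agent.P299.ZB
import Vale.Agent.P299.ZC
import Vale.Agent.P299.ZD
import Vale.Agent.P299.ZE

/-! P299, part Z: the two abstract theorems. -/

open Finset
open scoped ENNReal

noncomputable section

namespace Vale.Agent.P299

variable {M : Type} [AddCommGroup M] [Module ℂ M] {ι : Type} [Fintype ι] [LinearOrder ι]
  {d : M →ₗ[ℂ] M} {G : ℕ → Submodule ℂ M} {N : ℕ → M → ℝ≥0∞} {x y : ι → M →ₗ[ℂ] M}
  {H : ℕ → Submodule ℂ M}

theorem ZKos.cr (h : ZKos d G N x y) (hs : ∀ t, ZSol d G (N (t + 1)))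
    (hf : ∀ t, ZFd d G (N t)) : ZCR d G (N 0) :=
  ZCR.of_tot (ι := ι) h.sn (h.dc.cr (fun p => (hs p).tot h.sn)
    fun p => ((hf p).tot h.sn h.dc.sn).1)

theorem ZKos.euler (h : ZKos d G N x y) (hx : ∀ t i, ∀ u ∈ H t, x i u ∈ H (t + 1))
    (hc : ∀ t, ZCR d G (N (t + 1))) (hh : ∀ t, ZHod d G (N t) (H t))
    (ho : ∀ t, ZOrt d (N t) (H t)) (hf : ∀ t, ZFd d G (N t)) :
    ∑ p ∈ range (Fintype.card ι + 1), (-1 : ℤ) ^ p *
      ((Fintype.card ι).choose p * (Module.finrank ℂ (ZO d G (N p)) : ℤ)) = 0 := by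
  have key := h.dc.euler (zδ_mem hx) (fun p => (hc p).tot h.sn) (fun p => (hh p).tot h.sn)
    (ZOrt.tot ho) (fun p => ((hf p).tot h.sn h.dc.sn).1) (zP_top G 0)
  rw [← key]
  refine sum_congr rfl fun p _ => ?_
  rw [((hf p).tot (ι := ι) h.sn h.dc.sn).2]
  push_cast
  rfl

end Vale.Agent.P299
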