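import Vale.Agent.P299.Defs

/-! P299, part Z: two difference equations.

Write `Δ = fwdDiff 1`; `fwdDiff_iter_eq_sum_shift` turns the sums into `Δ^[α]` (up to the sign
`(-1) ^ α`).  `zp_ext`: induction on `M` (extend `Δ g`, take the antidifference on `ℤ` with the
right value at `t₀`, e.g. by `Int.inductionOn` or a difference of two finite sums).
`zp_uniq`: induction on `M` (`Δ g = 0`, so `g` is constant).
`zpoly`: extend `t ↦ d t s` from `t ≥ max 1 (1 - s)` to `D t s`; the equation in `s` holds for `D`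
everywhere by `zp_uniq`; `d j (-j) = D j (-j)` in the cases of `hb` (the term `p = 0` has
coefficient one, the others agree).  With the shifts `S`, `T`, `T'` by `(1, 0)`, `(0, 1)`, `(0, -1)` in
`Module.End ℤ (ℤ × ℤ → ℤ)`: `S T' - 1 = (S - 1) T' + (T' - 1)`, `T' - 1 = -(T - 1) T'`, so
`Commute.add_pow` gives `(S T' - 1) ^ (α + β) D = 0`, i.e. `Δ^[α + β] g = 0` for `g j = D j (-j)`.
(Or: induction on `α + β` for functions `D`, using
`g (j + 1) - g j = (Δ_t D) j (-j - 1) - (Δ_s D) j (-j - 1)`.)  Finish with `zp_uniq`. -/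

open Finset

namespace Vale.Agent.P299

theorem zp_anti (k : ℤ → ℤ) (t₀ c : ℤ) : ∃ G : ℤ → ℤ, fwdDiff 1 G = k ∧ G t₀ = c := by
  refine ⟨fun t => c + ∑ i ∈ Ico t₀ t, k i - ∑ i ∈ Ico t t₀, k i, funext fun t => ?_, by simp⟩
  rw [fwdDiff]
  rcases le_or_gt t₀ t with h | h
  · rw [← insert_Ico_right_eq_Ico_add_one h, sum_insert right_notMem_Ico,
      Ico_eq_empty_of_le h, Ico_eq_empty_of_le (by omega : t₀ ≤ t + 1)]
    ring
  · rw [← insert_Ico_add_one_left_eq_Ico h, sum_insert (by simp),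
      Ico_eq_empty_of_le h.le, Ico_eq_empty_of_le (by omega : t + 1 ≤ t₀)]
    ring

theorem zp_ext (M : ℕ) (g : ℤ → ℤ) (t₀ : ℤ) (h : ∀ t ≥ t₀, (fwdDiff 1)^[M] g t = 0) :
    ∃ g' : ℤ → ℤ, (fwdDiff 1)^[M] g' = 0 ∧ ∀ t ≥ t₀, g' t = g t := by
  induction M generalizing g with
  | zero => exact ⟨0, rfl, fun t ht => (h t ht).symm⟩
  | succ M ih =>
    obtain ⟨k, hk, hk'⟩ := ih (fwdDiff 1 g) h
    obtain ⟨G, hG, hG0⟩ := zp_anti k t₀ (g t₀)
    refine ⟨G, by rw [Function.iterate_succ_apply, hG, hk], fun t ht => ?_⟩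
    induction t, ht using Int.le_induction with
    | base => exact hG0
    | succ t ht iht =>
      have h1 := congrFun hG t
      rw [hk' t ht, fwdDiff, fwdDiff] at h1
      omega

theorem zp_uniq (M : ℕ) (g : ℤ → ℤ) (t₀ : ℤ) (h : (fwdDiff 1)^[M] g = 0)
    (h0 : ∀ t ≥ t₀, g t = 0) : g = 0 := by
  induction M generalizing g with
  | zero => exact h
  | succ M ih =>
    have h1 := ih (fwdDiff 1 g) h fun t ht => by
      rw [fwdDiff, h0 t ht, h0 (t + 1) (by omega), sub_zero]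
    have h2 : Function.Periodic g 1 := fun t => sub_eq_zero.1 (congrFun h1 t)
    funext t
    have h3 := h2.zsmul (t - t₀) t₀
    rw [smul_eq_mul, mul_one, add_sub_cancel, h0 t₀ le_rfl] at h3
    exact h3

theorem zp_sum (n : ℕ) (f : ℤ → ℤ) (y : ℤ) :
    ∑ p ∈ range (n + 1), (-1 : ℤ) ^ p * (n.choose p * f (y + p)) =
      (-1) ^ n * (fwdDiff 1)^[n] f y := by
  rw [fwdDiff_iter_eq_sum_shift, mul_sum]
  refine sum_congr rfl fun p hp => ?_
  obtain ⟨m, rfl⟩ := Nat.exists_eq_add_of_le (Nat.lt_succ_iff.1 (mem_range.1 hp))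
  have e : (-1 : ℤ) ^ m * (-1) ^ m = 1 := by rw [← mul_pow]; simp
  rw [Nat.add_sub_cancel_left, smul_eq_mul, nsmul_eq_mul, mul_one, pow_add]
  linear_combination (-((-1) ^ p * ((p + m).choose p * f (y + p)))) * e

theorem zp_iff (n : ℕ) (f : ℤ → ℤ) (y : ℤ) :
    ∑ p ∈ range (n + 1), (-1 : ℤ) ^ p * (n.choose p * f (y + p)) = 0 ↔
      (fwdDiff 1)^[n] f y = 0 := by
  rw [zp_sum, mul_eq_zero]
  simp

theorem zp_sub (n : ℕ) (f g : ℤ → ℤ) (y : ℤ) :
    (fwdDiff 1)^[n] (fun t => f t - g t) y = (fwdDiff 1)^[n] f y - (fwdDiff 1)^[n] g y := by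
  simp only [fwdDiff_iter_eq_sum_shift, smul_sub, sum_sub_distrib]

theorem zp_zero (n : ℕ) : (fwdDiff 1)^[n] (0 : ℤ → ℤ) = 0 :=
  funext fun y => by simp [fwdDiff_iter_eq_sum_shift]

theorem zp_diag (n : ℕ) : ∀ (a b : ℕ) (F : ℤ → ℤ → ℤ), a + b = n →
    (∀ s, (fwdDiff 1)^[a] (fun t => F t s) = 0) → (∀ t, (fwdDiff 1)^[b] (F t) = 0) →
    (fwdDiff 1)^[n] (fun j => F j (-j)) = 0 := by
  induction n with
  | zero =>
    intro a b F hn ha _
    obtain rfl : a = 0 := by omega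
    exact funext fun j => congrFun (ha (-j)) j
  | succ n ih =>
    intro a b F hn ha hb
    rcases a with _ | a
    · have e : (fun j => F j (-j)) = 0 := funext fun j => congrFun (ha (-j)) j
      rw [e, zp_zero]
    rcases b with _ | b
    · have e : (fun j => F j (-j)) = 0 := funext fun j => congrFun (hb j) (-j)
      rw [e, zp_zero]
    have h1 := ih a (b + 1) (fun t s => F (t + 1) (s + -1) - F t (s + -1)) (by omega)
      (fun s => ha (s + -1)) fun t => funext fun y => by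
        rw [zp_sub, fwdDiff_iter_comp_add 1 (F (t + 1)), fwdDiff_iter_comp_add 1 (F t), hb, hb]
        rfl
    have h2 := ih (a + 1) b (fun t s => F t (s + -1 + 1) - F t (s + -1)) (by omega)
      (fun s => funext fun y => by
        rw [zp_sub _ (fun t => F t (s + -1 + 1)) (fun t => F t (s + -1)), ha, ha]
        rfl) fun t => funext fun y => by
        rw [fwdDiff_iter_comp_add 1 (fun s => F t (s + 1) - F t s)]
        exact congrFun (hb t) _
    have e : fwdDiff 1 (fun j => F j (-j)) = fun j => (F (j + 1) (-j + -1) - F j (-j + -1)) -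
        (F j (-j + -1 + 1) - F j (-j + -1)) := funext fun j => by
      rw [fwdDiff, neg_add, neg_add_cancel_right]
      ring
    funext y
    rw [Function.iterate_succ_apply, e, zp_sub, h1, h2]
    rfl

theorem zpoly {α β j₀ : ℕ} (d : ℤ → ℤ → ℤ)
    (ht : ∀ t s : ℤ, 1 ≤ t → 1 ≤ t + s →
      ∑ p ∈ range (α + 1), (-1 : ℤ) ^ p * (α.choose p * d (t + p) s) = 0)
    (hs : ∀ t s : ℤ, 1 ≤ t → 1 ≤ t + s →
      ∑ p ∈ range (β + 1), (-1 : ℤ) ^ p * (β.choose p * d t (s + p)) = 0)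
    (hb : ∀ j : ℕ, j = 0 ∨ j₀ ≤ j →
      ∑ p ∈ range (α + 1), (-1 : ℤ) ^ p * (α.choose p * d (j + p) (-j)) = 0)
    (h0 : d 0 0 ≠ 0) : ∃ j : ℕ, 0 < j ∧ d j (-j) ≠ 0 := by
  have hD : ∀ s, ∃ g' : ℤ → ℤ, (fwdDiff 1)^[α] g' = 0 ∧ ∀ t ≥ max 1 (1 - s), g' t = d t s :=
    fun s => zp_ext α (fun t => d t s) _ fun t h =>
      (zp_iff α (fun t => d t s) t).1 (ht t s (by omega) (by omega))
  choose D hD1 hD2 using hD
  have hE : ∀ t, (fwdDiff 1)^[β] (fun s => D s t) = 0 := fun t => funext fun s => by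
    have h1 := zp_uniq α (∑ p ∈ range (β + 1), ((-1 : ℤ) ^ p * β.choose p) • D (s + p))
      (max 1 (1 - s)) (by
        rw [fwdDiff_iter_finsetSum]
        exact sum_eq_zero fun p _ => by rw [fwdDiff_iter_const_smul, hD1, smul_zero]) fun t h => by
        rw [← hs t s (by omega) (by omega), Finset.sum_apply]
        refine sum_congr rfl fun p _ => ?_
        rw [Pi.smul_apply, hD2 _ _ (by omega), smul_eq_mul, mul_assoc]
    refine (zp_iff β (fun s => D s t) s).1 ?_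
    refine Eq.trans ?_ (congrFun h1 t)
    rw [Finset.sum_apply]
    refine sum_congr rfl fun p _ => ?_
    rw [Pi.smul_apply, smul_eq_mul, mul_assoc]
  have hj : ∀ j : ℕ, j = 0 ∨ j₀ ≤ j → D (-j) j = d j (-j) := fun j h => by
    have h1 := hb j h
    have h2 := (zp_iff α (D (-j)) j).2 (congrFun (hD1 _) _)
    rw [sum_range_succ'] at h1 h2
    rw [sum_congr rfl fun p _ => by rw [hD2 (-j) (j + (p + 1 : ℕ)) (by omega)]] at h2
    have h3 := add_left_cancel (h2.trans h1.symm)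
    simpa using h3
  by_contra hc
  push Not at hc
  have h1 := zp_uniq _ _ (j₀ + 1) (zp_diag _ α β (fun t s => D s t) rfl hD1 hE) fun t h => by
    obtain ⟨j, rfl⟩ := Int.eq_ofNat_of_zero_le (by omega : 0 ≤ t)
    exact (hj j (by omega)).trans (hc j (by omega))
  exact h0 ((hj 0 (Or.inl rfl)).symm.trans (congrFun h1 0))

end Vale.Agent.P299
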