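import Vale.Agent.P299.PartL
import Vale.Agent.P299.PartM2
import Vale.Agent.P299.ZM
import Vale.Agent.P299.ZP
import Vale.Agent.P299.ZH
import Vale.Agent.P299.ZK

/-! P299, part Z: Koszul complexes and the difference equations. -/

open MeasureTheory Set Filter Topology Matrix
open scoped ContDiff ENNReal ComplexConjugate ComplexOrder

noncomputable section

namespace Vale.Agent.P299

open Vale.Agent.P271A

variable {n N : ℕ} {Y : Type} [TopologicalSpace Y] [T2Space Y] [SecondCountableTopology Y]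
  [MeasurableSpace Y] [BorelSpace Y] {A : AD n N Y} {Ψ : Y → ℝ}

theorem AD.BD.zfd (hA : A.Good) {b : A.BD} (h : b.Gam Ψ) {t s : ℤ} (ht : 0 ≤ t) (l : ℕ) :
    ZFd (zdF A.D) (zGF A.D) (zNF A.D Ψ fun y => b.zW t s y + l * A.ρ y) := by
  obtain ⟨L, g, hg, hg0, hS⟩ := b.zw_fin hA (s := s) ht l
  have := hA.fd 0 L
  refine zfd_of h.kah ((b.zsm_W hA t s).add ((RD.smR_const _).mul hA.pos.1)) (A.S 0 L) g
    (fun F hF h0 => ?_) hS
  by_contra hc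
  exact hA.mul_ne hg hF hg0 hc h0

theorem AD.BD.zfd0 (hA : A.Good) {b : A.BD} (h : b.Gam Ψ) {t s : ℤ} (ht : 0 ≤ t) :
    ZFd (zdF A.D) (zGF A.D) (zNF A.D Ψ (b.zW t s)) := by
  simpa using AD.BD.zfd hA h (s := s) ht 0

theorem AD.BD.zcr (hA : A.Good) {b : A.BD} (h : b.Gam Ψ) {t s : ℤ} (ht : 1 ≤ t)
    (hs : 1 ≤ t + s) : ZCR (zdF A.D) (zGF A.D) (zNF A.D Ψ (b.zW t s)) := by
  obtain ⟨y, hy⟩ := zkos_fam hA.hx hA.zne_x h.kah (C := 1)
    (fun y v => by rw [one_mul]; exact h.geρ y v)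
    (Φ := fun (l : ℕ) y => b.zW t s y + l * A.ρ y)
    (fun l => (b.zsm_W hA t s).add ((RD.smR_const _).mul hA.pos.1))
    (fun l y => by push_cast; simp only [AD.ρ]; ring)
  have key := hy.cr (fun l => by
    obtain ⟨Φ', B, c, h1, h2, h3, h4⟩ := AD.BD.zw_sol hA h ht hs l
    exact zsol_of h.kah h.cplt h1 h2 h3 h4) fun l => AD.BD.zfd hA h (by omega) l
  simpa using key

theorem AD.BD.zhod (hA : A.Good) {b : A.BD} (h : b.Gam Ψ) {t s : ℤ} (ht : 1 ≤ t)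
    (hs : 1 ≤ t + s) :
    ZHod (zdF A.D) (zGF A.D) (zNF A.D Ψ (b.zW t s)) (b.ZF Ψ (b.zW t s)) := by
  obtain ⟨B, hB⟩ := AD.BD.zw_hap hA h ht hs
  have ha := zsm_lg b.zhol_a b.zne_a
  refine AD.BD.zhod_of h.kah h.cplt (b.zsm_W hA t s) (hA.hφ.add ha) (fun y v => ?_) hB
    fun q v h1 _ h2 h3 => b.zv_of_kill hA h1 h2 h3
  rw [RD.levi_add hA.hφ ha]
  exact add_nonneg (hA.psh y v) (zpsh_lg b.zhol_a b.zne_a y v)

theorem AD.BD.zhod0 (hA : A.Good) {b : A.BD} (h : b.Gam Ψ) {j : ℕ} (hj : j = 0 ∨ b.m0 ≤ j) :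
    ZHod (zdF A.D) (zGF A.D) (zNF A.D Ψ (b.zW j (-j))) (b.ZF Ψ (b.zW j (-j))) := by
  obtain ⟨B, hB⟩ := AD.BD.zw_hap0 hA h j
  exact AD.BD.zhod_of h.kah h.cplt (b.zsm_W hA _ _) hA.hφ hA.psh hB
    fun q v h1 h2 h3 h4 => AD.BD.zv_bd hA h hj h1 h2 h3 h4

theorem AD.BD.zort (hA : A.Good) {b : A.BD} (h : b.Gam Ψ) (t s : ℤ) :
    ZOrt (zdF A.D) (zNF A.D Ψ (b.zW t s)) (b.ZF Ψ (b.zW t s)) :=
  AD.BD.zort_of h.kah h.cplt (b.zsm_W hA t s) fun _ hv y => hv.zkill_W hA t s y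

omit [T2Space Y] [SecondCountableTopology Y] [BorelSpace Y] [TopologicalSpace Y]
  [MeasurableSpace Y] in
theorem zexp_le {κ : Type} [Fintype κ] {a : κ → Y → ℂ} {y : Y} (h0 : 0 < ∑ i, ‖a i y‖ ^ 2)
    (i : κ) (r : ℝ) : ‖a i y‖ ^ 2 * Real.exp (-(r + lg a y)) ≤ Real.exp (-r) := by
  rw [neg_add, Real.exp_add, Real.exp_neg (lg a y), lg, Real.exp_log h0, mul_left_comm]
  refine mul_le_of_le_one_right (Real.exp_pos _).le ?_
  rw [← div_eq_mul_inv, div_le_one h0]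
  exact Finset.single_le_sum (f := fun i => ‖a i y‖ ^ 2) (fun _ _ => sq_nonneg _)
    (Finset.mem_univ i)

/-- The dimensions. -/
def AD.BD.zdim (b : A.BD) (Ψ : Y → ℝ) (t s : ℤ) : ℤ :=
  Module.finrank ℂ (ZO (zdF A.D) (zGF A.D) (zNF A.D Ψ (b.zW t s)))

theorem AD.BD.zeq_a (hA : A.Good) {b : A.BD} (h : b.Gam Ψ) {t s : ℤ} (ht : 0 ≤ t)
    (hs : 0 ≤ t + s) (h0 : ZHod (zdF A.D) (zGF A.D) (zNF A.D Ψ (b.zW t s)) (b.ZF Ψ (b.zW t s))) :
    ∑ p ∈ Finset.range (b.α + 1 + 1),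
      (-1 : ℤ) ^ p * ((b.α + 1).choose p * b.zdim Ψ (t + p) s) = 0 := by
  have e : ∀ (p : ℕ) y, b.zW (t + (p + 1 : ℕ)) s y = b.zW (t + p) s y + lg b.a y := fun p y => by
    simp only [AD.BD.zW]; push_cast; ring
  obtain ⟨y, hy⟩ := zkos_fam b.zhol_a b.zne_a h.kah (C := 1) (fun y v => by simpa using h.gea y v)
    (Φ := fun p : ℕ => b.zW (t + p) s) (fun p => b.zsm_W hA _ _) e
  have key := hy.euler (H := fun p : ℕ => b.ZF Ψ (b.zW (t + p) s))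
    (fun p i u hu => AD.BD.zmul_HF h.kah (b.zsm_W hA _ _) (b.zhol_a i)
      (fun y => by rw [e]; exact zexp_le (zlg_pos b.zne_a y) i _) hu)
    (fun p => AD.BD.zcr hA h (by omega) (by omega))
    (fun p => by
      rcases p with _ | p
      · simpa using h0
      · exact AD.BD.zhod hA h (by omega) (by omega))
    (fun p => AD.BD.zort hA h _ _) fun p => AD.BD.zfd0 hA h (by omega)
  simpa only [Fintype.card_fin, AD.BD.zdim] using key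

theorem AD.BD.zeq_f (hA : A.Good) {b : A.BD} (h : b.Gam Ψ) {t s : ℤ} (ht : 1 ≤ t)
    (hs : 1 ≤ t + s) : ∑ p ∈ Finset.range (b.β + 1 + 1),
      (-1 : ℤ) ^ p * ((b.β + 1).choose p * b.zdim Ψ t (s + p)) = 0 := by
  have e : ∀ (p : ℕ) y, b.zW t (s + (p + 1 : ℕ)) y = b.zW t (s + p) y + lg b.f y := fun p y => by
    simp only [AD.BD.zW]; push_cast; ring
  obtain ⟨y, hy⟩ := zkos_fam b.zhol_f b.zne_f h.kah (C := 2)
    (fun y v => (b.gef y v).trans (by linarith [h.gea y v]))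
    (Φ := fun p : ℕ => b.zW t (s + p)) (fun p => b.zsm_W hA _ _) e
  have key := hy.euler (H := fun p : ℕ => b.ZF Ψ (b.zW t (s + p)))
    (fun p i u hu => AD.BD.zmul_HF h.kah (b.zsm_W hA _ _) (b.zhol_f i)
      (fun y => by rw [e]; exact zexp_le (zlg_pos b.zne_f y) i _) hu)
    (fun p => AD.BD.zcr hA h ht (by omega)) (fun p => AD.BD.zhod hA h ht (by omega))
    (fun p => AD.BD.zort hA h _ _) fun p => AD.BD.zfd0 hA h (by omega)
  simpa only [Fintype.card_fin, AD.BD.zdim] using key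

theorem partZ (hA : A.Good) (b : A.BD) {Ψ : Y → ℝ} (h : b.Gam Ψ) :
    ∃ m : ℕ, 0 < m ∧ ∃ F ∈ A.S m 0, F ≠ 0 := by
  obtain ⟨y₀, -⟩ := hA.conn.nonempty
  have h0 : b.zdim Ψ 0 0 ≠ 0 := by
    have := (AD.BD.zfd0 hA h (s := 0) le_rfl).1
    have hu : (⟨_, zsmW_single (RD.sm_const 1)⟩ : ZSF A.D) ∈
        ZO (zdF A.D) (zGF A.D) (zNF A.D Ψ (b.zW 0 0)) :=
      (zmem_ZOF h.kah (b.zsm_W hA 0 0)).2 ⟨fun _ => 1, RD.hol_const 1, b.zw_one hA, rfl⟩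
    intro hc
    rw [Submodule.finrank_eq_zero.1 (Int.natCast_eq_zero.1 hc), Submodule.mem_bot] at hu
    simpa using congrFun (congrFun (congrArg Subtype.val hu) y₀) ∅
  obtain ⟨j, hj, hd⟩ := zpoly (j₀ := b.m0) (b.zdim Ψ)
    (fun t s ht hs => AD.BD.zeq_a hA h (by omega) (by omega) (AD.BD.zhod hA h ht hs))
    (fun t s ht hs => AD.BD.zeq_f hA h ht hs)
    (fun j hj => AD.BD.zeq_a hA h (by omega) (by omega) (AD.BD.zhod0 hA h hj)) h0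
  have hne : ZO (zdF A.D) (zGF A.D) (zNF A.D Ψ (b.zW j (-j))) ≠ ⊥ := fun hc =>
    hd (by rw [AD.BD.zdim, hc]; simp)
  obtain ⟨u, hu, hu0⟩ := Submodule.exists_mem_ne_zero_of_ne_bot hne
  obtain ⟨F, hF, h2, he⟩ := (zmem_ZOF h.kah (b.zsm_W hA _ _)).1 hu
  refine ⟨j * b.k, Nat.mul_pos hj b.k_pos, b.τ ^ j * F, b.zw_sec hA j hF h2, fun hc => hu0 ?_⟩
  have hF0 : F = 0 := funext fun y =>
    (mul_eq_zero.1 (congrFun hc y)).resolve_left (pow_ne_zero j (b.τ_ne y))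
  refine Subtype.ext ?_
  rw [he, hF0]
  funext y
  simp

end Vale.Agent.P299
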