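import Vale.Agent.P299.PartS
import Vale.Agent.P299.PartA
import Vale.Agent.P299.PartC
import Vale.Agent.P299.PartF
import Vale.Agent.P299.PartZ
import Vale.Agent.P299.PartU1
import Vale.Agent.P299.PartU2
import Vale.Agent.P299.PartK
import Vale.Agent.P299.PartH
import Vale.Agent.P299.PartE

/-! P299: assembly. -/

open Set
open scoped Manifold ContDiff

noncomputable section

namespace Vale.Agent.P299

open Vale.Agent.P271 Vale.Agent.P272 Vale.Agent.P271.Stmt Vale.Agent.P299.Stmt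

section
variable {n : ℕ} {X : Type} [TopologicalSpace X] [T2Space X] [CompactSpace X] [ConnectedSpace X]
  [MeasurableSpace X] [BorelSpace X] {M : Model n X}

theorem tau {N : ℕ} {P : Pol M.toAtl} {C : P271A.Cov M P} {A : AD n N C.Y} (hn : 0 < n)
    (hM : NnF M.toAtl (-th M)) (h : Real C A) (hA : A.Good) : A.Tau := by
  by_cases hq : ∃ q, ∀ m0, ∃ m ≥ m0, ∃ v, A.IsV q m v ∧ v ≠ 0
  · obtain ⟨q, hq⟩ := hq
    exact partD hA (h.yau hn hM hA) hq
  · push Not at hq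
    choose μ hμ using hq
    have hV : ∀ q, ∀ m ≥ ∑ i ∈ Finset.range (n + 1), μ i, ∀ v, A.IsV q m v → v = 0 := by
      intro q m hm v hv
      by_cases hqn : q ≤ n
      · exact hμ q m (le_trans (Finset.single_le_sum (f := μ) (fun _ _ => Nat.zero_le _)
          (Finset.mem_range.2 (Nat.lt_succ_of_le hqn))) hm) v hv
      · funext y I
        refine hv.deg y I fun hI => hqn ?_
        rw [← hI]
        simpa using I.card_le_univ
    obtain ⟨u, hu, hp, hc⟩ := yau hn (kae_fsF h.k0)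
    have hη : KY M (fsF P + ddc M.toAtl u) :=
      ⟨⟨(kae_fsF h.k0).1.add (isF_ddc hu), hp⟩, hc, hM⟩
    obtain ⟨B, hB, hO⟩ := partA h hA hu hη hV
    obtain ⟨S₀⟩ := partU1 hη hB
    obtain ⟨S⟩ := partU2 hη S₀
    obtain ⟨h1, h2⟩ := partK hn hη S
    exact hO (partE hn h.k0 hu hη S (partH hη S))

theorem core (hn : 0 < n) (hM : NnF M.toAtl (-th M)) (P₀ : Pol M.toAtl) :
    ∃ m : ℕ, 0 < m ∧ ∃ w ∈ M.H0 (M.k⁻¹ ^ m), w ≠ 0 := by
  obtain ⟨P, C, N, A, h, hA⟩ := exists_real hn hM P₀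
  obtain ⟨l, Q, hQ, hQ0, hB⟩ := partC hA (tau hn hM h hA)
  obtain ⟨B, hS, hG⟩ := hA.exists_sub hQ hQ0
  obtain ⟨b⟩ := hB B hS hG
  obtain ⟨Ψ, hΨ⟩ := partF hG b
  obtain ⟨m, hm, F, hF, hF0⟩ := partZ hG b hΨ
  obtain ⟨f, hf, rfl⟩ := (hS.mem_S hA hQ hQ0).1 hF
  obtain ⟨w, hw, he⟩ := (h.mem_S m 0).1 hf
  refine ⟨m, hm, w, by simpa using hw, fun h0 => hF0 (funext fun p => ?_)⟩
  simp [he, h0]

end

theorem main (n : ℕ) (X : Type) [TopologicalSpace X] [T2Space X] [CompactSpace X]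
    [ConnectedSpace X] [ChartedSpace (Fin n → ℂ) X] [IsManifold 𝓘(ℂ, Fin n → ℂ) ω X]
    (L : Cocycle X) (hL : IsLineBundle n L) (hV : VeryAmple n L)
    (h : X → X → ℝ) (hh : IsSemipositiveMetric n (dual (canonical n X)) h) :
    ∃ m : ℕ, 0 < m ∧ ∃ s, IsSection n (power (dual (canonical n X)) m) s ∧
      ∃ i, ∃ p ∈ (power (dual (canonical n X)) m).U i, s i p ≠ 0 := by
  rcases Nat.eq_zero_or_pos n with rfl | hn
  · exact ⟨1, one_pos, dim_zero⟩
  · borelize X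
    obtain ⟨M, hM, ⟨P⟩, hs⟩ := partS hL hV hh
    obtain ⟨m, hm, w, hw, hw0⟩ := core hn hM P
    exact ⟨m, hm, hs m w hw hw0⟩

end Vale.Agent.P299
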