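import Vale.Agent.P299.G4
import Vale.Agent.P299.G5
import Vale.Agent.P299.G7
import Vale.Agent.P299.G8
import Vale.Agent.P299.G9

/-! P299, part G: the affine model of a polarised manifold. -/

open MeasureTheory Set Filter Topology Matrix
open scoped ContDiff ENNReal ComplexConjugate ComplexOrder

noncomputable section

namespace Vale.Agent.P299

open Vale.Agent.P271 Vale.Agent.P272

variable {n : ℕ} {X : Type} [TopologicalSpace X] [T2Space X] [CompactSpace X] [ConnectedSpace X]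
  [MeasurableSpace X] [BorelSpace X] {M : Model n X} {N : ℕ} {P : Pol M.toAtl} {C : P271A.Cov M P} {A : AD n N C.Y}

theorem exists_real (hn : 0 < n) (hM : NnF M.toAtl (-th M)) (P₀ : Pol M.toAtl) :
    ∃ (P : Pol M.toAtl) (C : P271A.Cov M P) (N : ℕ) (A : AD n N C.Y), Real C A ∧ A.Good := by
  have _ := hn
  obtain ⟨P, N, e, c, D, hp⟩ := exists_gp P₀
  obtain ⟨C, ht, hr⟩ := exists_gc hp
  let A : AD n N C.Y := ⟨C.D, fun i q => P.s (e i) (C.π q) / C.t q,
    fun q => Real.log (‖C.Ω (C.π q)‖ ^ 2), D.totalDegree + 1, MvPolynomial.rename c D⟩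
  have h : Real C A := ⟨hp.k0, rfl, ⟨e, fun _ _ => rfl⟩, fun _ => rfl⟩
  have g : GR C A e c D := ⟨hp, h, fun i q => by rw [← ht], ht, hr, rfl, rfl⟩
  refine ⟨P, C, N, A, h, h.g_conn, funext fun q => ?_, h.g_hx, h.g_hφ, h.g_psh hM, h.g_pos,
    h.g_vol, h.g_th, h.g_fin, h.g_fd, h.g_ext, h.g_bpf hM, g.g_gen, ?_, g.g_ne0, g.g_cpt, g.g_pts⟩
  · rw [g.x, ← ht]
    exact div_self (C.t_ne q)
  · exact (MvPolynomial.totalDegree_rename_le c D).trans (Nat.le_succ _)

end Vale.Agent.P299
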