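import Vale.Agent.P299.PartM1
import Vale.Agent.P299.Ld
import Vale.Agent.P299.Lf

/-! P299, part L. -/
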