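import Vale.Agent.P299.M1c
import Vale.Agent.P299.M1e

/-! P299, part M1. -/
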