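import Vale.Agent.P299.RB
import Vale.Agent.P299.PartM1

/-! P299, part R: logarithmic cutoffs along a function that controls the weight. -/

open MeasureTheory Set Filter Topology Matrix
open scoped ContDiff ENNReal ComplexConjugate ComplexOrder

noncomputable section

namespace Vale.Agent.P299

open Vale.Agent.P271A

variable {n N : ℕ} {Y : Type} [TopologicalSpace Y] [T2Space Y] [SecondCountableTopology Y]
  [MeasurableSpace Y] [BorelSpace Y] {A : AD n N Y}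

theorem re_small {M : ℝ≥0∞} (hM : M < ⊤) {ε : ℝ≥0∞} (hε : 0 < ε) :
    ∃ η : ℝ, 0 < η ∧ ENNReal.ofReal η * M ≤ ε := by
  obtain ⟨r, hr, h⟩ := ENNReal.exists_nnreal_pos_mul_lt hM.ne hε.ne'
  exact ⟨r, hr, by rw [ENNReal.ofReal_coe_nnreal]; exact h.le⟩

theorem AD.Good.re_cut (hA : A.Good) {Φ r μ : Y → ℝ} {v : Y → W (Fin n)} (hr : A.D.SmR r)
    (hr0 : ∀ y, 0 ≤ r y) (hμ : Continuous μ) (hμ0 : ∀ y, 0 ≤ μ y)
    (hμ1 : ∫⁻ y, ENNReal.ofReal (μ y) ∂A.D.μ < ⊤)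
    (h1 : ∀ y, q2 (Gm (LMd A.D A.ρ y)) (ctr (dzv A.D (fun p => (r p : ℂ)) y) *ᵥ v y) *
      Real.exp (-Φ y) ≤ r y ^ 2 * μ y)
    (h2 : ∀ δ > (0 : ℝ), ∃ C : ℝ, ∀ y, δ ≤ r y →
      q2 (Gm (LMd A.D A.ρ y)) (v y) * Real.exp (-Φ y) ≤ C * Real.exp (-A.φ y))
    (K : Set Y) (hKO : K ⊆ {y | r y ≠ 0}) (hK : IsCompact K) (ε : ℝ≥0∞) (hε : 0 < ε) :
    ∃ χ, Cut A.D K χ ∧
      nV A.D A.ρ Φ (fun y => ctr (dzv A.D (fun p => (χ p : ℂ)) y) *ᵥ v y) ≤ ε := by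
  obtain ⟨s0, hs0, hs⟩ := hK.exists_forall_le' (f := r) (a := 0) hr.continuous.continuousOn
    fun y hy => (hr0 y).lt_of_ne' (hKO hy)
  have hε2 : 0 < ε / 2 := ENNReal.half_pos hε.ne'
  obtain ⟨η, hη, hη'⟩ := re_small hμ1 hε2
  obtain ⟨κ, κ', δ, hδ, k1, k2, k3, k4, k5, k6⟩ :=
    rb_kappa hs0 (Real.sqrt_pos.2 (half_pos hη))
  obtain ⟨C, hC⟩ := h2 δ hδ
  obtain ⟨ε', hε', hε''⟩ := ENNReal.exists_nnreal_pos_mul_lt
    (ENNReal.ofReal_ne_top (r := 2 * |C|)) hε2.ne'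
  obtain ⟨χ, hχ, hχ'⟩ := cap hA hK (ε := ε') (by exact_mod_cast hε')
  have hκ : A.D.SmR fun y => κ (r y) := hr.comp fun y => k1 _ (hr0 y)
  refine ⟨fun y => κ (r y) * χ y, ⟨?_, fun y => ⟨mul_nonneg (k3 _).1 (hχ.2.1 y).1,
    mul_le_one₀ (k3 _).2 (hχ.2.1 y).1 (hχ.2.1 y).2⟩, fun y hy => ?_⟩, ?_⟩
  · simpa only [Complex.ofReal_mul] using RD.Sm.mul_test hκ hχ.1
  · beta_reduce
    rw [k4 _ (hs y hy), hχ.2.2 y hy, mul_one]
  have key : ∀ y, q2 (Gm (LMd A.D A.ρ y))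
      (ctr (dzv A.D (fun p => ((κ (r p) * χ p : ℝ) : ℂ)) y) *ᵥ v y) * Real.exp (-Φ y) ≤
      η * μ y + 2 * |C| *
        (q2 (LMd A.D A.ρ y)⁻¹ (dbv A.D (fun p => (χ p : ℂ)) y) * Real.exp (-A.φ y)) := fun y => by
    have hG := hA.pos.2 y
    have hG' := Gm_psd hG.posSemidef
    have e1 : dzv A.D (fun p => ((κ (r p) * χ p : ℝ) : ℂ)) y =
        ((κ' (r y) * χ y : ℝ) : ℂ) • dzv A.D (fun p => (r p : ℂ)) y +
          ((κ (r y) : ℝ) : ℂ) • dzv A.D (fun p => (χ p : ℂ)) y := funext fun j => by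
      simp only [dzv, RD.dz, Complex.ofReal_mul, Pi.add_apply, Pi.smul_apply, smul_eq_mul]
      rw [RD.dX_mul hκ hχ.1.1, RD.dX_comp hr (k2 _ (hr0 y))]
      ring
    have e2 : star (dzv A.D (fun p => (χ p : ℂ)) y) = dbv A.D (fun p => (χ p : ℂ)) y :=
      funext fun j => RD.conj_dz_real χ j y
    rw [e1, ← cv_apply, map_add, map_smul, map_smul, cv_apply, cv_apply]
    refine (mul_le_mul_of_nonneg_right (rb_q2_add hG' _ _) (Real.exp_pos _).le).trans ?_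
    rw [rb_q2_smul, rb_q2_smul, Complex.norm_real, Complex.norm_real, Real.norm_eq_abs,
      Real.norm_eq_abs]
    have a1 : |κ' (r y) * χ y| ^ 2 * (q2 (Gm (LMd A.D A.ρ y))
        (ctr (dzv A.D (fun p => (r p : ℂ)) y) *ᵥ v y) * Real.exp (-Φ y)) ≤ η / 2 * μ y := by
      refine (mul_le_mul_of_nonneg_left (h1 y) (sq_nonneg _)).trans ?_
      rw [← mul_assoc, ← mul_pow]
      refine mul_le_mul_of_nonneg_right ?_ (hμ0 y)
      rw [← Real.sq_sqrt (half_pos hη).le]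
      refine pow_le_pow_left₀ (mul_nonneg (abs_nonneg _) (hr0 y)) (le_trans ?_ (k6 _ (hr0 y))) 2
      refine mul_le_mul_of_nonneg_right ?_ (hr0 y)
      rw [abs_mul, abs_of_nonneg (hχ.2.1 y).1]
      exact mul_le_of_le_one_right (abs_nonneg _) (hχ.2.1 y).2
    have hq : 0 ≤ q2 (LMd A.D A.ρ y)⁻¹ (dbv A.D (fun p => (χ p : ℂ)) y) :=
      rb_q2_nonneg hG.inv.posSemidef _
    have a2 : |κ (r y)| ^ 2 * (q2 (Gm (LMd A.D A.ρ y))
        (ctr (dzv A.D (fun p => (χ p : ℂ)) y) *ᵥ v y) * Real.exp (-Φ y)) ≤ |C| *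
        (q2 (LMd A.D A.ρ y)⁻¹ (dbv A.D (fun p => (χ p : ℂ)) y) * Real.exp (-A.φ y)) := by
      rcases lt_or_ge (r y) δ with h | h
      · rw [k5 _ (hr0 y) h, abs_zero, zero_pow two_ne_zero, zero_mul]
        positivity
      · have b1 := q2_ctr_le hG (dzv A.D (fun p => (χ p : ℂ)) y) (v y)
        rw [e2] at b1
        have b2 : |κ (r y)| ^ 2 ≤ 1 :=
          pow_le_one₀ (abs_nonneg _) (by rw [abs_of_nonneg (k3 _).1]; exact (k3 _).2)
        refine (mul_le_of_le_one_left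
          (mul_nonneg (rb_q2_nonneg hG' _) (Real.exp_pos _).le) b2).trans ?_
        refine (mul_le_mul_of_nonneg_right b1 (Real.exp_pos _).le).trans ?_
        rw [mul_assoc, mul_left_comm |C|]
        exact mul_le_mul_of_nonneg_left ((hC y h).trans
          (mul_le_mul_of_nonneg_right (le_abs_self C) (Real.exp_pos _).le)) hq
    linarith
  refine (lintegral_mono fun y => (ENNReal.ofReal_le_ofReal (key y)).trans
    ENNReal.ofReal_add_le).trans ?_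
  rw [lintegral_add_left (by fun_prop)]
  simp only [ENNReal.ofReal_mul hη.le, ENNReal.ofReal_mul (by positivity : 0 ≤ 2 * |C|)]
  rw [lintegral_const_mul' _ _ ENNReal.ofReal_ne_top,
    lintegral_const_mul' _ _ ENNReal.ofReal_ne_top, ← ENNReal.add_halves ε]
  refine add_le_add hη' ((mul_le_mul_right hχ' _).trans ?_)
  rw [mul_comm]
  exact hε''.le

theorem AD.Good.re_dvg (hA : A.Good) {q m : ℕ} {u : Y → W (Fin n)} (hu : A.IsV q m u)
    {β r : Y → ℝ} (hβ : A.D.SmR β) (hβu : ∀ y, ctr (dzv A.D (fun p => (β p : ℂ)) y) *ᵥ u y = 0)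
    {F : Y → ℂ} (hF : A.D.Hol F) (h2 : nO A.D (fun y => A.φ y + β y) F < ⊤) (hr : A.D.SmR r)
    (hr0 : ∀ y, 0 ≤ r y)
    (h1 : ∃ C : ℝ, ∀ y, q2 (Gm (LMd A.D A.ρ y)) (ctr (dzv A.D (fun p => (r p : ℂ)) y) *ᵥ u y) ≤
      C * (Real.exp (m * A.φ y) * r y ^ 2))
    (h3 : ∀ δ > (0 : ℝ), ∃ C : ℝ, ∀ y, δ ≤ r y → ‖F y‖ ^ 2 * Real.exp (-β y) ≤ C) (y : Y)
    (hy : r y ≠ 0) :
    dvg A.D (fun p => (m + 1) * A.φ p + β p) (fun p => F p • u p) y = 0 := by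
  obtain ⟨C, hC⟩ := h1
  obtain ⟨C', hC'⟩ := hu.bdd
  have e1 : ∀ y, Real.exp (m * A.φ y) * Real.exp (-((m + 1) * A.φ y + β y)) =
      Real.exp (-(A.φ y + β y)) := fun y => by rw [← Real.exp_add]; congr 1; ring
  refine dvg_zero (v := fun p => F p • u p) hA.pos (((RD.smR_const _).mul hA.hφ).add hβ)
    (fun I => hF.mul (hu.hol I)) (fun y k => ?_) (isOpen_ne_fun hr.continuous continuous_const)
    (hA.re_cut (μ := fun y => |C| * (‖F y‖ ^ 2 * Real.exp (-(A.φ y + β y)))) hr hr0 ?_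
      (fun y => by positivity) ?_ (fun y => ?_) fun δ hδ => ?_) y hy
  · have e2 := LMd_add hA.hφ hβ (m + 1) 1 y
    simp only [one_mul] at e2
    have e3 : LMd A.D (fun p => (m + 1) * A.φ p + β p) y k =
        (((m : ℝ) + 1 : ℝ) : ℂ) • LMd A.D A.φ y k + ((1 : ℝ) : ℂ) • LMd A.D β y k :=
      congrFun e2 k
    rw [mulVec_smul, ← cv_apply, e3, map_add, map_smul, map_smul, cv_apply, cv_apply, hu.kill y k,
      kill_of_flat hβ hu.hol hβu y k]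
    simp
  · have := hF.sm.continuous
    have := hA.hφ.continuous
    have := hβ.continuous
    fun_prop
  · simp only [ENNReal.ofReal_mul (abs_nonneg C)]
    rw [lintegral_const_mul' _ _ ENNReal.ofReal_ne_top]
    exact ENNReal.mul_lt_top ENNReal.ofReal_lt_top h2
  · rw [mulVec_smul, rb_q2_smul, ← e1]
    have b1 := (hC y).trans (mul_le_mul_of_nonneg_right (le_abs_self C) (by positivity))
    refine (mul_le_mul_of_nonneg_right (mul_le_mul_of_nonneg_left b1 (sq_nonneg _))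
      (Real.exp_pos _).le).trans_eq ?_
    ring
  · obtain ⟨C₁, hC₁⟩ := h3 δ hδ
    refine ⟨|C'| * C₁, fun y hy => ?_⟩
    rw [rb_q2_smul]
    have b1 := (hC' y).trans (mul_le_mul_of_nonneg_right (le_abs_self C') (by positivity))
    refine (mul_le_mul_of_nonneg_right (mul_le_mul_of_nonneg_left b1 (sq_nonneg _))
      (Real.exp_pos _).le).trans ?_
    have e2 : ‖F y‖ ^ 2 * (|C'| * Real.exp (m * A.φ y)) * Real.exp (-((m + 1) * A.φ y + β y)) =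
        |C'| * (‖F y‖ ^ 2 * Real.exp (-β y)) * Real.exp (-A.φ y) := by
      rw [mul_assoc, mul_assoc, e1, neg_add, Real.exp_add]; ring
    rw [e2]
    exact mul_le_mul_of_nonneg_right (mul_le_mul_of_nonneg_left (hC₁ y hy) (abs_nonneg _))
      (Real.exp_pos _).le

/-- The differential of `F` kills the field where `r` does not vanish. -/
theorem AD.Good.re_flat (hA : A.Good) {q m : ℕ} {u : Y → W (Fin n)} (hu : A.IsV q m u)
    {β r : Y → ℝ} (hβ : A.D.SmR β) (hβu : ∀ y, ctr (dzv A.D (fun p => (β p : ℂ)) y) *ᵥ u y = 0)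
    {F : Y → ℂ} (hF : A.D.Hol F) (h2 : nO A.D (fun y => A.φ y + β y) F < ⊤) (hr : A.D.SmR r)
    (hr0 : ∀ y, 0 ≤ r y)
    (h1 : ∃ C : ℝ, ∀ y, q2 (Gm (LMd A.D A.ρ y)) (ctr (dzv A.D (fun p => (r p : ℂ)) y) *ᵥ u y) ≤
      C * (Real.exp (m * A.φ y) * r y ^ 2))
    (h3 : ∀ δ > (0 : ℝ), ∃ C : ℝ, ∀ y, δ ≤ r y → ‖F y‖ ^ 2 * Real.exp (-β y) ≤ C) (y : Y)
    (hy : r y ≠ 0) : ctr (dzv A.D F y) *ᵥ u y = 0 := by
  have z : ∀ (c : ℝ) y, ctr (dzv A.D (fun _ => (c : ℂ)) y) *ᵥ u y = 0 := fun c y => by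
    have e : dzv A.D (fun _ => (c : ℂ)) y = 0 := funext fun j => RD.dX_const _ y
    rw [e, ← cv_apply, map_zero]
  have a1 := hA.re_dvg hu (β := fun _ => 0) (r := fun _ => 1) (F := fun _ => 1) (RD.smR_const 0)
    (z 0) (RD.hol_const 1) (by simpa [nO] using hA.fin.lintegral_lt_top) (RD.smR_const 1)
    (fun _ => zero_le_one) ⟨0, fun y => by rw [z 1 y]; simp [q2]⟩
    (fun _ _ => ⟨1, fun _ _ => by simp⟩) y one_ne_zero
  simp only [add_zero, one_smul] at a1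
  have a2 := hA.re_dvg hu hβ hβu hF h2 hr hr0 h1 h3 y hy
  rw [dvg_mul ((RD.smR_const _).mul hA.hφ) hβ hF.sm (fun I => (hu.hol I).sm), a1, smul_zero,
    zero_add] at a2
  have e : (fun j => A.D.dz j F y - F y * A.D.dz j (fun p => (β p : ℂ)) y) =
      dzv A.D F y - F y • dzv A.D (fun p => (β p : ℂ)) y := rfl
  rwa [e, ← cv_apply, map_sub, map_smul, cv_apply, cv_apply, hβu, smul_zero, sub_zero] at a2

end Vale.Agent.P299
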