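import Vale.Agent.P299.RC

/-! P299, part R: the function that controls the poles of the first integrals. -/

open MeasureTheory Set Filter Topology Matrix
open scoped ContDiff ENNReal ComplexConjugate ComplexOrder

noncomputable section

namespace Vale.Agent.P299

open Vale.Agent.P271A

variable {n N : ℕ} {Y : Type} [TopologicalSpace Y] [T2Space Y] [SecondCountableTopology Y]
  [MeasurableSpace Y] [BorelSpace Y] {A : AD n N Y}

theorem AD.Good.rf_sm (hA : A.Good) {s N0 : ℕ} {g : Fin s → Y → ℂ} (hg : ∀ ν, A.D.Hol (g ν)) :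
    A.D.SmR fun y => (∑ ν, ‖g ν y‖ ^ 2) / A.nx y ^ N0 := by
  have hpos : ∀ y, 0 < A.nx y := fun y => one_pos.trans_le (hA.one_le_nx y)
  simp only [div_eq_mul_inv]
  exact (rb_sm_sum hg).mul (RD.SmR.comp (φ := A.nx) (χ := fun s => (s ^ N0)⁻¹) (rb_sm_sum hA.hx)
    fun y => (contDiffAt_id.pow N0).inv (pow_pos (hpos y) N0).ne')

theorem AD.Good.rf_dz (hA : A.Good) {s N0 : ℕ} {g : Fin s → Y → ℂ} (hg : ∀ ν, A.D.Hol (g ν))
    (y : Y) : dzv A.D (fun p => (((∑ ν, ‖g ν p‖ ^ 2) / A.nx p ^ N0 : ℝ) : ℂ)) y =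
      (((A.nx y ^ (N0 + 1))⁻¹ : ℝ) : ℂ) • ∑ e : Fin s × Fin (N + 1),
        conj (g e.1 y * A.x e.2 y) • A.xi N0 (g e.1) e.2 y := by
  have hpos : ∀ y, 0 < A.nx y := fun y => one_pos.trans_le (hA.one_le_nx y)
  have hs : A.D.SmR A.nx := rb_sm_sum hA.hx
  have hd : HasDerivAt (fun s : ℝ => (s ^ N0)⁻¹) (-N0 * ((A.nx y ^ N0)⁻¹ * (A.nx y)⁻¹))
      (A.nx y) := by
    have h := hasDerivAt_zpow (-(N0 : ℤ)) (A.nx y) (Or.inl (hpos y).ne')
    rw [zpow_sub_one₀ (hpos y).ne'] at h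
    simpa using h
  funext j
  have h1 : A.D.dX (zv j) (fun p => ((∑ ν, ‖g ν p‖ ^ 2 : ℝ) : ℂ)) y = _ := rb_dz_sum hg j y
  have h2 : A.D.dX (zv j) (fun p => (A.nx p : ℂ)) y = _ := rb_dz_sum hA.hx j y
  have h3 : ((A.nx y : ℝ) : ℂ) = ∑ i, conj (A.x i y) * A.x i y := by
    simp [AD.nx, Complex.conj_mul']
  have h4 : ((∑ ν, ‖g ν y‖ ^ 2 : ℝ) : ℂ) = ∑ i, conj (g i y) * g i y := by
    simp [Complex.conj_mul']
  have h5 : (∑ e : Fin s × Fin (N + 1), conj (g e.1 y * A.x e.2 y) • A.xi N0 (g e.1) e.2 y) j =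
      (∑ ν, conj (g ν y) * A.D.dz j (g ν) y) * A.nx y -
        N0 * (((∑ ν, ‖g ν y‖ ^ 2 : ℝ) : ℂ) * ∑ i, conj (A.x i y) * A.D.dz j (A.x i) y) := by
    rw [h3, h4, Finset.sum_apply, Fintype.sum_prod_type, Finset.sum_mul_sum, Finset.sum_mul_sum,
      Finset.mul_sum, ← Finset.sum_sub_distrib]
    refine Finset.sum_congr rfl fun ν _ => ?_
    rw [Finset.mul_sum, ← Finset.sum_sub_distrib]
    refine Finset.sum_congr rfl fun i _ => ?_
    simp only [AD.xi, Pi.smul_apply, smul_eq_mul, map_mul]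
    ring
  rw [Pi.smul_apply, h5]
  simp only [dzv, RD.dz, div_eq_mul_inv, Complex.ofReal_mul]
  rw [RD.dX_mul (rb_sm_sum hg) (RD.SmR.comp (χ := fun s => (s ^ N0)⁻¹) hs
    fun y => (contDiffAt_id.pow N0).inv (pow_pos (hpos y) N0).ne'), RD.dX_comp hs hd, h1, h2]
  have h0 : ((A.nx y : ℝ) : ℂ) ≠ 0 := Complex.ofReal_ne_zero.2 (hpos y).ne'
  simp only [RD.dz, smul_eq_mul, Complex.ofReal_mul, Complex.ofReal_inv, Complex.ofReal_pow,
    Complex.ofReal_neg, Complex.ofReal_natCast]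
  field_simp
  ring

theorem AD.Good.rf_bd (hA : A.Good) {κ : Type} {a : κ → Y → ℂ} (ha : ∀ i, A.D.Hol (a i))
    {s N0 : ℕ} {g : Fin s → Y → ℂ} (hg : ∀ ν, g ν ∈ A.Jd a N0)
    (hr : ∀ l, A.Jd a l ≤ BS fun y => A.nx y ^ l * ((∑ ν, ‖g ν y‖ ^ 2) / A.nx y ^ N0)) {q m : ℕ}
    {u : Y → W (Fin n)} (hu : A.IsV q m u) (hf : ∀ i y, ctr (dzv A.D (a i) y) *ᵥ u y = 0) :
    ∃ C : ℝ, ∀ y, q2 (Gm (LMd A.D A.ρ y))
      (ctr (dzv A.D (fun p => (((∑ ν, ‖g ν p‖ ^ 2) / A.nx p ^ N0 : ℝ) : ℂ)) y) *ᵥ u y) ≤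
      C * (Real.exp (m * A.φ y) * ((∑ ν, ‖g ν y‖ ^ 2) / A.nx y ^ N0) ^ 2) := by
  choose C hC using fun e : Fin s × Fin (N + 1) => hA.xi_ideal ha hr hu hf (hg e.1) e.2
  refine ⟨∑ e, C e, fun y => ?_⟩
  have h0 : 0 < A.nx y := one_pos.trans_le (hA.one_le_nx y)
  have h1 := rb_q2_sum (Gm_psd (hA.pos.2 y).posSemidef)
    (fun e : Fin s × Fin (N + 1) => conj (g e.1 y * A.x e.2 y))
    fun e => ctr (A.xi N0 (g e.1) e.2 y) *ᵥ u y
  have h2 : ∑ e : Fin s × Fin (N + 1), ‖conj (g e.1 y * A.x e.2 y)‖ ^ 2 =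
      (∑ ν, ‖g ν y‖ ^ 2) * A.nx y := by
    rw [AD.nx, Finset.sum_mul_sum, Fintype.sum_prod_type]
    simp only [Complex.norm_conj, norm_mul, mul_pow]
  rw [h2] at h1
  have h3 := h1.trans (mul_le_mul_of_nonneg_left (Finset.sum_le_sum fun e _ => hC e y)
    (by positivity))
  rw [hA.rf_dz fun ν => (AD.mem_Jd.1 (hg ν)).1.1, ← cv_apply, map_smul, map_sum, rb_q2_smul]
  simp only [map_smul, cv_apply]
  refine (mul_le_mul_of_nonneg_left h3 (sq_nonneg _)).trans_eq ?_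
  rw [← Finset.sum_mul, Complex.norm_real, Real.norm_eq_abs, sq_abs]
  field_simp
  ring

/-- A common denominator. -/
theorem AD.Good.rf_den (hA : A.Good) {κ : Type} [Fintype κ] {a : κ → Y → ℂ}
    (ha : ∀ i, A.Rat 0 (a i)) : ∃ l, ∃ g ∈ A.Jd a l, g ≠ 0 := by
  classical
  have key : ∀ T : Finset κ, ∃ l, ∃ g ∈ A.S 0 l, g ≠ 0 ∧ ∀ i ∈ T, a i * g ∈ A.S 0 l := fun T => by
    induction T using Finset.induction_on with
    | empty =>
      obtain ⟨y, -⟩ := hA.conn.nonempty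
      exact ⟨0, 1, hA.one_mem, fun h => one_ne_zero (congrFun h y), by simp⟩
    | insert k T _ ih =>
      obtain ⟨l, g, hg, hg0, hT⟩ := ih
      obtain ⟨l', B, hB, hB0, hBa⟩ := ha k
      refine ⟨l + l', g * B, AD.S0_mul hg hB, hA.mul_ne hg.1 hB.1 hg0 hB0, fun i hi => ?_⟩
      rcases Finset.mem_insert.1 hi with rfl | hi
      · have := AD.S0_mul hg hBa
        rwa [mul_comm B, mul_left_comm] at this
      · rw [← mul_assoc]
        exact AD.S0_mul (hT i hi) hB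
  obtain ⟨l, g, hg, hg0, hT⟩ := key Finset.univ
  exact ⟨l, g, AD.mem_Jd.2 ⟨hg, fun i => hT i (Finset.mem_univ i)⟩, hg0⟩

end Vale.Agent.P299
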