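import Vale.Agent.P299.PartL
import Vale.Agent.P299.RE
import Vale.Agent.P299.RF

/-! P299, part R: square integrable holomorphic functions are first integrals. -/

open MeasureTheory Set Filter Topology Matrix
open scoped ContDiff ENNReal ComplexConjugate ComplexOrder

noncomputable section

namespace Vale.Agent.P299

open Vale.Agent.P271A

variable {n N : ℕ} {Y : Type} [TopologicalSpace Y] [T2Space Y] [SecondCountableTopology Y]
  [MeasurableSpace Y] [BorelSpace Y] {A : AD n N Y}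

/-- The weight without the volume form. -/
def AD.BD.rw (b : A.BD) (p t : ℕ) (y : Y) : ℝ :=
  p * (b.k * A.φ y - Real.log (‖b.τ y‖ ^ 2)) + t * lg b.a y

omit [T2Space Y] [SecondCountableTopology Y] [BorelSpace Y] in
theorem AD.BD.pr_na (b : A.BD) (y : Y) : 1 ≤ ∑ i, ‖b.a i y‖ ^ 2 := by
  have h := Finset.single_le_sum (f := fun i => ‖b.a i y‖ ^ 2) (fun _ _ => sq_nonneg _)
    (Finset.mem_univ 0)
  simpa [b.a0] using h

omit [T2Space Y] [SecondCountableTopology Y] [BorelSpace Y] in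
theorem AD.BD.pr_exp (b : A.BD) (p t : ℕ) (y : Y) :
    Real.exp (-b.rw p t y) = (‖b.τ y‖ ^ 2) ^ p /
      (Real.exp ((((p * b.k : ℕ) : ℤ) : ℝ) * A.φ y) * (∑ i, ‖b.a i y‖ ^ 2) ^ t) := by
  have h1 : 0 < ‖b.τ y‖ ^ 2 := pow_pos (norm_pos_iff.2 (b.τ_ne y)) 2
  have h2 : 0 < ∑ i, ‖b.a i y‖ ^ 2 := one_pos.trans_le (b.pr_na y)
  have e : -b.rw p t y = p * Real.log (‖b.τ y‖ ^ 2) -
      ((((p * b.k : ℕ) : ℤ) : ℝ) * A.φ y + t * Real.log (∑ i, ‖b.a i y‖ ^ 2)) := by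
    rw [AD.BD.rw, lg]; push_cast; ring
  rw [e, Real.exp_sub, Real.exp_add, Real.exp_nat_mul, Real.exp_nat_mul _ t, Real.exp_log h1,
    Real.exp_log h2]

omit [T2Space Y] [SecondCountableTopology Y] [BorelSpace Y] in
theorem AD.BD.pr_sm (hA : A.Good) (b : A.BD) (p t : ℕ) : A.D.SmR (b.rw p t) :=
  ((RD.smR_const _).mul (((RD.smR_const _).mul hA.hφ).sub (b.τ_hol.sm.normSq.log
    fun y => (pow_pos (norm_pos_iff.2 (b.τ_ne y)) 2).ne'))).add ((RD.smR_const _).mul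
      ((rb_sm_sum fun i => (b.a_fi i).1).log fun y => (one_pos.trans_le (b.pr_na y)).ne'))

omit [T2Space Y] [SecondCountableTopology Y] [BorelSpace Y] in
theorem AD.pr_flat {m0 : ℕ} {c : Y → ℂ} :
    A.FlatQ m0 0 c 1 ↔ ∀ u, A.U m0 u → ∀ y, ctr (dzv A.D c y) *ᵥ u y = 0 := by
  have h : ∀ j y, A.D.dz j 1 y = 0 := fun j y => RD.dX_const 1 y
  simp only [AD.FlatQ, h, Pi.one_apply, one_mul, mul_zero, sub_zero, Nat.cast_zero, zero_mul]
  rfl

omit [T2Space Y] [SecondCountableTopology Y] [BorelSpace Y] in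
theorem AD.BD.pr_kill (hA : A.Good) (b : A.BD) (p t : ℕ) {u : Y → W (Fin n)} (hu : A.U b.m0 u)
    (y : Y) : ctr (dzv A.D (fun q => (b.rw p t q : ℂ)) y) *ᵥ u y = 0 := by
  have hτ := b.τ_ne y
  have s1 : A.D.SmR fun y => Real.log (‖b.τ y‖ ^ 2) :=
    b.τ_hol.sm.normSq.log fun y => (pow_pos (norm_pos_iff.2 (b.τ_ne y)) 2).ne'
  have s2 : A.D.SmR (lg b.a) :=
    (rb_sm_sum fun i => (b.a_fi i).1).log fun y => (one_pos.trans_le (b.pr_na y)).ne'
  have h0 : ∀ j, A.D.dz j 1 y = 0 := fun j => RD.dX_const 1 y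
  have e : dzv A.D (fun q => (b.rw p t q : ℂ)) y =
      (-(p * (b.τ y)⁻¹) : ℂ) • (fun j => (1 : Y → ℂ) y * A.D.dz j b.τ y - b.τ y * A.D.dz j 1 y -
        b.k * (b.τ y * (1 : Y → ℂ) y * A.D.dz j (fun p => (A.φ p : ℂ)) y)) +
      (t * ((∑ i, ‖b.a i y‖ ^ 2 : ℝ) : ℂ)⁻¹) • ∑ i, conj (b.a i y) • dzv A.D (b.a i) y := by
    funext j
    have h1 := rb_dz_log b.τ_hol.sm.normSq (pow_pos (norm_pos_iff.2 hτ) 2).ne' j
    rw [rb_dz_normSq b.τ_hol] at h1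
    have h2 : A.D.dz j (fun q => (lg b.a q : ℂ)) y = _ :=
      rb_dz_log (rb_sm_sum fun i => (b.a_fi i).1) (one_pos.trans_le (b.pr_na y)).ne' j
    rw [rb_dz_sum fun i => (b.a_fi i).1] at h2
    have h3 : ((‖b.τ y‖ ^ 2 : ℝ) : ℂ) = conj (b.τ y) * b.τ y := by simp [Complex.conj_mul']
    have h4 : conj (b.τ y) ≠ 0 := by simpa using hτ
    rw [h3] at h1
    simp only [dzv, AD.BD.rw, Complex.ofReal_add, Complex.ofReal_mul, Complex.ofReal_sub,
      Complex.ofReal_natCast, Pi.add_apply, Pi.smul_apply, Finset.sum_apply, smul_eq_mul, h0,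
      Pi.one_apply]
    simp only [RD.dz] at h1 h2 ⊢
    rw [RD.dX_add ((RD.sm_const _).mul (((RD.sm_const _).mul hA.hφ).sub s1))
      ((RD.sm_const _).mul s2), RD.dX_const_mul (((RD.sm_const _).mul hA.hφ).sub s1),
      RD.dX_sub ((RD.sm_const _).mul hA.hφ) s1, RD.dX_const_mul hA.hφ, RD.dX_const_mul s2, h1, h2]
    field_simp
    ring
  rw [e, ← cv_apply, map_add, map_smul, map_smul, map_sum, cv_apply, b.τ_flat u hu y]
  simp only [map_smul, cv_apply, fun i => AD.pr_flat.1 (b.a_fi i).2.2 u hu y]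
  simp

theorem AD.BD.pr_ext (hA : A.Good) (b : A.BD) (p t : ℕ) {F : Y → ℂ} (hF : A.D.Hol F)
    (h2 : nO A.D (fun y => A.φ y + b.rw p t y) F < ⊤) {l : ℕ} {g : Y → ℂ} (hg : g ∈ A.Jd b.a l) :
    F * b.τ ^ p * g ^ t ∈ A.S (p * b.k : ℕ) (t * l) := by
  rw [AD.mem_Jd] at hg
  obtain ⟨C, hC⟩ := BS_sum fun i => AD.S0_BS (hg.2 i)
  refine hA.ext _ _ _ ((hF.mul (b.τ_hol.pow p)).mul (hg.1.1.pow t)) ?_
  refine lt_of_le_of_lt ?_ (ENNReal.mul_lt_top (ENNReal.ofReal_lt_top (r := |C| ^ t)) h2)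
  rw [nO, nO, ← lintegral_const_mul' _ _ ENNReal.ofReal_ne_top]
  refine lintegral_mono fun y => ?_
  rw [← ENNReal.ofReal_mul (by positivity)]
  refine ENNReal.ofReal_le_ofReal ?_
  have h0 : 0 < A.nx y := one_pos.trans_le (hA.one_le_nx y)
  have h1 : 0 < ∑ i, ‖b.a i y‖ ^ 2 := one_pos.trans_le (b.pr_na y)
  have h3 : (∑ i, ‖b.a i y‖ ^ 2) * ‖g y‖ ^ 2 ≤ |C| * A.nx y ^ l := by
    refine le_trans (le_of_eq ?_) ((hC y).trans
      (mul_le_mul_of_nonneg_right (le_abs_self C) (by positivity)))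
    simp only [Pi.mul_apply, norm_mul, mul_pow, Finset.sum_mul]
  have h4 := pow_le_pow_left₀ (by positivity) h3 t
  have e1 : Real.exp (-(((((p * b.k : ℕ) : ℤ) : ℝ) + 1) * A.φ y + ((t * l : ℕ) : ℝ) * A.ρ y)) =
      Real.exp (-A.φ y) / (Real.exp ((((p * b.k : ℕ) : ℤ) : ℝ) * A.φ y) * A.nx y ^ (t * l)) := by
    have e2 : A.nx y = Real.exp (A.ρ y) := (Real.exp_log h0).symm
    rw [e2, ← Real.exp_nat_mul, ← Real.exp_add, ← Real.exp_sub]
    congr 1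
    ring
  rw [e1, neg_add, Real.exp_add, b.pr_exp]
  simp only [Pi.mul_apply, Pi.pow_apply, norm_mul, norm_pow]
  have h5 : 0 ≤ ‖F y‖ ^ 2 * (‖b.τ y‖ ^ 2) ^ p * Real.exp (-A.φ y) /
      (Real.exp ((((p * b.k : ℕ) : ℤ) : ℝ) * A.φ y) * A.nx y ^ (t * l) *
        (∑ i, ‖b.a i y‖ ^ 2) ^ t) := by positivity
  refine le_trans (le_of_eq ?_) ((mul_le_mul_of_nonneg_left h4 h5).trans (le_of_eq ?_))
  · field_simp
    ring
  · field_simp
    ring

theorem partR (hA : A.Good) (b : A.BD) (p t : ℕ) {F : Y → ℂ} (hF : A.D.Hol F)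
    (h2 : nO A.D (b.wt p t) F < ⊤) : A.FI b.m0 F := by
  have e0 : b.wt p t = fun y => A.φ y + b.rw p t y := funext fun y => add_assoc _ _ _
  rw [e0] at h2
  obtain ⟨l, g₀, hg₀, hg0⟩ := hA.rf_den fun i => (b.a_fi i).2.1
  have hg₁ := (AD.mem_Jd.1 hg₀).1
  refine ⟨hF, ?_, AD.pr_flat.2 fun u hu => ?_⟩
  · obtain ⟨l', B, hB, hB0, hBτ⟩ := b.τ_rat
    obtain ⟨d, e, he, he0⟩ := hA.exists_ne (-(p * b.k : ℕ))
    have hp : ∀ {f : Y → ℂ}, A.D.Hol f → f ≠ 0 → ∀ j : ℕ, f ^ j ≠ 0 := fun {f} hf h j => by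
      obtain ⟨y, hy⟩ := Function.ne_iff.1 h
      exact Function.ne_iff.2 ⟨y, pow_ne_zero j hy⟩
    obtain ⟨y₀, -⟩ := hA.conn.nonempty
    have hτ0 : b.τ ≠ 0 := Function.ne_iff.2 ⟨y₀, b.τ_ne y₀⟩
    refine ⟨t * l + p * l' + d, g₀ ^ t * (B * b.τ) ^ p * e, ?_, ?_, ?_⟩
    · simpa using AD.S_mul (AD.S_mul (AD.S_pow hg₁ t) (AD.S_pow hBτ p)) he
    · exact hA.mul_ne ((hg₁.1.pow t).mul (hBτ.1.pow p)) he.1 (hA.mul_ne (hg₁.1.pow t)
        (hBτ.1.pow p) (hp hg₁.1 hg0 t) (hp hBτ.1 (hA.mul_ne hB.1 b.τ_hol hB0 hτ0) p)) he0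
    · have h := AD.S_mul (AD.S_mul (b.pr_ext hA p t hF h2 hg₀) (AD.S_pow hB p)) he
      have e1 : g₀ ^ t * (B * b.τ) ^ p * e * F = F * b.τ ^ p * g₀ ^ t * B ^ p * e := by ring
      rw [e1]
      simpa using h
  obtain ⟨N0, s, g, hg, hr⟩ := hA.ideal_bd (A.Jd b.a) (fun l f hf => (AD.mem_Jd.1 hf).1)
    fun i j f hf g hg => AD.mem_Jd.2 ⟨AD.S0_mul hf (AD.mem_Jd.1 hg).1, fun k => by
      rw [mul_left_comm]; exact AD.S0_mul hf ((AD.mem_Jd.1 hg).2 k)⟩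
  have hpos : ∀ y, 0 < A.nx y := fun y => one_pos.trans_le (hA.one_le_nx y)
  have hk := b.pr_kill hA p t hu
  have ha := fun i => AD.pr_flat.1 (b.a_fi i).2.2 u hu
  obtain ⟨q, m, -, hu⟩ := hu
  have h3 : ∀ δ > (0 : ℝ), ∃ C : ℝ, ∀ y, δ ≤ (∑ ν, ‖g ν y‖ ^ 2) / A.nx y ^ N0 →
      ‖F y‖ ^ 2 * Real.exp (-b.rw p t y) ≤ C := fun δ hδ => by
    choose C hC using fun ν => (b.pr_ext hA p t hF h2 (hg ν)).2
    refine ⟨(∑ ν, |C ν|) * (s / δ) ^ t, fun y hy => ?_⟩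
    have h0 := hpos y
    rw [le_div_iff₀ (pow_pos h0 N0)] at hy
    have hs : (Finset.univ : Finset (Fin s)).Nonempty := by
      by_contra h
      rw [Finset.not_nonempty_iff_eq_empty.1 h, Finset.sum_empty] at hy
      exact absurd hy (not_le.2 (by positivity))
    obtain ⟨ν, -, hν⟩ := Finset.exists_le_of_sum_le (f := fun _ => δ * A.nx y ^ N0)
      (g := fun ν => s * ‖g ν y‖ ^ 2) hs (by
        rw [Finset.sum_const, Finset.card_univ, Fintype.card_fin, nsmul_eq_mul, ← Finset.mul_sum]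
        exact mul_le_mul_of_nonneg_left hy (Nat.cast_nonneg s))
    have h4 := pow_le_pow_left₀ (by positivity) hν t
    have h5 := (hC ν y).trans (mul_le_mul_of_nonneg_right ((le_abs_self _).trans
      (Finset.single_le_sum (f := fun ν => |C ν|) (fun _ _ => abs_nonneg _) (Finset.mem_univ ν)))
      (by positivity))
    simp only [Pi.mul_apply, Pi.pow_apply, norm_mul, norm_pow] at h5
    have h6 : 1 ≤ (∑ i, ‖b.a i y‖ ^ 2) ^ t := one_le_pow₀ (b.pr_na y)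
    have h7 := Real.exp_pos ((((p * b.k : ℕ) : ℤ) : ℝ) * A.φ y)
    have h8 : 0 ≤ ∑ ν, |C ν| := Finset.sum_nonneg fun _ _ => abs_nonneg _
    rw [b.pr_exp, ← mul_div_assoc, div_le_iff₀ (by positivity)]
    refine le_trans ?_ (mul_le_mul_of_nonneg_left (le_mul_of_one_le_right h7.le h6)
      (by positivity))
    refine le_of_mul_le_mul_right ?_ (pow_pos (mul_pos hδ (pow_pos h0 N0)) t)
    refine (mul_le_mul_of_nonneg_left h4 (by positivity)).trans ?_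
    refine le_trans (le_of_eq ?_)
      ((mul_le_mul_of_nonneg_left h5 (pow_nonneg (Nat.cast_nonneg s) t)).trans (le_of_eq ?_))
    · ring
    · rw [div_pow]
      field_simp
      ring
  have h4 := hA.re_flat hu (b.pr_sm hA p t) hk hF h2 (hA.rf_sm fun ν => (AD.mem_Jd.1 (hg ν)).1.1)
    (fun y => div_nonneg (by positivity) (pow_pos (hpos y) N0).le)
    (hA.rf_bd (fun i => (b.a_fi i).1) hg hr hu ha) h3
  obtain ⟨C, hC⟩ := hr l hg₀
  intro y
  funext I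
  have h5 := (holW_ctr (fun j => hF.dz j) hu.hol I).sm.continuous
  refine congrFun (Continuous.ext_on (hA.dense_ne hg₁.1 hg0) h5 continuous_const
    fun y hy => congrFun (h4 y fun h => hy ?_) I) y
  have h6 := hC y
  simp only [h, mul_zero] at h6
  simpa using le_antisymm h6 (sq_nonneg _)

end Vale.Agent.P299
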