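import Vale.Agent.P299.Stmt
import Vale.Agent.P299.Defs2
import Vale.Agent.P271.BrP
import Vale.Agent.P271.Dist

/-! P299, part S: from the statement to the working model and back. -/

open Set
open scoped Manifold ContDiff

noncomputable section

namespace Vale.Agent.P299

open Vale.Agent.P271 Vale.Agent.P272 Vale.Agent.P271.Stmt Vale.Agent.P299.Stmt

section aux
open MeasureTheory Filter Topology

variable {n : ℕ} {X : Type} [TopologicalSpace X] [MeasurableSpace X]

/-- Rescale the gauge and the measure of a model by a positive smooth function. -/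
theorem partS_scale [CompactSpace X] [BorelSpace X] (M : Model n X) {f : X → ℝ} (hf : M.Sm f)
    (h0 : ∀ p, 0 < f p) : ∃ M' : Model n X, ∃ _ : M'.toAtl = M.toAtl, HEq M'.k
      fun a p => M.k a p * (√(f p) : ℝ) := by
  have hn : ∀ a p, ‖M.k a p * (√(f p) : ℝ)‖ ^ 2 = f p * ‖M.k a p‖ ^ 2 := fun a p => by
    rw [norm_mul, mul_pow, Complex.norm_real, Real.norm_eq_abs, sq_abs, Real.sq_sqrt (h0 p).le,
      mul_comm]
  have hs : ∀ p, ((√(f p) : ℝ) : ℂ) ≠ 0 := fun p =>
    Complex.ofReal_ne_zero.2 (Real.sqrt_pos.2 (h0 p)).ne'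
  have hm : Measurable fun p => ENNReal.ofReal (f p) := hf.continuous.measurable.ennreal_ofReal
  have hfin : IsFiniteMeasure (M.μ.withDensity fun p => ENNReal.ofReal (f p)) :=
    isFiniteMeasure_withDensity_ofReal
      (hf.continuous.integrable_of_hasCompactSupport (HasCompactSupport.of_compactSpace f)).2
  refine ⟨⟨M.toAtl, M.ρ, M.ρ_sm, M.ρ_nonneg, M.ρ_supp, M.ρ_sum,
    fun a p => M.k a p * (√(f p) : ℝ), ⟨fun a p hp => mul_ne_zero (M.k_gauge.ne a p hp) (hs p),
      fun a b => ?_, fun a => ?_⟩, fun a b z hz => ?_,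
    M.μ.withDensity fun p => ENNReal.ofReal (f p), fun a => ?_⟩, rfl, HEq.rfl⟩
  · simp only [mul_div_mul_right _ _ (hs _)]
    exact M.k_gauge.hol a b
  · simp only [hn]
    exact ContDiffOn.mul (hf a) (M.k_gauge.sm a)
  · rw [M.k_tr a b z hz, mul_assoc]
  · ext S hS
    have hT := (M.e a).open_source.measurableSet
    rw [Measure.restrict_apply hS, withDensity_apply _ (hS.inter hT), BrK_map _ _ hS,
      ← Measure.restrict_restrict hS, ← lintegral_indicator hS,
      M.lintegral_chart a (hm.indicator hS),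
      ← Measure.restrict_restrict' (M.e a).open_target.measurableSet,
      ← lintegral_indicator₀ ((M.dist_ae a).nullMeasurableSet_preimage hS)]
    refine lintegral_congr fun z => ?_
    by_cases hz : (M.e a).symm z ∈ S
    · rw [indicator_of_mem hz, indicator_of_mem (mem_preimage.2 hz), hn,
        ENNReal.ofReal_mul (h0 _).le]
    · rw [indicator_of_notMem hz, indicator_of_notMem (mt mem_preimage.1 hz), zero_mul]

variable [ChartedSpace (Fin n → ℂ) X] {L : Cocycle X}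

theorem partS_k (M : Model n X) {q : M.ι → X} {i : M.ι → L.ι} (h : Adapted M.toAtl L q i)
    (a b : M.ι) {p : X} (ha : p ∈ (M.e a).source) (hb : p ∈ (M.e b).source) :
    M.k a p = (canonical n X).g (q a) (q b) p * M.k b p := by
  have h1 := M.k_tr a b (M.e a p) ⟨(M.e a).map_source ha, by
    change (M.e a).symm (M.e a p) ∈ (M.e b).source
    rwa [(M.e a).left_inv ha]⟩
  rw [(M.e a).left_inv ha] at h1
  have e : M.toAtl.tr a b = chartAt (Fin n → ℂ) (q b) ∘ (chartAt (Fin n → ℂ) (q a)).symm := by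
    funext z
    unfold Atl.tr
    rw [h.coe_symm a, h.coe b]
    rfl
  rw [h1, e, h.coe a]
  rfl

variable [IsManifold 𝓘(ℂ, Fin n → ℂ) ω X]

theorem partS_back (M : Model n X) {q : M.ι → X} {i : M.ι → L.ι} (h : Adapted M.toAtl L q i)
    (m : ℕ) {s : X → ℂ} (hs : s ∈ M.H0 (M.k⁻¹ ^ m)) (hx : s ≠ 0) :
    ∃ t, IsSection n (power (dual (canonical n X)) m) t ∧
      ∃ j, ∃ p ∈ (power (dual (canonical n X)) m).U j, t j p ≠ 0 := by
  choose c hc using M.cover
  obtain ⟨x, hx⟩ := Function.ne_iff.1 hx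
  have hQ : ∀ a, ∀ p ∈ (M.e a).source, p ∈ (chartAt (Fin n → ℂ) (q a)).source :=
    fun a p hp => (h.sub a hp).1
  set t : X → X → ℂ := fun j p =>
    ((canonical n X).g j (q (c p)) p)⁻¹ ^ m * ((M.k (c p) p)⁻¹ ^ m * s p) with ht
  have hloc : ∀ (j : X) a, ∀ p ∈ (chartAt (Fin n → ℂ) j).source, p ∈ (M.e a).source →
      t j p = ((canonical n X).g j (q a) p)⁻¹ ^ m * ((M.k⁻¹ ^ m) a p * s p) := by
    intro j a p hp ha
    simp only [ht, Pi.inv_apply, Pi.pow_apply]
    rw [partS_k M h a (c p) ha (hc p),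
      ← canonical_cocycle (n := n) j (q a) (q (c p)) hp (hQ a p ha) (hQ _ p (hc p)), mul_inv,
      mul_inv]
    ring
  refine ⟨t, ⟨fun j : X => hol_of_chart fun p hp => ?_, fun (j j' : X) p hp => ?_⟩,
    q (c x), x, hQ _ x (hc x), ?_⟩
  · have hp' : p ∈ (chartAt (Fin n → ℂ) j).source := hp
    refine ⟨q (c p), hQ _ p (hc p), ?_⟩
    have h1 := BrP_analyticAt_canonical (n := n) j (q (c p)) (q (c p)) hp' (hQ _ p (hc p))
      (hQ _ p (hc p))
    have h2 := h1.inv (by
      rw [Function.comp_apply, (chartAt (Fin n → ℂ) (q (c p))).left_inv (hQ _ p (hc p))]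
      exact canonical_ne _ _ hp' (hQ _ p (hc p)))
    have h3 := hs (c p) _ ((M.e (c p)).map_source (hc p))
    rw [BrP_loc h, h.coe (c p)] at h3
    refine ((h2.pow m).mul h3).congr ?_
    have h4 := (chartAt (Fin n → ℂ) (q (c p))).continuousAt_symm
      ((chartAt (Fin n → ℂ) (q (c p))).map_source (hQ _ p (hc p)))
    rw [ContinuousAt, (chartAt (Fin n → ℂ) (q (c p))).left_inv (hQ _ p (hc p))] at h4
    filter_upwards [h4.eventually ((chartAt (Fin n → ℂ) j).open_source.mem_nhds hp'),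
      h4.eventually ((M.e (c p)).open_source.mem_nhds (hc p))] with w hw1 hw2
    exact (hloc j (c p) _ hw1 hw2).symm
  · change t j p = ((canonical n X).g j j' p)⁻¹ ^ m * t j' p
    simp only [ht]
    rw [← canonical_cocycle (n := n) j j' (q (c p)) hp.1 hp.2 (hQ _ p (hc p)), mul_inv]
    ring
  · exact mul_ne_zero (pow_ne_zero _ (inv_ne_zero
      (canonical_ne _ _ (hQ _ x (hc x)) (hQ _ x (hc x)))))
      (mul_ne_zero (pow_ne_zero _ (inv_ne_zero (M.k_gauge.ne _ x (hc x)))) hx)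

omit [IsManifold 𝓘(ℂ, Fin n → ℂ) ω X] [MeasurableSpace X] in
theorem partS_sm {A : Atl n X} {q : A.ι → X} {i : A.ι → L.ι} (hA : Adapted A L q i)
    {h : X → X → ℝ} (hh : IsSemipositiveMetric n (dual (canonical n X)) h) (a : A.ι) :
    A.SmOn a (h (q a)) := by
  unfold Atl.SmOn
  rw [BrP_loc hA]
  refine (hh.smooth (q a) (q a)).mono fun z hz => ?_
  have h1 := (hA.sub a ((A.e a).map_target hz)).1
  have h2 := (chartAt (Fin n → ℂ) (q a)).map_source h1
  rw [← hA.coe a, (A.e a).right_inv hz] at h2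
  rw [hA.coe_symm a] at h1
  exact ⟨h2, h1⟩

omit [IsManifold 𝓘(ℂ, Fin n → ℂ) ω X] in
theorem partS_nn (M : Model n X) {q : M.ι → X} {i : M.ι → L.ι} (hA : Adapted M.toAtl L q i)
    {h : X → X → ℝ} (hh : IsSemipositiveMetric n (dual (canonical n X)) h)
    (e : ∀ a, ∀ p ∈ (M.e a).source, ‖M.k a p‖ ^ 2 = h (q a) p) : NnF M.toAtl (-th M) := by
  intro a z hz
  have hs := (isF_th M).neg.smAt hz
  have ev : (-th M) a =ᶠ[𝓝 z]
      fun w => -Real.log (h (q a) ((chartAt (Fin n → ℂ) (q a)).symm w)) := by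
    filter_upwards [(M.e a).open_target.mem_nhds hz] with w hw
    rw [← hA.coe_symm a, ← e a _ ((M.e a).map_target hw)]
    rfl
  rw [LM_congr ev, posSemidef_LM_iff (hs.congr_of_eventuallyEq ev.symm)]
  intro ξ
  rw [Lev_eq_fderiv (hs.congr_of_eventuallyEq ev.symm)]
  have h1 := (hA.sub a ((M.e a).map_target hz)).1
  have h2 := (chartAt (Fin n → ℂ) (q a)).map_source h1
  rw [← hA.coe a, (M.e a).right_inv hz] at h2
  rw [hA.coe_symm a] at h1
  exact div_nonneg (hh.semipos (q a) (q a) z ⟨h2, h1⟩ ξ) (by norm_num)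

end aux

theorem partS {n : ℕ} {X : Type} [TopologicalSpace X] [T2Space X] [CompactSpace X]
    [ChartedSpace (Fin n → ℂ) X] [IsManifold 𝓘(ℂ, Fin n → ℂ) ω X] [MeasurableSpace X]
    [BorelSpace X] {L : Cocycle X} (hL : IsLineBundle n L) (hV : VeryAmple n L)
    {h : X → X → ℝ} (hh : IsSemipositiveMetric n (dual (canonical n X)) h) :
    ∃ M : Model n X, NnF M.toAtl (-th M) ∧ Nonempty (Pol M.toAtl) ∧
      ∀ m : ℕ, ∀ w ∈ M.H0 (M.k⁻¹ ^ m), w ≠ 0 →
        ∃ s, IsSection n (power (dual (canonical n X)) m) s ∧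
          ∃ i, ∃ p ∈ (power (dual (canonical n X)) m).U i, s i p ≠ 0 := by
  obtain ⟨A, q, i, hA⟩ := exists_atl hL
  have hamp : Ample n L := by
    obtain ⟨N, s, hs, h2, h3, h4⟩ := hV
    refine ⟨1, one_pos, N, s, fun k => ⟨(hs k).1, fun a b p hp => ?_⟩, h2, h3, h4⟩
    change s k a p = L.g a b p ^ 1 * s k b p
    rw [pow_one]
    exact (hs k).2 a b p hp
  obtain ⟨P, -⟩ := exists_pol hA hL hamp
  obtain ⟨M, rfl⟩ := exists_model A
  have hQ : ∀ a, ∀ p ∈ (M.e a).source, p ∈ (chartAt (Fin n → ℂ) (q a)).source :=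
    fun a p hp => (hA.sub a hp).1
  set f : X → ℝ := fun p => h (q (ch M.toAtl p)) p / ‖M.k (ch M.toAtl p) p‖ ^ 2 with hf
  have hloc : ∀ a, ∀ p ∈ (M.e a).source, f p = h (q a) p / ‖M.k a p‖ ^ 2 := by
    intro a p hp
    have hb := ch_mem M.toAtl p
    have h1 : h (q (ch M.toAtl p)) p =
        h (q a) p * ‖((canonical n X).g (q a) (q (ch M.toAtl p)) p)⁻¹‖ ^ 2 :=
      hh.compat (q a) (q (ch M.toAtl p)) p ⟨hQ a p hp, hQ _ p hb⟩
    simp only [hf]
    rw [h1, partS_k M hA a _ hp hb, norm_mul, norm_inv, mul_pow, inv_pow, ← div_eq_mul_inv,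
      div_div]
  have hsm : M.Sm f := fun a =>
    (ContDiffOn.div (partS_sm hA hh a) (M.k_gauge.sm a) fun z hz =>
      (Api_k_pos M ((M.e a).map_target hz)).ne').congr fun z hz =>
        hloc a _ ((M.e a).map_target hz)
  have h0 : ∀ p, 0 < f p := fun p =>
    div_pos (hh.pos _ p (hQ _ p (ch_mem _ p))) (Api_k_pos M (ch_mem _ p))
  obtain ⟨M', e1, e2⟩ := partS_scale M hsm h0
  obtain ⟨A', ρ, r1, r2, r3, r4, k, k1, k2, μ, m1⟩ := M'
  obtain rfl : A' = M.toAtl := e1
  obtain rfl := eq_of_heq e2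
  let N : Model n X := ⟨M.toAtl, ρ, r1, r2, r3, r4, _, k1, k2, μ, m1⟩
  refine ⟨N, partS_nn N hA hh fun a p hp => ?_, ⟨P⟩,
    fun m w hw hw0 => partS_back N hA m hw hw0⟩
  change ‖M.k a p * (√(f p) : ℝ)‖ ^ 2 = _
  rw [norm_mul, mul_pow, Complex.norm_real, Real.norm_eq_abs, sq_abs, Real.sq_sqrt (h0 p).le,
    hloc a p hp, mul_div_cancel₀ _ (Api_k_pos M hp).ne']

theorem dim_zero {X : Type} [TopologicalSpace X] [Nonempty X] [ChartedSpace (Fin 0 → ℂ) X] :
    ∃ s, IsSection 0 (power (dual (canonical 0 X)) 1) s ∧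
      ∃ i, ∃ p ∈ (power (dual (canonical 0 X)) 1).U i, s i p ≠ 0 := by
  obtain ⟨x⟩ := ‹Nonempty X›
  refine ⟨fun _ _ => 1, ⟨fun _ => mdifferentiableOn_const, fun a b p _ => ?_⟩, x, x,
    mem_chart_source _ x, one_ne_zero⟩
  have e : (canonical 0 X).g a b p = 1 := LinearMap.det_eq_one_of_subsingleton _
  change (1 : ℂ) = ((canonical 0 X).g a b p)⁻¹ ^ 1 * 1
  rw [e, inv_one, one_pow, one_mul]

end Vale.Agent.P299
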