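import Vale.Agent.P299.PartG
import Vale.Agent.P299Y.Main
import Vale.Agent.P271A.Pull
import Vale.Agent.P271A.CovM

/-! P299, part Y: the Calabi-Yau theorem. -/

open MeasureTheory Set Filter Topology Matrix
open scoped ContDiff ENNReal ComplexConjugate ComplexOrder

noncomputable section

namespace Vale.Agent.P299

open Vale.Agent.P271 Vale.Agent.P272

variable {n : ℕ} {X : Type} [TopologicalSpace X] [T2Space X] [CompactSpace X] [ConnectedSpace X]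
  [MeasurableSpace X] [BorelSpace X] {M : Model n X} {N : ℕ} {P : Pol M.toAtl} {C : P271A.Cov M P} {A : AD n N C.Y}

set_option linter.unusedSectionVars false

/-- The Calabi-Yau theorem. -/
theorem yau (hn : 0 < n) {κ : Frm M.toAtl} (hκ : Kae M.toAtl κ) :
    ∃ u, M.Sm u ∧ PosF M.toAtl (κ + ddc M.toAtl u) ∧
      ∃ c : ℝ, ∀ p, dt M (κ + ddc M.toAtl u) p = c := by
  obtain ⟨u, s, hu, hp, hd⟩ := calabi_yau hn hκ (AL.sm_const M 0)
  exact ⟨u, hu, hp, _, hd⟩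

/-- `Φ` is a potential on the model of the form `η`. -/
structure Pb (C : P271A.Cov M P) (η : Frm M.toAtl) (Φ : C.Y → ℝ) : Prop where
  isF : IsF M.toAtl η
  sm : C.D.SmR Φ
  lm : ∀ a q, C.π q ∈ (M.e a).source → LMd C.D Φ q =
    (DM (Tr C a q) (C.D.pr q))ᴴ * LM (η a) (M.e a (C.π q)) * DM (Tr C a q) (C.D.pr q)

variable {η η' : Frm M.toAtl} {Φ Φ' : C.Y → ℝ}

theorem Pb.comb (h : Pb C η Φ) (h' : Pb C η' Φ') (a b : ℝ) :
    Pb C (a • η + b • η') fun p => a * Φ p + b * Φ' p := by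
  refine ⟨(h.isF.smul a).add (h'.isF.smul b), ((P271A.RD.smR_const a).mul h.sm).add
    ((P271A.RD.smR_const b).mul h'.sm), fun c q hq => ?_⟩
  have hz := (M.e c).map_source hq
  rw [LMd_add h.sm h'.sm, h.lm c q hq, h'.lm c q hq, Pi.add_apply,
    LM_add ((h.isF.smul a).smAt hz) ((h'.isF.smul b).smAt hz), Pi.smul_apply, Pi.smul_apply,
    LM_smul (h.isF.smAt hz), LM_smul (h'.isF.smAt hz), Matrix.mul_add, Matrix.add_mul,
    Matrix.mul_smul, Matrix.mul_smul, Matrix.smul_mul, Matrix.smul_mul]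

theorem Pb.dV_eq (h : Pb C η Φ) (q : C.Y) :
    dV C.D Φ q = dt M η (C.π q) * (‖C.Ω (C.π q)‖ ^ 2)⁻¹ := by
  obtain ⟨a, hq⟩ := M.cover (C.π q)
  have h1 := congrArg (fun z => ‖z‖ ^ 2) (Tr_det C hq)
  simp only [norm_mul, mul_pow, norm_one, one_pow] at h1
  have h2 := Api_k_pos M hq
  have h3 : 0 < ‖C.Ω (C.π q)‖ ^ 2 := pow_pos (norm_pos_iff.2 (C.Ω_ne q)) 2
  rw [dV, h.lm a q hq, det_conj, Complex.re_ofReal_mul, dt_eq h.isF hq,
    eq_inv_of_mul_eq_one_left h1]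
  field_simp

theorem Pb.integral (h : Pb C η Φ) (hk : P.k0 = 1) (hη : PosF M.toAtl η) :
    ∫ q, dV C.D Φ q ∂C.D.μ = ∫ p, dt M η p ∂M.μ := by
  simp only [h.dV_eq]
  rw [(C.integral_pull (sm_dt h.isF).continuous fun p => (dt_pos ⟨h.isF, hη⟩ p).le).2, hk,
    Nat.cast_one, one_mul]

theorem Pb.kah (h : Pb C η Φ) (hη : PosF M.toAtl η) : Kah C.D Φ := by
  refine ⟨h.sm, fun q => ?_⟩
  obtain ⟨a, hq⟩ := M.cover (C.π q)
  have hD := (isUnit_iff_isUnit_det _).2 (IsUnit.of_mul_eq_one _ (Tr_det C hq))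
  rw [h.lm a q hq, ← star_eq_conjTranspose, hD.posDef_star_left_conjugate_iff]
  exact hη a _ ((M.e a).map_source hq)

theorem Pb.le (h : Pb C η Φ) (h' : Pb C η' Φ') (hη : PosF M.toAtl η') :
    ∃ c : ℝ, 0 < c ∧ ∀ q v, C.D.levi Φ q v ≤ c * C.D.levi Φ' q v := by
  obtain ⟨c, hc, h1, -⟩ := exists_le ⟨h'.isF, hη⟩ h.isF
  have h2 := h'.comb h c (-1)
  rw [neg_one_smul, ← sub_eq_add_neg] at h2
  refine ⟨c, hc, fun q v => ?_⟩
  have h3 := (LMd_psd h2.sm).1 ((h2.kah h1).2 q).posSemidef v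
  rw [P271A.RD.levi_add ((P271A.RD.smR_const c).mul h'.sm) ((P271A.RD.smR_const _).mul h.sm),
    P271A.RD.levi_const_mul h'.sm, P271A.RD.levi_const_mul h.sm] at h3
  linarith

theorem Real.pb_φ (h : Real C A) (hA : A.Good) : Pb C (-th M) A.φ :=
  ⟨(isF_th M).neg, h.hD ▸ hA.hφ, fun _ _ hq => by rw [← h.LM_φ hq, h.hD]⟩

theorem Real.pb_ρ (h : Real C A) (hA : A.Good) {u : X → ℝ} (hu : M.Sm u) :
    Pb C (fsF P + ddc M.toAtl u) fun q => A.ρ q + u (C.π q) := by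
  refine ⟨(kae_fsF h.k0).1.add (isF_ddc hu), (h.hD ▸ hA.pos.1).add ?_,
    fun _ _ hq => by rw [← h.LM_ρ hu hq, h.hD]⟩
  simpa using (C.frame_k.smR M.k_gauge hu).sub (C.frame_k.smR M.k_gauge (AL.sm_const M 0))

theorem Real.pb_ρ0 (h : Real C A) (hA : A.Good) : Pb C (fsF P) A.ρ := by
  simpa [show ddc M.toAtl (fun _ => 0) = 0 from rfl] using h.pb_ρ hA (AL.sm_const M 0)

theorem Real.ym_of (h : Real C A) (hA : A.Good) (hΦ : Pb C η Φ) (hη : PosF M.toAtl η)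
    (hd : ∃ c : ℝ, ∀ p, dt M η p = c) : A.YM Φ := by
  obtain ⟨c, hc⟩ := hd
  obtain ⟨a, ha, h1⟩ := (h.pb_ρ0 hA).le hΦ hη
  obtain ⟨b, hb, h2⟩ := hΦ.le (h.pb_ρ0 hA) (kae_fsF h.k0).2
  have h3 := fun q => (LMd_psd hΦ.sm).1 ((hΦ.kah hη).2 q).posSemidef
  have h4 := fun q => (LMd_psd hA.pos.1).1 (hA.pos.2 q).posSemidef
  rw [← h.hD] at h1 h2 h3
  refine ⟨h.hD ▸ hΦ.kah hη, ⟨a + b, fun q v => ⟨?_, ?_⟩⟩, c,
    hc (Classical.arbitrary X) ▸ dt_pos ⟨hΦ.isF, hη⟩ _, fun q => ?_⟩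
  · nlinarith [h1 q v, h3 q v]
  · nlinarith [h2 q v, h4 q v]
  · rw [h.hD, hΦ.dV_eq, hc, h.hφ, Real.exp_neg,
      Real.exp_log (pow_pos (norm_pos_iff.2 (C.Ω_ne q)) 2)]

theorem Real.yau (hn : 0 < n) (hM : NnF M.toAtl (-th M)) (h : Real C A) (hA : A.Good) :
    A.Yau := by
  intro ε hε
  have h0 := (h.pb_ρ0 hA).comb (h.pb_φ hA) ε 1
  rw [one_smul] at h0
  have hκ := ((kae_fsF (P := P) h.k0).smul hε).add_nn (isF_th M).neg hM
  obtain ⟨u, hu, hp, hd⟩ := P299.yau hn hκ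
  have h1 := (h.pb_ρ hA (u := ε⁻¹ • u) fun a => (hu a).const_smul ε⁻¹).comb (h.pb_φ hA) ε 1
  rw [one_smul, ddc_smul, smul_add, smul_smul, mul_inv_cancel₀ hε.ne', one_smul,
    add_right_comm] at h1
  have h2 := h1.comb h0 1 1
  have e : (fun p => A.φ p + ε * A.ρ p) = fun p => ε * A.ρ p + 1 * A.φ p := by
    ext p
    ring
  have h3 := (hκ.add_nn h1.isF hp.nn).2
  rw [one_smul, one_smul, add_comm] at h2
  refine ⟨_, h.ym_of hA h1 hp hd, ?_, ?_⟩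
  · rw [h.hD, e, h1.integral h.k0 hp, h0.integral h.k0 hκ.2, stokes hκ.1 hu]
  · have h4 := h2.integral h.k0 h3
    rw [← add_assoc, ← two_smul ℝ, stokes (hκ.1.smul 2) hu] at h4
    simp only [dt_smul hκ.1, integral_const_mul] at h4
    rw [h.hD, e, h0.integral h.k0 hκ.2, ← h4]
    simp only [one_mul, add_comm]

theorem Real.ym (h : Real C A) (hA : A.Good) {u : X → ℝ} (hu : M.Sm u)
    (hk : KY M (fsF P + ddc M.toAtl u)) : A.YM fun q => A.ρ q + u (C.π q) :=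
  h.ym_of hA (h.pb_ρ hA hu) hk.kae.2 hk.det

end Vale.Agent.P299
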