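import Vale.Agent.P299.La

/-! P299, part R: graded ideals of sections are generated in bounded degree. -/

open MeasureTheory Set Filter Topology Matrix
open scoped ContDiff ENNReal ComplexConjugate ComplexOrder

noncomputable section

namespace Vale.Agent.P299

open Vale.Agent.P271A

/-- Functions whose square is bounded by a multiple of `w`. -/
def BS {Z : Type} (w : Z → ℝ) : Submodule ℂ (Z → ℂ) where
  carrier := {f | ∃ C : ℝ, ∀ y, ‖f y‖ ^ 2 ≤ C * w y}
  add_mem' := by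
    rintro f g ⟨C, h⟩ ⟨C', h'⟩
    refine ⟨2 * C + 2 * C', fun y => ?_⟩
    have h1 := norm_add_le (f y) (g y)
    have h2 : ‖f y + g y‖ ^ 2 ≤ (‖f y‖ + ‖g y‖) ^ 2 := by gcongr
    have h3 := sq_nonneg (‖f y‖ - ‖g y‖)
    have h4 := h y
    have h5 := h' y
    rw [Pi.add_apply]
    nlinarith
  zero_mem' := ⟨0, fun y => by simp⟩
  smul_mem' := by
    rintro c f ⟨C, h⟩
    refine ⟨‖c‖ ^ 2 * C, fun y => ?_⟩
    rw [Pi.smul_apply, norm_smul, mul_pow, mul_assoc]
    exact mul_le_mul_of_nonneg_left (h y) (sq_nonneg _)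

theorem BS_mul {Z : Type} {w w' w'' : Z → ℝ} {f g : Z → ℂ} (hf : f ∈ BS w) (hg : g ∈ BS w')
    (h : ∀ y, w y * w' y = w'' y) : f * g ∈ BS w'' := by
  obtain ⟨C, h1⟩ := hf
  obtain ⟨C', h2⟩ := hg
  refine ⟨C * C', fun y => ?_⟩
  rw [Pi.mul_apply, norm_mul, mul_pow, ← h y]
  refine (mul_le_mul (h1 y) (h2 y) (sq_nonneg _) ((sq_nonneg _).trans (h1 y))).trans_eq ?_
  ring

theorem BS_comp {Z Z' : Type} {w : Z → ℝ} {f : Z → ℂ} (hf : f ∈ BS w) (π : Z' → Z) :
    (fun z => f (π z)) ∈ BS fun z => w (π z) :=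
  let ⟨C, h⟩ := hf; ⟨C, fun z => h (π z)⟩

theorem BS_sum {Z κ : Type} [Fintype κ] {w : Z → ℝ} {f : κ → Z → ℂ} (hf : ∀ i, f i ∈ BS w) :
    ∃ C : ℝ, ∀ y, ∑ i, ‖f i y‖ ^ 2 ≤ C * w y := by
  choose C hC using hf
  exact ⟨∑ i, C i, fun y => by rw [Finset.sum_mul]; exact Finset.sum_le_sum fun i _ => hC i y⟩

variable {n N : ℕ} {Y : Type} [TopologicalSpace Y] [T2Space Y] [SecondCountableTopology Y]
  [MeasurableSpace Y] [BorelSpace Y] {A : AD n N Y}

omit [T2Space Y] [SecondCountableTopology Y] [BorelSpace Y] in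
theorem AD.S0_BS {l : ℕ} {f : Y → ℂ} (hf : f ∈ A.S 0 l) : f ∈ BS fun y => A.nx y ^ l := by
  obtain ⟨-, C, h⟩ := hf
  exact ⟨C, fun y => by simpa using h y⟩

theorem AD.Good.x_mem (hA : A.Good) (i : Fin (N + 1)) : A.x i ∈ A.S 0 1 := by
  have h := hA.ev_mem (p := MvPolynomial.X i) (l := 1) (MvPolynomial.totalDegree_X i).le
  have e : A.ev (MvPolynomial.X i) = A.x i := funext fun y => by simp [AD.ev]
  rwa [e] at h

theorem AD.Good.one_mem (hA : A.Good) : (1 : Y → ℂ) ∈ A.S 0 0 := by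
  have h := hA.ev_mem (p := 1) (l := 0) MvPolynomial.totalDegree_one.le
  have e : A.ev 1 = 1 := funext fun y => by simp [AD.ev]
  rwa [e] at h

theorem AD.S0_mul {l l' : ℕ} {f g : Y → ℂ} (hf : f ∈ A.S 0 l) (hg : g ∈ A.S 0 l') :
    f * g ∈ A.S 0 (l + l') := by
  simpa using AD.S_mul hf hg

omit [T2Space Y] [SecondCountableTopology Y] [BorelSpace Y] in
theorem AD.Good.S0_ind (hA : A.Good) {p : ℕ → (Y → ℂ) → Prop} (h1 : p 0 1)
    (hadd : ∀ l f g, p l f → p l g → p l (f + g)) (hsm : ∀ l (c : ℂ) f, p l f → p l (c • f))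
    (hx : ∀ l j f, p l f → p (l + 1) (A.x j * f)) {l : ℕ} {f : Y → ℂ} (hf : f ∈ A.S 0 l) :
    p l f := by
  have hp : ∀ j e l f, p l f → p (l + e) (A.x j ^ e * f) := fun j e l f h => by
    induction e with
    | zero => simpa using h
    | succ e ih =>
      have := hx _ j _ ih
      rwa [← mul_assoc, ← pow_succ'] at this
  have hm : ∀ (α : Fin (N + 1) →₀ ℕ) l f, p l f →
      p (l + α.sum fun _ e => e) (A.ev (MvPolynomial.monomial α 1) * f) := fun α => by
    induction α using Finsupp.induction_linear with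
    | zero =>
      intro l f h
      have e : A.ev (MvPolynomial.monomial 0 1) = 1 := funext fun y => by simp [AD.ev]
      rwa [e, Finsupp.sum_zero_index, add_zero, one_mul]
    | add α β ha hb =>
      intro l f h
      have e : A.ev (MvPolynomial.monomial (α + β) 1) =
          A.ev (MvPolynomial.monomial β 1) * A.ev (MvPolynomial.monomial α 1) :=
        funext fun y => by
          rw [Pi.mul_apply, AD.ev, AD.ev, AD.ev, ← map_mul, MvPolynomial.monomial_mul, one_mul,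
            add_comm α β]
      rw [Finsupp.sum_add_index' (fun _ => rfl) (fun _ _ _ => rfl), e, ← add_assoc, mul_assoc]
      exact hb _ _ (ha _ _ h)
    | single j e =>
      intro l f h
      have e1 : A.ev (MvPolynomial.monomial (Finsupp.single j e) 1) = A.x j ^ e :=
        funext fun y => by rw [← MvPolynomial.X_pow_eq_monomial]; simp [AD.ev]
      rw [Finsupp.sum_single_index rfl, e1]
      exact hp j e l f h
  have h0 : ∀ l, p l 1 := fun l => by simpa [hA.x0] using hp 0 l 0 1 h1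
  obtain ⟨P, hP, rfl⟩ := hA.gen l f hf
  have e : A.ev P = ∑ α ∈ P.support, P.coeff α • A.ev (MvPolynomial.monomial α 1) :=
    funext fun y => by
      conv_lhs => rw [AD.ev, P.as_sum, map_sum]
      rw [Finset.sum_apply]
      refine Finset.sum_congr rfl fun α _ => ?_
      simp [AD.ev, MvPolynomial.eval_monomial]
  rw [e]
  refine Finset.sum_induction _ (p l) (hadd l) (by simpa using hsm l 0 1 (h0 l)) fun α hα => ?_
  obtain ⟨d, hd⟩ := Nat.exists_eq_add_of_le ((MvPolynomial.le_totalDegree hα).trans hP)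
  have h2 := hm α d 1 (h0 d)
  rw [mul_one, add_comm, ← hd] at h2
  exact hsm l _ _ h2

/-- The graded evaluation map. -/
def AD.gr (A : AD n N Y) : MvPolynomial (Fin (N + 1)) ℂ →ₐ[ℂ] Polynomial (Y → ℂ) :=
  MvPolynomial.aeval fun i => Polynomial.monomial 1 (A.x i)

theorem AD.Good.gr_mem (hA : A.Good) (Q : MvPolynomial (Fin (N + 1)) ℂ) (a : ℕ) :
    (A.gr Q).coeff a ∈ A.S 0 a := by
  induction Q using MvPolynomial.induction_on generalizing a with
  | C c =>
    rw [AD.gr, MvPolynomial.aeval_C, Polynomial.algebraMap_apply, Polynomial.coeff_C]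
    split_ifs with h
    · rw [h, Algebra.algebraMap_eq_smul_one]
      exact Submodule.smul_mem _ _ hA.one_mem
    · exact zero_mem _
  | add P Q hP hQ => rw [map_add, Polynomial.coeff_add]; exact add_mem (hP a) (hQ a)
  | mul_X P i hP =>
    have e : A.gr (MvPolynomial.X i) = Polynomial.monomial 1 (A.x i) := MvPolynomial.aeval_X _ _
    rw [map_mul, e]
    rcases a with _ | a
    · simp [Polynomial.mul_coeff_zero, Polynomial.coeff_monomial]
    · rw [Polynomial.coeff_mul_monomial]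
      exact AD.S0_mul (hP a) (hA.x_mem i)

omit [T2Space Y] [SecondCountableTopology Y] [BorelSpace Y] in
theorem AD.Good.gr_surj (hA : A.Good) {l : ℕ} {f : Y → ℂ} (hf : f ∈ A.S 0 l) :
    ∃ P, A.gr P = Polynomial.monomial l f := by
  refine hA.S0_ind (p := fun l f => ∃ P, A.gr P = Polynomial.monomial l f) ⟨1, by simp⟩
    ?_ ?_ ?_ hf
  · rintro l f g ⟨P, hP⟩ ⟨Q, hQ⟩
    exact ⟨P + Q, by rw [map_add, map_add, hP, hQ]⟩
  · rintro l c f ⟨P, hP⟩
    exact ⟨c • P, by rw [map_smul, hP, Polynomial.smul_monomial]⟩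
  · rintro l j f ⟨P, hP⟩
    have e : A.gr (MvPolynomial.X j) = Polynomial.monomial 1 (A.x j) := MvPolynomial.aeval_X _ _
    exact ⟨MvPolynomial.X j * P, by
      rw [map_mul, e, hP, Polynomial.monomial_mul_monomial, add_comm]⟩

theorem AD.Good.ideal_bd (hA : A.Good) (J : ℕ → Submodule ℂ (Y → ℂ)) (hJ : ∀ l, J l ≤ A.S 0 l)
    (hm : ∀ a b, ∀ f ∈ A.S 0 a, ∀ g ∈ J b, f * g ∈ J (a + b)) :
    ∃ (N0 s : ℕ) (g : Fin s → Y → ℂ), (∀ ν, g ν ∈ J N0) ∧
      ∀ l, J l ≤ BS fun y => A.nx y ^ l * ((∑ ν, ‖g ν y‖ ^ 2) / A.nx y ^ N0) := by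
  have key : ∀ J' : ℕ → Submodule ℂ (Y → ℂ),
      (∀ a b, ∀ f ∈ A.S 0 a, ∀ g ∈ J' b, f * g ∈ J' (a + b)) →
      ∃ I : Ideal (MvPolynomial (Fin (N + 1)) ℂ), ∀ P, P ∈ I ↔ ∀ l, (A.gr P).coeff l ∈ J' l :=
    fun J' h => ⟨{
      carrier := {P | ∀ l, (A.gr P).coeff l ∈ J' l}
      add_mem' := fun hP hQ l => by
        rw [map_add, Polynomial.coeff_add]; exact add_mem (hP l) (hQ l)
      zero_mem' := fun l => by simp
      smul_mem' := fun Q P hP l => by
        rw [smul_eq_mul, map_mul, Polynomial.coeff_mul]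
        refine Submodule.sum_mem _ fun c hc => ?_
        rw [← Finset.HasAntidiagonal.mem_antidiagonal.1 hc]
        exact h _ _ _ (hA.gr_mem Q _) _ (hP _) }, fun _ => Iff.rfl⟩
  obtain ⟨I, hI⟩ := key J hm
  obtain ⟨T, hT⟩ : I.FG := IsNoetherian.noetherian I
  set N0 := T.sup fun P => (A.gr P).natDegree
  have := hA.fd 0 N0
  have := Submodule.finiteDimensional_of_le (hJ N0)
  let B := Module.finBasis ℂ (J N0)
  refine ⟨N0, _, fun ν => B ν, fun ν => (B ν).2, fun l f hf => ?_⟩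
  have hpos : ∀ y, 0 < A.nx y := fun y => one_pos.trans_le (hA.one_le_nx y)
  have h1 : ∀ e b, b + e = N0 → ∀ h ∈ J b,
      ∃ C : ℝ, ∀ y, ‖h y‖ ^ 2 * A.nx y ^ e ≤ C * ∑ ν, ‖(B ν : Y → ℂ) y‖ ^ 2 := fun e => by
    induction e with
    | zero =>
      intro b hb h hh
      obtain rfl : b = N0 := hb
      have e1 : h = ∑ ν, B.repr ⟨h, hh⟩ ν • (B ν : Y → ℂ) := by
        have := congrArg Subtype.val (B.sum_repr ⟨h, hh⟩)
        rw [Submodule.coe_sum] at this
        exact this.symm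
      have h2 : h ∈ BS fun y => ∑ ν, ‖(B ν : Y → ℂ) y‖ ^ 2 := by
        rw [e1]
        refine Submodule.sum_mem _ fun ν _ => Submodule.smul_mem _ _ ⟨1, fun y => ?_⟩
        rw [one_mul]
        exact Finset.single_le_sum (f := fun ν => ‖(B ν : Y → ℂ) y‖ ^ 2)
          (fun _ _ => sq_nonneg _) (Finset.mem_univ ν)
      obtain ⟨C, hC⟩ := h2
      exact ⟨C, fun y => by simpa using hC y⟩
    | succ e ih =>
      intro b hb h hh
      choose C hC using fun i => ih (1 + b) (by omega) _ (hm 1 b _ (hA.x_mem i) h hh)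
      refine ⟨∑ i, C i, fun y => ?_⟩
      rw [Finset.sum_mul]
      refine le_trans (le_of_eq ?_) (Finset.sum_le_sum fun i _ => hC i y)
      simp only [Pi.mul_apply, norm_mul, mul_pow, ← Finset.sum_mul]
      rw [pow_succ, AD.nx]
      ring
  obtain ⟨I', hI'⟩ := key
    (fun l => BS fun y => A.nx y ^ l * ((∑ ν, ‖(B ν : Y → ℂ) y‖ ^ 2) / A.nx y ^ N0))
    fun a b f hf g hg => BS_mul (AD.S0_BS hf) hg fun y => by ring
  have h2 : I ≤ I' := by
    rw [← hT, Ideal.span_le]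
    intro P hP
    refine (hI' P).2 fun b => ?_
    rcases le_or_gt b N0 with hb | hb
    · obtain ⟨e, he⟩ := Nat.exists_eq_add_of_le hb
      obtain ⟨C, hC⟩ := h1 e b he.symm _ ((hI P).1 (hT ▸ Ideal.subset_span hP) b)
      refine ⟨C, fun y => ?_⟩
      have h3 := hpos y
      have e1 : A.nx y ^ b * ((∑ ν, ‖(B ν : Y → ℂ) y‖ ^ 2) / A.nx y ^ N0) =
          (∑ ν, ‖(B ν : Y → ℂ) y‖ ^ 2) / A.nx y ^ e := by
        have e2 : A.nx y ^ N0 = A.nx y ^ b * A.nx y ^ e := by rw [← pow_add, ← he]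
        rw [e2]
        field_simp
      beta_reduce
      rw [e1, ← mul_div_assoc, le_div_iff₀ (pow_pos h3 e)]
      exact hC y
    · rw [Polynomial.coeff_eq_zero_of_natDegree_lt
        ((Finset.le_sup (f := fun P => (A.gr P).natDegree) hP).trans_lt hb)]
      exact zero_mem _
  obtain ⟨P, hP⟩ := hA.gr_surj (hJ l hf)
  have h3 : P ∈ I := (hI P).2 fun b => by
    rw [hP, Polynomial.coeff_monomial]
    split_ifs with h
    · exact h ▸ hf
    · exact zero_mem _
  have h4 := (hI' P).1 (h2 h3) l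
  rwa [hP, Polynomial.coeff_monomial, if_pos rfl] at h4

end Vale.Agent.P299
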