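import Vale.Agent.P299.M1a
import Vale.Agent.P271A.Weyl

/-! P299, part R: pointwise algebra and calculus. -/

open MeasureTheory Set Filter Topology Matrix
open scoped ContDiff ENNReal ComplexConjugate ComplexOrder MatrixOrder

noncomputable section

namespace Vale.Agent.P299

open Vale.Agent.P271A

section alg
variable {ι : Type} [Fintype ι] [LinearOrder ι]

/-- Contraction of a fixed polyvector as a linear map of the covector. -/
def cv (v : W ι) : (ι → ℂ) →ₗ[ℂ] W ι where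
  toFun ξ := ctr ξ *ᵥ v
  map_add' ξ η := by
    simp only [ctr, Pi.add_apply, add_smul, Finset.sum_add_distrib, add_mulVec]
  map_smul' c ξ := by
    simp only [ctr, Pi.smul_apply, smul_eq_mul, mul_smul, ← Finset.smul_sum, smul_mulVec,
      RingHom.id_apply]

theorem cv_apply (v : W ι) (ξ : ι → ℂ) : cv v ξ = ctr ξ *ᵥ v := rfl

theorem rb_ctr_apply (ξ : ι → ℂ) (v : W ι) (I : Finset ι) :
    (ctr ξ *ᵥ v) I = ∑ j, ξ j * ∑ J, an j I J * v J := by
  rw [ctr, sum_mulVec, Finset.sum_apply]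
  refine Finset.sum_congr rfl fun j _ => ?_
  rw [smul_mulVec]
  rfl

end alg

section q2
variable {κ : Type} [Fintype κ] [DecidableEq κ] {H : Matrix κ κ ℂ}

theorem rb_q2_rep (hH : H.PosSemidef) :
    ∃ B : Matrix κ κ ℂ, ∀ v, q2 H v = ∑ i, ‖(B *ᵥ v) i‖ ^ 2 := by
  obtain ⟨B, rfl⟩ := CStarAlgebra.nonneg_iff_eq_star_mul_self.mp hH.nonneg
  refine ⟨B, fun v => ?_⟩
  rw [q2, star_eq_conjTranspose, ← mulVec_mulVec, dotProduct_mulVec, ← star_mulVec, dotProduct,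
    Complex.re_sum]
  refine Finset.sum_congr rfl fun i _ => ?_
  rw [Pi.star_apply, Complex.star_def, Complex.conj_mul', ← Complex.ofReal_pow, Complex.ofReal_re]

theorem rb_q2_nonneg (hH : H.PosSemidef) (v : κ → ℂ) : 0 ≤ q2 H v := by
  obtain ⟨B, hB⟩ := rb_q2_rep hH
  rw [hB]
  positivity

omit [DecidableEq κ] in
theorem rb_q2_smul (c : ℂ) (v : κ → ℂ) : q2 H (c • v) = ‖c‖ ^ 2 * q2 H v := by
  rw [q2, q2, mulVec_smul, star_smul, smul_dotProduct, dotProduct_smul, smul_smul, smul_eq_mul,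
    Complex.star_def, Complex.conj_mul', ← Complex.ofReal_pow, Complex.re_ofReal_mul]

theorem rb_q2_sum (hH : H.PosSemidef) {σ : Type} [Fintype σ] (c : σ → ℂ) (w : σ → κ → ℂ) :
    q2 H (∑ s, c s • w s) ≤ (∑ s, ‖c s‖ ^ 2) * ∑ s, q2 H (w s) := by
  obtain ⟨B, hB⟩ := rb_q2_rep hH
  simp only [hB]
  rw [Finset.sum_comm, Finset.mul_sum]
  refine Finset.sum_le_sum fun i _ => ?_
  have h1 : ‖(B *ᵥ ∑ s, c s • w s) i‖ ≤ ∑ s, ‖c s‖ * ‖(B *ᵥ w s) i‖ := by
    rw [mulVec_sum, Finset.sum_apply]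
    refine (norm_sum_le _ _).trans (le_of_eq (Finset.sum_congr rfl fun s _ => ?_))
    rw [mulVec_smul, Pi.smul_apply, norm_smul]
  exact (pow_le_pow_left₀ (norm_nonneg _) h1 2).trans (Finset.sum_mul_sq_le_sq_mul_sq _ _ _)

theorem rb_q2_add (hH : H.PosSemidef) (v w : κ → ℂ) :
    q2 H (v + w) ≤ 2 * (q2 H v + q2 H w) := by
  have h := rb_q2_sum hH (fun _ : Fin 2 => (1 : ℂ)) ![v, w]
  simpa [Fin.sum_univ_two, one_add_one_eq_two] using h

end q2

theorem rb_kappa {s0 ε : ℝ} (hs : 0 < s0) (hε : 0 < ε) : ∃ (κ κ' : ℝ → ℝ) (δ : ℝ), 0 < δ ∧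
    (∀ s, 0 ≤ s → ContDiffAt ℝ ∞ κ s) ∧ (∀ s, 0 ≤ s → HasDerivAt κ (κ' s) s) ∧
    (∀ s, 0 ≤ κ s ∧ κ s ≤ 1) ∧ (∀ s, s0 ≤ s → κ s = 1) ∧ (∀ s, 0 ≤ s → s < δ → κ s = 0) ∧
    ∀ s, 0 ≤ s → |κ' s| * s ≤ ε := by
  obtain ⟨B, hB⟩ := wy_deriv_bound
  have hB0 : 0 ≤ B := (abs_nonneg _).trans (hB 0)
  obtain ⟨R, hR1, hR2, hR3⟩ : ∃ R : ℝ, 0 < R ∧ B / ε ≤ R ∧ -Real.log s0 ≤ R :=
    ⟨max 1 (max (B / ε) (-Real.log s0)), lt_max_of_lt_left one_pos,
      (le_max_left _ _).trans (le_max_right _ _), (le_max_right _ _).trans (le_max_right _ _)⟩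
  have he := Real.exp_pos (-3 * R)
  have hd : ∀ s, 0 ≤ s → HasDerivAt (fun s => Real.log (s + Real.exp (-3 * R)) / R + 2)
      ((s + Real.exp (-3 * R))⁻¹ / R) s := fun s h => by
    have h1 := ((hasDerivAt_id s).add_const (Real.exp (-3 * R))).log (add_pos_of_nonneg_of_pos h he).ne'
    simpa using (h1.div_const R).add_const 2
  refine ⟨fun s => Real.smoothTransition (Real.log (s + Real.exp (-3 * R)) / R + 2),
    fun s => deriv Real.smoothTransition (Real.log (s + Real.exp (-3 * R)) / R + 2) *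
      ((s + Real.exp (-3 * R))⁻¹ / R), Real.exp (-2 * R) - Real.exp (-3 * R),
    sub_pos.2 (Real.exp_lt_exp.2 (by linarith)), fun s h => ?_, fun s h => ?_,
    fun s => ⟨Real.smoothTransition.nonneg _, Real.smoothTransition.le_one _⟩, fun s h => ?_,
    fun s h h' => ?_, fun s h => ?_⟩
  · refine Real.smoothTransition.contDiff.contDiffAt.comp s ?_
    exact (((contDiffAt_id.add contDiffAt_const).log (add_pos_of_nonneg_of_pos h he).ne').div_const R).add
      contDiffAt_const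
  · exact (((Real.smoothTransition.contDiff (n := 1)).differentiable one_ne_zero
      _).hasDerivAt).comp s (hd s h)
  · refine Real.smoothTransition.one_of_one_le ?_
    have h1 : Real.log s0 ≤ Real.log (s + Real.exp (-3 * R)) := Real.log_le_log hs (by linarith)
    have h2 : -1 ≤ Real.log (s + Real.exp (-3 * R)) / R := by
      rw [le_div_iff₀ hR1]; linarith
    linarith
  · refine Real.smoothTransition.zero_of_nonpos ?_
    have h1 : Real.log (s + Real.exp (-3 * R)) ≤ -2 * R := by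
      rw [Real.log_le_iff_le_exp (by linarith)]; linarith
    have h2 : Real.log (s + Real.exp (-3 * R)) / R ≤ -2 := by
      rw [div_le_iff₀ hR1]; linarith
    linarith
  · have h0 : 0 < s + Real.exp (-3 * R) := by linarith
    rw [abs_mul, abs_of_nonneg (by positivity : 0 ≤ (s + Real.exp (-3 * R))⁻¹ / R), mul_assoc]
    have h1 : (s + Real.exp (-3 * R))⁻¹ / R * s ≤ 1 / R := by
      rw [div_mul_eq_mul_div]
      gcongr
      rw [inv_mul_le_iff₀ h0]; linarith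
    refine (mul_le_mul (hB _) h1 (by positivity) hB0).trans ?_
    rw [mul_one_div, div_le_iff₀ hR1]
    rwa [div_le_iff₀ hε, mul_comm] at hR2

variable {n : ℕ} {Y : Type} [TopologicalSpace Y] [MeasurableSpace Y] {D : RD n Y}

theorem holW_ctr {ξ : Y → Fin n → ℂ} {u : Y → W (Fin n)} (hξ : ∀ j, D.Hol fun y => ξ y j)
    (hu : HolW D u) : HolW D fun y => ctr (ξ y) *ᵥ u y := fun I => by
  simp only [rb_ctr_apply]
  exact RD.Hol.sum _ fun j _ => (hξ j).mul (RD.Hol.sum _ fun J _ => (RD.hol_const _).mul (hu J))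

theorem kill_of_flat {β : Y → ℝ} (hβ : D.SmR β) {u : Y → W (Fin n)} (hu : HolW D u)
    (h : ∀ y, ctr (dzv D (fun p => (β p : ℂ)) y) *ᵥ u y = 0) (y : Y) :
    Kill (LMd D β y) (u y) := fun k => by
  funext I
  have hH : ∀ j, D.Hol fun p => ∑ J, an j I J * u p J := fun j =>
    RD.Hol.sum _ fun J _ => (RD.hol_const _).mul (hu J)
  have e : (fun p => ∑ j, D.dz j (fun p => (β p : ℂ)) p * ∑ J, an j I J * u p J) = fun _ => 0 :=
    funext fun p => by
      have := congrFun (h p) I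
      rwa [rb_ctr_apply] at this
  have h1 := congrArg (fun f => D.db k f y) e
  simp only [RD.db] at h1
  rw [RD.dX_const, RD.dX_sum _ fun j _ => (RD.Sm.dz hβ j).mul (hH j).sm] at h1
  rw [rb_ctr_apply, Pi.zero_apply, ← h1]
  refine Finset.sum_congr rfl fun j _ => ?_
  have h2 := (hH j).db k y
  rw [RD.db] at h2
  rw [RD.dX_mul (RD.Sm.dz hβ j) (hH j).sm, h2, mul_zero, add_zero, RD.dz, RD.dX_comm hβ]
  rfl

theorem rb_dz_normSq {f : Y → ℂ} (hf : D.Hol f) (j : Fin n) (y : Y) :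
    D.dz j (fun p => ((‖f p‖ ^ 2 : ℝ) : ℂ)) y = conj (f y) * D.dz j f y := by
  have e : (fun p => ((‖f p‖ ^ 2 : ℝ) : ℂ)) = fun p => f p * conj (f p) :=
    funext fun p => by rw [Complex.mul_conj']; push_cast; rfl
  have h2 := hf.dz_conj j y
  rw [RD.dz] at h2
  rw [e, RD.dz, RD.dX_mul hf.sm hf.sm.conj, h2, mul_zero, add_zero, mul_comm]
  rfl

theorem rb_sm_sum {κ : Type} [Fintype κ] {a : κ → Y → ℂ} (ha : ∀ i, D.Hol (a i)) :
    D.SmR fun p => ∑ i, ‖a i p‖ ^ 2 := RD.SmR.sum _ fun i _ => (ha i).sm.normSq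

theorem rb_dz_sum {κ : Type} [Fintype κ] {a : κ → Y → ℂ} (ha : ∀ i, D.Hol (a i)) (j : Fin n)
    (y : Y) : D.dz j (fun p => ((∑ i, ‖a i p‖ ^ 2 : ℝ) : ℂ)) y =
      ∑ i, conj (a i y) * D.dz j (a i) y := by
  simp only [Complex.ofReal_sum]
  rw [RD.dz, RD.dX_sum _ fun i _ => (ha i).sm.normSq]
  exact Finset.sum_congr rfl fun i _ => rb_dz_normSq (ha i) j y

theorem rb_dz_log {φ : Y → ℝ} (hφ : D.SmR φ) {y : Y} (h : φ y ≠ 0) (j : Fin n) :
    D.dz j (fun p => (Real.log (φ p) : ℂ)) y = (φ y : ℂ)⁻¹ * D.dz j (fun p => (φ p : ℂ)) y := by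
  rw [RD.dz, RD.dX_comp hφ (Real.hasDerivAt_log h), Complex.ofReal_inv]
  rfl

end Vale.Agent.P299
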