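import Vale.Agent.P299.RA
import Vale.Agent.P299.RB
import Vale.Agent.P299.Lb

/-! P299, part R: the differential of a section along the foliation. -/

open MeasureTheory Set Filter Topology Matrix
open scoped ContDiff ENNReal ComplexConjugate ComplexOrder

noncomputable section

namespace Vale.Agent.P299

open Vale.Agent.P271A

variable {n N : ℕ} {Y : Type} [TopologicalSpace Y] [T2Space Y] [SecondCountableTopology Y]
  [MeasurableSpace Y] [BorelSpace Y] {A : AD n N Y}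

/-- The covariant differential of a section of `l H`. -/
def AD.xi (A : AD n N Y) (l : ℕ) (g : Y → ℂ) (i : Fin (N + 1)) (y : Y) : Fin n → ℂ :=
  fun j => A.x i y * A.D.dz j g y - l * (g y * A.D.dz j (A.x i) y)

theorem AD.Good.rc_eta (hA : A.Good) (e : Fin (N + 1) × Fin (N + 1)) (y : Y) (w : Fin n → ℂ) :
    ‖A.eta e y ⬝ᵥ w‖ ^ 2 ≤ 2 * (A.nx y ^ 2 * A.D.levi A.ρ y w) := by
  have h0 : 0 < A.nx y := one_pos.trans_le (hA.one_le_nx y)
  have h1 : LMd A.D A.ρ y = ((2 * A.nx y ^ 2 : ℝ) : ℂ)⁻¹ •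
      ∑ e : Fin (N + 1) × Fin (N + 1), vecMulVec (star (A.eta e y)) (A.eta e y) :=
    LMd_lg hA.hx (fun y => ⟨0, by simp [hA.x0]⟩) y
  have h2 : ∀ η : Fin n → ℂ, star w ⬝ᵥ vecMulVec (star η) η *ᵥ w = ((‖η ⬝ᵥ w‖ ^ 2 : ℝ) : ℂ) :=
    fun η => by
      rw [vecMulVec_mulVec, op_smul_eq_smul, dotProduct_smul, smul_eq_mul,
        star_dotProduct_star, Complex.star_def, Complex.mul_conj', Complex.ofReal_pow]
  have h3 : A.D.levi A.ρ y w = (2 * A.nx y ^ 2)⁻¹ * ∑ e, ‖A.eta e y ⬝ᵥ w‖ ^ 2 := by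
    rw [← q2_LMd, h1, q2, smul_mulVec, dotProduct_smul, sum_mulVec, dotProduct_sum]
    simp only [h2]
    rw [← Complex.ofReal_sum, ← Complex.ofReal_inv, smul_eq_mul, ← Complex.ofReal_mul,
      Complex.ofReal_re]
  rw [h3, ← mul_assoc, ← mul_assoc, mul_inv_cancel₀ (by positivity), one_mul]
  exact Finset.single_le_sum (f := fun e => ‖A.eta e y ⬝ᵥ w‖ ^ 2) (fun _ _ => sq_nonneg _)
    (Finset.mem_univ e)

theorem AD.Good.xi_bd (hA : A.Good) {l : ℕ} {g : Y → ℂ} (hg : g ∈ A.S 0 l) :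
    ∃ C : ℝ, ∀ i y w, ‖A.xi l g i y ⬝ᵥ w‖ ^ 2 ≤ C * (A.nx y ^ (l + 1) * A.D.levi A.ρ y w) := by
  let X : ℕ → (Y → ℂ) → Fin (N + 1) × Y × (Fin n → ℂ) → ℂ :=
    fun l g z => A.xi l g z.1 z.2.1 ⬝ᵥ z.2.2
  let wt : ℕ → Fin (N + 1) × Y × (Fin n → ℂ) → ℝ :=
    fun l z => A.nx z.2.1 ^ (l + 1) * A.D.levi A.ρ z.2.1 z.2.2
  suffices h : g ∈ A.S 0 l ∧ X l g ∈ BS (wt l) from
    let ⟨C, hC⟩ := h.2; ⟨C, fun i y w => hC (i, y, w)⟩
  refine hA.S0_ind (p := fun l g => g ∈ A.S 0 l ∧ X l g ∈ BS (wt l)) ⟨hA.one_mem, ?_⟩ ?_ ?_ ?_ hg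
  · have e : X 0 1 = 0 := funext fun z => by
      have h : ∀ j, A.D.dz j 1 z.2.1 = 0 := fun j => RD.dX_const 1 _
      simp [X, AD.xi, dotProduct, h]
    rw [e]
    exact zero_mem _
  · rintro l f g ⟨hf, hf'⟩ ⟨hg, hg'⟩
    refine ⟨add_mem hf hg, ?_⟩
    have e : X l (f + g) = X l f + X l g := funext fun z => by
      have h : ∀ j, A.D.dz j (f + g) z.2.1 = A.D.dz j f z.2.1 + A.D.dz j g z.2.1 :=
        fun j => RD.dX_add hf.1.sm hg.1.sm _
      simp only [X, AD.xi, dotProduct, h, Pi.add_apply, ← Finset.sum_add_distrib]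
      exact Finset.sum_congr rfl fun j _ => by ring
    rw [e]
    exact add_mem hf' hg'
  · rintro l c f ⟨hf, hf'⟩
    refine ⟨Submodule.smul_mem _ c hf, ?_⟩
    have e : X l (c • f) = c • X l f := funext fun z => by
      have h : ∀ j, A.D.dz j (c • f) z.2.1 = c * A.D.dz j f z.2.1 :=
        fun j => RD.dX_const_mul hf.1.sm c _
      simp only [X, AD.xi, dotProduct, h, Pi.smul_apply, smul_eq_mul, Finset.mul_sum]
      exact Finset.sum_congr rfl fun j _ => by ring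
    rw [e]
    exact Submodule.smul_mem _ c hf'
  · rintro l k f ⟨hf, hf'⟩
    refine ⟨by simpa [add_comm] using AD.S0_mul (hA.x_mem k) hf, ?_⟩
    have e : X (l + 1) (A.x k * f) = (fun z => A.x k z.2.1) * X l f +
        (fun z => f z.2.1) * fun z => A.eta (z.1, k) z.2.1 ⬝ᵥ z.2.2 := funext fun z => by
      have h : ∀ j, A.D.dz j (A.x k * f) z.2.1 =
          A.D.dz j (A.x k) z.2.1 * f z.2.1 + A.x k z.2.1 * A.D.dz j f z.2.1 :=
        fun j => RD.dX_mul (hA.hx k).sm hf.1.sm _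
      simp only [X, AD.xi, AD.eta, dotProduct, h, Pi.add_apply, Pi.mul_apply, Finset.mul_sum,
        ← Finset.sum_add_distrib]
      exact Finset.sum_congr rfl fun j _ => by push_cast; ring
    rw [e]
    have b1 := BS_comp (AD.S0_BS (hA.x_mem k)) fun z : Fin (N + 1) × Y × (Fin n → ℂ) => z.2.1
    have b2 := BS_comp (AD.S0_BS hf) fun z : Fin (N + 1) × Y × (Fin n → ℂ) => z.2.1
    have b3 : (fun z : Fin (N + 1) × Y × (Fin n → ℂ) => A.eta (z.1, k) z.2.1 ⬝ᵥ z.2.2) ∈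
        BS fun z => A.nx z.2.1 ^ 2 * A.D.levi A.ρ z.2.1 z.2.2 :=
      ⟨2, fun z => hA.rc_eta (z.1, k) z.2.1 z.2.2⟩
    refine add_mem (BS_mul b1 hf' fun z => ?_) (BS_mul b2 b3 fun z => ?_)
    · simp only [wt]; ring
    · simp only [wt]; ring

omit [T2Space Y] [SecondCountableTopology Y] [BorelSpace Y] in
theorem AD.comp_smul (c : Y → ℂ) (L : List (Fin (N + 1) × Fin (N + 1))) (v : Y → W (Fin n)) :
    A.comp L (fun y => c y • v y) = c * A.comp L v := by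
  induction L generalizing v with
  | nil => rfl
  | cons e L ih =>
    simp only [AD.comp, mulVec_smul]
    exact ih _

omit [T2Space Y] [SecondCountableTopology Y] [BorelSpace Y] in
theorem AD.Good.hol_xi (hA : A.Good) {l : ℕ} {g : Y → ℂ} (hg : A.D.Hol g) (i : Fin (N + 1))
    (j : Fin n) : A.D.Hol fun y => A.xi l g i y j :=
  ((hA.hx i).mul (hg.dz j)).sub ((RD.hol_const _).mul (hg.mul ((hA.hx i).dz j)))

theorem AD.Good.xi_comp (hA : A.Good) {q m l : ℕ} {u : Y → W (Fin n)} (hu : A.IsV (q + 1) m u)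
    {g : Y → ℂ} (hg : g ∈ A.S 0 l) (i : Fin (N + 1)) (L : Fin q → Fin (N + 1) × Fin (N + 1)) :
    A.comp (List.ofFn L) (fun y => ctr (A.xi l g i y) *ᵥ u y) ∈ A.S m (2 * q + (l + 1)) := by
  refine ⟨hA.hol_comp (holW_ctr (hA.hol_xi hg.1 i) hu.hol) _, ?_⟩
  obtain ⟨C, hC⟩ := hA.xi_bd hg
  obtain ⟨C', hC'⟩ := hu.bdd
  refine ⟨q.factorial * 2 ^ q * (|C| * C'), fun y => ?_⟩
  have hG := hA.pos.2 y
  have h0 : 0 < A.nx y := one_pos.trans_le (hA.one_le_nx y)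
  have h1 : q2 (LMd A.D A.ρ y)⁻¹ (star (A.xi l g i y)) ≤ |C| * A.nx y ^ (l + 1) := by
    refine (q2_inv_le hG _).2 ⟨by positivity, fun w => ?_⟩
    rw [star_star, mul_assoc]
    refine (hC i y w).trans ?_
    rw [← q2_LMd]
    exact mul_le_mul_of_nonneg_right (le_abs_self C)
      (mul_nonneg (by positivity) (rb_q2_nonneg hG.posSemidef _))
  have h2 := (q2_ctr_le hG (A.xi l g i y) (u y)).trans
    (mul_le_mul h1 (hC' y) (rb_q2_nonneg (Gm_psd hG.posSemidef) _) (by positivity))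
  have h3 := hA.q2_comp (v := fun y => ctr (A.xi l g i y) *ᵥ u y) (fun y => (hu.deg y).ctr _) y
  refine (Finset.single_le_sum (f := fun L : Fin q → Fin (N + 1) × Fin (N + 1) =>
    ‖A.comp (List.ofFn L) (fun y => ctr (A.xi l g i y) *ᵥ u y) y‖ ^ 2) (fun _ _ => sq_nonneg _)
    (Finset.mem_univ L)).trans ?_
  rw [← h3]
  refine (mul_le_mul_of_nonneg_left h2 (by positivity)).trans_eq ?_
  push_cast
  ring

/-- Sections whose products with all `a i` are sections. -/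
def AD.Jd (A : AD n N Y) {κ : Type} (a : κ → Y → ℂ) (l : ℕ) : Submodule ℂ (Y → ℂ) :=
  A.S 0 l ⊓ ⨅ i, (A.S 0 l).comap (LinearMap.mulLeft ℂ (a i))

omit [T2Space Y] [SecondCountableTopology Y] [BorelSpace Y] in
theorem AD.mem_Jd {κ : Type} {a : κ → Y → ℂ} {l : ℕ} {g : Y → ℂ} :
    g ∈ A.Jd a l ↔ g ∈ A.S 0 l ∧ ∀ i, a i * g ∈ A.S 0 l := by
  simp [AD.Jd]

theorem AD.Good.xi_ideal (hA : A.Good) {κ : Type} {a : κ → Y → ℂ} (ha : ∀ i, A.D.Hol (a i))
    {N0 : ℕ} {r : Y → ℝ} (hr : ∀ l, A.Jd a l ≤ BS fun y => A.nx y ^ l * r y) {q m : ℕ}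
    {u : Y → W (Fin n)} (hu : A.IsV q m u) (hf : ∀ i y, ctr (dzv A.D (a i) y) *ᵥ u y = 0)
    {g : Y → ℂ} (hg : g ∈ A.Jd a N0) (i : Fin (N + 1)) :
    ∃ C : ℝ, ∀ y, q2 (Gm (LMd A.D A.ρ y)) (ctr (A.xi N0 g i y) *ᵥ u y) ≤
      C * (Real.exp (m * A.φ y) * (A.nx y ^ (N0 + 1) * r y)) := by
  rcases q with _ | q
  · exact ⟨0, fun y => by simp [(hu.deg y).ctr_zero, q2]⟩
  rw [AD.mem_Jd] at hg
  obtain ⟨d, s, e, c, hc, he, hl⟩ := hA.bpf (-m)
  have hpos : ∀ y, 0 < A.nx y := fun y => one_pos.trans_le (hA.one_le_nx y)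
  have h1 : ∀ L : Fin q → Fin (N + 1) × Fin (N + 1),
      A.comp (List.ofFn L) (fun y => ctr (A.xi N0 g i y) *ᵥ u y) ∈
        BS fun y => Real.exp (m * A.φ y) * (A.nx y ^ (2 * q + (N0 + 1)) * r y) := fun L => by
    have h2 : ∀ k, a k * A.comp (List.ofFn L) (fun y => ctr (A.xi N0 g i y) *ᵥ u y) ∈
        A.S m (2 * q + (N0 + 1)) := fun k => by
      have e1 : (fun y => a k y • (ctr (A.xi N0 g i y) *ᵥ u y)) =
          fun y => ctr (A.xi N0 (a k * g) i y) *ᵥ u y := funext fun y => by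
        have e2 : A.xi N0 (a k * g) i y =
            a k y • A.xi N0 g i y + (A.x i y * g y) • dzv A.D (a k) y := funext fun j => by
          have h : A.D.dz j (a k * g) y = A.D.dz j (a k) y * g y + a k y * A.D.dz j g y :=
            RD.dX_mul (ha k).sm hg.1.1.sm _
          simp only [AD.xi, dzv, h, Pi.add_apply, Pi.smul_apply, Pi.mul_apply, smul_eq_mul]
          ring
        rw [e2, ← cv_apply, ← cv_apply, map_add, map_smul, map_smul, cv_apply _ (dzv _ _ _), hf,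
          smul_zero, add_zero]
      rw [← AD.comp_smul, e1]
      exact hA.xi_comp hu (hg.2 k) i L
    have h3 : ∀ t, A.comp (List.ofFn L) (fun y => ctr (A.xi N0 g i y) *ᵥ u y) * e t ∈
        A.Jd a (2 * q + (N0 + 1) + d) := fun t => AD.mem_Jd.2
      ⟨by simpa using AD.S_mul (hA.xi_comp hu hg.1 i L) (he t), fun k => by
        rw [← mul_assoc]; simpa using AD.S_mul (h2 k) (he t)⟩
    obtain ⟨C, hC⟩ := BS_sum fun t => hr _ (h3 t)
    refine ⟨C / c, fun y => ?_⟩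
    have h4 := hC y
    simp only [Pi.mul_apply, norm_mul, mul_pow, ← Finset.mul_sum] at h4
    have h5 := (mul_le_mul_of_nonneg_left (hl y) (sq_nonneg _)).trans h4
    have h6 := hpos y
    have h7 : 0 < c * (Real.exp (((-m : ℤ) : ℝ) * A.φ y) * A.nx y ^ d) := by positivity
    refine le_of_mul_le_mul_right (h5.trans_eq ?_) h7
    have e3 : Real.exp (((-m : ℤ) : ℝ) * A.φ y) = (Real.exp (m * A.φ y))⁻¹ := by
      rw [← Real.exp_neg]; push_cast; ring_nf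
    rw [e3]
    field_simp
    ring
  obtain ⟨C, hC⟩ := BS_sum h1
  refine ⟨C / (q.factorial * 2 ^ q), fun y => ?_⟩
  have h3 := hA.q2_comp (v := fun y => ctr (A.xi N0 g i y) *ᵥ u y) (fun y => (hu.deg y).ctr _) y
  have h6 := hpos y
  have h7 : 0 < (q.factorial : ℝ) * (2 * A.nx y ^ 2) ^ q := by positivity
  refine le_of_mul_le_mul_left (h3.trans_le ((hC y).trans_eq ?_)) h7
  field_simp
  ring

end Vale.Agent.P299
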