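import Vale.Agent.P299.Defs2

/-! P299, part U1: linear algebra and one variable facts. -/

open Set Filter Topology Matrix Polynomial
open scoped ComplexConjugate ComplexOrder

noncomputable section

namespace Vale.Agent.P299

open Vale.Agent.P271 Vale.Agent.P272

variable {n q : ℕ} {G : Mx n}

theorem u1_re_const {f : Cn n → ℂ} {z : Cn n} (hf : AnalyticAt ℂ f z)
    (h : ∀ᶠ w in 𝓝 z, (f w).im = 0) : ∀ᶠ w in 𝓝 z, f w = f z := by
  refine hf.eventually_constant_or_nhds_le_map_nhds.resolve_right fun hl => ?_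
  have h1 : ∀ᶠ u in 𝓝 (f z), u.im = 0 := hl h
  have h2 : Tendsto (fun t : ℝ => f z + t * Complex.I) (𝓝[>] 0) (𝓝 (f z)) := by
    have : Continuous fun t : ℝ => f z + t * Complex.I := by fun_prop
    simpa using (this.tendsto 0).mono_left nhdsWithin_le_nhds
  obtain ⟨t, h3, h4⟩ := ((h2.eventually h1).and self_mem_nhdsWithin).exists
  have h5 := h.self_of_nhds
  simp [h5] at h3
  exact (ne_of_gt h4) h3

theorem u1_conj_const {f : Cn n → ℂ} {z : Cn n} (hf : AnalyticAt ℂ f z)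
    (hg : AnalyticAt ℂ (fun w => star (f w)) z) : ∀ᶠ w in 𝓝 z, f w = f z := by
  have h1 := u1_re_const (f := fun w => f w + star (f w)) (hf.add hg) (by simp)
  have h2 := u1_re_const (f := fun w => (f w - star (f w)) * Complex.I)
    ((hf.sub hg).mul analyticAt_const) (by simp)
  filter_upwards [h1, h2] with w h1 h2
  have h3 := mul_right_cancel₀ Complex.I_ne_zero h2
  linear_combination (h1 + h3) / 2

theorem u1_an_det {F : Cn n → Mx n} {z : Cn n} (h : ∀ i j, AnalyticAt ℂ (fun w => F w i j) z) :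
    AnalyticAt ℂ (fun w => (F w).det) z := by
  simp only [det_apply']
  exact Finset.analyticAt_fun_sum _ fun σ _ =>
    analyticAt_const.mul (Finset.analyticAt_fun_prod _ fun i _ => h _ _)

theorem u1_an_dot {f g : Cn n → Cn n} {z : Cn n} (hf : AnalyticAt ℂ f z) (hg : AnalyticAt ℂ g z) :
    AnalyticAt ℂ (fun w => f w ⬝ᵥ g w) z :=
  Finset.analyticAt_fun_sum _ fun i _ => (analyticAt_pi_iff.1 hf i).mul (analyticAt_pi_iff.1 hg i)

theorem u1_adj (hG : G.IsHermitian) (v w : Cn n) : star (G *ᵥ v) ⬝ᵥ w = star v ⬝ᵥ G *ᵥ w := by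
  rw [star_mulVec, hG.eq, dotProduct_mulVec]

theorem u1_zero (hG : G.PosDef) {v : Cn n} (h : star v ⬝ᵥ G *ᵥ v = 0) : v = 0 := by
  by_contra hv
  exact (hG.dotProduct_mulVec_pos hv).ne' h

theorem u1_onb {E : Type} [AddCommGroup E] [Module ℂ E] (ev : E →ₗ[ℂ] Cn n) (hG : G.PosDef) :
    ∃ (q : ℕ) (ξ : Fin q → E),
      (∀ i j, star (ev (ξ i)) ⬝ᵥ G *ᵥ ev (ξ j) = if i = j then 1 else 0) ∧
      ∀ ζ, ∃ c : Fin q → ℂ, ev ζ = ∑ i, c i • ev (ξ i) := by
  obtain ⟨y, hy⟩ := Mat_root hG.posSemidef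
  let L : E →ₗ[ℂ] EuclideanSpace ℂ (Fin n) :=
    (WithLp.linearEquiv 2 ℂ (Cn n)).symm.toLinearMap ∘ₗ Matrix.toLin' y ∘ₗ ev
  have hL : ∀ a b, inner ℂ (L a) (L b) = star (ev a) ⬝ᵥ G *ᵥ ev b := fun a b => by
    rw [EuclideanSpace.inner_eq_star_dotProduct, hy, ← mulVec_mulVec, dotProduct_mulVec,
      ← star_mulVec, dotProduct_comm]
    rfl
  let b := stdOrthonormalBasis ℂ (LinearMap.range L)
  choose ξ hξ using fun i => (b i).2
  refine ⟨_, ξ, fun i j => ?_, fun ζ => ⟨fun i => b.repr ⟨L ζ, ζ, rfl⟩ i, ?_⟩⟩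
  · rw [← hL, hξ, hξ, ← orthonormal_iff_ite.1 b.orthonormal i j]
    rfl
  · have h1 := congrArg Subtype.val (b.sum_repr ⟨L ζ, ζ, rfl⟩)
    rw [← sub_eq_zero]
    refine u1_zero hG ?_
    have h2 : L (ζ - ∑ i, b.repr ⟨L ζ, ζ, rfl⟩ i • ξ i) = 0 := by
      simp only [map_sub, map_sum, map_smul, hξ]
      rw [sub_eq_zero]
      simpa using h1.symm
    have h3 := hL (ζ - ∑ i, b.repr ⟨L ζ, ζ, rfl⟩ i • ξ i) (ζ - ∑ i, b.repr ⟨L ζ, ζ, rfl⟩ i • ξ i)
    rw [h2, inner_zero_left] at h3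
    simpa only [map_sub, map_sum, map_smul] using h3.symm

/-- The orthogonal projector of an orthonormal family. -/
def u1pj (G : Mx n) (v : Fin q → Cn n) : Mx n := ∑ i, vecMulVec (v i) (star (G *ᵥ v i))

theorem u1pj_mulVec (hG : G.IsHermitian) (v : Fin q → Cn n) (w : Cn n) :
    u1pj G v *ᵥ w = ∑ i, (star (v i) ⬝ᵥ G *ᵥ w) • v i := by
  simp only [u1pj, sum_mulVec, vecMulVec_mulVec, op_smul_eq_smul, u1_adj hG]

theorem u1pj_fix (hG : G.IsHermitian) {v : Fin q → Cn n}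
    (hv : ∀ i j, star (v i) ⬝ᵥ G *ᵥ v j = if i = j then 1 else 0) (c : Fin q → ℂ) :
    u1pj G v *ᵥ (∑ j, c j • v j) = ∑ j, c j • v j := by
  rw [u1pj_mulVec hG]
  refine Finset.sum_congr rfl fun i _ => ?_
  simp [mulVec_sum, mulVec_smul, dotProduct_sum, hv]

theorem u1pj_left {v : Fin q → Cn n} {T T' : Mx n} (h : ∀ i, T *ᵥ v i = T' *ᵥ v i) :
    T * u1pj G v = T' * u1pj G v := by
  simp only [u1pj, Finset.mul_sum, mul_vecMulVec, h]

theorem u1pj_psd (G : Mx n) (v : Fin q → Cn n) : (G * u1pj G v).PosSemidef := by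
  simp only [u1pj, Finset.mul_sum, mul_vecMulVec]
  exact Finset.sum_induction _ _ (fun _ _ => PosSemidef.add) PosSemidef.zero
    fun i _ => posSemidef_vecMulVec_self_star _

theorem u1pj_mul (hG : G.IsHermitian) {v v' : Fin q → Cn n}
    (hv : ∀ i j, star (v i) ⬝ᵥ G *ᵥ v j = if i = j then 1 else 0)
    (h : ∀ i, ∃ c : Fin q → ℂ, v' i = ∑ j, c j • v j) : u1pj G v * u1pj G v' = u1pj G v' := by
  rw [u1pj_left (T' := 1), one_mul]
  intro i
  obtain ⟨c, hc⟩ := h i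
  rw [hc, u1pj_fix hG hv, one_mulVec]

theorem u1_self (v : Fin q → Cn n) (i : Fin q) : ∃ c : Fin q → ℂ, v i = ∑ j, c j • v j :=
  ⟨Pi.single i 1, by simp [Pi.single_apply]⟩

theorem u1_cancel (hG : G.PosDef) {A B : Mx n} (h : G * A = G * B) : A = B :=
  hG.isUnit.mul_left_cancel h

theorem u1pj_eq (hG : G.PosDef) {v v' : Fin q → Cn n}
    (hv : ∀ i j, star (v i) ⬝ᵥ G *ᵥ v j = if i = j then 1 else 0)
    (hv' : ∀ i j, star (v' i) ⬝ᵥ G *ᵥ v' j = if i = j then 1 else 0)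
    (h : ∀ i, ∃ c : Fin q → ℂ, v' i = ∑ j, c j • v j)
    (h' : ∀ i, ∃ c : Fin q → ℂ, v i = ∑ j, c j • v' j) : u1pj G v = u1pj G v' := by
  have h1 := u1pj_mul hG.1 hv h
  have h2 := u1pj_mul hG.1 hv' h'
  have h3 := (u1pj_psd G v).1.eq
  have h4 := (u1pj_psd G v').1.eq
  refine u1_cancel hG ?_
  calc G * u1pj G v = G * u1pj G v' * u1pj G v := by rw [mul_assoc, h2]
    _ = (u1pj G v')ᴴ * (G * u1pj G v) := by
        rw [← h4, conjTranspose_mul, hG.1.eq, mul_assoc]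
    _ = (G * u1pj G v * u1pj G v')ᴴ := by rw [conjTranspose_mul, h3]
    _ = G * u1pj G v' := by rw [mul_assoc, h1, h4]

theorem u1pj_compat {G' D : Mx n} {v v' : Fin q → Cn n} (hG : G = Dᴴ * G' * D)
    (hv : ∀ i, v' i = D *ᵥ v i) : D * u1pj G v = u1pj G' v' * D := by
  simp only [u1pj, Finset.mul_sum, Finset.sum_mul, mul_vecMulVec, vecMulVec_mul, hv, hG,
    ← mulVec_mulVec]
  refine Finset.sum_congr rfl fun i _ => ?_
  rw [star_mulVec Dᴴ, conjTranspose_conjTranspose]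

theorem u1_aeval_conj {D A B : Mx n} (h : D * A = B * D) (P : ℂ[X]) :
    D * aeval A P = aeval B P * D := by
  have h' : SemiconjBy D A B := h
  refine P.induction_on' (fun p r hp hr => by rw [map_add, map_add, mul_add, add_mul, hp, hr])
    fun k c => ?_
  rw [aeval_monomial, aeval_monomial, Algebra.algebraMap_eq_smul_one, smul_mul_assoc,
    smul_mul_assoc, one_mul, one_mul, Matrix.mul_smul, Matrix.smul_mul, (h'.pow_right k).eq]

theorem u1_det_conj {D A B : Mx n} (hD : D.det ≠ 0) (h : D * A = B * D) (l : ℂ) :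
    (scalar (Fin n) l - A).det = (scalar (Fin n) l - B).det := by
  have h1 : D * (scalar (Fin n) l - A) = (scalar (Fin n) l - B) * D := by
    rw [mul_sub, sub_mul, h, (scalar_commute l (fun _ => Commute.all _ _) D).eq]
  have h2 := congrArg det h1
  rw [det_mul, det_mul, mul_comm] at h2
  exact mul_right_cancel₀ hD h2

theorem u1_det_im (hG : G.PosDef) {B : Mx n} (hB : (G * B).IsHermitian) (l : ℝ) :
    (scalar (Fin n) (l : ℂ) - B).det.im = 0 := by
  have h1 : (G * (scalar (Fin n) (l : ℂ) - B)).IsHermitian := by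
    rw [mul_sub]
    refine IsHermitian.sub ?_ hB
    rw [scalar_apply, ← smul_one_eq_diagonal, Matrix.mul_smul, mul_one]
    unfold IsHermitian
    rw [conjTranspose_smul, hG.1.eq]
    simp
  have h2 := congrArg Complex.im (det_eq_re h1)
  rw [det_mul, det_eq_re hG.1] at h2
  simpa [(det_re_pos hG).ne'] using h2

theorem u1_lin (hG : G.PosDef) {B Q : Mx n} (hB : (G * B).PosSemidef) (hQ : (G * Q).PosSemidef)
    {P : ℂ[X]} (h0 : P.eval 0 = 1)
    (hl : ∀ l : ℝ, l ≠ 0 → (scalar (Fin n) (l : ℂ) - (B + Q)).det = 0 → P.eval (l : ℂ) = 0)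
    {N : Mx n} (hN : N = aeval (B + Q) P) :
    (G * N).IsHermitian ∧ N * N = N ∧ N * B = 0 ∧ N * Q = 0 ∧ Q * N = 0 := by
  obtain ⟨D, l, hD, h1, h2⟩ := Mat_simul hG (B := G * (B + Q))
    (by rw [mul_add]; exact hB.1.add hQ.1)
  have hu : IsUnit D := (isUnit_iff_isUnit_det D).2 hD.isUnit
  have hu' : IsUnit Dᴴ := (isUnit_conjTranspose D).2 hu
  have hG' : G = Dᴴ * D := by rw [h1]; simp [MatDg]
  have h3 : D * (B + Q) = diagonal (fun i => (l i : ℂ)) * D := by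
    refine hu'.mul_left_cancel ?_
    rw [← mul_assoc, ← hG', h2, mul_assoc]
    rfl
  have h4 : ∀ i, P.eval (l i : ℂ) = if l i = 0 then 1 else 0 := fun i => by
    split_ifs with h
    · simpa [h] using h0
    · refine hl _ h ?_
      rw [u1_det_conj hD h3, scalar_apply, diagonal_sub, det_diagonal]
      exact Finset.prod_eq_zero (Finset.mem_univ i) (sub_self _)
  have h5 : D * N = diagonal (fun i => if l i = 0 then (1 : ℂ) else 0) * D := by
    rw [hN, u1_aeval_conj h3]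
    congr 1
    refine (aeval_algHom_apply (diagonalAlgHom ℂ) (fun i => (l i : ℂ)) P).trans ?_
    rw [diagonalAlgHom_apply]
    congr 1
    funext i
    rw [← h4, aeval_pi_apply₂]
    simp
  have h6 : (G * N).IsHermitian := by
    rw [hG', mul_assoc, h5, ← mul_assoc]
    refine isHermitian_conjTranspose_mul_mul D (isHermitian_diagonal_iff.2 fun i => ?_)
    split_ifs <;> simp
  have h7 : (B + Q) * N = 0 := by
    refine hu.mul_left_cancel ?_
    rw [← mul_assoc, h3, mul_assoc, h5, ← mul_assoc, diagonal_mul_diagonal]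
    have : (fun i => (l i : ℂ) * if l i = 0 then (1 : ℂ) else 0) = fun _ => 0 := by
      funext i
      split_ifs with h <;> simp [h]
    rw [this]
    simp
  have h8 : ∀ v, (G * B) *ᵥ N *ᵥ v = 0 ∧ (G * Q) *ᵥ N *ᵥ v = 0 := fun v => by
    have k1 := hB.dotProduct_mulVec_nonneg (N *ᵥ v)
    have k2 := hQ.dotProduct_mulVec_nonneg (N *ᵥ v)
    have k3 : star (N *ᵥ v) ⬝ᵥ (G * B) *ᵥ N *ᵥ v + star (N *ᵥ v) ⬝ᵥ (G * Q) *ᵥ N *ᵥ v = 0 := by
      rw [← dotProduct_add, ← add_mulVec, ← mul_add, mulVec_mulVec, mul_assoc, h7]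
      simp
    obtain ⟨k4, k5⟩ := (add_eq_zero_iff_of_nonneg k1 k2).1 k3
    exact ⟨(hB.dotProduct_mulVec_zero_iff _).1 k4, (hQ.dotProduct_mulVec_zero_iff _).1 k5⟩
  have h9 : ∀ T : Mx n, (G * T).IsHermitian → (∀ v, (G * T) *ᵥ N *ᵥ v = 0) →
      T * N = 0 ∧ N * T = 0 := fun T hT h => by
    have k1 : G * T * N = 0 := by
      refine ext_of_mulVec_single fun i => ?_
      rw [← mulVec_mulVec, h, zero_mulVec]
    refine ⟨u1_cancel hG (by rw [← mul_assoc, k1, mul_zero]), u1_cancel hG ?_⟩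
    have k2 := congrArg conjTranspose k1
    rw [conjTranspose_mul, hT.eq, ← mul_assoc] at k2
    rw [← mul_assoc, ← h6.eq, conjTranspose_mul, hG.1.eq, k2]
    simp
  refine ⟨h6, hu.mul_left_cancel ?_, (h9 B hB.1 fun v => (h8 v).1).2,
    (h9 Q hQ.1 fun v => (h8 v).2).2, (h9 Q hQ.1 fun v => (h8 v).2).1⟩
  rw [← mul_assoc, h5, mul_assoc, h5, ← mul_assoc, diagonal_mul_diagonal]
  congr 2
  funext i
  split_ifs <;> simp

theorem u1_poly (B : Mx n) : ∃ P : ℂ[X], P.eval 0 = 1 ∧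
    ∀ l : ℂ, l ≠ 0 → (scalar (Fin n) l - B).det = 0 → P.eval l = 0 := by
  obtain ⟨μ, h1, h2⟩ := exists_eq_pow_rootMultiplicity_mul_and_not_dvd B.charpoly
    B.charpoly_monic.ne_zero 0
  rw [dvd_iff_isRoot, IsRoot.def] at h2
  refine ⟨C (μ.eval 0)⁻¹ * μ, by simp [h2], fun l hl h => ?_⟩
  rw [← Matrix.eval_charpoly, h1] at h
  simp [hl] at h
  simp [h]

theorem u1_kill {T B : Mx n} (h : T * B = 0) {P : ℂ[X]} (h0 : P.eval 0 = 1) :
    T * (1 - aeval B P) = 0 := by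
  obtain ⟨R, hR⟩ : X ∣ 1 - P := by
    rw [X_dvd_iff, coeff_zero_eq_eval_zero]
    simp [h0]
  have := congrArg (aeval B) hR
  rw [map_sub, map_one, map_mul, aeval_X] at this
  rw [this, ← mul_assoc, h, zero_mul]

end Vale.Agent.P299
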