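import Vale.Agent.P299.Defs2

/-! P299, part U1: the three parallel projectors. -/

open Set Filter Topology Matrix Polynomial
open scoped ContDiff ComplexConjugate ComplexOrder

noncomputable section

namespace Vale.Agent.P299

open Vale.Agent.P271 Vale.Agent.P272

variable {n : ℕ}

section Alg

variable {G B C Q R : Mx n}

theorem U1P_adj (hG : G.PosDef) (h : (G * B).IsHermitian) : Bᴴ * G = G * B := by
  have h1 := h.eq
  rwa [conjTranspose_mul, hG.isHermitian.eq] at h1

theorem U1P_cancel (hG : G.PosDef) (h : G * B = 0) : B = 0 := by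
  have hu : IsUnit G.det := (isUnit_iff_isUnit_det G).1 hG.isUnit
  rw [← Matrix.one_mul B, ← nonsing_inv_mul G hu, Matrix.mul_assoc, h, Matrix.mul_zero]

theorem U1P_psd (hC : C.PosSemidef) (h : Rᴴ * C * R = 0) : C * R = 0 := by
  ext i j
  have h1 : star (fun k => R k j) ⬝ᵥ C *ᵥ (fun k => R k j) = 0 := by
    have h2 := congrFun (congrFun h j) j
    rw [Matrix.mul_assoc] at h2
    exact h2
  exact congrFun ((hC.dotProduct_mulVec_zero_iff _).1 h1) i

theorem U1P_nil (hG : G.PosDef) (h : (G * B).IsHermitian) (k : ℕ) (h1 : B ^ k * R = 0) :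
    B * R = 0 := by
  induction k generalizing R with
  | zero =>
    rw [pow_zero, Matrix.one_mul] at h1
    rw [h1, Matrix.mul_zero]
  | succ k ih =>
    rw [pow_succ, Matrix.mul_assoc] at h1
    refine U1P_cancel hG (U1P_psd hG.posSemidef ?_)
    rw [conjTranspose_mul, Matrix.mul_assoc Rᴴ, U1P_adj hG h, Matrix.mul_assoc, Matrix.mul_assoc,
      ih h1, Matrix.mul_zero, Matrix.mul_zero]

/-- One polynomial gives the projector for all self-adjoint matrices killed by `χ`. -/
theorem U1P_poly {χ : ℂ[X]} (hχ : χ ≠ 0) : ∃ r : ℂ[X], ∀ {G B : Mx n}, G.PosDef →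
    (G * B).IsHermitian → aeval B χ = 0 → B * (B * aeval B r) = B := by
  obtain ⟨s, hs, hs'⟩ := exists_eq_pow_rootMultiplicity_mul_and_not_dvd χ hχ 0
  rw [C_0, sub_zero] at hs hs'
  have h0 : s.coeff 0 ≠ 0 := fun h => hs' (X_dvd_iff.2 h)
  refine ⟨Polynomial.C (-(s.coeff 0)⁻¹) * s.divX, fun {G B} hG h h1 => ?_⟩
  rw [hs, map_mul, map_pow, aeval_X] at h1
  have h2 := U1P_nil hG h _ h1
  rw [← X_mul_divX_add s, map_add, map_mul, aeval_X, aeval_C, Matrix.mul_add,
    Algebra.algebraMap_eq_smul_one, Matrix.mul_smul, Matrix.mul_one] at h2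
  rw [map_mul, aeval_C, Algebra.algebraMap_eq_smul_one, Matrix.smul_mul, Matrix.one_mul,
    Matrix.mul_smul, Matrix.mul_smul, eq_neg_of_add_eq_zero_left h2, smul_neg, smul_smul,
    neg_mul, inv_mul_cancel₀ h0, neg_smul, neg_neg, one_smul]

theorem U1P_herm (hG : G.PosDef) (h : (G * B).IsHermitian) (h1 : B * (B * R) = B) :
    (G * (B * R)).IsHermitian := by
  have h2 : G * (B * R) = (B * R)ᴴ * G * (B * R) := by
    rw [Matrix.mul_assoc, ← Matrix.mul_assoc G, ← U1P_adj hG h, Matrix.mul_assoc,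
      ← Matrix.mul_assoc (B * R)ᴴ, ← conjTranspose_mul, h1]
  rw [h2]
  exact isHermitian_conjTranspose_mul_mul _ hG.isHermitian

theorem U1P_zero (h1 : C.PosSemidef) (h2 : (-C).PosSemidef) : C = 0 := by
  have h4 : ∀ v, C *ᵥ v = 0 := fun v => (h1.dotProduct_mulVec_zero_iff v).1 (le_antisymm (by
    have h5 := h2.dotProduct_mulVec_nonneg v
    rwa [neg_mulVec, dotProduct_neg, neg_nonneg] at h5) (h1.dotProduct_mulVec_nonneg v))
  ext i j
  simpa using congrFun (h4 (Pi.single j 1)) i

theorem U1P_ker (hG : G.PosDef) (hB : (G * B).PosSemidef) (hC : (G * C).PosSemidef)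
    (h : (B + C) * R = 0) : B * R = 0 := by
  have h1 : Rᴴ * (G * B) * R + Rᴴ * (G * C) * R = 0 := by
    rw [← Matrix.add_mul, ← Matrix.mul_add, ← Matrix.mul_add, Matrix.mul_assoc, Matrix.mul_assoc, h,
      Matrix.mul_zero, Matrix.mul_zero]
  have h2 := hB.conjTranspose_mul_mul_same R
  have h3 := hC.conjTranspose_mul_mul_same R
  have h4 : Rᴴ * (G * B) * R = 0 := by
    refine U1P_zero h2 ?_
    rw [eq_neg_of_add_eq_zero_left h1, neg_neg]
    exact h3
  refine U1P_cancel hG ?_
  rw [← Matrix.mul_assoc]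
  exact U1P_psd hB h4

theorem U1P_swap (hG : G.PosDef) (hB : (G * B).IsHermitian) (hR : (G * R).IsHermitian)
    (h : B * R = 0) : R * B = 0 := by
  refine U1P_cancel hG ?_
  rw [← Matrix.mul_assoc, ← U1P_adj hG hR, Matrix.mul_assoc, ← U1P_adj hG hB, ← Matrix.mul_assoc,
    ← conjTranspose_mul, h, conjTranspose_zero, Matrix.zero_mul]

theorem U1P_conj {D : Mx n} (h : D * B = C * D) (p : ℂ[X]) : D * aeval B p = aeval C p * D := by
  induction p using Polynomial.induction_on' with
  | add p q hp hq => rw [map_add, map_add, Matrix.mul_add, Matrix.add_mul, hp, hq]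
  | monomial k a =>
    have h1 : D * B ^ k = C ^ k * D := SemiconjBy.pow_right h k
    rw [aeval_monomial, aeval_monomial, Algebra.algebraMap_eq_smul_one, Matrix.smul_mul,
      Matrix.smul_mul, Matrix.one_mul, Matrix.one_mul, Matrix.mul_smul, Matrix.smul_mul, h1]

theorem U1P_det {D : Mx n} (hD : D.det ≠ 0) (h : D * B = C * D) (t : ℂ) :
    (scalar (Fin n) t - B).det = (scalar (Fin n) t - C).det := by
  have h1 : D * (scalar (Fin n) t - B) = (scalar (Fin n) t - C) * D := by
    rw [Matrix.mul_sub, Matrix.sub_mul, h, (scalar_commute t (fun _ => Commute.all _ _) D).eq]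
  have h2 := congrArg det h1
  rw [det_mul, det_mul, mul_comm] at h2
  exact mul_right_cancel₀ hD h2

theorem U1P_real (hG : G.PosDef) (h : (G * B).IsHermitian) (t : ℝ) :
    (scalar (Fin n) (t : ℂ) - B).det.im = 0 := by
  have h1 := U1P_det hG.det_pos.ne' (U1P_adj hG h).symm (t : ℂ)
  have h2 : (scalar (Fin n) (t : ℂ) - B)ᴴ = scalar (Fin n) (t : ℂ) - Bᴴ := by
    rw [conjTranspose_sub, scalar_apply, diagonal_conjTranspose]
    simp
  rw [← h2, det_conjTranspose] at h1
  exact Complex.conj_eq_iff_im.1 h1.symm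

end Alg

section An

variable {F F' : Cn n → Mx n} {z : Cn n}

theorem U1P_an_mul (h : ∀ i j, AnalyticAt ℂ (fun w => F w i j) z)
    (h' : ∀ i j, AnalyticAt ℂ (fun w => F' w i j) z) (i j : Fin n) :
    AnalyticAt ℂ (fun w => (F w * F' w) i j) z := by
  simp only [Matrix.mul_apply]
  exact Finset.analyticAt_fun_sum _ fun k _ => (h i k).mul (h' k j)

theorem U1P_an_poly (h : ∀ i j, AnalyticAt ℂ (fun w => F w i j) z) (p : ℂ[X]) :
    ∀ i j, AnalyticAt ℂ (fun w => (aeval (F w) p : Mx n) i j) z := by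
  induction p using Polynomial.induction_on with
  | C a =>
    intro i j
    simp only [aeval_C]
    exact analyticAt_const
  | add p q hp hq =>
    intro i j
    simp only [map_add, Matrix.add_apply]
    exact (hp i j).add (hq i j)
  | monomial k a hk =>
    intro i j
    simp only [pow_succ, ← mul_assoc, map_mul (aeval _) (Polynomial.C a * X ^ k), aeval_X]
    exact U1P_an_mul hk h i j

theorem U1P_an_det (h : ∀ i j, AnalyticAt ℂ (fun w => F w i j) z) :
    AnalyticAt ℂ (fun w => (F w).det) z := by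
  simp only [det_apply']
  exact Finset.analyticAt_fun_sum _ fun σ _ =>
    analyticAt_const.mul (Finset.analyticAt_fun_prod _ fun i _ => h _ _)

theorem U1P_const {g : Cn n → ℂ} (hg : AnalyticAt ℂ g z) (h : ∀ᶠ w in 𝓝 z, (g w).im = 0) :
    ∀ᶠ w in 𝓝 z, g w = g z := by
  refine hg.eventually_constant_or_nhds_le_map_nhds.resolve_right fun h1 => ?_
  have h2 : ∀ᶠ u in 𝓝 (g z), u.im = 0 := h1 h
  have h3 : Tendsto (fun s : ℝ => g z + s * Complex.I) (𝓝 0) (𝓝 (g z)) := by
    have h4 : Continuous fun s : ℝ => g z + s * Complex.I := by fun_prop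
    simpa using h4.tendsto 0
  have h5 : ∀ᶠ s : ℝ in 𝓝[≠] 0, (g z + s * Complex.I).im = 0 :=
    (h3.eventually h2).filter_mono nhdsWithin_le_nhds
  obtain ⟨s, hs, hs'⟩ := (h5.and self_mem_nhdsWithin).exists
  have h6 : (g z).im = 0 := h.self_of_nhds
  exact hs' (by simpa [h6] using hs)

end An

variable {X : Type} [TopologicalSpace X]

section HE

variable {A : Atl n X} {η : Frm A} {B C : EF A}

theorem HE.add (h : HE A η B) (h' : HE A η C) : HE A η fun a z => B a z + C a z :=
  ⟨fun a i j z hz => (h.hol a i j z hz).add (h'.hol a i j z hz), fun a b z hz => by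
    rw [Matrix.mul_add, Matrix.add_mul, h.compat a b z hz, h'.compat a b z hz], fun a z hz => by
    rw [Matrix.mul_add]
    exact (h.herm a z hz).add (h'.herm a z hz)⟩

theorem HE.sub (h : HE A η B) (h' : HE A η C) : HE A η fun a z => B a z - C a z :=
  ⟨fun a i j z hz => (h.hol a i j z hz).sub (h'.hol a i j z hz), fun a b z hz => by
    rw [Matrix.mul_sub, Matrix.sub_mul, h.compat a b z hz, h'.compat a b z hz], fun a z hz => by
    rw [Matrix.mul_sub]
    exact (h.herm a z hz).sub (h'.herm a z hz)⟩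

theorem he_one (hη : Kae A η) : HE A η fun _ _ => 1 :=
  ⟨fun _ _ _ _ _ => analyticAt_const, fun a b z _ => by rw [Matrix.mul_one, Matrix.one_mul],
    fun a z hz => by
      rw [Matrix.mul_one]
      exact (hη.2 a z hz).isHermitian⟩

theorem U1P_rep (h : HE A η B) {a : A.ι} {p : X} (hp : p ∈ (A.e a).source) (t : ℂ) :
    (scalar (Fin n) t - B a (A.e a p)).det =
      (scalar (Fin n) t - B (ch A p) (A.e (ch A p) p)).det := by
  have h1 := h.compat a _ _ (ApiA_ov hp)
  rw [show A.tr a (ch A p) (A.e a p) = A.e (ch A p) p by rw [Atl.tr, (A.e a).left_inv hp]] at h1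
  exact U1P_det (ApiA_det_ne hp) h1 t

/-- The characteristic polynomial is constant. -/
theorem HE.charpoly [ConnectedSpace X] (hη : Kae A η) (h : HE A η B) :
    ∃ χ : ℂ[X], χ ≠ 0 ∧ ∀ a, ∀ z ∈ (A.e a).target, (B a z).charpoly = χ := by
  have h1 : ∀ t : ℝ, IsLocallyConstant fun p =>
      (scalar (Fin n) (t : ℂ) - B (ch A p) (A.e (ch A p) p)).det := fun t => by
    refine (IsLocallyConstant.iff_eventually_eq _).2 fun p => ?_
    have hp := ch_mem A p
    have hz := ApiA_ch A p
    have h2 := U1P_const (g := fun w => (scalar (Fin n) (t : ℂ) - B (ch A p) w).det)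
      (U1P_an_det fun i j => analyticAt_const.sub (h.hol _ i j _ hz))
      (by
        filter_upwards [(A.e _).open_target.mem_nhds hz] with w hw
        exact U1P_real (hη.2 _ w hw) (h.herm _ w hw) t)
    filter_upwards [((A.e _).continuousAt hp).eventually h2, (A.e _).open_source.mem_nhds hp]
      with q h3 h4
    rw [← U1P_rep h h4, h3]
  obtain ⟨p₀⟩ : Nonempty X := inferInstance
  refine ⟨(B (ch A p₀) (A.e (ch A p₀) p₀)).charpoly, (charpoly_monic _).ne_zero, fun a z hz => ?_⟩
  refine Polynomial.eq_of_infinite_eval_eq _ _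
    ((infinite_range_of_injective Complex.ofReal_injective).mono ?_)
  rintro _ ⟨t, rfl⟩
  have h2 := U1P_rep h ((A.e a).map_target hz) (t : ℂ)
  rw [(A.e a).right_inv hz] at h2
  rw [mem_ofPred_eq, eval_charpoly, eval_charpoly, h2]
  exact (h1 t).apply_eq_of_preconnectedSpace _ _

/-- The orthogonal projector onto the image. -/
theorem HE.proj [ConnectedSpace X] (hη : Kae A η) (h : HE A η B) : ∃ Q R : EF A, HE A η Q ∧
    ∀ a, ∀ z ∈ (A.e a).target, Q a z = B a z * R a z ∧ B a z * Q a z = B a z ∧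
      Q a z * Q a z = Q a z := by
  obtain ⟨χ, hχ, h1⟩ := h.charpoly hη
  obtain ⟨r, hr⟩ := U1P_poly (n := n) hχ
  have h2 : ∀ a, ∀ z ∈ (A.e a).target, B a z * (B a z * aeval (B a z) r) = B a z := fun a z hz =>
    hr (hη.2 a z hz) (h.herm a z hz) (by rw [← h1 a z hz, aeval_self_charpoly])
  refine ⟨fun a z => B a z * aeval (B a z) r, fun a z => aeval (B a z) r,
    ⟨fun a i j z hz => U1P_an_mul (fun i j => h.hol a i j z hz)
      (U1P_an_poly (fun i j => h.hol a i j z hz) r) i j, fun a b z hz => ?_,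
      fun a z hz => U1P_herm (hη.2 a z hz) (h.herm a z hz) (h2 a z hz)⟩,
    fun a z hz => ⟨rfl, h2 a z hz, ?_⟩⟩
  · rw [← Matrix.mul_assoc, h.compat a b z hz, Matrix.mul_assoc, U1P_conj (h.compat a b z hz),
      Matrix.mul_assoc]
  · have h3 : B a z * aeval (B a z) r = aeval (B a z) r * B a z := U1P_conj rfl r
    calc B a z * aeval (B a z) r * (B a z * aeval (B a z) r)
        = aeval (B a z) r * (B a z * (B a z * aeval (B a z) r)) := by
          rw [← Matrix.mul_assoc (aeval (B a z) r), ← h3]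
      _ = B a z * aeval (B a z) r := by rw [h2 a z hz, h3]

end HE

/-- Completion of a parallel Ricci flat projector to three projectors adapted to `B`. -/
theorem exists_prj [ConnectedSpace X] [MeasurableSpace X] {M : Model n X} {η : Frm M.toAtl}
    {B Q0 : EF M.toAtl} (hη : Kae M.toAtl η) (hB : Par M η B) (h0 : Par M η Q0)
    (hid : ∀ a, ∀ z ∈ (M.e a).target, Q0 a z * Q0 a z = Q0 a z) :
    ∃ Q : Fin 3 → EF M.toAtl, Prj M η B Q ∧ Q 0 = Q0 := by
  obtain ⟨P, R, hP, h⟩ := (hB.he.add h0.he).proj hη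
  have h2 := (he_one hη).sub hP
  have key : ∀ a, ∀ z ∈ (M.e a).target, (1 - P a z) * B a z = 0 ∧ Q0 a z * P a z = Q0 a z ∧
      P a z * Q0 a z = Q0 a z := fun a z hz => by
    have hG := hη.2 a z hz
    have e : (B a z + Q0 a z) * (1 - P a z) = 0 := by
      rw [Matrix.mul_sub, Matrix.mul_one, (h a z hz).2.1, sub_self]
    have e1 := U1P_ker hG (hB.psd a z hz) (h0.psd a z hz) e
    have e2 := U1P_ker hG (h0.psd a z hz) (hB.psd a z hz) (by rwa [add_comm])
    have e3 := U1P_swap hG (h0.he.herm a z hz) (h2.herm a z hz) e2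
    rw [Matrix.mul_sub, Matrix.mul_one, sub_eq_zero] at e2
    rw [Matrix.sub_mul, Matrix.one_mul, sub_eq_zero] at e3
    exact ⟨U1P_swap hG (hB.he.herm a z hz) (h2.herm a z hz) e1, e2.symm, e3.symm⟩
  refine ⟨![Q0, fun a z => P a z - Q0 a z, fun a z => 1 - P a z], ⟨fun i => ?_,
    fun i j a z hz => ?_, fun a z _ => ?_, fun i hi a z hz => ?_, fun a z hz => (key a z hz).1⟩, rfl⟩
  · fin_cases i
    exacts [h0.he, hP.sub h0.he, h2]
  · obtain ⟨-, e1, e2⟩ := key a z hz
    have e3 := hid a z hz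
    have e4 := (h a z hz).2.2
    fin_cases i <;> fin_cases j <;>
      simp [Matrix.mul_sub, Matrix.sub_mul, e1, e2, e3, e4]
  · simp [Fin.sum_univ_three]
  · have e : LM (th M a) z * P a z = 0 := by
      rw [(h a z hz).1, ← Matrix.mul_assoc, Matrix.mul_add, hB.ric a z hz, h0.ric a z hz, add_zero,
        Matrix.zero_mul]
    fin_cases i
    · exact h0.ric a z hz
    · exact (Matrix.mul_sub _ _ _).trans (by rw [e, h0.ric a z hz, sub_self])
    · exact absurd rfl hi

end Vale.Agent.P299
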