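import Vale.Agent.P299.Defs2
import Vale.Agent.P278.Atl

/-! P299, part U2: definitions. -/

open MeasureTheory Set Filter Topology Matrix
open scoped ContDiff ComplexConjugate ComplexOrder

noncomputable section

namespace Vale.Agent.P299.U2

open Vale.Agent.P271 Vale.Agent.P272

variable {n : ℕ} {X : Type} [TopologicalSpace X]

/-- The model space of product charts. -/
abbrev PP (d : Fin 3 → ℕ) : Type := ∀ i : Fin 3, P278.Cn (d i)

/-- The projectors of the model space. -/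
def prP {d : Fin 3 → ℕ} (i : Fin 3) (v : PP d) : PP d := Pi.single i (v i)

/-- The projectors of a triple product. -/
def pr3 {E F G : Type} [Zero E] [Zero F] [Zero G] (i : Fin 3) (v : E × F × G) : E × F × G :=
  ![(v.1, 0, 0), (0, v.2.1, 0), (0, 0, v.2.2)] i

section Par
variable {P : Type} [NormedAddCommGroup P] [NormedSpace ℂ P]

/-- The derivative of `F` in the chart `a`. -/
def DF (A : Atl n X) (a : A.ι) (F : P → X) (p : P) : P →L[ℂ] Cn n :=
  fderiv ℂ (fun w => A.e a (F w)) p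

/-- `F` is a local biholomorphism at `p` whose derivative intertwines `pr` and `Q`. -/
structure Gd (A : Atl n X) (Q : Fin 3 → EF A) (pr : Fin 3 → P → P) (F : P → X) (p : P) :
    Prop where
  cont : ContinuousAt F p
  an : ∀ a, F p ∈ (A.e a).source → AnalyticAt ℂ (fun w => A.e a (F w)) p
  bij : ∀ a, F p ∈ (A.e a).source → Function.Bijective (DF A a F p)
  blk : ∀ a, F p ∈ (A.e a).source → ∀ i v,
    Q i a (A.e a (F p)) *ᵥ DF A a F p v = DF A a F p (pr i v)

/-- The pull-back of the metric. -/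
def pm (A : Atl n X) (η : Frm A) (F : P → X) (p u v : P) : ℂ :=
  star (DF A (ch A (F p)) F p u) ⬝ᵥ GM A η (F p) *ᵥ DF A (ch A (F p)) F p v

end Par

/-- The point with product coordinates `w`. -/
def pt3 {d₀ d₁ d₂ : ℕ} {W Y Z : Type} [TopologicalSpace W] [TopologicalSpace Y]
    [TopologicalSpace Z] (cW : CA d₀ W) (cY : CA d₁ Y) (cZ : CA d₂ Z) (x : W) (y : Y) (z : Z)
    (w : Cn d₀ × Cn d₁ × Cn d₂) : W × Y × Z :=
  ((cW.c x).symm w.1, (cY.c y).symm w.2.1, (cZ.c z).symm w.2.2)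

/-- The identity chart. -/
def idCA (q : ℕ) : CA q (Cn q) where
  c _ := OpenPartialHomeomorph.refl _
  mem _ := mem_univ _
  hol _ _ _ _ _ := analyticAt_id

/-- A decomposition of the covering space into three factors. -/
structure Tri (A : Atl n X) (Q : Fin 3 → EF A) {V : Type} [TopologicalSpace V] (π : V → X)
    {d₀ : ℕ} {W : Type} [TopologicalSpace W] (cW : CA d₀ W) where
  t2W : T2Space W
  sW : SimplyConnectedSpace W
  d₁ : ℕ
  d₂ : ℕ
  Y : Type
  Z : Type
  [tY : TopologicalSpace Y]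
  [tZ : TopologicalSpace Z]
  [t2Y : T2Space Y]
  [t2Z : T2Space Z]
  [sY : SimplyConnectedSpace Y]
  [sZ : SimplyConnectedSpace Z]
  [cY2 : SecondCountableTopology Y]
  [cZ2 : SecondCountableTopology Z]
  cY : CA d₁ Y
  cZ : CA d₂ Z
  Ψ : W × Y × Z ≃ₜ V
  gd : ∀ x y z w, w.1 ∈ (cW.c x).target → w.2.1 ∈ (cY.c y).target → w.2.2 ∈ (cZ.c z).target →
    Gd A Q pr3 (fun w' => π (Ψ (pt3 cW cY cZ x y z w'))) w

attribute [instance] Tri.tY Tri.tZ Tri.t2Y Tri.t2Z Tri.sY Tri.sZ Tri.cY2 Tri.cZ2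

namespace Tri
variable {A : Atl n X} {Q : Fin 3 → EF A} {V : Type} [TopologicalSpace V] {π : V → X}
  {d₀ : ℕ} {W : Type} [TopologicalSpace W] {cW : CA d₀ W} (T : Tri A Q π cW)

/-- The projection in product coordinates. -/
def F (x : W) (y : T.Y) (z : T.Z) (w : Cn d₀ × Cn T.d₁ × Cn T.d₂) : X :=
  π (T.Ψ (pt3 cW T.cY T.cZ x y z w))

/-- The domain of the product coordinates. -/
def tg (x : W) (y : T.Y) (z : T.Z) : Set (Cn d₀ × Cn T.d₁ × Cn T.d₂) :=
  {w | w.1 ∈ (cW.c x).target ∧ w.2.1 ∈ (T.cY.c y).target ∧ w.2.2 ∈ (T.cZ.c z).target}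

theorem gd' {x : W} {y : T.Y} {z : T.Z} {w : Cn d₀ × Cn T.d₁ × Cn T.d₂} (h : w ∈ T.tg x y z) :
    Gd A Q pr3 (T.F x y z) w := T.gd x y z w h.1 h.2.1 h.2.2

theorem isOpen_tg (x : W) (y : T.Y) (z : T.Z) : IsOpen (T.tg x y z) :=
  ((cW.c x).open_target.preimage continuous_fst).inter
    (((T.cY.c y).open_target.preimage (continuous_fst.comp continuous_snd)).inter
      ((T.cZ.c z).open_target.preimage (continuous_snd.comp continuous_snd)))

end Tri

/-- A map to `Cn q` that is a local biholomorphism in the charts. -/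
def LB {d q : ℕ} {W : Type} [TopologicalSpace W] (cW : CA d W) (f : W → Cn q) : Prop :=
  ∀ x, ∀ w ∈ (cW.c x).target, AnalyticAt ℂ (fun w' => f ((cW.c x).symm w')) w ∧
    Function.Bijective (fderiv ℂ (fun w' => f ((cW.c x).symm w')) w)

variable [MeasurableSpace X] {M : Model n X} {η : Frm M.toAtl} {B : EF M.toAtl}

/-- The developing map of the flat factor. -/
def Dev (S : Pre M η B) (x : S.V → Cn S.q) : Prop :=
  ∀ a m, S.π m ∈ (M.e a).source →
    AnalyticAt ℂ (fun z => x (lf S.lh m ((M.e a).symm z))) (M.e a (S.π m)) ∧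
    ∀ v i, fderiv ℂ (fun z => x (lf S.lh m ((M.e a).symm z))) (M.e a (S.π m)) v i =
      star (S.ξ i a m) ⬝ᵥ LM (η a) (M.e a (S.π m)) *ᵥ v

end Vale.Agent.P299.U2
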