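import Vale.Agent.P299.U2D
import Vale.Agent.P271A.Brid
import Vale.Agent.P272.Loc

/-! P299, part U2: the Kaehler identities in a chart. -/

open MeasureTheory Set Filter Topology Matrix
open scoped ContDiff ComplexConjugate ComplexOrder

noncomputable section

namespace Vale.Agent.P299.U2

open Vale.Agent.P271 Vale.Agent.P272

variable {n : ℕ} {Φ : Cn n → ℝ} {z : Cn n}

open Vale.Agent.P271A

theorem U2K_fd {F : Cn n → ℂ} (hF : ContDiffAt ℝ 2 F z) (c : ℂ) (v a : Cn n) :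
    fderiv ℝ (fun w => (fderiv ℝ F w v + c * fderiv ℝ F w (Complex.I • v)) / 2) z a =
      (fderiv ℝ (fderiv ℝ F) z a v + c * fderiv ℝ (fderiv ℝ F) z a (Complex.I • v)) / 2 := by
  have h1 : HasFDerivAt (fderiv ℝ F) (fderiv ℝ (fderiv ℝ F) z) z :=
    ((hF.fderiv_right (m := 1) (by norm_num)).differentiableAt (by simp)).hasFDerivAt
  have h2 : ∀ v : Cn n, HasFDerivAt (fun w => fderiv ℝ F w v)
      (ContinuousLinearMap.apply ℝ ℂ v ∘L fderiv ℝ (fderiv ℝ F) z) z :=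
    fun v => (ContinuousLinearMap.apply ℝ ℂ v).hasFDerivAt.comp z h1
  have h4 := (((h2 v).add ((h2 (Complex.I • v)).const_mul c)).mul_const (1 / 2)).fderiv
  have e : (fun w => (fderiv ℝ F w v + c * fderiv ℝ F w (Complex.I • v)) / 2) =
      fun w => (fderiv ℝ F w v + c * fderiv ℝ F w (Complex.I • v)) * (1 / 2) :=
    funext fun w => by ring
  rw [e]
  refine (congrArg (fun L : Cn n →L[ℝ] ℂ => L a) h4).trans ?_
  simp
  ring

theorem U2K_dz (v : Cn n) (F : Cn n → ℂ) :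
    dz v F = fun w => (fderiv ℝ F w v + -Complex.I * fderiv ℝ F w (Complex.I • v)) / 2 :=
  funext fun w => by rw [dz]; ring

theorem U2K_dzb (v : Cn n) (F : Cn n → ℂ) :
    dzb v F = fun w => (fderiv ℝ F w v + Complex.I * fderiv ℝ F w (Complex.I • v)) / 2 := rfl

theorem U2K_symm {F : Cn n → ℂ} (hF : ContDiffAt ℝ 2 F z) : IsSymmSndFDerivAt ℝ F z :=
  hF.isSymmSndFDerivAt (by rw [minSmoothness_of_isRCLikeNormedField])

theorem U2K_comm {F : Cn n → ℂ} (hF : ContDiffAt ℝ 2 F z) (u v : Cn n) :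
    dz u (dz v F) z = dz v (dz u F) z := by
  have hs := U2K_symm hF
  rw [dz, dz, U2K_dz v, U2K_dz u, U2K_fd hF, U2K_fd hF, U2K_fd hF, U2K_fd hF, hs.eq u v,
    hs.eq (Complex.I • u) v, hs.eq u (Complex.I • v), hs.eq (Complex.I • u) (Complex.I • v)]
  ring

theorem U2K_comm' {F : Cn n → ℂ} (hF : ContDiffAt ℝ 2 F z) (u v : Cn n) :
    dz u (dzb v F) z = dzb v (dz u F) z := by
  have hs := U2K_symm hF
  rw [dz, dzb, U2K_dzb v, U2K_dz u, U2K_fd hF, U2K_fd hF, U2K_fd hF, U2K_fd hF, hs.eq u v,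
    hs.eq (Complex.I • u) v, hs.eq u (Complex.I • v), hs.eq (Complex.I • u) (Complex.I • v)]
  ring

theorem U2K_two {F : Cn n → ℂ} (hF : ContDiffAt ℝ ∞ F z) : ContDiffAt ℝ 2 F z :=
  hF.of_le (WithTop.coe_le_coe.2 le_top)

theorem U2K_herm (hΦ : ContDiffAt ℝ ∞ Φ z) : ∀ᶠ y in 𝓝 z, (LM Φ y).IsHermitian := by
  filter_upwards [(U2K_two (Brid_ofReal hΦ)).eventually (by simp)] with y hy
  ext j k
  have e : (fun w => conj (dzb (Pi.single k 1) (fun w => (Φ w : ℂ)) w)) =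
      dz (Pi.single k 1) fun w => (Φ w : ℂ) := funext fun w => by
    rw [Brid_conj_dzb]
    simp only [Complex.conj_ofReal]
  change conj (dz (Pi.single j 1) (dzb (Pi.single k 1) fun w => (Φ w : ℂ)) y) =
    dz (Pi.single k 1) (dzb (Pi.single j 1) fun w => (Φ w : ℂ)) y
  rw [conj_dz, e, U2K_comm' hy]

/-- The entrywise derivative of a matrix. -/
def U2K_d (u : Cn n) (G : Cn n → Mx n) (z : Cn n) : Mx n :=
  Matrix.of fun j k => dz u (fun y => G y j k) z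

theorem U2K_dv {G : Cn n → Mx n} (hG : ∀ j k, DifferentiableAt ℝ (fun y => G y j k) z)
    (u v : Cn n) (j : Fin n) : dz u (fun y => (G y *ᵥ v) j) z = (U2K_d u G z *ᵥ v) j := by
  simp only [mulVec, dotProduct]
  rw [dz_sum _ fun k _ => (hG j k).mul_const _]
  exact Finset.sum_congr rfl fun k _ => Brid_dz_mul_const (hG j k) _

theorem U2K_diff {G : Cn n → Mx n} (hG : ∀ j k, DifferentiableAt ℝ (fun y => G y j k) z)
    (v : Cn n) (j : Fin n) : DifferentiableAt ℝ (fun y => (G y *ᵥ v) j) z := by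
  simp only [mulVec, dotProduct]
  exact DifferentiableAt.fun_sum fun k _ => (hG j k).mul_const _

theorem U2K_dw {G : Cn n → Mx n} (hG : ∀ j k, DifferentiableAt ℝ (fun y => G y j k) z)
    {ξ : Cn n → Cn n} (hξ : ∀ j, DifferentiableAt ℂ (fun y => ξ y j) z) (u v : Cn n) :
    dz u (fun y => star (ξ y) ⬝ᵥ G y *ᵥ v) z = star (ξ z) ⬝ᵥ U2K_d u G z *ᵥ v := by
  have h1 : ∀ j, DifferentiableAt ℝ (fun y => conj (ξ y j)) z := fun j =>
    Brid_conj_diff ((hξ j).restrictScalars ℝ)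
  have e : (fun y => star (ξ y) ⬝ᵥ G y *ᵥ v) = fun y => ∑ j, conj (ξ y j) * (G y *ᵥ v) j := rfl
  rw [e, dz_sum _ fun j _ => (h1 j).fun_mul (U2K_diff hG v j)]
  refine Finset.sum_congr rfl fun j _ => ?_
  rw [dz_mul (h1 j) (U2K_diff hG v j), Brid_dz_conj_hol (hξ j), zero_mul, zero_add, U2K_dv hG]
  rfl

theorem U2K_mul {A B : Cn n → Mx n} (hA : ∀ j k, DifferentiableAt ℝ (fun y => A y j k) z)
    (hB : ∀ j k, DifferentiableAt ℝ (fun y => B y j k) z) (u : Cn n) :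
    U2K_d u (fun y => A y * B y) z = U2K_d u A z * B z + A z * U2K_d u B z := by
  ext j k
  simp only [U2K_d, of_apply, mul_apply, Matrix.add_apply]
  rw [dz_sum _ fun l _ => (hA j l).fun_mul (hB l k), ← Finset.sum_add_distrib]
  exact Finset.sum_congr rfl fun l _ => dz_mul (hA j l) (hB l k)

theorem U2K_LM (hΦ : ContDiffAt ℝ ∞ Φ z) (j k : Fin n) :
    DifferentiableAt ℝ (fun y => LM Φ y j k) z :=
  (contDiffAt_LM hΦ j k).differentiableAt (by simp)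

theorem U2K_sym (hΦ : ContDiffAt ℝ ∞ Φ z) (u v : Cn n) :
    U2K_d u (LM Φ) z *ᵥ v = U2K_d v (LM Φ) z *ᵥ u := by
  funext j
  have hg : ContDiffAt ℝ 2 (dzb (Pi.single j 1) fun w => (Φ w : ℂ)) z :=
    U2K_two (Brid_contDiffAt_dzb (Brid_ofReal hΦ))
  have key : ∀ a b : Cn n, (U2K_d a (LM Φ) z *ᵥ b) j =
      dz b (dz a (dzb (Pi.single j 1) fun w => (Φ w : ℂ))) z := fun a b => by
    rw [dz_eq_sum, mulVec, dotProduct]
    refine Finset.sum_congr rfl fun k _ => ?_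
    rw [Brid_zv, ← U2K_comm hg]
    rfl
  rw [key, key, U2K_comm hg]

/-- The Kaehler symmetry. -/
theorem kae_symm (hΦ : ContDiffAt ℝ ∞ Φ z) (u v w : Cn n) :
    dz u (fun y => star w ⬝ᵥ LM Φ y *ᵥ v) z = dz v (fun y => star w ⬝ᵥ LM Φ y *ᵥ u) z := by
  have hw : ∀ j, DifferentiableAt ℂ (fun _ : Cn n => w j) z := fun _ => differentiableAt_const _
  rw [U2K_dw (U2K_LM hΦ) (ξ := fun _ => w) hw, U2K_dw (U2K_LM hΦ) (ξ := fun _ => w) hw,
    U2K_sym hΦ]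

theorem U2K_star {G : Mx n} (hG : G.IsHermitian) (a b : Cn n) :
    star (G *ᵥ a) ⬝ᵥ b = star a ⬝ᵥ G *ᵥ b := by
  rw [star_mulVec, ← dotProduct_mulVec, hG.eq]

theorem U2K_im (hΦ : ContDiffAt ℝ ∞ Φ z) (u v w : Cn n) :
    fderiv ℝ (fun y => (star v ⬝ᵥ LM Φ y *ᵥ w).im) z u =
      (dz u (fun y => star v ⬝ᵥ LM Φ y *ᵥ w) z).im -
        (dz u (fun y => star w ⬝ᵥ LM Φ y *ᵥ v) z).im := by
  have hd : DifferentiableAt ℝ (fun y => star v ⬝ᵥ LM Φ y *ᵥ w) z := by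
    simp only [dotProduct]
    exact DifferentiableAt.fun_sum fun j _ => (U2K_diff (U2K_LM hΦ) w j).const_mul _
  have h1 : fderiv ℝ (fun y => (star v ⬝ᵥ LM Φ y *ᵥ w).im) z u =
      (fderiv ℝ (fun y => star v ⬝ᵥ LM Φ y *ᵥ w) z u).im :=
    congrArg (fun L : Cn n →L[ℝ] ℝ => L u) (Complex.imCLM.hasFDerivAt.comp z hd.hasFDerivAt).fderiv
  have h2 : (fun y => conj (star v ⬝ᵥ LM Φ y *ᵥ w)) =ᶠ[𝓝 z] fun y => star w ⬝ᵥ LM Φ y *ᵥ v := by
    filter_upwards [U2K_herm hΦ] with y hy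
    rw [← U2K_star hy w v, star_dotProduct]
    exact star_star _
  have h3 := Brid_conj_dzb (fun y => star v ⬝ᵥ LM Φ y *ᵥ w) z u
  rw [dz_congr h2] at h3
  have h4 : fderiv ℝ (fun y => star v ⬝ᵥ LM Φ y *ᵥ w) z u =
      dz u (fun y => star v ⬝ᵥ LM Φ y *ᵥ w) z + dzb u (fun y => star v ⬝ᵥ LM Φ y *ᵥ w) z := by
    rw [dz, dzb]
    ring
  rw [h1, h4, ← h3, Complex.add_im, Complex.conj_im, sub_neg_eq_add]

/-- The Kaehler form is closed. -/
theorem kae_closed (hΦ : ContDiffAt ℝ ∞ Φ z) :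
    P278.ClosedAt (fun y u v => (star u ⬝ᵥ LM Φ y *ᵥ v).im) z := by
  intro u v w
  rw [U2K_im hΦ, U2K_im hΦ, U2K_im hΦ, kae_symm hΦ u w v, kae_symm hΦ u v w, kae_symm hΦ v w u]
  ring

/-- The dual form of a parallel field is closed. -/
theorem pf_closed (hΦ : ContDiffAt ℝ ∞ Φ z) {ξ : Cn n → Cn n} (h1 : AnalyticAt ℂ ξ z)
    (h2 : AnalyticAt ℂ (fun y => star (LM Φ y *ᵥ ξ y)) z) (u v : Cn n) :
    fderiv ℂ (fun y => star (LM Φ y *ᵥ ξ y) ⬝ᵥ v) z u =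
      fderiv ℂ (fun y => star (LM Φ y *ᵥ ξ y) ⬝ᵥ u) z v := by
  have hξ : ∀ j, DifferentiableAt ℂ (fun y => ξ y j) z := differentiableAt_pi.1 h1.differentiableAt
  have key : ∀ a b : Cn n, fderiv ℂ (fun y => star (LM Φ y *ᵥ ξ y) ⬝ᵥ b) z a =
      star (ξ z) ⬝ᵥ U2K_d a (LM Φ) z *ᵥ b := fun a b => by
    have hd : DifferentiableAt ℂ (fun y => star (LM Φ y *ᵥ ξ y) ⬝ᵥ b) z := by
      simp only [dotProduct]
      exact DifferentiableAt.fun_sum fun j _ =>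
        (differentiableAt_pi.1 h2.differentiableAt j).mul_const _
    rw [← dz_hol hd, ← U2K_dw (U2K_LM hΦ) hξ]
    exact dz_congr ((U2K_herm hΦ).mono fun y hy => U2K_star hy _ _)
  rw [key, key, U2K_sym hΦ]

/-- A holomorphic self-adjoint endomorphism is parallel. -/
theorem he_par (hΦ : ContDiffAt ℝ ∞ Φ z) (hp : (LM Φ z).PosDef) {Q : Cn n → Mx n}
    (hQ : ∀ i j, AnalyticAt ℂ (fun y => Q y i j) z)
    (hh : ∀ᶠ y in 𝓝 z, (LM Φ y * Q y).IsHermitian) :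
    ∃ Γ : Cn n → Mx n, (∀ u w, Γ u *ᵥ w = Γ w *ᵥ u) ∧
      ∀ u w, fderiv ℂ (fun y => Q y *ᵥ w) z u = Q z *ᵥ Γ u *ᵥ w - Γ u *ᵥ Q z *ᵥ w := by
  have hU : IsUnit (LM Φ z).det := (isUnit_iff_isUnit_det _).1 hp.isUnit
  have hQr : ∀ i j, DifferentiableAt ℝ (fun y => Q y i j) z := fun i j =>
    (hQ i j).differentiableAt.restrictScalars ℝ
  have hQc : ∀ i j, DifferentiableAt ℝ (fun y => (Q y)ᴴ i j) z := fun i j =>
    Brid_conj_diff (hQr j i)
  have e1 : ∀ᶠ y in 𝓝 z, LM Φ y * Q y = (Q y)ᴴ * LM Φ y := by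
    filter_upwards [hh, U2K_herm hΦ] with y h h'
    rw [← h.eq, conjTranspose_mul, h'.eq]
  refine ⟨fun u => (LM Φ z)⁻¹ * U2K_d u (LM Φ) z, fun u w => ?_, fun u w => ?_⟩
  · rw [← mulVec_mulVec, ← mulVec_mulVec, U2K_sym hΦ]
  have e2 : U2K_d u (fun y => LM Φ y * Q y) z = U2K_d u (fun y => (Q y)ᴴ * LM Φ y) z := by
    ext j k
    exact dz_congr (e1.mono fun y hy => by simp only [hy])
  have e3 : U2K_d u (fun y => (Q y)ᴴ) z = 0 := by
    ext j k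
    exact Brid_dz_conj_hol (hQ k j).differentiableAt
  rw [U2K_mul (U2K_LM hΦ) hQr, U2K_mul hQc (U2K_LM hΦ), e3, zero_mul, zero_add] at e2
  have e4 : (LM Φ z)⁻¹ * (Q z)ᴴ = Q z * (LM Φ z)⁻¹ := by
    have h := e1.self_of_nhds
    calc (LM Φ z)⁻¹ * (Q z)ᴴ = (LM Φ z)⁻¹ * ((Q z)ᴴ * LM Φ z) * (LM Φ z)⁻¹ := by
          rw [mul_assoc, mul_assoc, mul_nonsing_inv _ hU, mul_one]
      _ = Q z * (LM Φ z)⁻¹ := by rw [← h, ← mul_assoc, nonsing_inv_mul _ hU, one_mul]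
  have e5 : U2K_d u Q z = Q z * ((LM Φ z)⁻¹ * U2K_d u (LM Φ) z) -
      (LM Φ z)⁻¹ * U2K_d u (LM Φ) z * Q z := by
    rw [← mul_assoc, ← e4, mul_assoc, ← e2, mul_add, ← mul_assoc, ← mul_assoc,
      nonsing_inv_mul _ hU, one_mul, add_sub_cancel_left]
  have hd : ∀ i, DifferentiableAt ℂ (fun y => (Q y *ᵥ w) i) z := fun i => by
    simp only [mulVec, dotProduct]
    exact DifferentiableAt.fun_sum fun k _ => (hQ i k).differentiableAt.mul_const _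
  rw [mulVec_mulVec, mulVec_mulVec, ← sub_mulVec, ← e5]
  funext i
  rw [← U2K_dv hQr, dz_hol (hd i), fderiv_pi hd]
  rfl

end Vale.Agent.P299.U2
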