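import Vale.Agent.P299.U2D

/-! P299, part U2: local biholomorphisms that respect the projectors. -/

open MeasureTheory Set Filter Topology Matrix
open scoped ContDiff ComplexConjugate ComplexOrder

noncomputable section

namespace Vale.Agent.P299.U2

open Vale.Agent.P271 Vale.Agent.P272

variable {n : ℕ} {X : Type} [TopologicalSpace X] {A : Atl n X} {η : Frm A} {Q : Fin 3 → EF A}
  {P P' : Type} [NormedAddCommGroup P] [NormedSpace ℂ P] [NormedAddCommGroup P'] [NormedSpace ℂ P']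
  {pr : Fin 3 → P → P} {pr' : Fin 3 → P' → P'} {F : P → X} {p : P} {τ : P' → P} {p' : P'}

theorem u2a_ov {a b : A.ι} {x : X} (ha : x ∈ (A.e a).source) (hb : x ∈ (A.e b).source) :
    A.e a x ∈ A.ov a b :=
  ⟨(A.e a).map_source ha, by rw [mem_preimage, (A.e a).left_inv ha]; exact hb⟩

theorem u2a_tr {a : A.ι} (b : A.ι) {x : X} (ha : x ∈ (A.e a).source) :
    A.tr a b (A.e a x) = A.e b x := by
  rw [Atl.tr, (A.e a).left_inv ha]

omit [NormedSpace ℂ P] in
theorem u2a_ev (hF : ContinuousAt F p) {a : A.ι} (b : A.ι) (ha : F p ∈ (A.e a).source) :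
    (fun w => A.e b (F w)) =ᶠ[𝓝 p] fun w => A.tr a b (A.e a (F w)) := by
  filter_upwards [hF.eventually ((A.e a).open_source.mem_nhds ha)] with w hw
  exact (u2a_tr b hw).symm

theorem DF_chg (hF : ContinuousAt F p) {a b : A.ι} (ha : F p ∈ (A.e a).source)
    (hb : F p ∈ (A.e b).source) (h : DifferentiableAt ℂ (fun w => A.e a (F w)) p) (v : P) :
    DF A b F p v = DM (A.tr a b) (A.e a (F p)) *ᵥ DF A a F p v := by
  have h1 : DifferentiableAt ℂ (A.tr a b) (A.e a (F p)) :=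
    (A.analyticOnNhd_tr a b _ (u2a_ov ha hb)).differentiableAt
  rw [DM_mulVec, DF, (u2a_ev hF b ha).fderiv_eq, fderiv_fun_comp p h1 h]
  rfl

theorem Gd.of_chart (hQ : ∀ i, HE A η (Q i)) (hF : ContinuousAt F p) {a : A.ι}
    (ha : F p ∈ (A.e a).source) (h1 : AnalyticAt ℂ (fun w => A.e a (F w)) p)
    (h2 : Function.Bijective (DF A a F p))
    (h3 : ∀ i v, Q i a (A.e a (F p)) *ᵥ DF A a F p v = DF A a F p (pr i v)) : Gd A Q pr F p := by
  have hc : ∀ b, F p ∈ (A.e b).source → ∀ v,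
      DF A b F p v = DM (A.tr a b) (A.e a (F p)) *ᵥ DF A a F p v := fun b hb =>
    DF_chg hF ha hb h1.differentiableAt
  refine ⟨hF, fun b hb => ?_, fun b hb => ?_, fun b hb i v => ?_⟩
  · exact ((A.analyticOnNhd_tr a b _ (u2a_ov ha hb)).comp (f := fun w => A.e a (F w)) h1).congr
      (u2a_ev hF b ha).symm
  · have hu : IsUnit (DM (A.tr a b) (A.e a (F p))) := by
      rw [Matrix.isUnit_iff_isUnit_det, DM_det, isUnit_iff_ne_zero]
      exact A.det_tr_ne a b (u2a_ov ha hb)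
    have e : ⇑(DF A b F p) = (DM (A.tr a b) (A.e a (F p))).mulVec ∘ DF A a F p :=
      funext (hc b hb)
    rw [e]
    exact Function.Bijective.comp
      ⟨Matrix.mulVec_injective_iff_isUnit.2 hu, Matrix.mulVec_surjective_iff_isUnit.2 hu⟩ h2
  · have h4 := (hQ i).compat a b _ (u2a_ov ha hb)
    rw [u2a_tr b ha] at h4
    rw [hc b hb, hc b hb, mulVec_mulVec, ← h4, ← mulVec_mulVec, h3]

theorem DF_congr {F' : P → X} (he : F' =ᶠ[𝓝 p] F) (a : A.ι) : DF A a F' p = DF A a F p :=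
  Filter.EventuallyEq.fderiv_eq (he.mono fun w hw => by simp only [hw])

theorem Gd.congr (h : Gd A Q pr F p) {F' : P → X} (he : F' =ᶠ[𝓝 p] F) : Gd A Q pr F' p := by
  have e : F' p = F p := he.self_of_nhds
  refine ⟨h.cont.congr he.symm, fun a ha => ?_, fun a ha => ?_, fun a ha i v => ?_⟩
  · exact (h.an a (e ▸ ha)).congr (he.mono fun w hw => by simp only [hw])
  · rw [DF_congr he]
    exact h.bij a (e ▸ ha)
  · rw [DF_congr he, e]
    exact h.blk a (e ▸ ha) i v

theorem Gd.DF_comp (h : Gd A Q pr F (τ p')) (hτ : DifferentiableAt ℂ τ p') {a : A.ι}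
    (ha : F (τ p') ∈ (A.e a).source) (v : P') :
    DF A a (fun w => F (τ w)) p' v = DF A a F (τ p') (fderiv ℂ τ p' v) := by
  rw [DF, fderiv_fun_comp (g := fun w => A.e a (F w)) p' (h.an a ha).differentiableAt hτ]
  rfl

theorem Gd.comp (h : Gd A Q pr F (τ p')) (h1 : AnalyticAt ℂ τ p')
    (h2 : Function.Bijective (fderiv ℂ τ p'))
    (h3 : ∀ i v, fderiv ℂ τ p' (pr' i v) = pr i (fderiv ℂ τ p' v)) :
    Gd A Q pr' (fun w => F (τ w)) p' := by
  refine ⟨h.cont.comp h1.continuousAt, fun a ha => (h.an a ha).comp h1, fun a ha => ?_,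
    fun a ha i v => ?_⟩
  · have e : ⇑(DF A a (fun w => F (τ w)) p') = DF A a F (τ p') ∘ fderiv ℂ τ p' :=
      funext (h.DF_comp h1.differentiableAt ha)
    rw [e]
    exact (h.bij a ha).comp h2
  · rw [h.DF_comp h1.differentiableAt ha, h.DF_comp h1.differentiableAt ha, h3]
    exact h.blk a ha i _

/-- A continuous solution of an analytic equation with invertible derivative is analytic. -/
theorem an_of_comp [FiniteDimensional ℂ P] {E : Type} [NormedAddCommGroup E] [NormedSpace ℂ E]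
    [FiniteDimensional ℂ E] {f : P → E} {g : P' → E} (hτ : ContinuousAt τ p')
    (hf : AnalyticAt ℂ f (τ p')) (hb : Function.Bijective (fderiv ℂ f (τ p')))
    (hg : AnalyticAt ℂ g p') (h : ∀ᶠ w in 𝓝 p', f (τ w) = g w) : AnalyticAt ℂ τ p' := by
  have : CompleteSpace P := FiniteDimensional.complete ℂ P
  have : CompleteSpace E := FiniteDimensional.complete ℂ E
  let i : P ≃L[ℂ] E :=
    (LinearEquiv.ofBijective (fderiv ℂ f (τ p') : P →ₗ[ℂ] E) hb).toContinuousLinearEquiv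
  have hi : fderiv ℂ f (τ p') = (i : P →L[ℂ] E) := rfl
  have hs : HasStrictFDerivAt f (i : P →L[ℂ] E) (τ p') := hi ▸ hf.hasStrictFDerivAt
  have h1 : AnalyticAt ℂ (hs.localInverse f i (τ p')) (f (τ p')) :=
    (hs.toOpenPartialHomeomorph f).analyticAt_symm' hs.mem_toOpenPartialHomeomorph_source hf hi
  rw [h.self_of_nhds] at h1
  refine (h1.comp hg).congr ?_
  filter_upwards [h, hτ.eventually hs.eventually_left_inverse] with w h2 h3
  rw [Function.comp_apply, ← h2, h3]

theorem Gd.inv [FiniteDimensional ℂ P] {F' : P' → X} (h : Gd A Q pr F (τ p'))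
    (h' : Gd A Q pr' F' p') (hτ : ContinuousAt τ p') (he : ∀ᶠ w in 𝓝 p', F (τ w) = F' w) :
    AnalyticAt ℂ τ p' ∧ Function.Bijective (fderiv ℂ τ p') ∧
      ∀ i v, fderiv ℂ τ p' (pr' i v) = pr i (fderiv ℂ τ p' v) := by
  obtain ⟨a, ha'⟩ := A.cover (F' p')
  have ha : F (τ p') ∈ (A.e a).source := by rw [he.self_of_nhds]; exact ha'
  have h1 : AnalyticAt ℂ τ p' :=
    an_of_comp (f := fun w => A.e a (F w)) (g := fun w => A.e a (F' w)) hτ (h.an a ha)
      (h.bij a ha) (h'.an a ha') (he.mono fun w hw => by simp only [hw])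
  have h2 : ∀ v, DF A a F' p' v = DF A a F (τ p') (fderiv ℂ τ p' v) := fun v => by
    rw [← h.DF_comp h1.differentiableAt ha, DF_congr (F := F') he]
  have e : ⇑(DF A a F' p') = DF A a F (τ p') ∘ fderiv ℂ τ p' := funext h2
  refine ⟨h1, (Function.Bijective.of_comp_iff' (h.bij a ha) _).1 (e ▸ h'.bij a ha'),
    fun i v => (h.bij a ha).1 ?_⟩
  rw [← h2, ← h'.blk a ha', ← h.blk a ha, h2, he.self_of_nhds]

end Vale.Agent.P299.U2
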