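import Vale.Agent.P299.U2p
import Vale.Agent.P299.U2K
import Vale.Agent.P278.Pull

/-! P299, part U2: the pull-back of the Kaehler form. -/

open MeasureTheory Set Filter Topology Matrix
open scoped ContDiff ComplexConjugate ComplexOrder

noncomputable section

namespace Vale.Agent.P299.U2

open Vale.Agent.P271 Vale.Agent.P272

variable {n : ℕ} {X : Type} [TopologicalSpace X] {A : Atl n X} {η : Frm A} {Q : Fin 3 → EF A}
  {P : Type} [NormedAddCommGroup P] [NormedSpace ℝ P] [NormedSpace ℂ P] [IsScalarTower ℝ ℂ P]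
  [FiniteDimensional ℂ P] {pr : Fin 3 → P → P} {F : P → X} {O : Set P}

theorem U2d1_form (G : Mx n) : ∃ Ω : Cn n →L[ℝ] Cn n →L[ℝ] ℝ,
    ∀ u v, Ω u v = (star u ⬝ᵥ G *ᵥ v).im := by
  have hs : ∀ (r : ℝ) (u : Cn n), r • u = (r : ℂ) • u := fun r u => (algebraMap_smul ℂ r u).symm
  refine ⟨(LinearMap.mk₂ ℝ (fun u v : Cn n => (star u ⬝ᵥ G *ᵥ v).im)
    ?_ ?_ ?_ ?_).toContinuousBilinearMap, fun u v => rfl⟩
  · intro a a' v
    simp only [star_add, add_dotProduct, Complex.add_im]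
  · intro r u v
    rw [hs, star_smul, smul_dotProduct]
    simp
  · intro a v v'
    simp only [mulVec_add, dotProduct_add, Complex.add_im]
  · intro r u v
    rw [hs, mulVec_smul, dotProduct_smul]
    simp

theorem U2d1_clm {D E G : Type} [NormedAddCommGroup D] [NormedSpace ℝ D] [NormedAddCommGroup E]
    [NormedSpace ℝ E] [NormedAddCommGroup G] [NormedSpace ℝ G] [FiniteDimensional ℝ E]
    {f : D → E →L[ℝ] G} {x : D} (h : ∀ y, ContDiffAt ℝ 1 (fun x => f x y) x) :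
    ContDiffAt ℝ 1 f x := by
  let d := Module.finrank ℝ E
  have hd : d = Module.finrank ℝ (Fin d → ℝ) := (Module.finrank_fin_fun ℝ).symm
  let e₁ := ContinuousLinearEquiv.ofFinrankEq hd
  let e₂ := (e₁.arrowCongr (1 : G ≃L[ℝ] G)).trans (ContinuousLinearEquiv.piRing (Fin d))
  rw [← Function.id_comp f, ← e₂.symm_comp_self]
  exact e₂.symm.contDiff.contDiffAt.comp x (contDiffAt_pi.mpr fun i => h _)

theorem U2d1_sm {E : Type} [NormedAddCommGroup E] [NormedSpace ℝ E] {p : E} {G : E → Mx n}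
    {a b : E → Cn n} (hG : ∀ j k, ContDiffAt ℝ 1 (fun q => G q j k) p) (ha : ContDiffAt ℝ 1 a p)
    (hb : ContDiffAt ℝ 1 b p) : ContDiffAt ℝ 1 (fun q => star (a q) ⬝ᵥ G q *ᵥ b q) p := by
  simp only [dotProduct, mulVec, Pi.star_apply]
  refine ContDiffAt.sum fun j _ => ContDiffAt.mul ?_ (ContDiffAt.sum fun k _ =>
    (hG j k).mul (contDiffAt_pi.1 hb k))
  exact (Complex.conjCLE.contDiff.of_le le_top).contDiffAt.comp p (contDiffAt_pi.1 ha j)

omit [FiniteDimensional ℂ P] in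
theorem U2d1_loc (hη : IsF A η) (hO : IsOpen O) (h : ∀ p ∈ O, Gd A Q pr F p) {p : P}
    (hp : p ∈ O) : ∃ (Φ : Cn n → ℝ) (ψ : P → Cn n), ContDiffAt ℝ ∞ Φ (ψ p) ∧
      ContDiffAt ℝ ω ψ p ∧ ∀ᶠ q in 𝓝 p, ∀ u v, pm A η F q u v =
        star (fderiv ℝ ψ q u) ⬝ᵥ LM Φ (ψ q) *ᵥ fderiv ℝ ψ q v := by
  obtain ⟨a, ha⟩ := A.cover (F p)
  refine ⟨η a, fun w => A.e a (F w), hη.smAt ((A.e a).map_source ha),
    (((h p hp).an a ha).contDiffAt (n := ω)).restrict_scalars ℝ, ?_⟩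
  filter_upwards [hO.mem_nhds hp, (h p hp).cont.eventually ((A.e a).open_source.mem_nhds ha)]
    with q hq hq' u v
  have hd := ((h q hq).an a hq').differentiableAt
  rw [pm_eq hη (h q hq) hq', hd.fderiv_restrictScalars ℝ]
  rfl

theorem pm_smooth (hη : IsF A η) (hO : IsOpen O) (h : ∀ p ∈ O, Gd A Q pr F p) {p : P}
    (hp : p ∈ O) (u v : P) : ContDiffAt ℝ 1 (fun q => pm A η F q u v) p := by
  obtain ⟨Φ, ψ, hΦ, hψ, hev⟩ := U2d1_loc hη hO h hp
  have a2 : ContDiffAt ℝ 1 (fderiv ℝ ψ) p := hψ.fderiv_right (by simp)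
  refine (U2d1_sm (G := fun q => LM Φ (ψ q)) (fun j k => ?_) (a2.clm_apply contDiffAt_const)
    (a2.clm_apply contDiffAt_const)).congr_of_eventuallyEq (hev.mono fun q hq => hq u v)
  exact ((contDiffAt_LM hΦ j k).of_le (by simp)).comp p (hψ.of_le (by simp))

theorem pm_closed (hη : IsF A η) (hO : IsOpen O) (h : ∀ p ∈ O, Gd A Q pr F p) {p : P}
    (hp : p ∈ O) : P278.ClosedAt (fun q u v => (pm A η F q u v).im) p := by
  obtain ⟨Φ, ψ, hΦ, hψ, hev⟩ := U2d1_loc hη hO h hp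
  choose Ω hΩ using fun y : Cn n => U2d1_form (LM Φ y)
  have a1 : ContDiffAt ℝ 1 Ω (ψ p) := by
    refine U2d1_clm fun u => U2d1_clm fun v => ?_
    simp only [hΩ]
    exact (Complex.imCLM.contDiff.of_le le_top).contDiffAt.comp (ψ p)
      (U2d1_sm (fun j k => (contDiffAt_LM hΦ j k).of_le (by simp)) contDiffAt_const
        contDiffAt_const)
  refine (P278.closedAt_pullback (a1.differentiableAt one_ne_zero) (fun u v => ?_)
    (fun u v w => ?_) (hψ.of_le (by simp))).congr ?_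
  · rw [hΩ, hΩ, ← Complex.conj_im, ← RCLike.star_def, ← star_dotProduct_star, star_star,
      star_mulVec, (LM_herm hΦ).eq, ← dotProduct_mulVec]
  · simp only [hΩ]
    exact kae_closed hΦ u v w
  · filter_upwards [hev] with q hq
    funext u v
    rw [hq, hΩ]

theorem gd_form (hη : Kae A η) (hO : IsOpen O) (h : ∀ p ∈ O, Gd A Q pr F p) :
    ∃ Ω : P → P →L[ℝ] P →L[ℝ] ℝ, ContDiffOn ℝ 1 Ω O ∧ ∀ p ∈ O,
      (∀ u v, Ω p u v = (pm A η F p u v).im) ∧ (∀ u v, Ω p u v = -Ω p v u) ∧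
      P278.ClosedAt (fun q u v => Ω q u v) p ∧ ∀ u, u ≠ 0 → 0 < Ω p u (Complex.I • u) := by
  have : FiniteDimensional ℝ P := Module.Finite.trans ℂ P
  have hs : ∀ (r : ℝ) (u : P), r • u = (r : ℂ) • u := fun r u => (algebraMap_smul ℂ r u).symm
  have hex : ∀ p, ∃ Ω : P →L[ℝ] P →L[ℝ] ℝ, ∀ u v, Ω u v = (pm A η F p u v).im := by
    intro p
    refine ⟨(LinearMap.mk₂ ℝ (fun u v : P => (pm A η F p u v).im)
      ?_ ?_ ?_ ?_).toContinuousBilinearMap, fun u v => rfl⟩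
    · intro a a' v
      simp only [pm_add_left, Complex.add_im]
    · intro r u v
      rw [hs, pm_smul_left]
      simp
    · intro a v v'
      simp only [pm_add_right, Complex.add_im]
    · intro r u v
      rw [hs, pm_smul_right]
      simp
  choose Ω hΩ using hex
  refine ⟨Ω, ?_, fun p hp => ⟨hΩ p, fun u v => ?_, ?_, fun u hu => ?_⟩⟩
  · rw [contDiffOn_clm_apply]
    intro u
    rw [contDiffOn_clm_apply]
    intro v p hp
    simp only [hΩ]
    exact ((Complex.imCLM.contDiff.of_le le_top).contDiffAt.comp p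
      (pm_smooth hη.1 hO h hp u v)).contDiffWithinAt
  · rw [hΩ, hΩ, ← pm_conj hη.1 v u, Complex.conj_im]
  · simp only [hΩ]
    exact pm_closed hη.1 hO h hp
  · rw [hΩ, pm_smul_right]
    simpa using pm_pos hη (h p hp) hu

end Vale.Agent.P299.U2
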