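import Vale.Agent.P299.U2d1
import Vale.Agent.P278.AtlX

/-! P299, part U2: the uniform atlas on the compact manifold. -/

open MeasureTheory Set Filter Topology Matrix
open scoped ContDiff ComplexConjugate ComplexOrder

noncomputable section

namespace Vale.Agent.P299.U2

open Vale.Agent.P271 Vale.Agent.P272

variable {n : ℕ} {X : Type} [TopologicalSpace X] {A : Atl n X} {η : Frm A} {Q : Fin 3 → EF A}

open Metric in
theorem U2d2_local (hη : Kae A η) {d : Fin 3 → ℕ} {c : OpenPartialHomeomorph X (PP d)}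
    (h : ∀ p ∈ c.target, Gd A Q prP c.symm p) {x : X} (hx : x ∈ c.source) {U : Set X}
    (hU : U ∈ 𝓝 x) : ∃ (c' : OpenPartialHomeomorph X (PP d))
      (Ω : PP d → PP d →L[ℝ] PP d →L[ℝ] ℝ) (lam Lam : ℝ),
      (∀ p ∈ c'.target, Gd A Q prP c'.symm p) ∧ c'.target = ball 0 4 ∧ x ∈ c'.source ∧
      c' x = 0 ∧ c'.source ⊆ U ∧ 0 < lam ∧ ContDiffOn ℝ 1 Ω (ball 0 4) ∧
      ∀ p ∈ ball (0 : PP d) 4, (∀ u v, Ω p u v = (pm A η c'.symm p u v).im) ∧
        (∀ u v, Ω p u v = -Ω p v u) ∧ P278.ClosedAt (fun q u v => Ω q u v) p ∧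
        (∀ u, lam * ‖u‖ ^ 2 ≤ Ω p u (Complex.I • u)) ∧ ∀ u v, |Ω p u v| ≤ Lam * ‖u‖ * ‖v‖ := by
  have hn : c.target ∩ c.symm ⁻¹' U ∈ 𝓝 (c x) := by
    refine inter_mem (c.open_target.mem_nhds (c.map_source hx)) ?_
    refine (c.continuousAt_symm (c.map_source hx)).preimage_mem_nhds ?_
    rwa [c.left_inv hx]
  obtain ⟨ε, hε, hb⟩ := Metric.mem_nhds_iff.1 hn
  have ht : ((ε / 5 : ℝ) : ℂ) ≠ 0 := by
    rw [Complex.ofReal_ne_zero]
    positivity
  have hball : ∀ p ∈ closedBall (0 : PP d) 4, ((ε / 5 : ℝ) : ℂ) • p + c x ∈ ball (c x) ε := by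
    intro p hp
    rw [mem_closedBall_zero_iff] at hp
    rw [mem_ball_iff_norm, add_sub_cancel_right, norm_smul, Complex.norm_real, Real.norm_eq_abs,
      abs_of_pos (by positivity)]
    nlinarith
  generalize ((ε / 5 : ℝ) : ℂ) = t at ht hball
  set c₁ := c.transHomeomorph (P278.affH (c x) ht) with hc₁
  have ht₁ : ∀ p ∈ closedBall (0 : PP d) 4, p ∈ c₁.target := fun p hp => (hb (hball p hp)).1
  have g₁ : ∀ p ∈ c₁.target, Gd A Q prP c₁.symm p := by
    intro p hp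
    have a1 : HasFDerivAt (fun q : PP d => t • q + c x) (t • ContinuousLinearMap.id ℂ (PP d)) p :=
      ((hasFDerivAt_id p).const_smul t).add_const _
    refine Gd.comp (τ := fun q : PP d => t • q + c x) (h _ hp) (by fun_prop) ?_ fun i v => ?_
    · rw [a1.fderiv]
      exact (MulAction.bijective (Units.mk0 t ht) : Function.Bijective fun q : PP d => _ • q)
    · rw [a1.fderiv]
      exact (Pi.single_smul (f := fun i => P278.Cn (d i)) i t (v i)).symm
  set c₂ := (c₁.symm.restrOpen (ball 0 4) isOpen_ball).symm with hc₂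
  have hs₂ : ∀ y, y ∈ c₂.source ↔ y ∈ c.source ∧ c₁ y ∈ ball 0 4 := fun y => Iff.rfl
  have hx0 : c₁ x = 0 := by
    show t⁻¹ • (c x - c x) = 0
    simp
  obtain ⟨Ω, hΩ, hf⟩ := gd_form hη c₁.open_target g₁
  have hcont : ContinuousOn Ω (closedBall 0 4) := hΩ.continuousOn.mono ht₁
  obtain ⟨lam, hl, hlam⟩ := P278.exists_tame_bound (isCompact_closedBall _ _) hcont
    fun p hp => (hf p (ht₁ p hp)).2.2.2
  obtain ⟨Lam, hLam⟩ := P278.exists_bdd_bound (isCompact_closedBall _ _) hcont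
  refine ⟨c₂, Ω, lam, Lam, fun p hp => g₁ p hp.1,
    inter_eq_right.2 fun p hp => ht₁ p (ball_subset_closedBall hp),
    (hs₂ x).2 ⟨hx, by rw [hx0]; simp⟩, hx0, fun y hy => ?_, hl,
    hΩ.mono fun p hp => ht₁ p (ball_subset_closedBall hp), fun p hp => ?_⟩
  · obtain ⟨h1, h2⟩ := (hs₂ y).1 hy
    have h3 := (hb (hball _ (ball_subset_closedBall h2))).2
    have h4 : c₁.symm (c₁ y) = y := c₁.left_inv h1
    rw [← h4]
    exact h3
  · have hp' := ball_subset_closedBall hp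
    exact ⟨(hf p (ht₁ p hp')).1, (hf p (ht₁ p hp')).2.1, (hf p (ht₁ p hp')).2.2.1, hlam p hp',
      hLam p hp'⟩

theorem U2d2_trans {d : Fin 3 → ℕ} {c c' : OpenPartialHomeomorph X (PP d)}
    (h : ∀ p ∈ c.target, Gd A Q prP c.symm p) (h' : ∀ p ∈ c'.target, Gd A Q prP c'.symm p)
    {m : X} (hm : m ∈ c.source) (hm' : m ∈ c'.source) :
    AnalyticAt ℂ (c' ∘ c.symm) (c m) ∧ ∀ u v, pm A η c.symm (c m) u v =
      pm A η c'.symm (c' m) (fderiv ℂ (c' ∘ c.symm) (c m) u) (fderiv ℂ (c' ∘ c.symm) (c m) v) := by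
  have e : (c' ∘ c.symm) (c m) = c' m := by rw [Function.comp_apply, c.left_inv hm]
  have a1 : Gd A Q prP c'.symm ((c' ∘ c.symm) (c m)) := e ▸ h' _ (c'.map_source hm')
  have a2 : ∀ᶠ w in 𝓝 (c m), c'.symm ((c' ∘ c.symm) w) = c.symm w := by
    filter_upwards [(c.tendsto_symm hm).eventually (c'.open_source.mem_nhds hm')] with w hw
    exact c'.left_inv hw
  have a3 := (a1.inv (h _ (c.map_source hm)) (ContinuousAt.comp (by
    rw [c.left_inv hm]
    exact c'.continuousAt hm') (c.continuousAt_symm (c.map_source hm))) a2).1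
  refine ⟨a3, fun u v => ?_⟩
  rw [← pm_congr a2, pm_comp a1 a3.differentiableAt, e]

theorem atlX [CompactSpace X] (hη : Kae A η) {d : Fin 3 → ℕ}
    (hc : ∀ x, ∃ c : OpenPartialHomeomorph X (PP d), x ∈ c.source ∧
      ∀ p ∈ c.target, Gd A Q prP c.symm p) (U : X → Set X) (hU : ∀ x, U x ∈ 𝓝 x) :
    ∃ C : P278.Atl X (PP d), ∀ a, (∀ p ∈ (C.c a).target, Gd A Q prP (C.c a).symm p) ∧
      ∃ x, (C.c a).source ⊆ U x := by
  choose c₀ hx₀ hc₀ using hc
  choose c Ω lam Lam hP ht hx hx0 hcU hl hsm hf using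
    fun x => U2d2_local hη (hc₀ x) (hx₀ x) (hU x)
  have hW : ∀ x, (c x).source ∩ c x ⁻¹' Metric.ball 0 1 ∈ 𝓝 x := fun x =>
    ((c x).isOpen_inter_preimage Metric.isOpen_ball).mem_nhds ⟨hx x, by simp [hx0 x]⟩
  obtain ⟨t, htc⟩ := CompactSpace.elim_nhds_subcover _ hW
  obtain ⟨l, L, hl0, hlL, hb⟩ := P278.exists_common_bounds t lam Lam hl
  refine ⟨
    { ι := {x // x ∈ t}
      c := fun a => c a
      tgt := fun a => ht a
      cover := fun m => ?_
      trans := fun a b m ha hb => (U2d2_trans (η := η) (hP a) (hP b) ha hb).1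
      Ω := fun a => Ω a
      lam := l
      Lam := L
      lam_pos := hl0
      lam_le := hlL
      smooth := fun a => hsm a
      alt := fun a p hp => (hf a p hp).2.1
      closed := fun a p hp => (hf a p hp).2.2.1
      tame := fun a p hp u => le_trans ?_ ((hf a p hp).2.2.2.1 u)
      bdd := fun a p hp u v => ((hf a p hp).2.2.2.2 u v).trans ?_
      compat := fun a b m ha hb u v => ?_ }, fun a => ⟨hP a, a, hcU a⟩⟩
  · have hm : m ∈ ⋃ x ∈ t, (c x).source ∩ c x ⁻¹' Metric.ball 0 1 := by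
      rw [htc]
      trivial
    simp only [Set.mem_iUnion] at hm
    obtain ⟨x, hxt, h1, h2⟩ := hm
    exact ⟨⟨x, hxt⟩, h1, by simpa using h2⟩
  · exact mul_le_mul_of_nonneg_right (hb a a.2).1 (sq_nonneg _)
  · have := (hb a a.2).2
    gcongr
  · rw [(hf a _ (ht a ▸ (c a).map_source ha)).1, (hf b _ (ht b ▸ (c b).map_source hb)).1,
      (U2d2_trans (hP a) (hP b) ha hb).2]

end Vale.Agent.P299.U2
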