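import Vale.Agent.P299.U2a

/-! P299, part U2: the pull-back of the metric. -/

open MeasureTheory Set Filter Topology Matrix
open scoped ContDiff ComplexConjugate ComplexOrder

noncomputable section

namespace Vale.Agent.P299.U2

open Vale.Agent.P271 Vale.Agent.P272

section Gen
variable {n : ℕ} {X : Type} [TopologicalSpace X] {A : Atl n X} {η : Frm A} {Q : Fin 3 → EF A}
  {P P' : Type} [NormedAddCommGroup P] [NormedSpace ℂ P] [NormedAddCommGroup P'] [NormedSpace ℂ P']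
  {pr : Fin 3 → P → P} {pr' : Fin 3 → P' → P'} {F : P → X} {p : P} {τ : P' → P} {p' : P'}

theorem pm_eq (hη : IsF A η) (h : Gd A Q pr F p) {a : A.ι} (ha : F p ∈ (A.e a).source) (u v : P) :
    pm A η F p u v = star (DF A a F p u) ⬝ᵥ LM (η a) (A.e a (F p)) *ᵥ DF A a F p v := by
  have hd := (h.an a ha).differentiableAt
  rw [pm, DF_chg h.cont ha (ch_mem A _) hd u, DF_chg h.cont ha (ch_mem A _) hd v, ApiA_rep hη ha,
    star_mulVec, ← dotProduct_mulVec, mulVec_mulVec, mulVec_mulVec]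

theorem pm_congr {F' : P → X} (he : F' =ᶠ[𝓝 p] F) (u v : P) :
    pm A η F' p u v = pm A η F p u v := by
  rw [pm, pm, DF_congr he, he.eq_of_nhds]

theorem pm_comp (h : Gd A Q pr F (τ p')) (hτ : DifferentiableAt ℂ τ p') (u v : P') :
    pm A η (fun w => F (τ w)) p' u v = pm A η F (τ p') (fderiv ℂ τ p' u) (fderiv ℂ τ p' v) := by
  rw [pm, pm, h.DF_comp hτ (ch_mem A _), h.DF_comp hτ (ch_mem A _)]

theorem pm_add_left (u u' v : P) : pm A η F p (u + u') v = pm A η F p u v + pm A η F p u' v := by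
  simp only [pm, map_add, star_add, add_dotProduct]

theorem pm_add_right (u v v' : P) : pm A η F p u (v + v') = pm A η F p u v + pm A η F p u v' := by
  simp only [pm, map_add, mulVec_add, dotProduct_add]

theorem pm_smul_left (c : ℂ) (u v : P) : pm A η F p (c • u) v = conj c * pm A η F p u v := by
  simp only [pm, map_smul, star_smul, smul_dotProduct, smul_eq_mul, RCLike.star_def]

theorem pm_smul_right (c : ℂ) (u v : P) : pm A η F p u (c • v) = c * pm A η F p u v := by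
  simp only [pm, map_smul, mulVec_smul, dotProduct_smul, smul_eq_mul]

theorem pm_conj (hη : IsF A η) (u v : P) : conj (pm A η F p u v) = pm A η F p v u := by
  rw [pm, pm, ← RCLike.star_def, ← star_dotProduct_star, star_star, star_mulVec,
    (GM_herm hη (F p)).eq, ← dotProduct_mulVec]

theorem pm_pos (hη : Kae A η) (h : Gd A Q pr F p) {u : P} (hu : u ≠ 0) :
    0 < (pm A η F p u u).re :=
  ((posF_iff hη.1).1 hη.2 (F p)).re_dotProduct_pos fun h0 =>
    hu ((h.bij _ (ch_mem A _)).1 (h0.trans (map_zero _).symm))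

theorem u2p_matrix {d : ℕ} (G : Mx n) (L : Cn d →ₗ[ℂ] Cn n) (u v : Cn d) :
    star (L u) ⬝ᵥ G *ᵥ L v = star u ⬝ᵥ (Matrix.of fun j k =>
      star (L (Pi.single j 1)) ⬝ᵥ G *ᵥ L (Pi.single k 1)) *ᵥ v := by
  have e : ∀ w, L w = LinearMap.toMatrix' L *ᵥ w := fun w => (LinearMap.toMatrix'_mulVec L w).symm
  have e2 : ∀ x y, star (L x) ⬝ᵥ G *ᵥ L y =
      star x ⬝ᵥ ((LinearMap.toMatrix' L)ᴴ * G * LinearMap.toMatrix' L) *ᵥ y := fun x y => by
    rw [e x, e y, star_mulVec, ← dotProduct_mulVec, mulVec_mulVec, mulVec_mulVec]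
  simp only [e2]
  congr 2
  ext j k
  simp [← Pi.single_star]

/-- A sesquilinear function on `Cn d` is given by a matrix. -/
theorem sesq_matrix {d : ℕ} (ι : Cn d →ₗ[ℂ] P) (u v : Cn d) : pm A η F p (ι u) (ι v) =
    star u ⬝ᵥ (Matrix.of fun j k => pm A η F p (ι (Pi.single j 1)) (ι (Pi.single k 1))) *ᵥ v :=
  u2p_matrix (GM A η (F p)) ((DF A (ch A (F p)) F p : P →ₗ[ℂ] Cn n) ∘ₗ ι) u v

end Gen

variable {n : ℕ} {X : Type} [TopologicalSpace X] [MeasurableSpace X] {M : Model n X}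
  {η : Frm M.toAtl} {B : EF M.toAtl} {Q : Fin 3 → EF M.toAtl}

theorem pm_orth {P : Type} [NormedAddCommGroup P] [NormedSpace ℂ P] {pr : Fin 3 → P → P}
    {F : P → X} {p : P} (hη : IsF M.toAtl η) (hQ : Prj M η B Q) (h : Gd M.toAtl Q pr F p)
    {i j : Fin 3} (hij : i ≠ j) (u v : P) : pm M.toAtl η F p (pr i u) (pr j v) = 0 := by
  have ha := ch_mem M.toAtl (F p)
  have hz := ApiA_ch M.toAtl (F p)
  have h1 := ((hQ.he i).herm _ _ hz).eq
  have h2 := hQ.mul i j _ _ hz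
  have h3 := (GM_herm hη (F p)).eq
  rw [if_neg hij] at h2
  rw [GM] at h3
  rw [conjTranspose_mul, h3] at h1
  rw [pm, ← h.blk _ ha, ← h.blk _ ha, star_mulVec, ← dotProduct_mulVec, mulVec_mulVec,
    mulVec_mulVec, GM, h1, Matrix.mul_assoc, h2, Matrix.mul_zero, zero_mulVec, dotProduct_zero]

theorem pm_split {d₀ d₁ d₂ : ℕ} {F : Cn d₀ × Cn d₁ × Cn d₂ → X} {p : Cn d₀ × Cn d₁ × Cn d₂}
    (hη : IsF M.toAtl η) (hQ : Prj M η B Q) (h : Gd M.toAtl Q pr3 F p)
    (u v : Cn d₀ × Cn d₁ × Cn d₂) : pm M.toAtl η F p u v =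
      pm M.toAtl η F p (u.1, 0, 0) (v.1, 0, 0) + pm M.toAtl η F p (0, u.2.1, 0) (0, v.2.1, 0) +
        pm M.toAtl η F p (0, 0, u.2.2) (0, 0, v.2.2) := by
  have e : ∀ w : Cn d₀ × Cn d₁ × Cn d₂, w = pr3 0 w + pr3 1 w + pr3 2 w := fun w => by
    simp [pr3]
  have o := fun i j hij => pm_orth hη hQ h (i := i) (j := j) hij u v
  conv_lhs => rw [e u, e v]
  simp only [pm_add_left, pm_add_right]
  rw [o 0 1 (by decide), o 0 2 (by decide), o 1 0 (by decide), o 1 2 (by decide),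
    o 2 0 (by decide), o 2 1 (by decide)]
  simp [pr3]

end Vale.Agent.P299.U2
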