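import Vale.Agent.P299.ZDefs

/-! P299, part Z: finite dimensional normed spaces and Euler characteristics. -/

open Finset
open scoped ENNReal

noncomputable section

namespace Vale.Agent.P299

variable {M : Type} [AddCommGroup M] [Module ℂ M]

theorem za_real {W : Type} [AddCommGroup W] [Module ℂ W] [FiniteDimensional ℂ W] (n : W → ℝ)
    (ha : ∀ u v, n (u + v) ≤ n u + n v) (hs : ∀ (c : ℂ) u, n (c • u) = ‖c‖ * n u)
    (h0 : ∀ u, n u = 0 → u = 0) (l : W →ₗ[ℂ] ℂ) : ∃ C : ℝ, 0 ≤ C ∧ ∀ u, ‖l u‖ ≤ C * n u := by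
  let nn : AddGroupNorm W :=
    { toFun := n
      map_zero' := by simpa using hs 0 0
      add_le' := ha
      neg' := fun u => by simpa using hs (-1) u
      eq_zero_of_map_eq_zero' := h0 }
  let _ : NormedAddCommGroup W := nn.toNormedAddCommGroup
  let _ : NormedSpace ℂ W := ⟨fun c u => (hs c u).le⟩
  exact ⟨‖LinearMap.toContinuousLinearMap l‖, norm_nonneg _,
    fun u => (LinearMap.toContinuousLinearMap l).le_opNorm u⟩

/-- Linear functionals on a finite dimensional normed space are bounded.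
Hint: on `V` the function `u ↦ (N u).toReal` is a norm; install it as a local instance
(`AddGroupNorm.toNormedAddCommGroup`, `NormedSpace`), `LinearMap.continuous_of_finiteDimensional`,
`ContinuousLinearMap.le_opNorm`. -/
theorem zfd_bound {N : M → ℝ≥0∞} (h : ZSN N) {V : Submodule ℂ M} [FiniteDimensional ℂ V]
    (hf : ∀ u ∈ V, N u ≠ ⊤) (h0 : ∀ u ∈ V, N u = 0 → u = 0) (l : M →ₗ[ℂ] ℂ) :
    ∃ C ≠ (⊤ : ℝ≥0∞), ∀ u ∈ V, ‖l u‖ₑ ≤ C * N u := by
  obtain ⟨C, hC0, hC⟩ := za_real (W := V) (fun u => (N u).toReal) (fun u v => by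
      rw [← ENNReal.toReal_add (hf _ u.2) (hf _ v.2)]
      exact ENNReal.toReal_mono (ENNReal.add_ne_top.2 ⟨hf _ u.2, hf _ v.2⟩) (h.add _ _))
    (fun c u => by
      rw [Submodule.coe_smul, h.smul, ENNReal.toReal_mul, toReal_enorm])
    (fun u hu => Subtype.ext (h0 _ u.2 (((ENNReal.toReal_eq_zero_iff _).1 hu).resolve_right
      (hf _ u.2)))) (l ∘ₗ V.subtype)
  refine ⟨ENNReal.ofReal C, ENNReal.ofReal_ne_top, fun u hu => ?_⟩
  rw [← ofReal_norm, ← ENNReal.ofReal_toReal (hf u hu), ← ENNReal.ofReal_mul hC0]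
  exact ENNReal.ofReal_le_ofReal (hC ⟨u, hu⟩)

/-- Bounded right inverses.  Hint: take a basis `z i = T (e i)` of `U.map T`, extend the
coordinate functionals to `M` (`LinearMap.exists_extend`), `e = ∑ l i z • e i`. -/
theorem zfd_inv {N : M → ℝ≥0∞} (h : ZSN N) {U V : Submodule ℂ M} [FiniteDimensional ℂ V]
    (hU : ∀ u ∈ U, N u ≠ ⊤) (hf : ∀ u ∈ V, N u ≠ ⊤) (h0 : ∀ u ∈ V, N u = 0 → u = 0)
    (T : M →ₗ[ℂ] M) (hT : ∀ u ∈ U, T u ∈ V) :
    ∃ C ≠ (⊤ : ℝ≥0∞), ∀ u ∈ U, ∃ e ∈ U, T e = T u ∧ N e ≤ C * N (T u) := by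
  have hle : U.map T ≤ V := by
    rintro _ ⟨u, hu, rfl⟩
    exact hT u hu
  have := Submodule.finiteDimensional_of_le hle
  let b := Module.finBasis ℂ (U.map T)
  choose e he1 he2 using fun i => Submodule.mem_map.1 (b i).2
  choose l hl using fun i => LinearMap.exists_extend (b.coord i)
  choose C hC1 hC2 using fun i => zfd_bound h hf h0 (l i)
  refine ⟨∑ i, C i * N (e i), ENNReal.sum_ne_top.2 fun i _ =>
    ENNReal.mul_ne_top (hC1 i) (hU _ (he1 i)), fun u hu => ?_⟩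
  refine ⟨∑ i, l i (T u) • e i, Submodule.sum_mem _ fun i _ => Submodule.smul_mem _ _ (he1 i),
    ?_, ?_⟩
  · have h1 := congrArg Subtype.val (b.sum_repr ⟨T u, Submodule.mem_map_of_mem hu⟩)
    rw [Submodule.coe_sum] at h1
    rw [map_sum]
    refine Eq.trans (Finset.sum_congr rfl fun i _ => ?_) h1
    have h2 := LinearMap.congr_fun (hl i) ⟨T u, Submodule.mem_map_of_mem hu⟩
    rw [map_smul, he2, Submodule.coe_smul]
    congr 1
  · refine (h.sum _ _).trans ?_
    rw [Finset.sum_mul]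
    refine Finset.sum_le_sum fun i _ => ?_
    rw [h.smul, mul_right_comm]
    exact mul_le_mul_left (hC2 i _ (hT u hu)) _

/-- Subspaces are closed.  Hint: otherwise a functional vanishes on `U` and is one at `z`
(`Submodule.exists_dual_map_eq_bot_of_notMem`), use `zfd_bound`. -/
theorem zfd_closed {N : M → ℝ≥0∞} (h : ZSN N) {U V : Submodule ℂ M} [FiniteDimensional ℂ V]
    (hf : ∀ u ∈ V, N u ≠ ⊤) (h0 : ∀ u ∈ V, N u = 0 → u = 0) (hU : U ≤ V) {z : M} (hz : z ∈ V)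
    (ha : ∀ ε > (0 : ℝ≥0∞), ∃ e ∈ U, N (z - e) ≤ ε) : z ∈ U := by
  by_contra hn
  obtain ⟨l, hl, hl0⟩ := Submodule.exists_dual_map_eq_bot_of_notMem hn inferInstance
  obtain ⟨C, hC, hb⟩ := zfd_bound h hf h0 l
  obtain ⟨ε, hε, hlt⟩ := ENNReal.exists_nnreal_pos_mul_lt hC (enorm_ne_zero.2 hl)
  obtain ⟨e, he, hN⟩ := ha ε (by exact_mod_cast hε)
  have h1 : l e = 0 := by
    have : l e ∈ U.map l := Submodule.mem_map_of_mem he
    rwa [hl0, Submodule.mem_bot] at this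
  have h2 := hb (z - e) (sub_mem hz (hU he))
  rw [map_sub, h1, sub_zero] at h2
  have h3 : C * N (z - e) ≤ ε * C := by
    rw [mul_comm]
    exact mul_le_mul_left hN _
  exact absurd (h2.trans h3) (not_le.2 hlt)

/-- The Euler characteristic of an exact complex.  Hint: `z p = finrank (O p ⊓ ker δ)`,
`finrank (O p) = z p + z (p + 1)` (rank-nullity for `δ.domRestrict (O p)`; the image is
`O (p + 1) ⊓ ker δ`), `z 0 = 0`, `z (k + 1) = 0`, induction on the length of the sum. -/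
theorem zeuler (O : ℕ → Submodule ℂ M) (hO : ∀ p, FiniteDimensional ℂ (O p)) (δ : M →ₗ[ℂ] M)
    (hδ : ∀ p, ∀ u ∈ O p, δ u ∈ O (p + 1)) (hδδ : ∀ u, δ (δ u) = 0)
    (h0 : ∀ u ∈ O 0, δ u = 0 → u = 0)
    (hex : ∀ p, ∀ u ∈ O (p + 1), δ u = 0 → ∃ e ∈ O p, δ e = u) {k : ℕ} (hk : O (k + 1) = ⊥) :
    ∑ p ∈ range (k + 1), (-1 : ℤ) ^ p * (Module.finrank ℂ (O p) : ℤ) = 0 := by
  set z : ℕ → ℕ := fun p => Module.finrank ℂ (O p ⊓ LinearMap.ker δ : Submodule ℂ M) with hz
  have h1 : ∀ p, Module.finrank ℂ (O p) = z (p + 1) + z p := by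
    intro p
    have := hO p
    have e1 : LinearMap.range (δ.domRestrict (O p)) = O (p + 1) ⊓ LinearMap.ker δ := by
      rw [LinearMap.range_domRestrict]
      apply le_antisymm
      · rintro _ ⟨u, hu, rfl⟩
        exact ⟨hδ p u hu, hδδ u⟩
      · rintro u ⟨hu1, hu2⟩
        exact hex p u hu1 hu2
    have e2 : Module.finrank ℂ (LinearMap.ker (δ.domRestrict (O p))) = z p := by
      rw [LinearMap.ker_domRestrict, ← Submodule.finrank_map_subtype_eq,
        Submodule.map_comap_subtype]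
    rw [← LinearMap.finrank_range_add_finrank_ker (δ.domRestrict (O p)), e1, e2]
  have h2 : z 0 = 0 := by
    have : O 0 ⊓ LinearMap.ker δ = ⊥ := eq_bot_iff.2 fun u hu => h0 u hu.1 hu.2
    simp only [hz]
    rw [this, finrank_bot]
  have h3 : z (k + 1) = 0 := by
    simp only [hz]
    rw [hk, bot_inf_eq, finrank_bot]
  have h4 : ∀ m, ∑ p ∈ range (m + 1), (-1 : ℤ) ^ p * (Module.finrank ℂ (O p) : ℤ) =
      (-1) ^ m * (z (m + 1) : ℤ) := by
    intro m
    induction m with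
    | zero => simp [h1 0, h2]
    | succ m ih =>
      rw [Finset.sum_range_succ, ih, h1 (m + 1)]
      push_cast
      ring
  rw [h4, h3]
  simp

end Vale.Agent.P299
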