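import Vale.Agent.P299.ZA

/-! P299, part Z: closed range in the first column. -/

open Finset
open scoped ENNReal

noncomputable section

namespace Vale.Agent.P299

variable {M : Type} [AddCommGroup M] [Module ℂ M]

variable {d δ κ : M →ₗ[ℂ] M} {P : ℕ → ℕ → Submodule ℂ M} {N : M → ℝ≥0∞}

theorem ZDC.bd' (h : ZDC d δ κ P N) : ∃ C ≠ (⊤ : ℝ≥0∞), (∀ u, N (δ u) ≤ C * N u) ∧
    (∀ u, N (κ u) ≤ C * N u) ∧ ∀ u, N (d (κ u)) ≤ C * N u + C * N (d u) := by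
  obtain ⟨C, hC, hb⟩ := h.bd
  refine ⟨C, hC, fun u => (hb u).1, fun u => (hb u).2.1, fun u => ?_⟩
  have := h.sn.add (d (κ u) - κ (d u)) (κ (d u))
  rw [sub_add_cancel] at this
  exact this.trans (add_le_add (hb u).2.2 (hb _).2.1)

theorem ZDC.δκ (h : ZDC d δ κ P N) {u : M} (hu : δ u = 0) : δ (κ u) = u := by
  have := h.hom u
  rwa [hu, map_zero, add_zero] at this

theorem ZDC.inj (h : ZDC d δ κ P N) {q : ℕ} {u : M} (hu : u ∈ P 0 q) (h0 : δ u = 0) : u = 0 := by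
  rw [← h.δκ h0, h.κ0 q u hu, map_zero]

theorem zb_ne {a C b : ℝ≥0∞} (h : a ≤ C * b) (hC : C ≠ ⊤) (hb : b ≠ ⊤) : a ≠ ⊤ :=
  ne_top_of_le_ne_top (ENNReal.mul_ne_top hC hb) h

theorem ZDC.cr_ker (h : ZDC d δ κ P N) (hs : ∀ p, ZSol d (P (p + 1)) N)
    (hf : ∀ p, ZFd d (P p) N) (q p : ℕ) : ∃ C ≠ (⊤ : ℝ≥0∞), ∀ w ∈ P (p + 1) q, δ w = 0 →
      N w ≠ ⊤ → N (d w) ≠ ⊤ → ∃ y ∈ P (p + 1) q, δ y = 0 ∧ d y = d w ∧ N y ≤ C * N (d w) := by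
  obtain ⟨B, hB, b1, b2, b3⟩ := h.bd'
  induction q generalizing p with
  | zero =>
    obtain ⟨C, hC, hs⟩ := hs p 0
    have := (hf (p + 2)).1
    obtain ⟨E, hE, hi⟩ := zfd_inv h.sn (U := ZO d (P (p + 1)) N) (V := ZO d (P (p + 2)) N)
      (fun u hu => ((mem_ZO h.sn).1 hu).2.2) (fun u hu => ((mem_ZO h.sn).1 hu).2.2)
      (hf (p + 2)).2 δ fun u hu => by
        obtain ⟨h1, h2, h3⟩ := (mem_ZO h.sn).1 hu
        exact (mem_ZO h.sn).2 ⟨h.δP _ _ u h1, by rw [h.dδ, h2, map_zero], zb_ne (b1 u) hB h3⟩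
    refine ⟨C + E * (B * C), by finiteness, fun w hw h0 h1 h2 => ?_⟩
    obtain ⟨w₁, hw₁, e1, n1⟩ := hs (d w) (h.dP _ _ w hw) (h.dd w) h2
    obtain ⟨e, he, e2, n2⟩ := hi (w₁ - w) ((mem_ZO h.sn).2 ⟨sub_mem hw₁ hw,
      by rw [map_sub, e1, sub_self], h.sn.sub_ne (zb_ne n1 hC h2) h1⟩)
    rw [map_sub, h0, sub_zero] at e2 n2
    obtain ⟨he1, he2, -⟩ := (mem_ZO h.sn).1 he
    refine ⟨w₁ - e, sub_mem hw₁ he1, by rw [map_sub, e2, sub_self],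
      by rw [map_sub, he2, sub_zero, e1], (h.sn.sub _ _).trans ?_⟩
    rw [add_mul, mul_assoc, mul_assoc]
    exact add_le_add n1 (n2.trans (by gcongr; exact (b1 _).trans (by gcongr)))
  | succ q ih =>
    obtain ⟨C, hC, hs1⟩ := hs p (q + 1)
    obtain ⟨C', hC', hs2⟩ := hs p q
    obtain ⟨E, hE, hi⟩ := ih (p + 1)
    refine ⟨C + (B * (E * (B * C)) + B * (B * C)), by finiteness, fun w hw h0 h1 h2 => ?_⟩
    obtain ⟨w₁, hw₁, e1, n1⟩ := hs1 (d w) (h.dP _ _ w hw) (h.dd w) h2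
    have f1 := zb_ne n1 hC h2
    have f2 := h.sn.sub_ne f1 h1
    obtain ⟨r, hr, e2, n2⟩ := hs2 (w₁ - w) (sub_mem hw₁ hw) (by rw [map_sub, e1, sub_self]) f2
    have e3 : d (δ r) = δ w₁ := by rw [h.dδ, e2, map_sub, h0, sub_zero]
    obtain ⟨y, hy, e4, e5, n3⟩ := hi (δ r) (h.δP _ _ r hr) (h.δδ r)
      (zb_ne (b1 r) hB (zb_ne n2 hC' f2)) (by rw [e3]; exact zb_ne (b1 _) hB f1)
    rw [e3] at e5 n3
    have n4 : N (δ w₁) ≤ B * (C * N (d w)) := (b1 _).trans (by gcongr)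
    refine ⟨w₁ - d (κ y), sub_mem hw₁ (h.dP _ _ _ (h.κP _ _ y hy)),
      by rw [map_sub, ← h.dδ, h.δκ e4, e5, sub_self], by rw [map_sub, h.dd, sub_zero, e1],
      (h.sn.sub _ _).trans ?_⟩
    simp only [add_mul, mul_assoc]
    refine add_le_add n1 ((b3 y).trans (add_le_add ?_ ?_))
    · gcongr
      exact n3.trans (by gcongr)
    · rw [e5]
      gcongr

theorem ZDC.cr (h : ZDC d δ κ P N) (hs : ∀ p, ZSol d (P (p + 1)) N)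
    (hf : ∀ p, ZFd d (P p) N) : ZCR d (P 0) N := by
  intro q
  obtain ⟨B, hB, b1, b2, -⟩ := h.bd'
  obtain ⟨C, hC, hk⟩ := h.cr_ker hs hf q 0
  refine ⟨B * (C * B), by finiteness, fun w hw h1 h2 => ?_⟩
  obtain ⟨y, hy, e1, e2, n1⟩ := hk (δ w) (h.δP _ _ w hw) (h.δδ w) (zb_ne (b1 w) hB h1)
    (by rw [h.dδ]; exact zb_ne (b1 _) hB h2)
  have hκ := h.κP _ _ y hy
  refine ⟨κ y, hκ, sub_eq_zero.1 (h.inj (sub_mem (h.dP _ _ _ hκ) (h.dP _ _ _ hw)) ?_),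
    (b2 y).trans ?_⟩
  · rw [map_sub, ← h.dδ, h.δκ e1, e2, h.dδ, sub_self]
  · simp only [mul_assoc]
    gcongr
    refine n1.trans ?_
    rw [h.dδ]
    gcongr
    exact b1 _

end Vale.Agent.P299
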