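import Vale.Agent.P271A.Levi
import Vale.Agent.P271A.Part
import Vale.Agent.P299.PartL
import Vale.Agent.P299.PartM2

/-! P299, part Z: definitions. -/

open MeasureTheory Set Filter Topology Matrix
open scoped ContDiff ENNReal ComplexConjugate ComplexOrder

noncomputable section

namespace Vale.Agent.P299

open Vale.Agent.P271A

section Abs
variable {M : Type} [AddCommGroup M] [Module ℂ M]

/-- Seminorms with values in the extended reals. -/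
structure ZSN (N : M → ℝ≥0∞) : Prop where
  add : ∀ u v, N (u + v) ≤ N u + N v
  smul : ∀ (c : ℂ) u, N (c • u) = ‖c‖ₑ * N u

theorem ZSN.zero {N : M → ℝ≥0∞} (h : ZSN N) : N 0 = 0 := by simpa using h.smul 0 0

theorem ZSN.neg {N : M → ℝ≥0∞} (h : ZSN N) (u : M) : N (-u) = N u := by simpa using h.smul (-1) u

theorem ZSN.sub {N : M → ℝ≥0∞} (h : ZSN N) (u v : M) : N (u - v) ≤ N u + N v := by
  rw [sub_eq_add_neg, ← h.neg v]; exact h.add _ _

theorem ZSN.sum {N : M → ℝ≥0∞} (h : ZSN N) {κ : Type} (s : Finset κ) (u : κ → M) :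
    N (∑ i ∈ s, u i) ≤ ∑ i ∈ s, N (u i) :=
  Finset.le_sum_of_subadditive N h.zero.le h.add s u

theorem ZSN.add_ne {N : M → ℝ≥0∞} (h : ZSN N) {u v : M} (hu : N u ≠ ⊤) (hv : N v ≠ ⊤) :
    N (u + v) ≠ ⊤ := ne_top_of_le_ne_top (ENNReal.add_ne_top.2 ⟨hu, hv⟩) (h.add u v)

theorem ZSN.sub_ne {N : M → ℝ≥0∞} (h : ZSN N) {u v : M} (hu : N u ≠ ⊤) (hv : N v ≠ ⊤) :
    N (u - v) ≠ ⊤ := ne_top_of_le_ne_top (ENNReal.add_ne_top.2 ⟨hu, hv⟩) (h.sub u v)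

variable (d : M →ₗ[ℂ] M) (G : ℕ → Submodule ℂ M) (N : M → ℝ≥0∞) (H : Submodule ℂ M)

/-- Closed elements of positive degree are exact, with bounds. -/
def ZSol : Prop := ∀ q, ∃ C ≠ (⊤ : ℝ≥0∞), ∀ η ∈ G (q + 1), d η = 0 → N η ≠ ⊤ →
  ∃ w ∈ G q, d w = η ∧ N w ≤ C * N η

/-- Exact elements have primitives with bounds. -/
def ZCR : Prop := ∀ q, ∃ C ≠ (⊤ : ℝ≥0∞), ∀ w ∈ G q, N w ≠ ⊤ → N (d w) ≠ ⊤ →
  ∃ y ∈ G q, d y = d w ∧ N y ≤ C * N (d w)

/-- The Hodge decomposition with harmonic space `H`. -/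
def ZHod : Prop := ∀ q, ∀ η ∈ G (q + 1), d η = 0 → N η ≠ ⊤ → ∃ h ∈ H, ∀ ε > (0 : ℝ≥0∞),
  ∃ w ∈ G q, N w ≠ ⊤ ∧ N (d w) ≠ ⊤ ∧ N (η - h - d w) ≤ ε

/-- The harmonic space is orthogonal to the exact elements. -/
def ZOrt : Prop := ∀ h ∈ H, ∀ w, N w ≠ ⊤ → N (d w) ≠ ⊤ → N h ≤ N (h - d w)

/-- Closed elements of degree zero and finite norm. -/
def ZO : Submodule ℂ M := Submodule.span ℂ {u | u ∈ G 0 ∧ d u = 0 ∧ N u ≠ ⊤}

/-- These form a finite dimensional normed space. -/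
def ZFd : Prop := FiniteDimensional ℂ (ZO d G N) ∧ ∀ u ∈ ZO d G N, N u = 0 → u = 0

variable {d G N}

theorem mem_ZO (h : ZSN N) {u : M} : u ∈ ZO d G N ↔ u ∈ G 0 ∧ d u = 0 ∧ N u ≠ ⊤ := by
  refine ⟨fun hu => ?_, fun hu => Submodule.subset_span hu⟩
  induction hu using Submodule.span_induction with
  | mem x hx => exact hx
  | zero => exact ⟨zero_mem _, map_zero _, by simp [h.zero]⟩
  | add x y _ _ hx hy =>
    exact ⟨add_mem hx.1 hy.1, by rw [map_add, hx.2.1, hy.2.1, add_zero], h.add_ne hx.2.2 hy.2.2⟩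
  | smul c x _ hx =>
    exact ⟨Submodule.smul_mem _ _ hx.1, by rw [map_smul, hx.2.1, smul_zero],
      by rw [h.smul]; exact ENNReal.mul_ne_top enorm_ne_top hx.2.2⟩

/-- A double complex whose rows have a bounded contracting homotopy; `P p q` is the space of
position `p` and degree `q`. -/
structure ZDC (d δ κ : M →ₗ[ℂ] M) (P : ℕ → ℕ → Submodule ℂ M) (N : M → ℝ≥0∞) : Prop where
  sn : ZSN N
  dd : ∀ u, d (d u) = 0
  dδ : ∀ u, d (δ u) = δ (d u)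
  δδ : ∀ u, δ (δ u) = 0
  hom : ∀ u, δ (κ u) + κ (δ u) = u
  dP : ∀ p q, ∀ u ∈ P p q, d u ∈ P p (q + 1)
  δP : ∀ p q, ∀ u ∈ P p q, δ u ∈ P (p + 1) q
  κP : ∀ p q, ∀ u ∈ P (p + 1) q, κ u ∈ P p q
  κ0 : ∀ q, ∀ u ∈ P 0 q, κ u = 0
  bd : ∃ C ≠ (⊤ : ℝ≥0∞), ∀ u, N (δ u) ≤ C * N u ∧ N (κ u) ≤ C * N u ∧
    N (d (κ u) - κ (d u)) ≤ C * N u

/-- The data of a Koszul double complex. -/
structure ZKos {ι : Type} [Fintype ι] (d : M →ₗ[ℂ] M) (G : ℕ → Submodule ℂ M)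
    (N : ℕ → M → ℝ≥0∞) (x y : ι → M →ₗ[ℂ] M) : Prop where
  sn : ∀ t, ZSN (N t)
  dd : ∀ u, d (d u) = 0
  dG : ∀ q, ∀ u ∈ G q, d u ∈ G (q + 1)
  xG : ∀ i q, ∀ u ∈ G q, x i u ∈ G q
  yG : ∀ i q, ∀ u ∈ G q, y i u ∈ G q
  xx : ∀ i j u, x i (x j u) = x j (x i u)
  xy : ∀ i j u, x i (y j u) = y j (x i u)
  one : ∀ u, ∑ i, x i (y i u) = u
  dx : ∀ i u, d (x i u) = x i (d u)
  bd : ∃ C ≠ (⊤ : ℝ≥0∞), ∀ t i u, N (t + 1) (x i u) ≤ C * N t u ∧
    N t (y i u) ≤ C * N (t + 1) u ∧ N t (d (y i u) - y i (d u)) ≤ C * N (t + 1) u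

variable {ι : Type} [Fintype ι] [LinearOrder ι]

/-- The tensor product of a matrix and an endomorphism. -/
def zop (m : Matrix (Finset ι) (Finset ι) ℂ) (x : M →ₗ[ℂ] M) :
    (Finset ι → M) →ₗ[ℂ] (Finset ι → M) :=
  LinearMap.pi fun I => ∑ J, m I J • (x ∘ₗ LinearMap.proj J)

omit [LinearOrder ι] in
theorem zop_apply (m : Matrix (Finset ι) (Finset ι) ℂ) (x : M →ₗ[ℂ] M) (u : Finset ι → M)
    (I : Finset ι) : zop m x u I = ∑ J, m I J • x (u J) := by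
  simp [zop]

/-- The differential of the total space. -/
def zd (ι : Type) (d : M →ₗ[ℂ] M) : (Finset ι → M) →ₗ[ℂ] (Finset ι → M) := d.compLeft _

omit [Fintype ι] [LinearOrder ι] in
theorem zd_apply (d : M →ₗ[ℂ] M) (u : Finset ι → M) (I : Finset ι) : zd ι d u I = d (u I) := rfl

/-- The Koszul differential. -/
def zδ (x : ι → M →ₗ[ℂ] M) : (Finset ι → M) →ₗ[ℂ] (Finset ι → M) := ∑ i, zop (cr i) (x i)

/-- The Koszul homotopy. -/
def zκ (y : ι → M →ₗ[ℂ] M) : (Finset ι → M) →ₗ[ℂ] (Finset ι → M) := ∑ i, zop (an i) (y i)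

/-- Position `p` and degree `q`. -/
def zP (ι : Type) (G : ℕ → Submodule ℂ M) (p q : ℕ) : Submodule ℂ (Finset ι → M) where
  carrier := {u | ∀ I, u I ∈ G q ∧ (I.card ≠ p → u I = 0)}
  add_mem' hu hv I := ⟨add_mem (hu I).1 (hv I).1, fun h => by simp [(hu I).2 h, (hv I).2 h]⟩
  zero_mem' _ := ⟨zero_mem _, fun _ => rfl⟩
  smul_mem' c _ hu I := ⟨Submodule.smul_mem _ c (hu I).1, fun h => by simp [(hu I).2 h]⟩

/-- The norm of the total space. -/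
def zN (ι : Type) [Fintype ι] (N : ℕ → M → ℝ≥0∞) (u : Finset ι → M) : ℝ≥0∞ :=
  ∑ I, N I.card (u I)

/-- The harmonic space of the total space. -/
def zH (ι : Type) (H : ℕ → Submodule ℂ M) : Submodule ℂ (Finset ι → M) :=
  Submodule.pi univ fun I => H I.card

end Abs

section Forms
variable {n N : ℕ} {Y : Type} [TopologicalSpace Y] [T2Space Y] [SecondCountableTopology Y]
  [MeasurableSpace Y] [BorelSpace Y] (D : RD n Y)

/-- Smooth forms. -/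
def ZSF : Submodule ℂ (Y → W (Fin n)) where
  carrier := {u | SmW D u}
  add_mem' hu hv I := (hu I).add (hv I)
  zero_mem' _ := RD.sm_const 0
  smul_mem' c _ hu I := (RD.sm_const c).mul (hu I)

/-- The Cauchy-Riemann operator on smooth forms. -/
def zdF : ZSF D →ₗ[ℂ] ZSF D where
  toFun u := ⟨dbar D u.1, SmW.dbar u.2⟩
  map_add' u v := Subtype.ext (dbar_add u.2 v.2)
  map_smul' c u := Subtype.ext (funext fun y => by
    have h := dbar_mul (RD.sm_const (D := D) c) u.2 y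
    have e : dbv D (fun _ => c) y = 0 := funext fun j => RD.dX_const c y
    rw [e] at h
    have h' : dbar D (fun p => c • u.1 p) y = c • dbar D u.1 y := by simpa [wdg] using h
    exact h')

/-- Forms of degree `q`. -/
def zGF (q : ℕ) : Submodule ℂ (ZSF D) where
  carrier := {u | ∀ y, Dg q (u.1 y)}
  add_mem' hu hv y I h := by simp [hu y I h, hv y I h]
  zero_mem' _ _ _ := rfl
  smul_mem' c _ hu y I h := by simp [hu y I h]

/-- The norm of a form. -/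
def zNF (Ψ Φ : Y → ℝ) (u : ZSF D) : ℝ≥0∞ := nF D Ψ Φ u.1 ^ (1 / 2 : ℝ)

variable {D} in
/-- Multiplication by a smooth function. -/
def zmul {f : Y → ℂ} (hf : D.Sm f) : ZSF D →ₗ[ℂ] ZSF D where
  toFun u := ⟨fun y => f y • u.1 y, fun I => hf.mul (u.2 I)⟩
  map_add' _ _ := Subtype.ext (funext fun _ => smul_add _ _ _)
  map_smul' c u := Subtype.ext (funext fun y => smul_comm (f y) c (u.1 y))

variable {A : AD n N Y}

/-- Square integrable holomorphic vertical polyvector fields. -/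
structure AD.BD.ZV (b : A.BD) (Ψ Φ : Y → ℝ) (v : Y → W (Fin n)) : Prop where
  hol : HolW A.D v
  l2 : nV A.D Ψ Φ v < ⊤
  kill : ∀ y, Kill (LMd A.D A.φ y) (v y)
  vert : ∀ i y, ctr (dzv A.D (b.a i) y) *ᵥ v y = 0

/-- The harmonic forms. -/
def AD.BD.ZF (b : A.BD) (Ψ Φ : Y → ℝ) : Submodule ℂ (ZSF A.D) :=
  Submodule.span ℂ {u | ∃ v, b.ZV Ψ Φ v ∧ u.1 = low A.D Ψ v}

/-- The two parameter family of weights. -/
def AD.BD.zW (b : A.BD) (t s : ℤ) (y : Y) : ℝ := A.φ y + t * lg b.a y + s * lg b.f y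

end Forms

end Vale.Agent.P299
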