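import Vale.Agent.P299.ZDefs

/-! P299, part Z: the norm of forms; forms of degree zero. -/

open MeasureTheory Set Filter Topology Matrix
open scoped ContDiff ENNReal ComplexConjugate ComplexOrder

noncomputable section

namespace Vale.Agent.P299

open Vale.Agent.P271A

variable {n N : ℕ} {Y : Type} [TopologicalSpace Y] [T2Space Y] [SecondCountableTopology Y]
  [MeasurableSpace Y] [BorelSpace Y] {D : RD n Y} {Ψ Φ Φ' : Y → ℝ}

theorem zq2_nonneg {κ : Type} [Fintype κ] {H : Matrix κ κ ℂ} (hH : H.PosSemidef) (v : κ → ℂ) :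
    0 ≤ q2 H v := hH.re_dotProduct_nonneg v

theorem zq2_smul {κ : Type} [Fintype κ] (H : Matrix κ κ ℂ) (c : ℂ) (v : κ → ℂ) :
    q2 H (c • v) = ‖c‖ ^ 2 * q2 H v := by
  simp only [q2, star_smul, mulVec_smul, smul_dotProduct, dotProduct_smul, smul_eq_mul,
    Complex.star_def]
  rw [← mul_assoc, Complex.mul_conj', ← Complex.ofReal_pow, Complex.re_ofReal_mul]

/-- Hint: `H = Bᴴ * B`, so `√(q2 H v)` is the Euclidean norm of `B *ᵥ v`. -/
theorem zsqrt_q2_add {κ : Type} [Fintype κ] [DecidableEq κ] {H : Matrix κ κ ℂ} (hH : H.PosSemidef)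
    (v w : κ → ℂ) : √(q2 H (v + w)) ≤ √(q2 H v) + √(q2 H w) := by
  have h1 : ∀ s : ℝ, q2 H (v + (s : ℂ) • w) =
      q2 H w * (s * s) + 2 * (star v ⬝ᵥ H *ᵥ w).re * s + q2 H v := fun s => by
    have h2 : (star w ⬝ᵥ H *ᵥ v).re = (star v ⬝ᵥ H *ᵥ w).re := by
      rw [star_dotProduct, star_mulVec, hH.1.eq, ← dotProduct_mulVec, Complex.star_def,
        Complex.conj_re]
    simp only [q2, star_add, star_smul, mulVec_add, mulVec_smul, add_dotProduct, dotProduct_add,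
      smul_dotProduct, dotProduct_smul, smul_eq_mul, Complex.star_def, Complex.conj_ofReal,
      Complex.add_re, Complex.re_ofReal_mul, h2]
    ring
  have h2 := discrim_le_zero fun s => (h1 s) ▸ zq2_nonneg hH (v + (s : ℂ) • w)
  have h3 := h1 1
  rw [Complex.ofReal_one, one_smul] at h3
  have ha := zq2_nonneg hH v
  have hb := zq2_nonneg hH w
  have h4 : (star v ⬝ᵥ H *ᵥ w).re ≤ √(q2 H v) * √(q2 H w) := by
    rw [← Real.sqrt_mul ha]
    refine Real.le_sqrt_of_sq_le ?_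
    unfold discrim at h2
    nlinarith
  refine Real.sqrt_le_iff.2 ⟨by positivity, ?_⟩
  rw [h3, add_sq, Real.sq_sqrt ha, Real.sq_sqrt hb]
  linarith

/-- Hint: `sm_Gm`, `sm_inv`, `sm_LMd`, `RD.Sm.continuous`. -/
theorem zcont_q2F (hΨ : Kah D Ψ) {u : Y → W (Fin n)} (hu : SmW D u) :
    Continuous fun y => q2 (Gm (LMd D Ψ y)⁻¹) (u y) := by
  have h1 : Continuous u := continuous_pi fun I => (hu I).continuous
  have h2 : Continuous fun y => Gm (LMd D Ψ y)⁻¹ := continuous_matrix fun I J =>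
    (sm_Gm (sm_inv (sm_LMd hΨ.1) fun y => (isUnit_iff_isUnit_det _).1 (hΨ.2 y).isUnit)
      I J).continuous
  exact Complex.continuous_re.comp (h1.star.dotProduct (h2.matrix_mulVec h1))

theorem zcont_q2V (hΨ : Kah D Ψ) {u : Y → W (Fin n)} (hu : SmW D u) :
    Continuous fun y => q2 (Gm (LMd D Ψ y)) (u y) := by
  have h1 : Continuous u := continuous_pi fun I => (hu I).continuous
  have h2 : Continuous fun y => Gm (LMd D Ψ y) := continuous_matrix fun I J =>
    (sm_Gm (sm_LMd hΨ.1) I J).continuous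
  exact Complex.continuous_re.comp (h1.star.dotProduct (h2.matrix_mulVec h1))

theorem zf_sq (x : ℝ) : ENNReal.ofReal √x ^ (2 : ℝ) = ENNReal.ofReal x := by
  rcases le_total 0 x with h | h
  · rw [ENNReal.ofReal_rpow_of_nonneg (Real.sqrt_nonneg _) (by norm_num), Real.rpow_two,
      Real.sq_sqrt h]
  · rw [Real.sqrt_eq_zero'.2 h, ENNReal.ofReal_of_nonpos h]
    simp

/-- The Minkowski inequality.  Hint: `ENNReal.lintegral_Lp_add_le` with `p = 2` for
`ENNReal.ofReal √(q2 .. * exp ..)`, `Gm_posDef`, `Matrix.PosDef.inv`;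
`lintegral_const_mul'` for the homogeneity. -/
theorem zsn_NF (hΨ : Kah D Ψ) (hΦ : D.SmR Φ) : ZSN (zNF D Ψ Φ) := by
  refine ⟨fun u v => ?_, fun c u => ?_⟩
  · have hm : ∀ w : ZSF D, AEMeasurable (fun y => ENNReal.ofReal
        √(q2 (Gm (LMd D Ψ y)⁻¹) (w.1 y) * Real.exp (-Φ y))) D.μ := fun w =>
      (ENNReal.continuous_ofReal.comp
        ((zcont_q2F hΨ w.2).mul hΦ.continuous.neg.rexp).sqrt).aemeasurable
    have h1 := ENNReal.lintegral_Lp_add_le (p := 2) (hm u) (hm v) (by norm_num)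
    simp only [zf_sq] at h1
    refine le_trans (ENNReal.rpow_le_rpow (lintegral_mono fun y => ?_) (by norm_num)) h1
    rw [← zf_sq, Pi.add_apply, ← ENNReal.ofReal_add (Real.sqrt_nonneg _) (Real.sqrt_nonneg _)]
    refine ENNReal.rpow_le_rpow (ENNReal.ofReal_le_ofReal ?_) (by norm_num)
    simp only [Real.sqrt_mul' _ (Real.exp_pos _).le]
    rw [← add_mul]
    exact mul_le_mul_of_nonneg_right
      (zsqrt_q2_add (Gm_posDef (hΨ.2 y).inv).posSemidef (u.1 y) (v.1 y)) (Real.sqrt_nonneg _)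
  · have h1 : nF D Ψ Φ (c • u).1 = ENNReal.ofReal (‖c‖ ^ 2) * nF D Ψ Φ u.1 := by
      rw [nF, nF, ← lintegral_const_mul' _ _ ENNReal.ofReal_ne_top]
      refine lintegral_congr fun y => ?_
      rw [← ENNReal.ofReal_mul (sq_nonneg _), ← mul_assoc, ← zq2_smul]
      rfl
    rw [zNF, zNF, h1, ENNReal.mul_rpow_of_nonneg _ _ (by norm_num),
      ENNReal.ofReal_rpow_of_nonneg (sq_nonneg _) (by norm_num), ← Real.sqrt_eq_rpow,
      Real.sqrt_sq (norm_nonneg c), ofReal_norm]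

theorem zNF_ne_top {u : ZSF D} : zNF D Ψ Φ u ≠ ⊤ ↔ nF D Ψ Φ u.1 < ⊤ := by
  rw [zNF, ← lt_top_iff_ne_top, ENNReal.rpow_lt_top_iff_of_pos (by norm_num)]

theorem zNF_le_of_nF {u u' : ZSF D} {C : ℝ≥0∞} (h : nF D Ψ Φ u.1 ≤ C * nF D Ψ Φ' u'.1) :
    zNF D Ψ Φ u ≤ C ^ (1 / 2 : ℝ) * zNF D Ψ Φ' u' := by
  rw [zNF, zNF, ← ENNReal.mul_rpow_of_nonneg _ _ (by norm_num)]
  exact ENNReal.rpow_le_rpow h (by norm_num)

theorem zNF_le {u u' : ZSF D} {C : ℝ} (hC : 0 ≤ C)
    (h : ∀ y, q2 (Gm (LMd D Ψ y)⁻¹) (u.1 y) * Real.exp (-Φ y) ≤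
      C * (q2 (Gm (LMd D Ψ y)⁻¹) (u'.1 y) * Real.exp (-Φ' y))) :
    zNF D Ψ Φ u ≤ ENNReal.ofReal C ^ (1 / 2 : ℝ) * zNF D Ψ Φ' u' := by
  refine zNF_le_of_nF ?_
  rw [nF, nF, ← lintegral_const_mul' _ _ ENNReal.ofReal_ne_top]
  refine lintegral_mono fun y => ?_
  rw [← ENNReal.ofReal_mul hC]
  exact ENNReal.ofReal_le_ofReal (h y)

/-- The form of degree zero given by a function is smooth. -/
theorem zsmW_single {F : Y → ℂ} (hF : D.Sm F) : 
    SmW D fun y => (Pi.single ∅ (F y) : W (Fin n)) := by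
  intro I
  by_cases h : I = ∅
  · subst h
    simpa using hF
  · simpa [Pi.single_eq_of_ne h] using RD.sm_const (D := D) 0

theorem zf_dg (c : ℂ) : Dg 0 (Pi.single ∅ c : W (Fin n)) := fun I hI => by
  rw [Pi.single_eq_of_ne]
  rintro rfl
  exact hI rfl

theorem zf_cr (c : Fin n → ℂ) (k : Fin n) :
    (∑ j, cr j *ᵥ (Pi.single ∅ (c j) : W (Fin n))) {k} = c k := by
  simp [Finset.sum_apply, cr, an, sg, Finset.singleton_inj]

omit [T2Space Y] [SecondCountableTopology Y] [BorelSpace Y] in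
theorem zf_dbar (F : Y → ℂ) (y : Y) :
    dbar D (fun p => Pi.single ∅ (F p)) y = ∑ j, cr j *ᵥ Pi.single ∅ (D.db j F y) := by
  refine Finset.sum_congr rfl fun j _ => congrArg _ (funext fun I => ?_)
  by_cases h : I = ∅
  · simp only [h, Pi.single_eq_same]
  · simp only [Pi.single_eq_of_ne h]
    exact RD.dX_const 0 y

omit [T2Space Y] [SecondCountableTopology Y] [BorelSpace Y] in
theorem zf_nF (F : Y → ℂ) : nF D Ψ Φ (fun p => Pi.single ∅ (F p)) = nO D Φ F := by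
  refine lintegral_congr fun y => ?_
  rw [(zf_dg _).q2_zero, Pi.single_eq_same]

/-- Hint: `mem_ZO`; for `Dg 0` the form is `Pi.single ∅ (u y ∅)`; the component `{j}` of `dbar` is
`D.db j F y` (unfold `cr`, `an`, `sg`), `RD.hol_of_db`, `RD.Hol.db`, `Dg.q2_zero`. -/
theorem zmem_ZOF (hΨ : Kah D Ψ) (hΦ : D.SmR Φ) {u : ZSF D} :
    u ∈ ZO (zdF D) (zGF D) (zNF D Ψ Φ) ↔
      ∃ F, D.Hol F ∧ nO D Φ F < ⊤ ∧ u.1 = fun y => Pi.single ∅ (F y) := by
  rw [mem_ZO (zsn_NF hΨ hΦ), zNF_ne_top]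
  constructor
  · rintro ⟨h0, hd, hn⟩
    have e : u.1 = fun y => Pi.single ∅ (u.1 y ∅) := funext fun y => funext fun I => by
      by_cases h : I = ∅
      · rw [h, Pi.single_eq_same]
      · rw [Pi.single_eq_of_ne h]
        exact h0 y I (by simpa using h)
    refine ⟨fun y => u.1 y ∅, RD.hol_of_db (u.2 ∅) fun j y => ?_, ?_, e⟩
    · have h1 : dbar D u.1 y {j} = 0 := congrFun (congrFun (congrArg Subtype.val hd) y) {j}
      rwa [e, zf_dbar, zf_cr] at h1
    · rwa [e, zf_nF] at hn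
  · rintro ⟨F, hF, hn, e⟩
    refine ⟨fun y => ?_, Subtype.ext (funext fun y => ?_), ?_⟩
    · rw [e]
      exact zf_dg _
    · change dbar D u.1 y = 0
      rw [e, zf_dbar]
      simp [hF.db]
    · rwa [e, zf_nF]

/-- Hint: `u ↦ g * (u · ∅)` is an injective linear map to `S`
(`FiniteDimensional.of_injective` with `LinearMap.codRestrict`); a continuous function with zero
integral vanishes (`lintegral_eq_zero_iff`, `Continuous.ae_eq_iff_eq`, the measure is positive on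
open sets). -/
theorem zfd_of (hΨ : Kah D Ψ) (hΦ : D.SmR Φ) (S : Submodule ℂ (Y → ℂ)) [FiniteDimensional ℂ S]
    (g : Y → ℂ) (hg : ∀ F, D.Hol F → g * F = 0 → F = 0)
    (hS : ∀ F, D.Hol F → nO D Φ F < ⊤ → g * F ∈ S) : ZFd (zdF D) (zGF D) (zNF D Ψ Φ) := by
  refine ⟨?_, fun u hu h0 => ?_⟩
  · let L : ZO (zdF D) (zGF D) (zNF D Ψ Φ) →ₗ[ℂ] (Y → ℂ) :=
      { toFun := fun u => g * fun y => u.1.1 y ∅
        map_add' := fun u v => funext fun y => mul_add (g y) (u.1.1 y ∅) (v.1.1 y ∅)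
        map_smul' := fun c u => funext fun y => mul_left_comm (g y) c (u.1.1 y ∅) }
    have hL : ∀ u, ∃ F, D.Hol F ∧ nO D Φ F < ⊤ ∧ (u.1.1 = fun y => Pi.single ∅ (F y)) ∧
        L u = g * F := fun u => by
      obtain ⟨F, hF, hn, e⟩ := (zmem_ZOF hΨ hΦ).1 u.2
      refine ⟨F, hF, hn, e, funext fun y => ?_⟩
      change g y * u.1.1 y ∅ = g y * F y
      rw [e]
      simp
    refine FiniteDimensional.of_injective (L.codRestrict S fun u => ?_)
      ((injective_iff_map_eq_zero _).2 fun u hu => ?_)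
    · obtain ⟨F, hF, hn, -, e⟩ := hL u
      exact e ▸ hS F hF hn
    · obtain ⟨F, hF, -, e, e'⟩ := hL u
      have h1 : F = 0 := hg F hF (e' ▸ congrArg Subtype.val hu)
      refine Subtype.ext (Subtype.ext ?_)
      rw [e, h1]
      funext y
      simp
  · obtain ⟨F, hF, -, e⟩ := (zmem_ZOF hΨ hΦ).1 hu
    have hc : Continuous fun y => ENNReal.ofReal (‖F y‖ ^ 2 * Real.exp (-Φ y)) :=
      ENNReal.continuous_ofReal.comp
        ((hF.sm.continuous.norm.pow 2).mul hΦ.continuous.neg.rexp)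
    rw [zNF, ENNReal.rpow_eq_zero_iff_of_pos (by norm_num), e, zf_nF, nO,
      lintegral_eq_zero_iff hc.measurable, hc.ae_eq_iff_eq _ continuous_zero] at h0
    refine Subtype.ext ?_
    rw [e]
    funext y
    have h1 : ‖F y‖ ^ 2 * Real.exp (-Φ y) ≤ 0 := ENNReal.ofReal_eq_zero.1 (congrFun h0 y)
    have h2 : ‖F y‖ ^ 2 ≤ 0 := nonpos_of_mul_nonpos_left h1 (Real.exp_pos _)
    have h3 : F y = 0 := by simpa using h2
    simp [h3]

end Vale.Agent.P299
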