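import Vale.Agent.P299.ZF

/-! P299, part Z: the Koszul data of a holomorphic family. -/

open MeasureTheory Set Filter Topology Matrix
open scoped ContDiff ENNReal ComplexConjugate ComplexOrder

noncomputable section

namespace Vale.Agent.P299

open Vale.Agent.P271A

variable {n N : ℕ} {Y : Type} [TopologicalSpace Y] [T2Space Y] [SecondCountableTopology Y]
  [MeasurableSpace Y] [BorelSpace Y] {D : RD n Y} {Ψ : Y → ℝ} {κ : Type} [Fintype κ] {a : κ → Y → ℂ}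

theorem zg_q2_smul {ι : Type} [Fintype ι] (c : ℝ) (H : Matrix ι ι ℂ) (v : ι → ℂ) :
    q2 ((c : ℂ) • H) v = c * q2 H v := by
  rw [q2, q2, smul_mulVec, dotProduct_smul, smul_eq_mul, Complex.re_ofReal_mul]

theorem zg_q2_sum {ι κ' : Type} [Fintype ι] [Fintype κ'] (η : κ' → ι → ℂ) (v : ι → ℂ) :
    q2 (∑ e, vecMulVec (star (η e)) (η e)) v = ∑ e, ‖η e ⬝ᵥ v‖ ^ 2 := by
  rw [q2, sum_mulVec, dotProduct_sum, Complex.re_sum]
  refine Finset.sum_congr rfl fun e _ => ?_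
  have h : star v ⬝ᵥ star (η e) = conj (η e ⬝ᵥ v) := by
    rw [star_dotProduct_star]
    rfl
  rw [vecMulVec_mulVec, op_smul_eq_smul, dotProduct_smul, h, smul_eq_mul, Complex.mul_conj',
    ← Complex.ofReal_pow, Complex.ofReal_re]

theorem zg_cs (x z : κ → ℂ) :
    ‖∑ k, conj (x k) * z k‖ ^ 2 ≤ (∑ k, ‖x k‖ ^ 2) * ∑ k, ‖z k‖ ^ 2 := by
  have h1 : ‖∑ k, conj (x k) * z k‖ ≤ ∑ k, ‖x k‖ * ‖z k‖ := by
    refine (norm_sum_le _ _).trans (le_of_eq (Finset.sum_congr rfl fun i _ => ?_))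
    rw [norm_mul, RCLike.norm_conj]
  exact (pow_le_pow_left₀ (norm_nonneg _) h1 2).trans (Finset.sum_mul_sq_le_sq_mul_sq _ _ _)

theorem zlg_pos (h0 : ∀ y, ∃ i, a i y ≠ 0) (y : Y) : 0 < ∑ i, ‖a i y‖ ^ 2 := by
  obtain ⟨i, hi⟩ := h0 y
  exact Finset.sum_pos' (fun _ _ => sq_nonneg _)
    ⟨i, Finset.mem_univ i, pow_pos (norm_pos_iff.2 hi) 2⟩

theorem zsm_lg (ha : ∀ i, D.Hol (a i)) (h0 : ∀ y, ∃ i, a i y ≠ 0) : D.SmR (lg a) :=
  (RD.SmR.sum Finset.univ fun i _ => (ha i).sm.normSq).log fun y => (zlg_pos h0 y).ne'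

/-- Hint: `RD.levi_log_sum_nonneg` with `η = 0`. -/
theorem zpsh_lg (ha : ∀ i, D.Hol (a i)) (h0 : ∀ y, ∃ i, a i y ≠ 0) (y : Y) (v : Fin n → ℂ) :
    0 ≤ D.levi (lg a) y v := by
  have h := RD.levi_log_sum_nonneg (D := D) (y := y) (v := v) Finset.univ (fun i _ => ha i)
    (le_refl (0 : ℝ)) fun p => by rw [add_zero]; exact zlg_pos h0 p
  simp only [add_zero] at h
  exact h

/-- Hint: `q2_LMd`, `LMd_lg`. -/
theorem zlevi_lg (ha : ∀ i, D.Hol (a i)) (h0 : ∀ y, ∃ i, a i y ≠ 0) (y : Y) (v : Fin n → ℂ) :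
    2 * (∑ i, ‖a i y‖ ^ 2) ^ 2 * D.levi (lg a) y v = ∑ e : κ × κ,
      ‖(fun j => a e.1 y * D.dz j (a e.2) y - a e.2 y * D.dz j (a e.1) y) ⬝ᵥ v‖ ^ 2 := by
  have h1 : (2 * (∑ i, ‖a i y‖ ^ 2) ^ 2 : ℝ) ≠ 0 := by
    have := zlg_pos h0 y
    positivity
  rw [← q2_LMd, LMd_lg ha h0, ← Complex.ofReal_inv, zg_q2_smul, zg_q2_sum, ← mul_assoc,
    mul_inv_cancel₀ h1, one_mul]

theorem zsm_dual (ha : ∀ i, D.Hol (a i)) (h0 : ∀ y, ∃ i, a i y ≠ 0) (i : κ) :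
    D.Sm fun y => conj (a i y) / ((∑ j, ‖a j y‖ ^ 2 : ℝ) : ℂ) := by
  have h := (ha i).sm.conj.mul
    ((RD.SmR.sum Finset.univ fun j _ => (ha j).sm.normSq).comp (χ := fun t => t⁻¹)
      fun y => contDiffAt_inv ℝ (zlg_pos h0 y).ne')
  simpa only [div_eq_mul_inv, Complex.ofReal_inv] using h

/-- Hint: with `s = ∑ ‖a j‖ ^ 2`, `star (dbv ..)` is `dz (a i / s)` (`RD.conj_db`), and
`s ^ 2 * dz (a i / s) = ∑ j, conj (a j) * (a j * dz (a i) - a i * dz (a j))`; Cauchy-Schwarz and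
`zlevi_lg`. -/
theorem zdbv_dual (ha : ∀ i, D.Hol (a i)) (h0 : ∀ y, ∃ i, a i y ≠ 0) (i : κ) (y : Y)
    (w : Fin n → ℂ) :
    ‖star (dbv D (fun p => conj (a i p) / ((∑ j, ‖a j p‖ ^ 2 : ℝ) : ℂ)) y) ⬝ᵥ w‖ ^ 2 *
      ∑ j, ‖a j y‖ ^ 2 ≤ 2 * D.levi (lg a) y w := by
  have hs := zlg_pos h0 y
  have hσ : D.Sm fun p => ((∑ j, ‖a j p‖ ^ 2 : ℝ) : ℂ) :=
    RD.SmR.sum Finset.univ fun j _ => (ha j).sm.normSq
  have eσ : ∀ p, ((∑ j, ‖a j p‖ ^ 2 : ℝ) : ℂ) = ∑ j, a j p * conj (a j p) := fun p => by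
    rw [Complex.ofReal_sum]
    exact Finset.sum_congr rfl fun j _ => by rw [Complex.mul_conj', Complex.ofReal_pow]
  have eg : (fun p => conj (conj (a i p) / ((∑ j, ‖a j p‖ ^ 2 : ℝ) : ℂ))) =
      fun p => a i p / ((∑ j, ‖a j p‖ ^ 2 : ℝ) : ℂ) := funext fun p => by
    rw [map_div₀, Complex.conj_conj, Complex.conj_ofReal]
  have hg : D.Sm fun p => a i p / ((∑ j, ‖a j p‖ ^ 2 : ℝ) : ℂ) := eg ▸ (zsm_dual ha h0 i).conj
  have h1 : ∀ l, D.dz l (fun p => ((∑ j, ‖a j p‖ ^ 2 : ℝ) : ℂ)) y =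
      ∑ j, D.dz l (a j) y * conj (a j y) := fun l => by
    rw [funext eσ, RD.dz, RD.dX_sum _ fun j _ => (ha j).sm.mul (ha j).sm.conj]
    refine Finset.sum_congr rfl fun j _ => ?_
    have := (ha j).dz_conj l y
    rw [RD.dz] at this
    rw [RD.dX_mul (ha j).sm (ha j).sm.conj, this, mul_zero, add_zero, RD.dz]
  have h2 : ∀ l, D.dz l (a i) y =
      D.dz l (fun p => a i p / ((∑ j, ‖a j p‖ ^ 2 : ℝ) : ℂ)) y * ((∑ j, ‖a j y‖ ^ 2 : ℝ) : ℂ) +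
        a i y / ((∑ j, ‖a j y‖ ^ 2 : ℝ) : ℂ) * ∑ j, D.dz l (a j) y * conj (a j y) := fun l => by
    have e : (fun p => a i p / ((∑ j, ‖a j p‖ ^ 2 : ℝ) : ℂ) * ((∑ j, ‖a j p‖ ^ 2 : ℝ) : ℂ)) =
        a i := funext fun p =>
      div_mul_cancel₀ _ (Complex.ofReal_ne_zero.2 (zlg_pos h0 p).ne')
    have := RD.dX_mul (ξ := zv l) hg hσ y
    rw [e] at this
    rw [← h1 l]
    exact this
  have h3 : ∀ l, ((∑ j, ‖a j y‖ ^ 2 : ℝ) : ℂ) ^ 2 *
      star (dbv D (fun p => conj (a i p) / ((∑ j, ‖a j p‖ ^ 2 : ℝ) : ℂ)) y) l =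
        ∑ k, conj (a k y) * (a k y * D.dz l (a i) y - a i y * D.dz l (a k) y) := fun l => by
    have e : star (dbv D (fun p => conj (a i p) / ((∑ j, ‖a j p‖ ^ 2 : ℝ) : ℂ)) y) l =
        D.dz l (fun p => a i p / ((∑ j, ‖a j p‖ ^ 2 : ℝ) : ℂ)) y := by
      rw [← eg]
      exact RD.conj_db _ l y
    have e2 : ∑ k, conj (a k y) * (a k y * D.dz l (a i) y - a i y * D.dz l (a k) y) =
        ((∑ j, ‖a j y‖ ^ 2 : ℝ) : ℂ) * D.dz l (a i) y -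
          a i y * ∑ j, D.dz l (a j) y * conj (a j y) := by
      rw [eσ, Finset.sum_mul, Finset.mul_sum, ← Finset.sum_sub_distrib]
      exact Finset.sum_congr rfl fun k _ => by ring
    have hne : ((∑ j, ‖a j y‖ ^ 2 : ℝ) : ℂ) ≠ 0 := Complex.ofReal_ne_zero.2 hs.ne'
    rw [e, e2, h2 l]
    field_simp
    ring
  have h4 : ((∑ j, ‖a j y‖ ^ 2 : ℝ) : ℂ) ^ 2 *
      (star (dbv D (fun p => conj (a i p) / ((∑ j, ‖a j p‖ ^ 2 : ℝ) : ℂ)) y) ⬝ᵥ w) =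
        ∑ k, conj (a k y) *
          ((fun l => a k y * D.dz l (a i) y - a i y * D.dz l (a k) y) ⬝ᵥ w) := by
    simp only [dotProduct, Finset.mul_sum]
    rw [Finset.sum_comm]
    refine Finset.sum_congr rfl fun l _ => ?_
    rw [← mul_assoc, h3 l, Finset.sum_mul]
    exact Finset.sum_congr rfl fun k _ => by ring
  have h5 := zg_cs (fun k => a k y)
    fun k => (fun l => a k y * D.dz l (a i) y - a i y * D.dz l (a k) y) ⬝ᵥ w
  have h6 : ∑ k, ‖(fun l => a k y * D.dz l (a i) y - a i y * D.dz l (a k) y) ⬝ᵥ w‖ ^ 2 ≤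
      2 * (∑ j, ‖a j y‖ ^ 2) ^ 2 * D.levi (lg a) y w := by
    rw [zlevi_lg ha h0, Fintype.sum_prod_type]
    exact Finset.sum_le_sum fun k _ => Finset.single_le_sum
      (f := fun m => ‖(fun l => a k y * D.dz l (a m) y - a m y * D.dz l (a k) y) ⬝ᵥ w‖ ^ 2)
      (fun _ _ => sq_nonneg _) (Finset.mem_univ i)
  rw [← h4, norm_mul, norm_pow, Complex.norm_real, Real.norm_of_nonneg hs.le] at h5
  have h7 := h5.trans (mul_le_mul_of_nonneg_left h6 hs.le)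
  refine le_of_mul_le_mul_left ?_ (pow_pos hs 3)
  refine le_of_eq_of_le ?_ (h7.trans_eq ?_) <;> ring

/-- Hints: `y i = zmul (zsm_dual ha h0 i)`; `dbar_dbar`, `dbar_deg`, `dbar_mul` with `RD.Hol.db`;
bounds by `zNF_le`, `zq2_smul`, `exp (-Φ (t + 1)) = exp (-Φ t) / ∑ ‖a j‖ ^ 2`; the commutator is
`wdg (dbv ..) *ᵥ u`: `q2_wdg_le` for the inverse matrix, `q2_inv_le`, `zdbv_dual`, `q2_LMd`. -/
theorem zkos_fam (ha : ∀ i, D.Hol (a i)) (h0 : ∀ y, ∃ i, a i y ≠ 0) (hΨ : Kah D Ψ) {C : ℝ}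
    (hC : ∀ y v, D.levi (lg a) y v ≤ C * D.levi Ψ y v) {Φ : ℕ → Y → ℝ} (hΦ : ∀ t, D.SmR (Φ t))
    (hs : ∀ t y, Φ (t + 1) y = Φ t y + lg a y) :
    ∃ y, ZKos (zdF D) (zGF D) (fun t => zNF D Ψ (Φ t)) (fun i => zmul (ha i).sm) y := by
  have hE : ∀ t y, Real.exp (-Φ t y) = Real.exp (-Φ (t + 1) y) * ∑ j, ‖a j y‖ ^ 2 := fun t y => by
    rw [hs, neg_add, Real.exp_add, mul_assoc, lg, Real.exp_neg (Real.log _),
      Real.exp_log (zlg_pos h0 y), inv_mul_cancel₀ (zlg_pos h0 y).ne', mul_one]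
  have hq : ∀ y (v : W (Fin n)), 0 ≤ q2 (Gm (LMd D Ψ y)⁻¹) v := fun y v =>
    zq2_nonneg (Gm_posDef (hΨ.2 y).inv).posSemidef v
  have hi : ∀ i y, ‖a i y‖ ^ 2 ≤ ∑ j, ‖a j y‖ ^ 2 := fun i y =>
    Finset.single_le_sum (f := fun j => ‖a j y‖ ^ 2) (fun _ _ => sq_nonneg _) (Finset.mem_univ i)
  have hK : (1 : ℝ) ≤ 1 + 2 * |C| := le_add_of_nonneg_right (by positivity)
  refine ⟨fun i => zmul (zsm_dual ha h0 i), fun t => zsn_NF hΨ (hΦ t),
    fun u => Subtype.ext (dbar_dbar u.2), fun q u hu y => dbar_deg hu y,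
    fun i q u hu y I hI => ?_, fun i q u hu y I hI => ?_,
    fun i j u => Subtype.ext (funext fun y => smul_comm _ _ _),
    fun i j u => Subtype.ext (funext fun y => smul_comm _ _ _),
    fun u => Subtype.ext (funext fun y => ?_), fun i u => Subtype.ext (funext fun y => ?_),
    ENNReal.ofReal (1 + 2 * |C|) ^ (1 / 2 : ℝ),
    ENNReal.rpow_ne_top_of_nonneg (by norm_num) ENNReal.ofReal_ne_top, fun t i u =>
      ⟨zNF_le (by linarith) fun y => ?_, zNF_le (by linarith) fun y => ?_,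
        zNF_le (by linarith) fun y => ?_⟩⟩
  · exact mul_eq_zero_of_right _ (hu y I hI)
  · exact mul_eq_zero_of_right _ (hu y I hI)
  · have hne : ((∑ j, ‖a j y‖ ^ 2 : ℝ) : ℂ) ≠ 0 := Complex.ofReal_ne_zero.2 (zlg_pos h0 y).ne'
    have e : ∑ j, a j y * (conj (a j y) / ((∑ j, ‖a j y‖ ^ 2 : ℝ) : ℂ)) = 1 := by
      simp only [← mul_div_assoc, Complex.mul_conj']
      rw [← Finset.sum_div, div_eq_one_iff_eq hne, Complex.ofReal_sum]
      exact Finset.sum_congr rfl fun j _ => (Complex.ofReal_pow _ _).symm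
    rw [Submodule.coe_sum, Finset.sum_apply]
    change ∑ j, a j y • (conj (a j y) / ((∑ j, ‖a j y‖ ^ 2 : ℝ) : ℂ)) • u.1 y = u.1 y
    simp only [smul_smul]
    rw [← Finset.sum_smul, e, one_smul]
  · have h := dbar_mul (ha i).sm u.2 y
    have e : dbv D (a i) y = 0 := funext fun j => (ha i).db j y
    rw [e] at h
    have h' : dbar D (fun p => a i p • u.1 p) y = a i y • dbar D u.1 y := by
      simpa [wdg] using h
    exact h'
  · change q2 _ (a i y • u.1 y) * _ ≤ _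
    have c1 := mul_nonneg (hq y (u.1 y)) (Real.exp_pos (-Φ (t + 1) y)).le
    have c2 := mul_le_mul_of_nonneg_right (hi i y) c1
    have c3 := mul_le_mul_of_nonneg_right hK (mul_nonneg (zlg_pos h0 y).le c1)
    rw [zq2_smul, hE t y]
    refine le_of_eq_of_le ?_ (c2.trans ((one_mul _).symm.trans_le (c3.trans_eq ?_))) <;> ring
  · change q2 _ ((conj (a i y) / ((∑ j, ‖a j y‖ ^ 2 : ℝ) : ℂ)) • u.1 y) * _ ≤ _
    have hs := zlg_pos h0 y
    have c1 := mul_nonneg (hq y (u.1 y)) (Real.exp_pos (-Φ (t + 1) y)).le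
    have c2 := mul_le_mul_of_nonneg_right (((div_le_one hs).2 (hi i y)).trans hK) c1
    rw [zq2_smul, hE t y, norm_div, RCLike.norm_conj, Complex.norm_real,
      Real.norm_of_nonneg hs.le]
    refine le_of_eq_of_le ?_ c2
    field_simp
  · have hs := zlg_pos h0 y
    have e : (zdF D (zmul (zsm_dual ha h0 i) u) - zmul (zsm_dual ha h0 i) (zdF D u)).1 y =
        wdg (dbv D (fun p => conj (a i p) / ((∑ j, ‖a j p‖ ^ 2 : ℝ) : ℂ)) y) *ᵥ u.1 y :=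
      sub_eq_of_eq_add' (dbar_mul (zsm_dual ha h0 i) u.2 y)
    have c0 : q2 (LMd D Ψ y)⁻¹
        (dbv D (fun p => conj (a i p) / ((∑ j, ‖a j p‖ ^ 2 : ℝ) : ℂ)) y) ≤
        (1 + 2 * |C|) / ∑ j, ‖a j y‖ ^ 2 := by
      refine (q2_inv_le (hΨ.2 y) _).2 ⟨by positivity, fun w => ?_⟩
      have d0 := zq2_nonneg (hΨ.2 y).posSemidef w
      have d1 := zdbv_dual ha h0 i y w
      have d2 := hC y w
      rw [q2_LMd] at d0 ⊢
      have d3 := mul_le_mul_of_nonneg_right (le_abs_self C) d0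
      rw [div_mul_eq_mul_div, le_div_iff₀ hs]
      linarith
    have c1 := (q2_wdg_le (hΨ.2 y).inv _ (u.1 y)).trans
      (mul_le_mul_of_nonneg_right c0 (hq y (u.1 y)))
    rw [e]
    refine (mul_le_mul_of_nonneg_right c1 (Real.exp_pos _).le).trans_eq ?_
    rw [hE t y]
    field_simp

end Vale.Agent.P299
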