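import Vale.Agent.P299.ZG

/-! P299, part Z: curvature of the weights. -/

open MeasureTheory Set Filter Topology Matrix
open scoped ContDiff ENNReal ComplexConjugate ComplexOrder

noncomputable section

namespace Vale.Agent.P299

open Vale.Agent.P271A

variable {n N : ℕ} {Y : Type} [TopologicalSpace Y] [T2Space Y] [SecondCountableTopology Y]
  [MeasurableSpace Y] [BorelSpace Y] {A : AD n N Y} {Ψ : Y → ℝ}

theorem AD.BD.zhol_a (b : A.BD) (i) : A.D.Hol (b.a i) := (b.a_fi i).1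

theorem AD.BD.zhol_f (b : A.BD) (j) : A.D.Hol (b.f j) := by
  obtain ⟨i, i', h⟩ := b.f_a j
  rw [h]
  exact (b.zhol_a i).mul (b.zhol_a i')

omit [T2Space Y] [SecondCountableTopology Y] [BorelSpace Y] in
theorem AD.BD.zne_a (b : A.BD) (y : Y) : ∃ i, b.a i y ≠ 0 := ⟨0, by simp [b.a0]⟩

omit [T2Space Y] [SecondCountableTopology Y] [BorelSpace Y] in
theorem AD.BD.zne_f (b : A.BD) (y : Y) : ∃ i, b.f i y ≠ 0 := ⟨0, by simp [b.f0]⟩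

omit [T2Space Y] [SecondCountableTopology Y] [BorelSpace Y] in
theorem AD.Good.zne_x (hA : A.Good) (y : Y) : ∃ i, A.x i y ≠ 0 := ⟨0, by simp [hA.x0]⟩

theorem AD.BD.zsm_W (hA : A.Good) (b : A.BD) (t s : ℤ) : A.D.SmR (b.zW t s) :=
  (hA.hφ.add ((RD.smR_const _).mul (zsm_lg b.zhol_a b.zne_a))).add
    ((RD.smR_const _).mul (zsm_lg b.zhol_f b.zne_f))

theorem zi_levi3 {D : RD n Y} {f g k : Y → ℝ} (hf : D.SmR f) (hg : D.SmR g) (hk : D.SmR k)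
    (a c : ℝ) : (D.SmR fun p => f p + a * g p + c * k p) ∧ ∀ y v,
      D.levi (fun p => f p + a * g p + c * k p) y v =
        D.levi f y v + a * D.levi g y v + c * D.levi k y v := by
  have h1 := (RD.smR_const (D := D) a).mul hg
  have h2 := (RD.smR_const (D := D) c).mul hk
  refine ⟨(hf.add h1).add h2, fun y v => ?_⟩
  rw [RD.levi_add (hf.add h1) h2, RD.levi_add hf h1, RD.levi_const_mul hg, RD.levi_const_mul hk]

theorem AD.BD.zi_apx (hA : A.Good) {b : A.BD} (h : b.Gam Ψ) {t s m : ℤ} (ht : m ≤ t)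
    (hs : m ≤ t + s) : ∃ B : ℝ, ∀ ε > (0 : ℝ), ∃ Φ', A.D.SmR Φ' ∧
      (∀ y, |Φ' y - b.zW t s y| ≤ B) ∧ ∀ y v, A.D.levi A.φ y v + m * A.D.levi (lg b.a) y v -
        ε * A.D.levi Ψ y v ≤ A.D.levi Φ' y v := by
  have ha := zsm_lg b.zhol_a b.zne_a
  have hf := zsm_lg b.zhol_f b.zne_f
  have pa := zpsh_lg b.zhol_a b.zne_a
  have pf := zpsh_lg b.zhol_f b.zne_f
  have pΨ : ∀ y v, 0 ≤ A.D.levi Ψ y v := fun y v => (pa y v).trans (h.gea y v)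
  have ht' : (m : ℝ) ≤ t := by exact_mod_cast ht
  have hs' : (m : ℝ) ≤ t + s := by exact_mod_cast hs
  rcases le_or_gt 0 s with h0 | h0
  · have h0' : (0 : ℝ) ≤ s := by exact_mod_cast h0
    obtain ⟨e1, e2⟩ := zi_levi3 hA.hφ ha hf t s
    refine ⟨0, fun ε hε => ⟨_, e1, fun y => by simp [AD.BD.zW], fun y v => ?_⟩⟩
    rw [e2]
    have a1 := mul_le_mul_of_nonneg_right ht' (pa y v)
    have a2 := mul_nonneg h0' (pf y v)
    have a3 := mul_nonneg hε.le (pΨ y v)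
    linarith
  · have h0' : (0 : ℝ) < -s := by exact_mod_cast neg_pos.2 h0
    obtain ⟨B, hB⟩ := h.apx
    refine ⟨-s * B, fun ε hε => ?_⟩
    obtain ⟨γ, g1, g2, g3⟩ := hB (ε / -s) (div_pos hε h0')
    obtain ⟨e1, e2⟩ := zi_levi3 hA.hφ ha g1 (t + s) (-s)
    refine ⟨_, e1, fun y => ?_, fun y v => ?_⟩
    · have e : A.φ y + (t + s) * lg b.a y + -s * γ y - b.zW t s y =
          -s * (γ y - (lg b.a y - lg b.f y)) := by
        unfold AD.BD.zW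
        ring
      rw [e, abs_mul, abs_of_pos h0']
      exact mul_le_mul_of_nonneg_left (g2 y) h0'.le
    · rw [e2]
      have a1 := mul_le_mul_of_nonneg_right hs' (pa y v)
      have a2 := mul_le_mul_of_nonneg_left (g3 y v) h0'.le
      have a3 : -(s : ℝ) * -(ε / -s * A.D.levi Ψ y v) = -(ε * A.D.levi Ψ y v) := by
        rw [mul_neg, ← mul_assoc, mul_div_cancel₀ _ h0'.ne']
      linarith

/-- Hint: `χ₀ = Ψ - (C₀ ρ + lg a)` is bounded (`pot`), `c = min 1 C₀⁻¹`,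
`ρ + lg a + c χ₀ = c Ψ + (1 - c C₀) ρ + (1 - c) lg a`.  For `0 ≤ s` take `Φ' = zW + (l + 1) ρ + c χ₀`;
for `s < 0` replace `-s * (lg a - lg f)` by `-s * γ` with `γ` from `apx`, `ε = c / (2 * -s)`.
`RD.levi_add`, `RD.levi_const_mul`, `zpsh_lg`, `hA.psh`. -/
theorem AD.BD.zw_sol (hA : A.Good) {b : A.BD} (h : b.Gam Ψ) {t s : ℤ} (ht : 1 ≤ t)
    (hs : 1 ≤ t + s) (l : ℕ) : ∃ (Φ' : Y → ℝ) (B c : ℝ), A.D.SmR Φ' ∧ 0 < c ∧
      (∀ y, |Φ' y - (b.zW t s y + (l + 1 : ℕ) * A.ρ y)| ≤ B) ∧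
      ∀ y v, c * A.D.levi Ψ y v ≤ A.D.levi Φ' y v := by
  obtain ⟨C₀, B₀, hC, hB₀⟩ := h.pot
  obtain ⟨B, hB⟩ := AD.BD.zi_apx hA h ht hs
  obtain ⟨c, hc0, hc1, hc2⟩ : ∃ c : ℝ, 0 < c ∧ c ≤ 1 ∧ c * C₀ ≤ 1 :=
    ⟨min 1 C₀⁻¹, lt_min one_pos (inv_pos.2 hC), min_le_left _ _,
      (mul_le_mul_of_nonneg_right (min_le_right _ _) hC.le).trans (inv_mul_cancel₀ hC.ne').le⟩
  obtain ⟨Φ₁, f1, f2, f3⟩ := hB (c / 2) (half_pos hc0)
  have ha := zsm_lg b.zhol_a b.zne_a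
  have pa := zpsh_lg b.zhol_a b.zne_a
  have pρ : ∀ y v, 0 ≤ A.D.levi A.ρ y v := zpsh_lg hA.hx hA.zne_x
  obtain ⟨e1, e2⟩ := zi_levi3 f1 hA.pos.1 ha ((l + 1 : ℕ) - c * C₀) (-c)
  have e3 := (RD.smR_const (D := A.D) c).mul h.kah.1
  refine ⟨_, B + c * B₀, c / 2, e1.add e3, half_pos hc0, fun y => ?_, fun y v => ?_⟩
  · have e : Φ₁ y + ((l + 1 : ℕ) - c * C₀) * A.ρ y + -c * lg b.a y + c * Ψ y -
        (b.zW t s y + (l + 1 : ℕ) * A.ρ y) =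
        (Φ₁ y - b.zW t s y) + c * (Ψ y - (C₀ * A.ρ y + lg b.a y)) := by ring
    rw [e]
    refine (abs_add_le _ _).trans (add_le_add (f2 y) ?_)
    rw [abs_mul, abs_of_pos hc0]
    exact mul_le_mul_of_nonneg_left (hB₀ y) hc0.le
  · rw [RD.levi_add e1 e3, e2, RD.levi_const_mul h.kah.1]
    have a1 := f3 y v
    have a2 := mul_le_mul_of_nonneg_right hc1 (pa y v)
    have a3 : 0 ≤ ((l + 1 : ℕ) - c * C₀) * A.D.levi A.ρ y v := by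
      refine mul_nonneg ?_ (pρ y v)
      push_cast
      linarith [Nat.cast_nonneg (α := ℝ) l]
    have a4 := hA.psh y v
    rw [Int.cast_one] at a1
    linarith

/-- Hint: `Φ' = zW` for `0 ≤ s` (the Levi form of `Ψ` is nonnegative: `q2_LMd`, `zq2_nonneg`), else
`Φ' = φ + (t + s) lg a + (-s) γ`. -/
theorem AD.BD.zw_hap (hA : A.Good) {b : A.BD} (h : b.Gam Ψ) {t s : ℤ} (ht : 1 ≤ t)
    (hs : 1 ≤ t + s) : ∃ B : ℝ, ∀ ε > (0 : ℝ), ∃ Φ', A.D.SmR Φ' ∧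
      (∀ y, |Φ' y - b.zW t s y| ≤ B) ∧ ∀ y v, A.D.levi (fun p => A.φ p + lg b.a p) y v -
        ε * A.D.levi Ψ y v ≤ A.D.levi Φ' y v := by
  obtain ⟨B, hB⟩ := AD.BD.zi_apx hA h ht hs
  refine ⟨B, fun ε hε => ?_⟩
  obtain ⟨Φ', f1, f2, f3⟩ := hB ε hε
  refine ⟨Φ', f1, f2, fun y v => ?_⟩
  have a1 := f3 y v
  rw [Int.cast_one, one_mul] at a1
  rwa [RD.levi_add hA.hφ (zsm_lg b.zhol_a b.zne_a)]

/-- Hint: `Φ' = φ + j γ` with `γ` for `ε / (j + 1)`. -/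
theorem AD.BD.zw_hap0 (hA : A.Good) {b : A.BD} (h : b.Gam Ψ) (j : ℕ) :
    ∃ B : ℝ, ∀ ε > (0 : ℝ), ∃ Φ', A.D.SmR Φ' ∧ (∀ y, |Φ' y - b.zW j (-j) y| ≤ B) ∧
      ∀ y v, A.D.levi A.φ y v - ε * A.D.levi Ψ y v ≤ A.D.levi Φ' y v := by
  obtain ⟨B, hB⟩ := AD.BD.zi_apx hA h (t := j) (s := -j) (m := 0) (by positivity) (by simp)
  refine ⟨B, fun ε hε => ?_⟩
  obtain ⟨Φ', f1, f2, f3⟩ := hB ε hε
  refine ⟨Φ', f1, f2, fun y v => ?_⟩
  simpa using f3 y v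

end Vale.Agent.P299
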