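import Vale.Agent.P299.ZI

/-! P299, part Z: square integrable holomorphic functions. -/

open MeasureTheory Set Filter Topology Matrix
open scoped ContDiff ENNReal ComplexConjugate ComplexOrder

noncomputable section

namespace Vale.Agent.P299

open Vale.Agent.P271A

variable {n N : ℕ} {Y : Type} [TopologicalSpace Y] [T2Space Y] [SecondCountableTopology Y]
  [MeasurableSpace Y] [BorelSpace Y] {A : AD n N Y}

omit [T2Space Y] [SecondCountableTopology Y] [BorelSpace Y] in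
/-- Hint: `lintegral_mono`, `lintegral_const_mul'`. -/
theorem znO_lt {D : RD n Y} {Φ Φ' : Y → ℝ} {F F' : Y → ℂ} {C : ℝ}
    (h : ∀ y, ‖F' y‖ ^ 2 * Real.exp (-Φ' y) ≤ C * (‖F y‖ ^ 2 * Real.exp (-Φ y)))
    (h2 : nO D Φ F < ⊤) : nO D Φ' F' < ⊤ := by

  unfold nO at *
  have key : ∀ y, ENNReal.ofReal (‖F' y‖ ^ 2 * Real.exp (-Φ' y)) ≤
      ENNReal.ofReal |C| * ENNReal.ofReal (‖F y‖ ^ 2 * Real.exp (-Φ y)) := fun y => by
    rw [← ENNReal.ofReal_mul (abs_nonneg C)]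
    exact ENNReal.ofReal_le_ofReal
      ((h y).trans (mul_le_mul_of_nonneg_right (le_abs_self C) (by positivity)))
  refine (lintegral_mono key).trans_lt ?_
  rw [lintegral_const_mul' _ _ ENNReal.ofReal_ne_top]
  exact ENNReal.mul_lt_top ENNReal.ofReal_lt_top h2

theorem zj_den (hA : A.Good) (b : A.BD) (s : Finset (Fin (b.α + 1))) :
    ∃ (L : ℕ) (g : Y → ℂ), g ∈ A.S 0 L ∧ g ≠ 0 ∧ ∀ i ∈ s, g * b.a i ∈ A.S 0 L := by
  induction s using Finset.induction_on with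
  | empty =>
    obtain ⟨y, -⟩ := hA.conn.nonempty
    exact ⟨0, 1, La_one A, fun h => by simpa using congrFun h y, by simp⟩
  | insert i s _ ih =>
    obtain ⟨L, g, hg, h0, h⟩ := ih
    obtain ⟨l, B, hB, hB0, hBa⟩ := (b.a_fi i).2.1
    refine ⟨L + l, g * B, by simpa using AD.S_mul hg hB, hA.mul_ne hg.1 hB.1 h0 hB0,
      fun j hj => ?_⟩
    rcases Finset.mem_insert.1 hj with rfl | hj
    · have := AD.S_mul hg hBa
      rwa [add_zero, ← mul_assoc] at this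
    · have := AD.S_mul (h j hj) hB
      rwa [add_zero, mul_right_comm] at this

omit [TopologicalSpace Y] [T2Space Y] [SecondCountableTopology Y] [MeasurableSpace Y]
  [BorelSpace Y] in
theorem zj_one_le {α : ℕ} {a : Fin (α + 1) → Y → ℂ} (h : a 0 = 1) (y : Y) :
    1 ≤ ∑ i, ‖a i y‖ ^ 2 := by
  have := Finset.single_le_sum (f := fun i => ‖a i y‖ ^ 2) (fun i _ => sq_nonneg _)
    (Finset.mem_univ (0 : Fin (α + 1)))
  simpa [h] using this

omit [TopologicalSpace Y] [T2Space Y] [SecondCountableTopology Y] [MeasurableSpace Y]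
  [BorelSpace Y] in
theorem zj_exp_lg {α : ℕ} {a : Fin (α + 1) → Y → ℂ} (h : a 0 = 1) (y : Y) :
    Real.exp (lg a y) = ∑ i, ‖a i y‖ ^ 2 :=
  Real.exp_log (one_pos.trans_le (zj_one_le h y))

omit [T2Space Y] [SecondCountableTopology Y] [BorelSpace Y] in
theorem zj_lg_f (b : A.BD) (y : Y) : lg b.f y ≤ 2 * lg b.a y + Real.log (b.β + 1) := by
  have ha := zj_one_le b.a0 y
  have hf := zj_one_le b.f0 y
  have h1 : ∀ j, ‖b.f j y‖ ^ 2 ≤ (∑ i, ‖b.a i y‖ ^ 2) ^ 2 := fun j => by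
    obtain ⟨i, i', e⟩ := b.f_a j
    have h2 := fun i => Finset.single_le_sum (f := fun i => ‖b.a i y‖ ^ 2)
      (fun i _ => sq_nonneg _) (Finset.mem_univ i)
    rw [e, Pi.mul_apply, norm_mul, mul_pow, sq (∑ i, _)]
    exact mul_le_mul (h2 i) (h2 i') (sq_nonneg _) (by linarith)
  have h2 : ∑ j, ‖b.f j y‖ ^ 2 ≤ (∑ i, ‖b.a i y‖ ^ 2) ^ 2 * (b.β + 1) := by
    refine (Finset.sum_le_sum fun j _ => h1 j).trans (le_of_eq ?_)
    simp [mul_comm]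
  have h3 := Real.log_le_log (by linarith) h2
  rw [Real.log_mul (by positivity) (by positivity), Real.log_pow] at h3
  simpa [lg] using h3

/-- A common denominator.  Hint: the product of the denominators in `(b.a_fi i).2.1`
(`AD.S_mul`, `mul_ne`, `Finset.mul_prod_erase`); or induction on a finset of indices. -/
theorem AD.BD.zden (hA : A.Good) (b : A.BD) : ∃ (L : ℕ) (g : Y → ℂ) (C : ℝ), A.D.Hol g ∧ g ≠ 0 ∧
    ∀ y, ‖g y‖ ^ 2 * ∑ i, ‖b.a i y‖ ^ 2 ≤ C * A.nx y ^ L := by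

  obtain ⟨L, g, hg, h0, h⟩ := zj_den hA b Finset.univ
  choose C hC using fun i => (h i (Finset.mem_univ i)).2
  refine ⟨L, g, ∑ i, C i, hg.1, h0, fun y => ?_⟩
  rw [Finset.mul_sum, Finset.sum_mul]
  refine Finset.sum_le_sum fun i _ => ?_
  have := hC i y
  simpa [mul_pow] using this

/-- Hint: `0 ≤ lg a`, `0 ≤ lg f ≤ 2 lg a + log (β + 1)` (`a0`, `f0`, `f_a`). -/
theorem AD.BD.zw_le (b : A.BD) {t s : ℤ} (ht : 0 ≤ t) :
    ∃ (r : ℕ) (B : ℝ), ∀ y, b.zW t s y ≤ A.φ y + r * lg b.a y + B := by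

  refine ⟨t.toNat + 2 * s.natAbs, |(s : ℝ)| * Real.log (b.β + 1), fun y => ?_⟩
  have h1 : 0 ≤ lg b.f y := Real.log_nonneg (zj_one_le b.f0 y)
  have h2 := zj_lg_f b y
  have e1 : ((t.toNat : ℕ) : ℝ) = t := by
    rw [← Int.cast_natCast, Int.toNat_of_nonneg ht]
  have e2 : ((s.natAbs : ℕ) : ℝ) = |(s : ℝ)| := by
    rw [← Int.cast_natCast, Int.natCast_natAbs, Int.cast_abs]
  have h3 : (s : ℝ) * lg b.f y ≤ |(s : ℝ)| * lg b.f y :=
    mul_le_mul_of_nonneg_right (le_abs_self _) h1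
  have h4 := mul_le_mul_of_nonneg_left h2 (abs_nonneg (s : ℝ))
  rw [Nat.cast_add, Nat.cast_mul, e1, e2]
  unfold AD.BD.zW
  push_cast
  nlinarith

/-- Hint: `g ^ r` with `g` from `zden`, `r` from `zw_le`; `hA.ext 0 (r * L + l)`, `znO_lt`,
`exp ρ = nx`. -/
theorem AD.BD.zw_fin (hA : A.Good) (b : A.BD) {t s : ℤ} (ht : 0 ≤ t) (l : ℕ) :
    ∃ (L : ℕ) (g : Y → ℂ), A.D.Hol g ∧ g ≠ 0 ∧ ∀ F, A.D.Hol F →
      nO A.D (fun y => b.zW t s y + l * A.ρ y) F < ⊤ → g * F ∈ A.S 0 L := by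

  obtain ⟨L, g, C, hg, h0, hC⟩ := b.zden hA
  obtain ⟨r, B, hB⟩ := b.zw_le (s := s) ht
  have hr : A.D.Hol (g ^ r) := hg.pow r
  refine ⟨r * L + l, g ^ r, hr, ?_, fun F hF h2 => ?_⟩
  · obtain ⟨y, hy⟩ := Function.ne_iff.1 h0
    exact fun h => pow_ne_zero r hy (congrFun h y)
  refine hA.ext 0 _ _ (hr.mul hF) (znO_lt (C := |C| ^ r * Real.exp B) (fun y => ?_) h2)
  have ea := zj_exp_lg b.a0 y
  have ex : Real.exp (A.ρ y) = A.nx y := zj_exp_lg hA.x0 y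
  have h1 : ‖g y‖ ^ 2 ≤ |C| * Real.exp (L * A.ρ y - lg b.a y) := by
    rw [Real.exp_sub, Real.exp_nat_mul, ex, ← mul_div_assoc, le_div_iff₀ (Real.exp_pos _), ea]
    refine (hC y).trans (mul_le_mul_of_nonneg_right (le_abs_self C) ?_)
    rw [← ex]; positivity
  have h3 := pow_le_pow_left₀ (sq_nonneg _) h1 r
  rw [mul_pow, ← Real.exp_nat_mul] at h3
  have e : ‖(g ^ r * F) y‖ ^ 2 = (‖g y‖ ^ 2) ^ r * ‖F y‖ ^ 2 := by
    rw [Pi.mul_apply, Pi.pow_apply, norm_mul, norm_pow]; ring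
  have h4 : Real.exp (r * (L * A.ρ y - lg b.a y)) *
      Real.exp (-((((0 : ℤ) : ℝ) + 1) * A.φ y + ((r * L + l : ℕ) : ℝ) * A.ρ y)) ≤
      Real.exp B * Real.exp (-(b.zW t s y + l * A.ρ y)) := by
    rw [← Real.exp_add, ← Real.exp_add]
    refine Real.exp_le_exp.2 ?_
    have := hB y
    push_cast
    nlinarith
  rw [e]
  calc _ ≤ |C| ^ r * Real.exp (r * (L * A.ρ y - lg b.a y)) * ‖F y‖ ^ 2 *
        Real.exp (-((((0 : ℤ) : ℝ) + 1) * A.φ y + ((r * L + l : ℕ) : ℝ) * A.ρ y)) := by gcongr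
    _ = |C| ^ r * ‖F y‖ ^ 2 * (Real.exp (r * (L * A.ρ y - lg b.a y)) *
        Real.exp (-((((0 : ℤ) : ℝ) + 1) * A.φ y + ((r * L + l : ℕ) : ℝ) * A.ρ y))) := by ring
    _ ≤ |C| ^ r * ‖F y‖ ^ 2 * (Real.exp B * Real.exp (-(b.zW t s y + l * A.ρ y))) := by gcongr
    _ = _ := by ring

/-- Hint: `hA.fin`. -/
theorem AD.BD.zw_one (hA : A.Good) (b : A.BD) : nO A.D (b.zW 0 0) (fun _ => 1) < ⊤ := by

  have := hA.fin.lintegral_lt_top
  simpa [nO, AD.BD.zW] using this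

/-- The bound `up` in exponential form. -/
theorem AD.BD.zup_pow (b : A.BD) (j : ℕ) : ∃ C : ℝ, 0 ≤ C ∧ ∀ y,
    ‖b.τ y ^ j‖ ^ 2 * Real.exp (-((((j * b.k : ℕ) : ℝ) + 1) * A.φ y)) ≤
      C * Real.exp (-b.zW j (-j) y) := by

  obtain ⟨C, hC⟩ := b.up
  refine ⟨|C| ^ j, by positivity, fun y => ?_⟩
  have ea := zj_exp_lg b.a0 y
  have ef := zj_exp_lg b.f0 y
  have h1 : ‖b.τ y‖ ^ 2 * Real.exp (-(b.k * A.φ y)) ≤ |C| * Real.exp (lg b.f y - lg b.a y) := by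
    rw [Real.exp_sub, ← mul_div_assoc, le_div_iff₀ (Real.exp_pos _), ea, ef]
    exact (hC y).trans (mul_le_mul_of_nonneg_right (le_abs_self C) (by positivity))
  have h3 := pow_le_pow_left₀ (by positivity) h1 j
  rw [mul_pow, mul_pow, ← Real.exp_nat_mul, ← Real.exp_nat_mul] at h3
  have e1 : Real.exp (-((((j * b.k : ℕ) : ℝ) + 1) * A.φ y)) =
      Real.exp (j * -(b.k * A.φ y)) * Real.exp (-A.φ y) := by
    rw [← Real.exp_add]; congr 1; push_cast; ring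
  have e2 : Real.exp (-b.zW j (-j) y) =
      Real.exp (j * (lg b.f y - lg b.a y)) * Real.exp (-A.φ y) := by
    rw [← Real.exp_add]; congr 1; unfold AD.BD.zW; push_cast; ring
  rw [e1, e2, norm_pow, ← pow_mul, mul_comm j 2, pow_mul, ← mul_assoc, ← mul_assoc]
  exact mul_le_mul_of_nonneg_right h3 (Real.exp_pos _).le

/-- Hint: `hA.ext (j * k) 0`, `znO_lt`, `zup_pow`. -/
theorem AD.BD.zw_sec (hA : A.Good) (b : A.BD) (j : ℕ) {F : Y → ℂ} (hF : A.D.Hol F)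
    (h2 : nO A.D (b.zW j (-j)) F < ⊤) : b.τ ^ j * F ∈ A.S (j * b.k : ℕ) 0 := by

  obtain ⟨C, -, hC⟩ := b.zup_pow j
  have hr : A.D.Hol (b.τ ^ j) := b.τ_hol.pow j
  refine hA.ext _ 0 _ (hr.mul hF) (znO_lt (C := C) (fun y => ?_) h2)
  have h1 := mul_le_mul_of_nonneg_left (hC y) (sq_nonneg ‖F y‖)
  have e : ‖(b.τ ^ j * F) y‖ ^ 2 = ‖b.τ y ^ j‖ ^ 2 * ‖F y‖ ^ 2 := by
    rw [Pi.mul_apply, Pi.pow_apply, norm_mul, mul_pow]
  rw [e, Int.cast_natCast, Nat.cast_zero, zero_mul, add_zero]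
  linarith

end Vale.Agent.P299
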